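import Mathlib
import Crest.Prelude.Def_Amenable

/-! # Row 189: two general tools for amenability -/

set_option autoImplicit false
set_option linter.unusedSectionVars false

namespace Crest.Agent.R189

/-- every finite subset of `H` generates a finite group -/
def LocFin {G : Type} [Group G] (H : Subgroup G) : Prop :=
  ∀ T : Finset G, (∀ t ∈ T, t ∈ H) → Finite (Subgroup.closure (T : Set G))

open scoped Pointwise in
theorem amen1_limit {G : Type} [Group G]
    (h : ∀ (S : Finset G) (ε : ℝ), 0 < ε → ∃ P : Set G → ℝ, (∀ A, 0 ≤ P A ∧ P A ≤ 1) ∧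
      P Set.univ = 1 ∧ (∀ A B, Disjoint A B → P (A ∪ B) = P A + P B) ∧
      ∀ s ∈ S, ∀ A, |P (s • A) - P A| ≤ ε) :
    Crest.GroupTheory.Amenable G := by
  classical
  choose P hP using fun i : Finset G × ℕ => h i.1 (1 / ((i.2 : ℝ) + 1)) (by positivity)
  let U : Ultrafilter (Finset G × ℕ) := Ultrafilter.of Filter.atTop
  have hU : (U : Filter (Finset G × ℕ)) ≤ Filter.atTop := Ultrafilter.of_le _
  have hL : ∀ A, ∃ L ∈ Set.Icc (0 : ℝ) 1, Filter.Tendsto (fun i => P i A) U (nhds L) := by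
    intro A
    refine isCompact_Icc.ultrafilter_le_nhds (U.map fun i => P i A) ?_
    rw [Ultrafilter.coe_map, Filter.le_principal_iff, Filter.mem_map]
    exact Filter.univ_mem' fun i => (hP i).1 A
  choose L hL0 hL using hL
  refine ⟨fun A => ENNReal.ofReal (L A), ?_, fun A B hAB => ?_, fun g A => ?_⟩
  · have h1 := hL Set.univ
    simp only [(hP _).2.1] at h1
    simp only [tendsto_nhds_unique h1 tendsto_const_nhds, ENNReal.ofReal_one]
  · have h1 := hL (A ∪ B)
    simp only [(hP _).2.2.1 A B hAB] at h1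
    simp only [tendsto_nhds_unique h1 ((hL A).add (hL B))]
    exact ENNReal.ofReal_add (hL0 A).1 (hL0 B).1
  · have h1 := (hL (g • A)).sub (hL A)
    have h2 : Filter.Tendsto (fun i : Finset G × ℕ => P i (g • A) - P i A) Filter.atTop
        (nhds 0) := by
      have h3 : Filter.Tendsto (fun i : Finset G × ℕ => 1 / ((i.2 : ℝ) + 1)) Filter.atTop
          (nhds 0) := by
        refine tendsto_one_div_add_atTop_nhds_zero_nat.comp ?_
        rw [← Filter.prod_atTop_atTop_eq]
        exact Filter.tendsto_snd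
      refine squeeze_zero_norm' ?_ h3
      filter_upwards [Filter.eventually_ge_atTop (({g} : Finset G), 0)] with i hi
      exact (hP i).2.2.2 g (hi.1 (Finset.mem_singleton_self g)) A
    have h3 := tendsto_nhds_unique h1 (h2.mono_left hU)
    simp only [sub_eq_zero.1 h3]

theorem amen1_conj {G Y : Type} [Group G] [MulAction G Y] (g : G) (r : Y)
    (h : LocFin (MulAction.stabilizer G (g • r))) : LocFin (MulAction.stabilizer G r) := by
  classical
  intro T hT
  have h1 := h (T.image (MulAut.conj g)) fun t ht => by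
    obtain ⟨u, hu, rfl⟩ := Finset.mem_image.1 ht
    have := hT u hu
    rw [MulAction.mem_stabilizer_iff] at this ⊢
    rw [MulAut.conj_apply, mul_smul, mul_smul, inv_smul_smul, this]
  rw [Finset.coe_image] at h1
  have h2 : Subgroup.closure ((MulAut.conj g) '' (T : Set G)) =
      (Subgroup.closure (T : Set G)).map (MulAut.conj g).toMonoidHom :=
    (MonoidHom.map_closure (MulAut.conj g).toMonoidHom _).symm
  rw [h2] at h1
  exact Finite.of_equiv _
    (Subgroup.equivMapOfInjective _ (MulAut.conj g).toMonoidHom (MulAut.conj g).injective).symm.toEquiv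

open scoped Pointwise in
/-- almost invariant finitely supported measures on points with locally finite stabilisers -/
theorem amenable_of_reiter {G Y : Type} [Group G] [MulAction G Y]
    (h : ∀ (S : Finset G) (ε : ℝ), 0 < ε → ∃ (Ξ : Type) (_ : Fintype Ξ) (p : Ξ → ℝ) (lam : Ξ → Y),
      (∀ ξ, 0 ≤ p ξ) ∧ ∑ ξ, p ξ = 1 ∧ (∀ ξ, LocFin (MulAction.stabilizer G (lam ξ))) ∧
      ∀ s ∈ S, ∀ F : Y → ℝ, (∀ y, 0 ≤ F y ∧ F y ≤ 1) →
        |∑ ξ, p ξ * F (s • lam ξ) - ∑ ξ, p ξ * F (lam ξ)| ≤ ε) :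
    Crest.GroupTheory.Amenable G := by
  classical
  refine amen1_limit fun S ε hε => ?_
  obtain ⟨Ξ, _, p, lam, hp0, hp1, hloc, hinv⟩ := h (S.image (·⁻¹)) ε hε
  let rep : Y → Y := fun y => (Quotient.mk (MulAction.orbitRel G Y) y).out
  have hrep : ∀ (t : G) (y : Y), rep (t • y) = rep y := by
    intro t y
    have : Quotient.mk (MulAction.orbitRel G Y) (t • y) = Quotient.mk (MulAction.orbitRel G Y) y :=
      Quotient.sound (MulAction.orbitRel_apply.2 (MulAction.mem_orbit y t))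
    simp only [rep, this]
  have hg : ∀ y : Y, ∃ g : G, g • rep y = y := by
    intro y
    have : (MulAction.orbitRel G Y) y (rep y) :=
      Quotient.exact (Quotient.out_eq (Quotient.mk (MulAction.orbitRel G Y) y)).symm
    exact MulAction.orbitRel_apply.1 this
  choose g hg using hg
  let T : Y → Finset G := fun r =>
    (((Finset.univ : Finset Ξ) ×ˢ S.image (·⁻¹)).filter fun q => rep (lam q.1) = r).image
      fun q => (g (q.2 • lam q.1))⁻¹ * q.2 * g (lam q.1)
  let H : Y → Subgroup G := fun r => Subgroup.closure (T r : Set G)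
  have hH : ∀ r, (H r : Set G).Finite := by
    intro r
    rcases (T r).eq_empty_or_nonempty with h0 | ⟨u, hu⟩
    · simp only [H, h0, Finset.coe_empty, Subgroup.closure_empty, Subgroup.coe_bot]
      exact Set.finite_singleton _
    · obtain ⟨q₀, hq₀, -⟩ := Finset.mem_image.1 hu
      have h1 : rep (lam q₀.1) = r := (Finset.mem_filter.1 hq₀).2
      have h2 : LocFin (MulAction.stabilizer G r) := by
        refine amen1_conj (g (lam q₀.1)) r ?_
        rw [← h1, hg]
        exact hloc _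
      refine Set.finite_coe_iff.1 (h2 (T r) fun t ht => ?_)
      obtain ⟨q, hq, rfl⟩ := Finset.mem_image.1 ht
      have h3 : rep (lam q.1) = r := (Finset.mem_filter.1 hq).2
      rw [MulAction.mem_stabilizer_iff, mul_smul, mul_smul, inv_smul_eq_iff, ← h3, hg,
        ← hrep q.2, hg]
  let F : Set G → Y → ℝ := fun A y =>
    (((H (rep y) : Set G) ∩ (fun x => g y * x) ⁻¹' A).ncard : ℝ) / (H (rep y) : Set G).ncard
  have hpos : ∀ r, (0 : ℝ) < (H r : Set G).ncard := fun r => by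
    exact_mod_cast (Set.ncard_pos (hH r)).2 ⟨1, (H r).one_mem⟩
  have hF : ∀ A y, 0 ≤ F A y ∧ F A y ≤ 1 := fun A y =>
    ⟨by positivity, (div_le_one (hpos _)).2 (by
      exact_mod_cast Set.ncard_le_ncard Set.inter_subset_left (hH _))⟩
  refine ⟨fun A => ∑ ξ, p ξ * F A (lam ξ), fun A => ⟨?_, ?_⟩, ?_, fun A B hAB => ?_,
    fun s hs A => ?_⟩
  · exact Finset.sum_nonneg fun ξ _ => mul_nonneg (hp0 ξ) (hF A _).1
  · rw [← hp1]
    exact Finset.sum_le_sum fun ξ _ => mul_le_of_le_one_right (hp0 ξ) (hF A _).2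
  · rw [← hp1]
    refine Finset.sum_congr rfl fun ξ _ => ?_
    simp only [F, Set.preimage_univ, Set.inter_univ, div_self (hpos _).ne', mul_one]
  · rw [← Finset.sum_add_distrib]
    refine Finset.sum_congr rfl fun ξ _ => ?_
    rw [← mul_add]
    congr 1
    simp only [F]
    rw [← add_div, Set.preimage_union, Set.inter_union_distrib_left, Set.ncard_union_eq
      ((hAB.preimage _).mono Set.inter_subset_right Set.inter_subset_right)
      ((hH _).subset Set.inter_subset_left) ((hH _).subset Set.inter_subset_left), Nat.cast_add]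
  · have hs' : s⁻¹ ∈ S.image (·⁻¹) := Finset.mem_image_of_mem _ hs
    have key : ∀ ξ, F (s • A) (lam ξ) = F A (s⁻¹ • lam ξ) := by
      intro ξ
      simp only [F, hrep]
      congr 2
      set k := (g (s⁻¹ • lam ξ))⁻¹ * s⁻¹ * g (lam ξ) with hk
      have hkH : k ∈ H (rep (lam ξ)) := Subgroup.subset_closure (Finset.mem_coe.2
        (Finset.mem_image.2 ⟨(ξ, s⁻¹), Finset.mem_filter.2
          ⟨Finset.mem_product.2 ⟨Finset.mem_univ _, hs'⟩, rfl⟩, rfl⟩))
      rw [← Set.ncard_image_of_injective _ (mul_right_injective k)]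
      congr 1
      ext x
      simp only [Set.mem_image, Set.mem_inter_iff, SetLike.mem_coe, Set.mem_preimage,
        Set.mem_smul_set_iff_inv_smul_mem, smul_eq_mul]
      constructor
      · rintro ⟨y, ⟨hy1, hy2⟩, rfl⟩
        refine ⟨mul_mem hkH hy1, ?_⟩
        convert hy2 using 1
        rw [hk]; group
      · rintro ⟨hx1, hx2⟩
        refine ⟨k⁻¹ * x, ⟨mul_mem (inv_mem hkH) hx1, ?_⟩, by group⟩
        convert hx2 using 1
        rw [hk]; group
    simp only [key]
    exact hinv _ hs' (F A) (hF A)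

/-- classes whose bit is really random -/
def Rnd {C : Type} (θ : C → ℝ) : Set C := {c | θ c ≠ 0 ∧ θ c ≠ Real.pi / 2}

/-- bit assignments compatible with the deterministic angles -/
def Adm {C : Type} (θ : C → ℝ) (ξ : C → Bool) : Prop :=
  ∀ c, (θ c = 0 → ξ c = true) ∧ (θ c = Real.pi / 2 → ξ c = false)

/-- amplitude of a bit -/
noncomputable def amen1A (t : ℝ) (b : Bool) : ℝ := if b then Real.cos t else Real.sin t

/-- amplitude of a configuration -/
noncomputable def amen1P {ι : Type} [Fintype ι] (φ : ι → ℝ) (η : ι → Bool) : ℝ :=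
  ∏ i, amen1A (φ i) (η i)

theorem amen1_inner {ι : Type} [Fintype ι] [DecidableEq ι] (φ ψ : ι → ℝ) :
    ∑ η : ι → Bool, amen1P φ η * amen1P ψ η = ∏ i, Real.cos (φ i - ψ i) := by
  have h := Finset.prod_univ_sum (fun _ : ι => (Finset.univ : Finset Bool))
    (fun i b => amen1A (φ i) b * amen1A (ψ i) b)
  rw [Fintype.piFinset_univ] at h
  simp only [amen1P, ← Finset.prod_mul_distrib]
  rw [← h]
  refine Finset.prod_congr rfl fun i _ => ?_
  simp [amen1A, Real.cos_sub]

theorem amen1_total {ι : Type} [Fintype ι] [DecidableEq ι] (φ : ι → ℝ) :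
    ∑ η : ι → Bool, amen1P φ η ^ 2 = 1 := by
  simp only [sq]
  rw [amen1_inner]
  simp

theorem amen1_marg_sum {ι κ : Type} [Fintype ι] [DecidableEq ι] [Fintype κ] [DecidableEq κ]
    (φ : ι ⊕ κ → ℝ) (G : (ι → Bool) → ℝ) :
    ∑ η : ι ⊕ κ → Bool, amen1P φ η ^ 2 * G (η ∘ Sum.inl) =
      ∑ ζ : ι → Bool, amen1P (φ ∘ Sum.inl) ζ ^ 2 * G ζ := by
  rw [← (Equiv.sumArrowEquivProdArrow ι κ Bool).symm.sum_comp, Fintype.sum_prod_type]
  refine Finset.sum_congr rfl fun ζ _ => ?_
  have : ∀ ρ : κ → Bool, amen1P φ ((Equiv.sumArrowEquivProdArrow ι κ Bool).symm (ζ, ρ)) ^ 2 *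
      G ((Equiv.sumArrowEquivProdArrow ι κ Bool).symm (ζ, ρ) ∘ Sum.inl) =
      amen1P (φ ∘ Sum.inl) ζ ^ 2 * G ζ * amen1P (φ ∘ Sum.inr) ρ ^ 2 := by
    intro ρ
    have e1 : amen1P φ ((Equiv.sumArrowEquivProdArrow ι κ Bool).symm (ζ, ρ)) =
        amen1P (φ ∘ Sum.inl) ζ * amen1P (φ ∘ Sum.inr) ρ := by
      unfold amen1P
      rw [Fintype.prod_sum_type]
      rfl
    have e2 : (Equiv.sumArrowEquivProdArrow ι κ Bool).symm (ζ, ρ) ∘ Sum.inl = ζ := rfl
    rw [e1, e2]
    ring
  simp only [this]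
  rw [← Finset.mul_sum, amen1_total, mul_one]

theorem amen1_marg {ι κ : Type} [Fintype ι] [DecidableEq ι] [Fintype κ] [DecidableEq κ]
    (j : ι → κ) (hj : Function.Injective j) (φ : κ → ℝ) (G : (ι → Bool) → ℝ) :
    ∑ η : κ → Bool, amen1P φ η ^ 2 * G (η ∘ j) = ∑ ζ : ι → Bool, amen1P (φ ∘ j) ζ ^ 2 * G ζ := by
  classical
  let e : ι ⊕ {k // ¬ k ∈ Set.range j} ≃ κ :=
    (Equiv.sumCongr (Equiv.ofInjective j hj) (Equiv.refl _)).trans
      (Equiv.sumCompl (· ∈ Set.range j))
  have he : e ∘ Sum.inl = j := rfl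
  have h := amen1_marg_sum (φ ∘ e) G
  rw [Function.comp_assoc, he] at h
  rw [← h]
  refine Fintype.sum_equiv (Equiv.arrowCongr e.symm (Equiv.refl Bool)) _ _ fun η => ?_
  have e1 : (Equiv.arrowCongr e.symm (Equiv.refl Bool)) η = η ∘ e := rfl
  rw [e1, Function.comp_assoc, he]
  congr 2
  exact (e.prod_comp fun k => amen1A (φ k) (η k)).symm

theorem amen1_prod_cos {ι : Type} (s : Finset ι) (x : ι → ℝ) (hx : ∀ i, 0 ≤ Real.cos (x i)) :
    1 - (∑ i ∈ s, x i ^ 2) / 2 ≤ ∏ i ∈ s, Real.cos (x i) := by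
  classical
  induction s using Finset.induction_on with
  | empty => simp
  | insert a s ha ih =>
    rw [Finset.sum_insert ha, Finset.prod_insert ha]
    have h1 := Real.one_sub_sq_div_two_le_cos (x := x a)
    have h2 := Real.cos_le_one (x a)
    have h3 : 0 ≤ ∑ i ∈ s, x i ^ 2 := Finset.sum_nonneg fun _ _ => sq_nonneg _
    have h4 := mul_le_mul_of_nonneg_left ih (hx a)
    nlinarith [mul_nonneg (sub_nonneg.2 h2) h3]

theorem amen1_hell {ι : Type} [Fintype ι] [DecidableEq ι] (φ ψ : ι → ℝ)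
    (hx : ∀ i, 0 ≤ Real.cos (φ i - ψ i)) (G : (ι → Bool) → ℝ) (hG : ∀ y, 0 ≤ G y ∧ G y ≤ 1) :
    |∑ η, amen1P φ η ^ 2 * G η - ∑ η, amen1P ψ η ^ 2 * G η| ≤
      2 * Real.sqrt (∑ i, (φ i - ψ i) ^ 2) := by
  have h1 : |∑ η, amen1P φ η ^ 2 * G η - ∑ η, amen1P ψ η ^ 2 * G η| ≤
      ∑ η, |amen1P φ η - amen1P ψ η| * |amen1P φ η + amen1P ψ η| := by
    rw [← Finset.sum_sub_distrib]
    refine (Finset.abs_sum_le_sum_abs _ _).trans (Finset.sum_le_sum fun η _ => ?_)
    rw [← sub_mul, abs_mul, abs_of_nonneg (hG η).1, ← abs_mul,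
      show (amen1P φ η - amen1P ψ η) * (amen1P φ η + amen1P ψ η) =
        amen1P φ η ^ 2 - amen1P ψ η ^ 2 by ring]
    exact mul_le_of_le_one_right (abs_nonneg _) (hG η).2
  have h2 := Finset.sum_mul_sq_le_sq_mul_sq Finset.univ (fun η => |amen1P φ η - amen1P ψ η|)
    (fun η => |amen1P φ η + amen1P ψ η|)
  simp only [sq_abs] at h2
  have h3 : ∑ η, (amen1P φ η - amen1P ψ η) ^ 2 ≤ ∑ i, (φ i - ψ i) ^ 2 := by
    have : ∑ η, (amen1P φ η - amen1P ψ η) ^ 2 = ∑ η, amen1P φ η ^ 2 + ∑ η, amen1P ψ η ^ 2 -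
        2 * ∑ η, amen1P φ η * amen1P ψ η := by
      rw [Finset.mul_sum, ← Finset.sum_add_distrib, ← Finset.sum_sub_distrib]
      exact Finset.sum_congr rfl fun η _ => by ring
    rw [this, amen1_total, amen1_total, amen1_inner]
    have := amen1_prod_cos Finset.univ (fun i => φ i - ψ i) hx
    linarith
  have h4 : ∑ η, (amen1P φ η + amen1P ψ η) ^ 2 ≤ 4 := by
    have : ∑ η, (amen1P φ η + amen1P ψ η) ^ 2 ≤
        2 * ∑ η, amen1P φ η ^ 2 + 2 * ∑ η, amen1P ψ η ^ 2 := by
      rw [Finset.mul_sum, Finset.mul_sum, ← Finset.sum_add_distrib]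
      exact Finset.sum_le_sum fun η _ => by nlinarith [sq_nonneg (amen1P φ η - amen1P ψ η)]
    rw [amen1_total, amen1_total] at this
    linarith
  have h5 : 0 ≤ ∑ i, (φ i - ψ i) ^ 2 := Finset.sum_nonneg fun _ _ => sq_nonneg _
  refine h1.trans (abs_le_of_sq_le_sq' ?_ (by positivity)).2
  rw [mul_pow, Real.sq_sqrt h5]
  refine h2.trans ?_
  have h6 : 0 ≤ ∑ η, (amen1P φ η + amen1P ψ η) ^ 2 := Finset.sum_nonneg fun _ _ => sq_nonneg _
  calc _ ≤ (∑ i, (φ i - ψ i) ^ 2) * 4 := mul_le_mul h3 h4 h6 h5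
    _ = _ := by ring

open Classical in
/-- extension by the deterministic values -/
noncomputable def amen1Ext {C : Type} (θ : C → ℝ) (B : Finset C) (η : B → Bool) : C → Bool :=
  fun c => if h : c ∈ B then η ⟨c, h⟩ else decide (θ c = 0)

open Classical in
theorem amen1_enlarge {C : Type} (θ : C → ℝ) {R B : Finset C} (hRB : R ⊆ B)
    (hR : ∀ c, c ∉ R → c ∉ Rnd θ) (F : (C → Bool) → ℝ) :
    ∑ η : B → Bool, amen1P (fun c : B => θ c) η ^ 2 * F (amen1Ext θ B η) =
      ∑ ξ : R → Bool, amen1P (fun c : R => θ c) ξ ^ 2 * F (amen1Ext θ R ξ) := by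
  let j : R → B := fun c => ⟨c.1, hRB c.2⟩
  have hj : Function.Injective j := fun a b h => Subtype.ext (congrArg (fun x : B => x.1) h)
  have h := amen1_marg j hj (fun c : B => θ c) (fun ξ => F (amen1Ext θ R ξ))
  refine Eq.trans (Finset.sum_congr rfl fun η _ => ?_) h
  by_cases h0 : amen1P (fun c : B => θ c) η = 0
  · rw [h0]; simp
  congr 2
  funext c
  unfold amen1Ext
  by_cases hc : c ∈ R
  · rw [dif_pos hc, dif_pos (hRB hc)]
    rfl
  · rw [dif_neg hc]
    split_ifs with hB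
    · have h1 : amen1A (θ c) (η ⟨c, hB⟩) ≠ 0 :=
        Finset.prod_ne_zero_iff.1 h0 ⟨c, hB⟩ (Finset.mem_univ _)
      have h2 := hR c hc
      simp only [Rnd, Set.mem_ofPred_eq, not_and_or, not_not] at h2
      rcases h2 with h2 | h2
      · rw [h2] at h1 ⊢
        cases hb : η ⟨c, hB⟩
        · rw [hb] at h1; simp [amen1A] at h1
        · simp
      · rw [h2] at h1 ⊢
        cases hb : η ⟨c, hB⟩
        · simp
        · rw [hb] at h1; simp [amen1A] at h1
    · rfl

/-- independent bits with `P(ξ c = true) = cos (θ c) ^ 2`, and the Hellinger estimate -/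
theorem exists_angle_measure {C : Type} (θ : C → ℝ) (hθ : ∀ c, 0 ≤ θ c ∧ θ c ≤ Real.pi / 2)
    (hfin : (Rnd θ).Finite) : ∃ (Ξ : Type) (_ : Fintype Ξ) (p : Ξ → ℝ) (ext : Ξ → C → Bool),
      (∀ ξ, 0 ≤ p ξ) ∧ ∑ ξ, p ξ = 1 ∧ (∀ ξ, Adm θ (ext ξ)) ∧
      ∀ (γ : C → C) (D : Finset C), Set.InjOn γ (γ ⁻¹' Rnd θ) → (∀ c, c ∉ D → θ (γ c) = θ c) →
        ∀ F : (C → Bool) → ℝ, (∀ y, 0 ≤ F y ∧ F y ≤ 1) →
          |∑ ξ, p ξ * F (ext ξ ∘ γ) - ∑ ξ, p ξ * F (ext ξ)| ≤
            2 * Real.sqrt (∑ c ∈ D, (θ (γ c) - θ c) ^ 2) := by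
  classical
  set R := hfin.toFinset with hRdef
  have hR : ∀ c, c ∈ R ↔ c ∈ Rnd θ := fun c => hfin.mem_toFinset
  refine ⟨R → Bool, inferInstance, fun ξ => amen1P (fun c : R => θ c) ξ ^ 2, amen1Ext θ R,
    fun ξ => sq_nonneg _, amen1_total _, fun ξ c => ?_, fun γ D hγ hD F hF => ?_⟩
  · unfold amen1Ext
    by_cases hc : c ∈ R
    · have := (hR c).1 hc
      exact ⟨fun h => absurd h this.1, fun h => absurd h this.2⟩
    · rw [dif_neg hc]
      refine ⟨fun h => by simp [h], fun h => ?_⟩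
      rw [h]
      simp
  · set B := R ∪ D with hB
    set R' := B.filter fun c => γ c ∈ R with hR'def
    have hR' : ∀ c, c ∈ R' ↔ γ c ∈ R := by
      intro c
      rw [hR'def, Finset.mem_filter, and_iff_right_iff_imp]
      intro hc
      by_cases hcD : c ∈ D
      · exact Finset.mem_union_right _ hcD
      · refine Finset.mem_union_left _ ((hR c).2 ?_)
        have := (hR _).1 hc
        simp only [Rnd, Set.mem_ofPred_eq, hD c hcD] at this ⊢
        exact this
    let j : R' → R := fun c => ⟨γ c.1, (hR' c.1).1 c.2⟩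
    have hj : Function.Injective j := fun a b h => Subtype.ext
      (hγ ((hR _).1 ((hR' _).1 a.2)) ((hR _).1 ((hR' _).1 b.2)) (congrArg Subtype.val h))
    have e1 : ∑ ξ : R → Bool, amen1P (fun c : R => θ c) ξ ^ 2 * F (amen1Ext θ R ξ ∘ γ) =
        ∑ ζ : R' → Bool, amen1P (fun c : R' => (θ ∘ γ) c) ζ ^ 2 * F (amen1Ext (θ ∘ γ) R' ζ) := by
      refine Eq.trans (Finset.sum_congr rfl fun ξ _ => ?_)
        (amen1_marg j hj (fun c : R => θ c) (fun ζ => F (amen1Ext (θ ∘ γ) R' ζ)))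
      congr 2
      funext c
      simp only [Function.comp_apply, amen1Ext]
      by_cases hc : c ∈ R'
      · rw [dif_pos hc, dif_pos ((hR' c).1 hc)]
      · rw [dif_neg hc, dif_neg (fun h => hc ((hR' c).2 h))]
    have e2 := amen1_enlarge (θ ∘ γ) (R := R') (B := B) (Finset.filter_subset _ _)
      (fun c hc h => hc ((hR' c).2 ((hR _).2 h))) F
    have e3 := amen1_enlarge θ (R := R) (B := B) Finset.subset_union_left
      (fun c hc h => hc ((hR c).2 h)) F
    have e4 : amen1Ext (θ ∘ γ) B = amen1Ext θ B := by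
      funext η c
      unfold amen1Ext
      split_ifs with hc
      · rfl
      · rw [Function.comp_apply, hD c fun h => hc (Finset.mem_union_right _ h)]
    rw [e1, ← e2, ← e3, e4]
    refine (amen1_hell (fun c : B => (θ ∘ γ) c) (fun c : B => θ c) (fun c => ?_)
      (fun η => F (amen1Ext θ B η)) (fun η => hF _)).trans (le_of_eq ?_)
    · refine Real.cos_nonneg_of_mem_Icc ⟨?_, ?_⟩
      · have := hθ (γ c); have := hθ c
        simp only [Function.comp_apply]; linarith
      · have := hθ (γ c); have := hθ c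
        simp only [Function.comp_apply]; linarith
    · congr 2
      rw [Finset.sum_coe_sort B (fun c => ((θ ∘ γ) c - θ c) ^ 2)]
      refine (Finset.sum_subset Finset.subset_union_right fun c _ hc => ?_).symm
      rw [Function.comp_apply, hD c hc, sub_self, zero_pow two_ne_zero]

end Crest.Agent.R189
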