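import Mathlib

/-! # Row 189: angle profiles of small energy -/

set_option autoImplicit false
set_option linter.unusedSectionVars false

namespace Crest.Agent.R189

theorem amen2_harm (A : ℕ) (hA : 0 < A) (k : ℕ) :
    ∑ n ∈ Finset.Ioc A (A + k), (1 : ℝ) / n ≤ Real.log ((A + k : ℕ) : ℝ) - Real.log A := by
  induction k with
  | zero => simp
  | succ k ih =>
    rw [← add_assoc, Finset.sum_Ioc_succ_top (by omega)]
    have h1 : (0 : ℝ) < ((A + k : ℕ) : ℝ) := by exact_mod_cast (by omega : 0 < A + k)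
    have h2 : (0 : ℝ) < ((A + k + 1 : ℕ) : ℝ) := by exact_mod_cast (by omega : 0 < A + k + 1)
    have h3 := Real.log_le_sub_one_of_pos (div_pos h1 h2)
    rw [Real.log_div h1.ne' h2.ne'] at h3
    have h4 : ((A + k : ℕ) : ℝ) / ((A + k + 1 : ℕ) : ℝ) - 1 = - (1 / ((A + k + 1 : ℕ) : ℝ)) := by
      field_simp
      push_cast
      ring
    rw [h4] at h3
    linarith

theorem amen2_log_lip (x y c : ℝ) (hc : 0 < c) (hx : c ≤ x) (hy : c ≤ y) :
    |Real.log x - Real.log y| ≤ |x - y| / c := by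
  have key : ∀ u v : ℝ, c ≤ u → c ≤ v → Real.log u - Real.log v ≤ |u - v| / c := by
    intro u v hu hv
    have hu0 : 0 < u := lt_of_lt_of_le hc hu
    have hv0 : 0 < v := lt_of_lt_of_le hc hv
    have h3 := Real.log_le_sub_one_of_pos (div_pos hu0 hv0)
    rw [Real.log_div hu0.ne' hv0.ne'] at h3
    have h4 : u / v - 1 = (u - v) / v := by field_simp
    rw [h4] at h3
    calc Real.log u - Real.log v ≤ (u - v) / v := h3
      _ ≤ |u - v| / v := by gcongr; exact le_abs_self _
      _ ≤ |u - v| / c := by gcongr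
  rw [abs_le]
  constructor
  · have := key y x hy hx
    rw [abs_sub_comm] at this
    linarith
  · exact key x y hx hy

theorem amen2_fiber (D : Finset (ℤ × ℤ)) (n : ℕ) (hn : 1 ≤ n) :
    (((D.filter (fun z => (max |z.1| |z.2|).toNat = n)).card : ℕ) : ℝ) ≤ 12 * n := by
  have hsub : D.filter (fun z => (max |z.1| |z.2|).toNat = n) ⊆
      (({(n : ℤ), -(n : ℤ)} : Finset ℤ) ×ˢ Finset.Icc (-(n : ℤ)) n) ∪
      (Finset.Icc (-(n : ℤ)) n ×ˢ ({(n : ℤ), -(n : ℤ)} : Finset ℤ)) := by
    intro z hz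
    rw [Finset.mem_filter] at hz
    have h := hz.2
    simp only [Finset.mem_union, Finset.mem_product, Finset.mem_insert, Finset.mem_singleton,
      Finset.mem_Icc]
    rcases abs_cases z.1 with ⟨h1, h1'⟩ | ⟨h1, h1'⟩ <;>
      rcases abs_cases z.2 with ⟨h2, h2'⟩ | ⟨h2, h2'⟩ <;>
      rw [h1, h2] at h <;> omega
  have h1 := Finset.card_le_card hsub
  have h2 := Finset.card_union_le (({(n : ℤ), -(n : ℤ)} : Finset ℤ) ×ˢ Finset.Icc (-(n : ℤ)) n)
      (Finset.Icc (-(n : ℤ)) n ×ˢ ({(n : ℤ), -(n : ℤ)} : Finset ℤ))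
  rw [Finset.card_product, Finset.card_product, Int.card_Icc] at h2
  have h3 : (({(n : ℤ), -(n : ℤ)} : Finset ℤ)).card ≤ 2 := Finset.card_le_two
  have h4 : ((n : ℤ) + 1 - -(n : ℤ)).toNat = 2 * n + 1 := by omega
  rw [h4] at h2
  have h5 : (D.filter (fun z => (max |z.1| |z.2|).toNat = n)).card ≤ 12 * n := by nlinarith
  exact_mod_cast h5

/-- logarithmic profile in the plane: recurrence of `ℤ²` -/
theorem exists_mask_profile (r : ℕ) (ε : ℝ) (hε : 0 < ε) : ∃ K : ℕ, 1 ≤ K ∧ ∀ W : ℕ, 2 * r + 1 ≤ W →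
    ∃ h : ℤ → ℝ, (∀ n, 0 ≤ h n ∧ h n ≤ Real.pi / 2) ∧ (∀ n : ℤ, n ≤ W → h n = 0) ∧
      (∀ n : ℤ, (K * W : ℕ) ≤ n → h n = Real.pi / 2) ∧
      ∀ (D : Finset (ℤ × ℤ)) (m : ℤ × ℤ → ℤ), (∀ z ∈ D, |m z - (max |z.1| |z.2|)| ≤ r) →
        ∑ z ∈ D, (h (m z) - h (max |z.1| |z.2|)) ^ 2 ≤ ε := by
  obtain ⟨K0, hK0⟩ := exists_nat_ge (Real.exp (384 * (r : ℝ) ^ 2 / ε))
  set K : ℕ := K0 + 4 with hKdef
  have hK4 : (4 : ℝ) ≤ K := by rw [hKdef]; push_cast; linarith [(Nat.cast_nonneg K0 : (0 : ℝ) ≤ K0)]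
  have hK4' : 4 ≤ K := by omega
  have hKpos : (0 : ℝ) < K := by linarith
  set L : ℝ := Real.log K with hL
  have hL4 : Real.log 4 ≤ L := Real.log_le_log (by norm_num) hK4
  have hlog4 : 0 < Real.log 4 := Real.log_pos (by norm_num)
  have hLpos : 0 < L := by linarith
  have hLε : 384 * (r : ℝ) ^ 2 / ε ≤ L := by
    rw [hL, Real.le_log_iff_exp_le hKpos]
    refine hK0.trans ?_
    rw [hKdef]; push_cast; linarith
  refine ⟨K, by omega, fun W hW => ?_⟩
  have hWpos : (0 : ℝ) < W := by exact_mod_cast (by omega : 0 < W)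
  have hWK : (W : ℤ) ≤ ((K * W : ℕ) : ℤ) := by
    exact_mod_cast Nat.le_mul_of_pos_left W (by omega)
  set c : ℤ → ℤ := fun n => max (W : ℤ) (min n ((K * W : ℕ) : ℤ)) with hc
  have hcW : ∀ n, (W : ℤ) ≤ c n := fun n => le_max_left _ _
  have hcK : ∀ n, c n ≤ ((K * W : ℕ) : ℤ) := fun n => max_le hWK (min_le_right _ _)
  have hcW' : ∀ n, (W : ℝ) ≤ (c n : ℝ) := fun n => by exact_mod_cast hcW n
  have hcK' : ∀ n, (c n : ℝ) ≤ (K : ℝ) * W := fun n => by exact_mod_cast hcK n
  have hlogKW : Real.log ((K : ℝ) * W) = L + Real.log W := Real.log_mul hKpos.ne' hWpos.ne'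
  have hpi := Real.pi_pos
  have hpi4 := Real.pi_le_four
  refine ⟨fun n => Real.pi / 2 * ((Real.log (c n) - Real.log W) / L), fun n => ?_, fun n hn => ?_,
    fun n hn => ?_, fun D m hm => ?_⟩
  · have h1 : Real.log W ≤ Real.log (c n) := Real.log_le_log hWpos (hcW' n)
    have h2 : Real.log (c n) ≤ L + Real.log W := by
      rw [← hlogKW]; exact Real.log_le_log (lt_of_lt_of_le hWpos (hcW' n)) (hcK' n)
    have h3 : 0 ≤ (Real.log (c n) - Real.log W) / L := div_nonneg (by linarith) hLpos.le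
    have h4 : (Real.log (c n) - Real.log W) / L ≤ 1 := by
      rw [div_le_one hLpos]; linarith
    constructor
    · positivity
    · nlinarith
  · have : c n = W := by simp only [hc]; omega
    simp [this]
  · have : c n = ((K * W : ℕ) : ℤ) := by simp only [hc]; omega
    simp only [this]
    push_cast
    rw [hlogKW]
    field_simp
    ring
  · -- pointwise bound
    set A : ℕ := W - r with hA
    set k : ℕ := K * W + r - A with hk
    have hApos : 0 < A := by omega
    have hWKn : W ≤ K * W := Nat.le_mul_of_pos_left W (by omega)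
    have hAk : A + k = K * W + r := by omega
    set N : ℤ × ℤ → ℕ := fun z => (max |z.1| |z.2|).toNat with hN
    have hNz : ∀ z : ℤ × ℤ, ((N z : ℕ) : ℤ) = max |z.1| |z.2| := fun z =>
      Int.toNat_of_nonneg (le_max_of_le_left (abs_nonneg _))
    have hpt : ∀ z ∈ D, (Real.pi / 2 * ((Real.log (c (m z)) - Real.log W) / L) -
        Real.pi / 2 * ((Real.log (c (max |z.1| |z.2|)) - Real.log W) / L)) ^ 2 ≤
        if N z ∈ Finset.Ioc A (A + k) then 16 * (r : ℝ) ^ 2 / L ^ 2 * (1 / (N z : ℝ) ^ 2) else 0 := by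
      intro z hz
      have hmz := hm z hz
      rw [← hNz z] at hmz ⊢
      rw [abs_le] at hmz
      split_ifs with hin
      · rw [Finset.mem_Ioc] at hin
        have hNpos : (0 : ℝ) < N z := by exact_mod_cast (by omega : 0 < N z)
        have e1 : (N z : ℤ) ≤ 2 * c (m z) := by simp only [hc]; push_cast; omega
        have e2 : (N z : ℤ) ≤ 2 * c (N z) := by simp only [hc]; push_cast; omega
        have e3 : |c (m z) - c (N z)| ≤ r := by
          rw [abs_le]; simp only [hc]; omega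
        have e1' : (N z : ℝ) / 2 ≤ (c (m z) : ℝ) := by
          have : ((N z : ℤ) : ℝ) ≤ ((2 * c (m z) : ℤ) : ℝ) := by exact_mod_cast e1
          push_cast at this; linarith
        have e2' : (N z : ℝ) / 2 ≤ (c (N z) : ℝ) := by
          have : ((N z : ℤ) : ℝ) ≤ ((2 * c (N z) : ℤ) : ℝ) := by exact_mod_cast e2
          push_cast at this; linarith
        have e3' : |(c (m z) : ℝ) - (c (N z) : ℝ)| ≤ r := by exact_mod_cast e3
        have hl := amen2_log_lip _ _ _ (by positivity) e1' e2'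
        have hl2 : |Real.log (c (m z)) - Real.log (c (N z))| ≤ 2 * r / N z := by
          refine hl.trans ?_
          rw [div_le_div_iff₀ (by positivity) hNpos]
          nlinarith
        have hl3 : (Real.log (c (m z)) - Real.log (c (N z))) ^ 2 ≤ (2 * r / N z) ^ 2 := by
          rw [← sq_abs]
          exact pow_le_pow_left₀ (abs_nonneg _) hl2 2
        have e4 : (Real.pi / 2 * ((Real.log (c (m z)) - Real.log W) / L) -
            Real.pi / 2 * ((Real.log (c (N z)) - Real.log W) / L)) ^ 2 =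
            (Real.pi / 2) ^ 2 * (Real.log (c (m z)) - Real.log (c (N z))) ^ 2 / L ^ 2 := by
          field_simp
          ring
        rw [e4]
        have e5 : (Real.pi / 2) ^ 2 ≤ 4 := by nlinarith
        have e6 : 16 * (r : ℝ) ^ 2 / L ^ 2 * (1 / (N z : ℝ) ^ 2) = 4 * (2 * r / N z) ^ 2 / L ^ 2 := by
          field_simp
          ring
        rw [e6]
        gcongr
      · rw [Finset.mem_Ioc] at hin
        have : c (m z) = c (N z) := by simp only [hc]; push_cast; omega
        rw [this]; simp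
    refine (Finset.sum_le_sum hpt).trans ?_
    rw [← Finset.sum_filter, ← Finset.mul_sum]
    have hs : ∑ z ∈ D with N z ∈ Finset.Ioc A (A + k), (1 / (N z : ℝ) ^ 2) ≤
        ∑ n ∈ Finset.Ioc A (A + k), 12 * ((1 : ℝ) / n) := by
      rw [← Finset.sum_fiberwise_of_maps_to (t := Finset.Ioc A (A + k)) (g := N)
        (fun z hz => (Finset.mem_filter.1 hz).2)]
      refine Finset.sum_le_sum fun n hn => ?_
      have hn1 : 1 ≤ n := by have := (Finset.mem_Ioc.1 hn).1; omega
      have hnpos : (0 : ℝ) < n := by exact_mod_cast hn1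
      rw [Finset.sum_congr rfl (g := fun _ => (1 : ℝ) / (n : ℝ) ^ 2)
        (fun z hz => by rw [(Finset.mem_filter.1 hz).2]), Finset.sum_const, nsmul_eq_mul]
      have := amen2_fiber (D.filter (fun z => N z ∈ Finset.Ioc A (A + k))) n hn1
      calc _ ≤ 12 * (n : ℝ) * (1 / (n : ℝ) ^ 2) := by gcongr
        _ = 12 * (1 / n) := by field_simp
    rw [← Finset.mul_sum] at hs
    have hh := amen2_harm A hApos k
    have hApos' : (0 : ℝ) < A := by exact_mod_cast hApos
    have hb : Real.log ((A + k : ℕ) : ℝ) ≤ Real.log (4 * K * A) := by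
      refine Real.log_le_log (by exact_mod_cast (by omega : 0 < A + k)) ?_
      have h1 : W ≤ 2 * A := by omega
      have h2 : A + k ≤ 4 * K * A := by
        rw [hAk]
        have : K * W ≤ K * (2 * A) := Nat.mul_le_mul_left K h1
        have h3 : r ≤ A := by omega
        nlinarith
      exact_mod_cast h2
    rw [Real.log_mul (by positivity) hApos'.ne', Real.log_mul (by norm_num) hKpos.ne'] at hb
    have hs2 : ∑ z ∈ D with N z ∈ Finset.Ioc A (A + k), (1 / (N z : ℝ) ^ 2) ≤ 24 * L := by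
      linarith
    calc _ ≤ 16 * (r : ℝ) ^ 2 / L ^ 2 * (24 * L) := by gcongr
      _ = 384 * (r : ℝ) ^ 2 / L := by field_simp; ring
      _ ≤ ε := by
        rw [div_le_iff₀ hLpos]
        rw [div_le_iff₀ hε] at hLε
        linarith

/-- linear profile across a strip -/
theorem exists_strip_profile (r : ℕ) (a : ℤ) (W : ℕ) (hW : 0 < W) :
    ∃ h : ℤ → ℝ, (∀ n, 0 ≤ h n ∧ h n ≤ Real.pi / 2) ∧ (∀ n : ℤ, n ≤ a → h n = Real.pi / 2) ∧
      (∀ n : ℤ, a + W ≤ n → h n = 0) ∧
      ∀ (D : Finset ℤ) (m : ℤ → ℤ), (∀ s ∈ D, |m s - s| ≤ r) →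
        ∑ s ∈ D, (h (m s) - h s) ^ 2 ≤ 4 * (r : ℝ) ^ 2 * (W + 2 * r + 1) / (W : ℝ) ^ 2 := by
  have hWpos : (0 : ℝ) < W := by exact_mod_cast hW
  set c : ℤ → ℤ := fun n => max 0 (min (a + W - n) W) with hc
  have hc0 : ∀ n, (0 : ℝ) ≤ (c n : ℝ) := fun n => by
    have : 0 ≤ c n := le_max_left _ _
    exact_mod_cast this
  have hcW : ∀ n, (c n : ℝ) ≤ (W : ℝ) := fun n => by
    have : c n ≤ W := by simp only [hc]; omega
    exact_mod_cast this
  have hpi := Real.pi_pos
  have hpi4 := Real.pi_le_four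
  refine ⟨fun n => Real.pi / 2 * ((c n : ℝ) / W), fun n => ?_, fun n hn => ?_, fun n hn => ?_,
    fun D m hm => ?_⟩
  · have h3 : 0 ≤ (c n : ℝ) / W := div_nonneg (hc0 n) hWpos.le
    have h4 : (c n : ℝ) / W ≤ 1 := by rw [div_le_one hWpos]; exact hcW n
    constructor
    · positivity
    · nlinarith
  · have : c n = W := by simp only [hc]; omega
    simp only [this]
    push_cast
    field_simp
  · have : c n = 0 := by simp only [hc]; omega
    simp [this]
  · have hpt : ∀ s ∈ D, (Real.pi / 2 * ((c (m s) : ℝ) / W) - Real.pi / 2 * ((c s : ℝ) / W)) ^ 2 ≤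
        if s ∈ Finset.Icc (a - r) (a + W + r) then 4 * (r : ℝ) ^ 2 / (W : ℝ) ^ 2 else 0 := by
      intro s hs
      have hms := hm s hs
      rw [abs_le] at hms
      split_ifs with hin
      · have e3 : |c (m s) - c s| ≤ r := by
          rw [abs_le]; simp only [hc]; omega
        have e3' : |(c (m s) : ℝ) - (c s : ℝ)| ≤ r := by exact_mod_cast e3
        have hl3 : ((c (m s) : ℝ) - (c s : ℝ)) ^ 2 ≤ (r : ℝ) ^ 2 := by
          rw [← sq_abs]
          exact pow_le_pow_left₀ (abs_nonneg _) e3' 2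
        have e4 : (Real.pi / 2 * ((c (m s) : ℝ) / W) - Real.pi / 2 * ((c s : ℝ) / W)) ^ 2 =
            (Real.pi / 2) ^ 2 * ((c (m s) : ℝ) - (c s : ℝ)) ^ 2 / (W : ℝ) ^ 2 := by
          field_simp
        rw [e4]
        have e5 : (Real.pi / 2) ^ 2 ≤ 4 := by nlinarith
        gcongr
      · rw [Finset.mem_Icc] at hin
        have : c (m s) = c s := by simp only [hc]; omega
        rw [this]; simp
    refine (Finset.sum_le_sum hpt).trans ?_
    rw [← Finset.sum_filter, Finset.sum_const, nsmul_eq_mul]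
    have h1 : (D.filter (fun s => s ∈ Finset.Icc (a - r) (a + W + r))).card ≤ W + 2 * r + 1 := by
      refine (Finset.card_le_card (t := Finset.Icc (a - r) (a + W + r))
        (fun s hs => (Finset.mem_filter.1 hs).2)).trans ?_
      rw [Int.card_Icc]; omega
    have h2 : (((D.filter (fun s => s ∈ Finset.Icc (a - r) (a + W + r))).card : ℕ) : ℝ) ≤
        W + 2 * r + 1 := by exact_mod_cast h1
    calc _ ≤ ((W : ℝ) + 2 * r + 1) * (4 * (r : ℝ) ^ 2 / (W : ℝ) ^ 2) := by gcongr
      _ = _ := by ring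

end Crest.Agent.R189
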