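import Crest.Agent.R189.Perm
import Crest.Agent.R189.Amen1
import Crest.Agent.R189.Amen2

/-! # Row 189: random owners in one direction -/

set_option autoImplicit false
set_option linter.unusedSectionVars false

namespace Crest.Agent.R189
open Equiv

variable {X ι : Type} [Shift X] [Good X] [Fintype ι]

namespace Amen3

/-- the representative of a residue class in the window `[a, a + P)` -/
def lift {P : ℕ} (a : ℤ) (t : ZMod P) : ℤ := a + ((t - (a : ZMod P)).val : ℤ)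

theorem lift_cast {P : ℕ} [NeZero P] (a : ℤ) (t : ZMod P) : ((lift a t : ℤ) : ZMod P) = t := by
  simp [lift]

theorem le_lift {P : ℕ} (a : ℤ) (t : ZMod P) : a ≤ lift a t := by
  unfold lift; omega

theorem lift_lt {P : ℕ} [NeZero P] (a : ℤ) (t : ZMod P) : lift a t < a + P := by
  have := ZMod.val_lt (t - (a : ZMod P))
  unfold lift; omega

/-- all the data of the construction -/
structure Dat (X T : Type) [Shift X] (d : Bool) where
  r : ℕ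
  P : ℕ
  Q : ℕ
  L : ℕ
  W : ℕ
  N : ℕ
  c : Crd X d L
  c' : Crd X (!d) Q
  typ : X → T
  yy : T → X
  hP : 2 * r + 1 ≤ P
  hN : W + 10 * r + 3 * P ≤ N
  hQ : 2 * N + 10 * P ≤ Q
  hL : Q ≤ L
  yy1 : ∀ τ, c.rep (yy τ) 0
  yy2 : ∀ τ, c'.rep (yy τ) 0
  yy3 : ∀ y, c.rep y 0 → c'.rep y 0 → typ (yy (typ y)) = typ y
  hA : ∀ y y' : X, c.rep y 0 → c'.rep y 0 → c.rep y' 0 → c'.rep y' 0 → typ y = typ y' →
    ∀ s t : ℤ, 2 * |s| ≤ Q → 2 * |t| ≤ Q → obs (vec d s t +ᵥ y) = obs (vec d s t +ᵥ y')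
  hB : ∀ y y' : X, c.rep y 0 → c'.rep y 0 → c.rep y' 0 → c'.rep y' 0 → typ y = typ y' →
    ∀ s t t' : ℤ, 1 ≤ s → s + 3 * P < t → s + 3 * P < t' → t + 3 * P < Q → t' + 3 * P < Q →
      (P : ℤ) ∣ t - t' → obs (vec d s t +ᵥ y) = obs (vec d s t' +ᵥ y')

/-- the move of a local permutation -/
structure Mv (r : ℕ) (g : Perm (X × ι)) (mv : X → ι → Pt ι) : Prop where
  app : ∀ x i, g (x, i) = x ⋆ mv x i
  loc : ∀ x y i, Agree r x y → mv x i = mv y i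
  bd : ∀ x i, Bd r (mv x i).1

namespace Dat
variable {T : Type} {d : Bool} (A : Dat X T d)

instance : NeZero A.P := ⟨by have := A.hP; omega⟩

noncomputable def sOf (x : X) : ℤ := A.c.win (-((A.L : ℤ) / 2)) x
noncomputable def tOf (x : X) : ℤ := A.c'.win 0 x
noncomputable def uOf (x : X) : ℤ := A.c'.win (-((A.Q : ℤ) / 2)) x

/-- mask class -/
noncomputable def cm (ω : X × ι) : T × ℤ × ℤ × ι :=
  (A.typ (vec d (-A.sOf ω.1) (-A.uOf ω.1) +ᵥ ω.1), A.sOf ω.1, A.uOf ω.1, ω.2)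
/-- periodic class -/
noncomputable def cp (ω : X × ι) : T × ℤ × ZMod A.P × ι :=
  (A.typ (vec d (-A.sOf ω.1) (-A.tOf ω.1) +ᵥ ω.1), A.sOf ω.1, (A.tOf ω.1 : ZMod A.P), ω.2)

def gm (mv : X → ι → Pt ι) (k : T × ℤ × ℤ × ι) : T × ℤ × ℤ × ι :=
  (k.1, k.2.1 + pr d (mv (vec d k.2.1 k.2.2.1 +ᵥ A.yy k.1) k.2.2.2).1,
    k.2.2.1 + pr (!d) (mv (vec d k.2.1 k.2.2.1 +ᵥ A.yy k.1) k.2.2.2).1,
    (mv (vec d k.2.1 k.2.2.1 +ᵥ A.yy k.1) k.2.2.2).2)

/-- the height at which periodic classes are realised -/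
def ht (t : ZMod A.P) : ℤ := lift ((A.W : ℤ) + 10 * A.r + 3 * A.P) t

def gp (mv : X → ι → Pt ι) (k : T × ℤ × ZMod A.P × ι) : T × ℤ × ZMod A.P × ι :=
  if 2 * (A.r : ℤ) < k.2.1 ∧ k.2.1 < A.W + 4 * A.r then
    (k.1, k.2.1 + pr d (mv (vec d k.2.1 (A.ht k.2.2.1) +ᵥ A.yy k.1) k.2.2.2).1,
      k.2.2.1 + ((pr (!d) (mv (vec d k.2.1 (A.ht k.2.2.1) +ᵥ A.yy k.1) k.2.2.2).1 : ℤ) : ZMod A.P),
      (mv (vec d k.2.1 (A.ht k.2.2.1) +ᵥ A.yy k.1) k.2.2.2).2)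
  else k

theorem base_rep {x : X} {s t : ℤ} (h : A.c.rep x s) (h' : A.c'.rep x t) :
    A.c.rep (vec d (-s) (-t) +ᵥ x) 0 ∧ A.c'.rep (vec d (-s) (-t) +ᵥ x) 0 :=
  ⟨by simpa using A.c.shift (vec d (-s) (-t)) h, by simpa using A.c'.shift (vec d (-s) (-t)) h'⟩

omit [Good X] in
theorem vec_base (x : X) (s t : ℤ) : vec d s t +ᵥ (vec d (-s) (-t) +ᵥ x) = x := by
  rw [← add_vadd, vec_add]; simp

omit [Good X] in
theorem add_vec (u : V) (s t : ℤ) : u + vec d s t = vec d (s + pr d u) (t + pr (!d) u) := by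
  refine ext_pr d ?_ ?_ <;> simp [add_comm]

theorem agreeA {y y' : X} (h1 : A.c.rep y 0) (h2 : A.c'.rep y 0) (h3 : A.c.rep y' 0)
    (h4 : A.c'.rep y' 0) (h5 : A.typ y = A.typ y') {s t : ℤ} (hs : 2 * (|s| + A.r) ≤ A.Q)
    (ht : 2 * (|t| + A.r) ≤ A.Q) : Agree A.r (vec d s t +ᵥ y) (vec d s t +ᵥ y') := by
  intro u hu
  rw [bd_iff d] at hu
  rw [← add_vadd, ← add_vadd, add_vec]
  refine A.hA y y' h1 h2 h3 h4 h5 _ _ ?_ ?_
  · have := abs_add_le s (pr d u)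
    have : |pr d u| ≤ A.r := abs_le.2 ⟨hu.1, hu.2.1⟩
    omega
  · have := abs_add_le t (pr (!d) u)
    have : |pr (!d) u| ≤ A.r := abs_le.2 ⟨hu.2.2.1, hu.2.2.2⟩
    omega

theorem agreeB {y y' : X} (h1 : A.c.rep y 0) (h2 : A.c'.rep y 0) (h3 : A.c.rep y' 0)
    (h4 : A.c'.rep y' 0) (h5 : A.typ y = A.typ y') {s t t' : ℤ} (hs : 2 * (A.r : ℤ) < s)
    (ht : s + 2 * A.r + 3 * A.P < t) (ht' : s + 2 * A.r + 3 * A.P < t')
    (hu : t + A.r + 3 * A.P < A.Q) (hu' : t' + A.r + 3 * A.P < A.Q) (hd : (A.P : ℤ) ∣ t - t') :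
    Agree A.r (vec d s t +ᵥ y) (vec d s t' +ᵥ y') := by
  intro u hu
  rw [bd_iff d] at hu
  rw [← add_vadd, ← add_vadd, add_vec, add_vec]
  refine A.hB y y' h1 h2 h3 h4 h5 _ _ _ (by omega) (by omega) (by omega) (by omega) (by omega) ?_
  simpa using hd

variable {g : Perm (X × ι)} {mv : X → ι → Pt ι}

/-- two realised moves with the same target have the same source -/
theorem move_inj (h : Mv A.r g mv) (y : X) {s t s' t' : ℤ} {i i' : ι}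
    (e1 : s + pr d (mv (vec d s t +ᵥ y) i).1 = s' + pr d (mv (vec d s' t' +ᵥ y) i').1)
    (e2 : t + pr (!d) (mv (vec d s t +ᵥ y) i).1 = t' + pr (!d) (mv (vec d s' t' +ᵥ y) i').1)
    (e3 : (mv (vec d s t +ᵥ y) i).2 = (mv (vec d s' t' +ᵥ y) i').2) :
    s = s' ∧ t = t' ∧ i = i' := by
  have e : g (vec d s t +ᵥ y, i) = g (vec d s' t' +ᵥ y, i') := by
    rw [h.app, h.app]
    refine Prod.ext ?_ e3
    rw [star_fst, star_fst, ← add_vadd, ← add_vadd, add_vec, add_vec, e1, e2]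
  have e' := g.injective e
  have e4 := vadd_inj (congrArg Prod.fst e')
  refine ⟨?_, ?_, congrArg Prod.snd e'⟩
  · simpa using congrArg (pr d) e4
  · simpa using congrArg (pr (!d)) e4

theorem gm_inj (h : Mv A.r g mv) : Function.Injective (A.gm mv) := by
  rintro ⟨τ, s, t, i⟩ ⟨τ', s', t', i'⟩ e
  simp only [gm, Prod.mk.injEq] at e
  obtain ⟨rfl, e1, e2, e3⟩ := e
  obtain ⟨rfl, rfl, rfl⟩ := A.move_inj h _ e1 e2 e3
  rfl

theorem gp_inj (h : Mv A.r g mv) {k k' : T × ℤ × ZMod A.P × ι}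
    (hk : 2 * (A.r : ℤ) < k.2.1 ∧ k.2.1 < A.W + 4 * A.r)
    (hk' : 2 * (A.r : ℤ) < k'.2.1 ∧ k'.2.1 < A.W + 4 * A.r) (e : A.gp mv k = A.gp mv k') :
    k = k' := by
  obtain ⟨τ, s, t, i⟩ := k
  obtain ⟨τ', s', t', i'⟩ := k'
  simp only [gp, if_pos hk, if_pos hk', Prod.mk.injEq] at e
  obtain ⟨rfl, e1, e2, e3⟩ := e
  simp only at hk hk'
  have hb := (bd_iff d).1 (h.bd (vec d s (A.ht t) +ᵥ A.yy τ) i)
  have hb' := (bd_iff d).1 (h.bd (vec d s' (A.ht t') +ᵥ A.yy τ) i')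
  set b := pr (!d) (mv (vec d s (A.ht t) +ᵥ A.yy τ) i).1 with hbdef
  set b' := pr (!d) (mv (vec d s' (A.ht t') +ᵥ A.yy τ) i').1 with hbdef'
  have l1 : (A.W : ℤ) + 10 * A.r + 3 * A.P ≤ A.ht t := le_lift _ _
  have l2 : A.ht t < (A.W : ℤ) + 10 * A.r + 3 * A.P + A.P := lift_lt _ _
  have l3 : (A.W : ℤ) + 10 * A.r + 3 * A.P ≤ A.ht t' := le_lift _ _
  have l4 : A.ht t' < (A.W : ℤ) + 10 * A.r + 3 * A.P + A.P := lift_lt _ _
  have hP := A.hP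
  have hN := A.hN
  have hQ := A.hQ
  have hc : ((A.ht t + b - b' : ℤ) : ZMod A.P) = t' := by
    push_cast
    rw [show ((A.ht t : ℤ) : ZMod A.P) = t from lift_cast _ _, e2]; ring
  have hag : Agree A.r (vec d s' (A.ht t + b - b') +ᵥ A.yy τ) (vec d s' (A.ht t') +ᵥ A.yy τ) := by
    refine A.agreeB (A.yy1 τ) (A.yy2 τ) (A.yy1 τ) (A.yy2 τ) rfl hk'.1 (by omega) (by omega)
      (by omega) (by omega) ?_
    rw [← ZMod.intCast_eq_intCast_iff_dvd_sub, hc]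
    exact lift_cast _ _
  have hm := h.loc _ _ i' hag
  obtain ⟨rfl, e4, rfl⟩ := A.move_inj h (A.yy τ) (s := s) (t := A.ht t) (s' := s')
    (t' := A.ht t + b - b') (i := i) (i' := i') (by rw [hm]; exact e1)
    (by rw [hm, ← hbdef, ← hbdef']; ring) (by rw [hm]; exact e3)
  rw [← e4, show ((A.ht t : ℤ) : ZMod A.P) = t from lift_cast _ _] at hc
  rw [hc]

theorem sOf_rep (x : X) : A.c.rep x (A.sOf x) := A.c.win_rep _ _
theorem tOf_rep (x : X) : A.c'.rep x (A.tOf x) := A.c'.win_rep _ _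
theorem uOf_rep (x : X) : A.c'.rep x (A.uOf x) := A.c'.win_rep _ _
theorem sOf_bd (x : X) : -((A.L : ℤ) / 2) ≤ A.sOf x ∧ A.sOf x < -((A.L : ℤ) / 2) + A.L :=
  ⟨A.c.le_win _ _, A.c.win_lt _ _⟩
theorem tOf_bd (x : X) : 0 ≤ A.tOf x ∧ A.tOf x < A.Q :=
  ⟨A.c'.le_win _ _, by have := A.c'.win_lt 0 x; unfold tOf; omega⟩
theorem uOf_bd (x : X) : -((A.Q : ℤ) / 2) ≤ A.uOf x ∧ A.uOf x < -((A.Q : ℤ) / 2) + A.Q :=
  ⟨A.c'.le_win _ _, A.c'.win_lt _ _⟩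

theorem sOf_shift (x : X) {z : V} (hz : Bd A.r z) :
    A.sOf (z +ᵥ x) = A.sOf x + pr d z ∨
    (A.sOf (z +ᵥ x) = A.sOf x + pr d z - A.L ∧ -((A.L : ℤ) / 2) + A.L ≤ A.sOf x + pr d z) ∨
    (A.sOf (z +ᵥ x) = A.sOf x + pr d z + A.L ∧ A.sOf x + pr d z < -((A.L : ℤ) / 2)) := by
  have h1 := A.c.shift z (A.sOf_rep x)
  have h2 := A.sOf_bd x
  have hP := A.hP
  have hQ := A.hQ
  have hL := A.hL
  rw [bd_iff d] at hz
  by_cases a1 : -((A.L : ℤ) / 2) + A.L ≤ A.sOf x + pr d z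
  · exact Or.inr (Or.inl ⟨A.c.win_eq (A.c.sub_L h1) (by omega) (by omega), a1⟩)
  by_cases a2 : A.sOf x + pr d z < -((A.L : ℤ) / 2)
  · exact Or.inr (Or.inr ⟨A.c.win_eq (A.c.add_L h1) (by omega) (by omega), a2⟩)
  exact Or.inl (A.c.win_eq h1 (by omega) (by omega))

theorem uOf_shift (x : X) {z : V} (hz : Bd A.r z) :
    A.uOf (z +ᵥ x) = A.uOf x + pr (!d) z ∨
    (A.uOf (z +ᵥ x) = A.uOf x + pr (!d) z - A.Q ∧ -((A.Q : ℤ) / 2) + A.Q ≤ A.uOf x + pr (!d) z) ∨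
    (A.uOf (z +ᵥ x) = A.uOf x + pr (!d) z + A.Q ∧ A.uOf x + pr (!d) z < -((A.Q : ℤ) / 2)) := by
  have h1 := A.c'.shift z (A.uOf_rep x)
  have h2 := A.uOf_bd x
  have hP := A.hP
  have hQ := A.hQ
  rw [bd_iff d] at hz
  by_cases a1 : -((A.Q : ℤ) / 2) + A.Q ≤ A.uOf x + pr (!d) z
  · exact Or.inr (Or.inl ⟨A.c'.win_eq (A.c'.sub_L h1) (by omega) (by omega), a1⟩)
  by_cases a2 : A.uOf x + pr (!d) z < -((A.Q : ℤ) / 2)
  · exact Or.inr (Or.inr ⟨A.c'.win_eq (A.c'.add_L h1) (by omega) (by omega), a2⟩)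
  exact Or.inl (A.c'.win_eq h1 (by omega) (by omega))

theorem uOf_tOf (x : X) : A.uOf x = A.tOf x ∨ A.uOf x = A.tOf x - A.Q := by
  have h2 := A.tOf_bd x
  by_cases a : A.tOf x < -((A.Q : ℤ) / 2) + A.Q
  · exact Or.inl (A.c'.win_eq (A.tOf_rep x) (by omega) a)
  · exact Or.inr (A.c'.win_eq (A.c'.sub_L (A.tOf_rep x)) (by omega) (by omega))

omit [Good X] in
theorem base_shift (x : X) (z : V) (s t : ℤ) :
    vec d (-(s + pr d z)) (-(t + pr (!d) z)) +ᵥ (z +ᵥ x) = vec d (-s) (-t) +ᵥ x := by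
  rw [← add_vadd]
  congr 1
  refine ext_pr d ?_ ?_ <;> simp

/-- in the central box the mask class moves correctly -/
theorem gm_cm (h : Mv A.r g mv) (x : X) (i : ι)
    (hs : A.sOf ((mv x i).1 +ᵥ x) = A.sOf x + pr d (mv x i).1)
    (h1 : 2 * (|A.sOf x| + A.r) < A.Q) (h2 : 2 * (|A.uOf x| + A.r) < A.Q) :
    A.gm mv (A.cm (x, i)) = A.cm (g (x, i)) := by
  obtain ⟨b1, b2⟩ := A.base_rep (A.sOf_rep x) (A.uOf_rep x)
  have hag := A.agreeA (A.yy1 _) (A.yy2 _) b1 b2 (A.yy3 _ b1 b2) h1.le h2.le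
  rw [vec_base] at hag
  have hm := h.loc _ _ i hag
  have hb := (bd_iff d).1 (h.bd x i)
  have hu : A.uOf ((mv x i).1 +ᵥ x) = A.uOf x + pr (!d) (mv x i).1 := by
    have := abs_le.1 (le_refl |A.uOf x|)
    rcases A.uOf_shift x (h.bd x i) with e | e | e
    · exact e
    · omega
    · omega
  rw [h.app]
  simp only [gm, cm, hm, star_fst, star_snd, hs, hu, base_shift]

/-- in the periodic range the periodic class moves correctly -/
theorem gp_cp (h : Mv A.r g mv) (x : X) (i : ι)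
    (hs : A.sOf ((mv x i).1 +ᵥ x) = A.sOf x + pr d (mv x i).1)
    (h1 : 2 * (A.r : ℤ) < A.sOf x ∧ A.sOf x < A.W + 4 * A.r)
    (h2 : A.sOf x + 2 * A.r + 3 * A.P < A.tOf x) (h3 : A.tOf x + A.r + 3 * A.P < A.Q) :
    A.gp mv (A.cp (x, i)) = A.cp (g (x, i)) := by
  obtain ⟨b1, b2⟩ := A.base_rep (A.sOf_rep x) (A.tOf_rep x)
  have l1 : (A.W : ℤ) + 10 * A.r + 3 * A.P ≤ A.ht (A.tOf x : ZMod A.P) := le_lift _ _
  have l2 : A.ht (A.tOf x : ZMod A.P) < (A.W : ℤ) + 10 * A.r + 3 * A.P + A.P := lift_lt _ _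
  have hP := A.hP
  have hN := A.hN
  have hQ := A.hQ
  have hag := A.agreeB (A.yy1 _) (A.yy2 _) b1 b2 (A.yy3 _ b1 b2) (s := A.sOf x)
    (t := A.ht (A.tOf x : ZMod A.P)) (t' := A.tOf x) h1.1 (by omega) h2 (by omega) h3 (by
      rw [← ZMod.intCast_eq_intCast_iff_dvd_sub]
      exact (lift_cast _ _).symm)
  rw [vec_base] at hag
  have hm := h.loc _ _ i hag
  have hb := (bd_iff d).1 (h.bd x i)
  have ht : A.tOf ((mv x i).1 +ᵥ x) = A.tOf x + pr (!d) (mv x i).1 :=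
    A.c'.win_eq (A.c'.shift _ (A.tOf_rep x)) (by omega) (by omega)
  rw [h.app]
  have h1' : 2 * (A.r : ℤ) < (A.cp (x, i)).2.1 ∧ (A.cp (x, i)).2.1 < A.W + 4 * A.r := h1
  rw [gp, if_pos h1']
  simp only [cp, hm, star_fst, star_snd, hs, ht, base_shift, Int.cast_add]

/-- the owner offset -/
noncomputable def own (ξ : (T × ℤ × ℤ × ι) ⊕ (T × ℤ × ZMod A.P × ι) → Bool) (ω : X × ι) : ℤ :=
  if ξ (Sum.inl (A.cm ω)) || ξ (Sum.inr (A.cp ω)) then -A.sOf ω.1 else -A.sOf ω.1 - A.L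

theorem own_bd (ξ : (T × ℤ × ℤ × ι) ⊕ (T × ℤ × ZMod A.P × ι) → Bool) (ω : X × ι) :
    |A.own ξ ω| ≤ 2 * A.L := by
  have := A.sOf_bd ω.1
  unfold own
  split_ifs <;> rw [abs_le] <;> omega

theorem own_equiv (h : Mv A.r g mv) (ξ : (T × ℤ × ℤ × ι) ⊕ (T × ℤ × ZMod A.P × ι) → Bool)
    (m0 : ∀ k : T × ℤ × ℤ × ι, max |k.2.1| |k.2.2.1| ≤ (A.W : ℤ) + 10 * A.r + 3 * A.P →
      ξ (Sum.inl k) = true)
    (m1 : ∀ k : T × ℤ × ℤ × ι, (A.N : ℤ) ≤ max |k.2.1| |k.2.2.1| → ξ (Sum.inl k) = false)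
    (p0 : ∀ k : T × ℤ × ZMod A.P × ι, 3 * (A.r : ℤ) + A.W ≤ k.2.1 → ξ (Sum.inr k) = true)
    (p1 : ∀ k : T × ℤ × ZMod A.P × ι, k.2.1 ≤ 3 * (A.r : ℤ) → ξ (Sum.inr k) = false)
    (x : X) (i : ι) :
    pr d (mv x i).1 + A.own ξ (g (x, i)) =
      A.own (ξ ∘ Sum.map (A.gm mv) (A.gp mv)) (x, i) := by
  have hP := A.hP
  have hN := A.hN
  have hQ := A.hQ
  have hL := A.hL
  have hb := (bd_iff d).1 (h.bd x i)
  have hg1 : (g (x, i)).1 = (mv x i).1 +ᵥ x := by rw [h.app]; rfl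
  have hsb := A.sOf_bd x
  have hub := A.uOf_bd x
  have htb := A.tOf_bd x
  have hb2 := (bd_iff d).1 (h.bd (vec d (A.sOf x) (A.uOf x) +ᵥ A.yy (A.cm (x, i)).1) i)
  have gm1 : (A.gm mv (A.cm (x, i))).2.1 = A.sOf x +
    pr d (mv (vec d (A.sOf x) (A.uOf x) +ᵥ A.yy (A.cm (x, i)).1) i).1 := rfl
  have gm2 : (A.gm mv (A.cm (x, i))).2.2.1 = A.uOf x +
    pr (!d) (mv (vec d (A.sOf x) (A.uOf x) +ᵥ A.yy (A.cm (x, i)).1) i).1 := rfl
  have cm1 : (A.cm (g (x, i))).2.1 = A.sOf ((mv x i).1 +ᵥ x) := by rw [← hg1]; rfl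
  have cm2 : (A.cm (g (x, i))).2.2.1 = A.uOf ((mv x i).1 +ᵥ x) := by rw [← hg1]; rfl
  have cp1 : (A.cp (g (x, i))).2.1 = A.sOf ((mv x i).1 +ᵥ x) := by rw [← hg1]; rfl
  have cp0 : (A.cp (x, i)).2.1 = A.sOf x := rfl
  have gpid : ¬ (2 * (A.r : ℤ) < A.sOf x ∧ A.sOf x < A.W + 4 * A.r) →
      A.gp mv (A.cp (x, i)) = A.cp (x, i) := fun hn => by rw [gp, if_neg (by rw [cp0]; exact hn)]
  simp only [own, Function.comp, Sum.map_inl, Sum.map_inr, hg1]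
  rcases A.sOf_shift x (h.bd x i) with hs | ⟨hs, hs'⟩ | ⟨hs, hs'⟩
  · -- no wrap-around
    have em : ξ (Sum.inl (A.cm (g (x, i)))) = ξ (Sum.inl (A.gm mv (A.cm (x, i)))) := by
      by_cases hc : 2 * (|A.sOf x| + A.r) < A.Q ∧ 2 * (|A.uOf x| + A.r) < A.Q
      · rw [A.gm_cm h x i hs hc.1 hc.2]
      · rw [m1, m1]
        · rw [gm1, gm2, le_max_iff, le_abs, le_abs]
          rcases abs_cases (A.sOf x) with e | e <;> rcases abs_cases (A.uOf x) with e' | e' <;> omega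
        · rw [cm1, cm2, le_max_iff, le_abs, le_abs, hs]
          rcases A.uOf_shift x (h.bd x i) with e0 | e0 | e0 <;>
          rcases abs_cases (A.sOf x) with e | e <;> rcases abs_cases (A.uOf x) with e' | e' <;> omega
    have eb : (ξ (Sum.inl (A.cm (g (x, i)))) || ξ (Sum.inr (A.cp (g (x, i))))) =
        (ξ (Sum.inl (A.gm mv (A.cm (x, i)))) || ξ (Sum.inr (A.gp mv (A.cp (x, i))))) := by
      by_cases h1 : 2 * (A.r : ℤ) < A.sOf x ∧ A.sOf x < A.W + 4 * A.r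
      · by_cases h2 : A.sOf x + 2 * A.r + 3 * A.P < A.tOf x ∧ A.tOf x + A.r + 3 * A.P < A.Q
        · rw [em, A.gp_cp h x i hs h1 h2.1 h2.2]
        · have : ξ (Sum.inl (A.gm mv (A.cm (x, i)))) = true := by
            refine m0 _ ?_
            rw [gm1, gm2, max_le_iff, abs_le, abs_le]
            rcases A.uOf_tOf x with e | e <;> omega
          rw [em, this, Bool.true_or, Bool.true_or]
      · rw [em, gpid h1]
        by_cases h2 : A.sOf x ≤ 2 * (A.r : ℤ)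
        · rw [p1 _ (by rw [cp1]; omega), p1 _ (by rw [cp0]; omega)]
        · rw [p0 _ (by rw [cp1]; omega), p0 _ (by rw [cp0]; omega)]
    rw [eb, hs]
    split_ifs <;> omega
  · -- wrap-around upwards
    rw [gpid (by omega), p0 (A.cp (x, i)) (by rw [cp0]; omega),
      p1 (A.cp (g (x, i))) (by rw [cp1]; omega),
      m1 (A.cm (g (x, i))) (by rw [cm1, le_max_iff, le_abs]; omega)]
    simp only [Bool.or_true, Bool.or_false, if_true, Bool.false_eq_true, if_false]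
    omega
  · -- wrap-around downwards
    rw [gpid (by omega), p1 (A.cp (x, i)) (by rw [cp0]; omega),
      p0 (A.cp (g (x, i))) (by rw [cp1]; omega),
      m1 (A.gm mv (A.cm (x, i))) (by rw [gm1, le_max_iff, le_abs]; omega)]
    simp only [Bool.or_true, Bool.or_false, if_true, Bool.false_eq_true, if_false]
    omega

end Dat

theorem exists_mv (S : Finset (Perm (X × ι))) (hS : ∀ g ∈ S, LocP g) :
    ∃ (r : ℕ) (mv : Perm (X × ι) → X → ι → Pt ι), ∀ g ∈ S, Mv r g (mv g) := by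
  classical
  have h1 : ∀ g : Perm (X × ι), ∃ (r : ℕ) (mv : X → ι → Pt ι), g ∈ S → Mv r g mv := by
    intro g
    by_cases hg : g ∈ S
    · obtain ⟨ρ, hρ⟩ := (hS g hg).disp
      obtain ⟨mv, h1, h2⟩ := hS g hg
      obtain ⟨r, hr⟩ := LocF.uniform h1
      refine ⟨r + ρ, mv, fun _ => ⟨h2, fun x y i hxy => hr i x y (hxy.mono (by omega)), ?_⟩⟩
      intro x i
      obtain ⟨z, hz1, hz2⟩ := hρ (x, i)
      rw [h2, star_fst] at hz2
      rw [vadd_inj hz2]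
      exact hz1.mono (by push_cast; omega)
    · exact ⟨0, fun _ i => (0, i), fun h => absurd h hg⟩
  choose r mv h using h1
  refine ⟨S.sup r, mv, fun g hg => ?_⟩
  have hle : r g ≤ S.sup r := Finset.le_sup hg
  exact ⟨(h g hg).app, fun x y i hxy => (h g hg).loc x y i (hxy.mono hle),
    fun x i => ((h g hg).bd x i).mono (by exact_mod_cast hle)⟩

theorem exists_dat : ∃ (T : Type) (_ : Fintype T), ∀ (d : Bool) (r m K : ℕ), 1 ≤ K →
    ∃ A : Dat X T d, A.r = r ∧ A.W = m * A.P ∧ A.N = K * (A.W + 10 * A.r + 3 * A.P) := by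
  classical
  obtain ⟨T, hT, h⟩ := Good.strips (X := X)
  refine ⟨T, hT, fun d r m K hK => ?_⟩
  obtain ⟨P, Q, L, c, c', typ, h1, h2, h3, h4⟩ := h d (2 * (K * (m + 13)) + 10 + 2 * r + 1)
  have hE : ∃ y, c.rep y 0 ∧ c'.rep y 0 := by
    obtain ⟨x⟩ := Good.nonempty (X := X)
    obtain ⟨s, hs⟩ := c.ex x
    obtain ⟨t, ht⟩ := c'.ex x
    exact ⟨vec d (-s) (-t) +ᵥ x, by simpa using c.shift (vec d (-s) (-t)) hs,
      by simpa using c'.shift (vec d (-s) (-t)) ht⟩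
  have hy : ∀ τ : T, ∃ y, c.rep y 0 ∧ c'.rep y 0 ∧
      ∀ y', c.rep y' 0 → c'.rep y' 0 → typ y' = τ → typ y = τ := by
    intro τ
    by_cases hτ : ∃ y', c.rep y' 0 ∧ c'.rep y' 0 ∧ typ y' = τ
    · obtain ⟨y, a1, a2, a3⟩ := hτ
      exact ⟨y, a1, a2, fun _ _ _ _ => a3⟩
    · obtain ⟨y, a1, a2⟩ := hE
      exact ⟨y, a1, a2, fun y' b1 b2 b3 => absurd ⟨y', b1, b2, b3⟩ hτ⟩
  choose yy y1 y2 y3 using hy
  have hr : 2 * r + 1 ≤ P := by omega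
  have e1 : m * P + 10 * r + 3 * P ≤ (m + 13) * P := by nlinarith
  have e2 : K * (m * P + 10 * r + 3 * P) ≤ K * (m + 13) * P := by
    rw [mul_assoc]; exact Nat.mul_le_mul_left _ e1
  have e3 : 2 * (K * (m + 13) * P) + 10 * P ≤ Q := by
    refine le_trans ?_ h2
    nlinarith
  refine ⟨⟨r, P, Q, L, m * P, K * (m * P + 10 * r + 3 * P), c, c', typ, yy, hr,
    Nat.le_mul_of_pos_left _ hK, by omega, h3, y1, y2, fun y a1 a2 => y3 _ y a1 a2 rfl,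
    fun y y' a1 a2 a3 a4 a5 => (h4 y y' a1 a2 a3 a4 a5).1,
    fun y y' a1 a2 a3 a4 a5 => (h4 y y' a1 a2 a3 a4 a5).2⟩, rfl, rfl, rfl⟩

theorem max_abs_le (s t a b r : ℤ) (ha : -r ≤ a ∧ a ≤ r) (hb : -r ≤ b ∧ b ≤ r) :
    |max |s + a| |t + b| - (max |s| |t|)| ≤ r := by
  rw [abs_le]
  rcases abs_cases (s + a) with e1 | e1 <;> rcases abs_cases (t + b) with e2 | e2 <;>
  rcases abs_cases s with e3 | e3 <;> rcases abs_cases t with e4 | e4 <;> omega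

end Amen3

open Amen3 in
theorem dir_owner (d : Bool) (S : Finset (Perm (X × ι))) (hS : ∀ g ∈ S, LocP g) (ε : ℝ)
    (hε : 0 < ε) : ∃ (C : Type) (θ : C → ℝ) (o : (C → Bool) → X × ι → ℤ) (B : ℤ)
      (γ : Perm (X × ι) → C → C) (D : Perm (X × ι) → Finset C),
      (∀ c, 0 ≤ θ c ∧ θ c ≤ Real.pi / 2) ∧ (Rnd θ).Finite ∧ (∀ ξ ω, |o ξ ω| ≤ B) ∧
      ∀ g ∈ S, Set.InjOn (γ g) (γ g ⁻¹' Rnd θ) ∧ (∀ c, c ∉ D g → θ (γ g c) = θ c) ∧
        ∑ c ∈ D g, (θ (γ g c) - θ c) ^ 2 ≤ ε ∧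
        ∀ ξ, Adm θ ξ → ∀ (ω : X × ι) (z : V), (g ω).1 = z +ᵥ ω.1 →
          pr d z + o ξ (g ω) = o (ξ ∘ γ g) ω := by
  classical
  obtain ⟨r, mv, hmv⟩ := exists_mv S hS
  obtain ⟨T, hT, hdat⟩ := exists_dat (X := X)
  set n : ℝ := (Fintype.card T : ℝ) * (Fintype.card ι : ℝ) with hn
  have hn0 : 0 ≤ n := by positivity
  obtain ⟨K, hK, hmask⟩ := exists_mask_profile r (ε / (2 * (n + 1))) (by positivity)
  obtain ⟨m, hm⟩ := exists_nat_ge (16 * (r : ℝ) ^ 2 * n / ε + 1)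
  have hm0 : (0 : ℝ) ≤ 16 * (r : ℝ) ^ 2 * n / ε := by positivity
  have hm1 : 1 ≤ m := by
    have : (1 : ℝ) ≤ m := by linarith
    exact_mod_cast this
  obtain ⟨A, rfl, hW, hN⟩ := hdat d r m K hK
  have hP := A.hP
  have hWP : A.P ≤ A.W := by rw [hW]; exact Nat.le_mul_of_pos_left _ hm1
  obtain ⟨h1, a1, a2, a3, a4⟩ := hmask (A.W + 10 * A.r + 3 * A.P) (by omega)
  rw [← hN] at a3
  obtain ⟨h2, b1, b2, b3, b4⟩ := exists_strip_profile A.r (3 * A.r) A.W (by omega)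
  let θ : (T × ℤ × ℤ × ι) ⊕ (T × ℤ × ZMod A.P × ι) → ℝ :=
    Sum.elim (fun k => h1 (max |k.2.1| |k.2.2.1|)) (fun k => h2 k.2.1)
  let D1 : Finset (T × ℤ × ℤ × ι) := Finset.univ ×ˢ
    (Finset.Icc (-((A.N : ℤ) + A.r)) (A.N + A.r) ×ˢ
      (Finset.Icc (-((A.N : ℤ) + A.r)) (A.N + A.r) ×ˢ Finset.univ))
  let D2 : Finset (T × ℤ × ZMod A.P × ι) := Finset.univ ×ˢ
    (Finset.Icc (0 : ℤ) (A.W + 4 * A.r) ×ˢ (Finset.univ ×ˢ Finset.univ))
  have mD1 : ∀ k, k ∈ D1 ↔ max |k.2.1| |k.2.2.1| ≤ (A.N : ℤ) + A.r := by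
    intro k
    simp only [D1, Finset.mem_product, Finset.mem_univ, true_and, and_true, Finset.mem_Icc,
      max_le_iff, abs_le]
  have mD2 : ∀ k, k ∈ D2 ↔ 0 ≤ k.2.1 ∧ k.2.1 ≤ (A.W : ℤ) + 4 * A.r := by
    intro k
    simp only [D2, Finset.mem_product, Finset.mem_univ, true_and, and_true, Finset.mem_Icc]
  have hR2 : ∀ k : T × ℤ × ZMod A.P × ι, Sum.inr k ∈ Rnd θ →
      3 * (A.r : ℤ) < k.2.1 ∧ k.2.1 < 3 * A.r + A.W := by
    intro k hk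
    exact ⟨lt_of_not_ge (fun h => hk.2 (b2 _ h)), lt_of_not_ge (fun h => hk.1 (b3 _ h))⟩
  refine ⟨_, θ, A.own, 2 * A.L, fun g => Sum.map (A.gm (mv g)) (A.gp (mv g)),
    fun _ => D1.disjSum D2, ?_, ?_, A.own_bd, fun g hg => ⟨?_, ?_, ?_, ?_⟩⟩
  · rintro (k | k)
    · exact a1 _
    · exact b1 _
  · refine (D1.disjSum D2).finite_toSet.subset ?_
    rintro (k | k) hk
    · have : max |k.2.1| |k.2.2.1| < (A.N : ℤ) := lt_of_not_ge (fun h => hk.2 (a3 _ h))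
      simp only [Finset.mem_coe, Finset.inl_mem_disjSum, mD1]
      omega
    · have := hR2 k hk
      simp only [Finset.mem_coe, Finset.inr_mem_disjSum, mD2]
      omega
  · have hz : ∀ k : T × ℤ × ZMod A.P × ι, Sum.inr (A.gp (mv g) k) ∈ Rnd θ →
        2 * (A.r : ℤ) < k.2.1 ∧ k.2.1 < A.W + 4 * A.r := by
      intro k hk
      by_contra hc
      rw [Dat.gp, if_neg hc] at hk
      have := hR2 k hk
      omega
    rintro (k | k) hk (k' | k') hk' e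
    · exact congrArg Sum.inl (A.gm_inj (hmv g hg) (Sum.inl_injective e))
    · exact absurd e Sum.inl_ne_inr
    · exact absurd e Sum.inr_ne_inl
    · exact congrArg Sum.inr (A.gp_inj (hmv g hg) (hz k hk) (hz k' hk') (Sum.inr_injective e))
  · rintro (k | k) hk
    · simp only [Finset.inl_mem_disjSum, mD1, not_le] at hk
      have hb := (bd_iff d).1 ((hmv g hg).bd (vec d k.2.1 k.2.2.1 +ᵥ A.yy k.1) k.2.2.2)
      have := abs_le.1 (max_abs_le k.2.1 k.2.2.1 _ _ A.r ⟨hb.1, hb.2.1⟩ ⟨hb.2.2.1, hb.2.2.2⟩)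
      change h1 (max |k.2.1 + _| |k.2.2.1 + _|) = h1 (max |k.2.1| |k.2.2.1|)
      rw [a3 _ (by omega), a3 _ (by omega)]
    · simp only [Finset.inr_mem_disjSum, mD2] at hk
      change h2 (A.gp (mv g) k).2.1 = h2 k.2.1
      rw [Dat.gp, if_neg (by omega)]
  · rw [Finset.sum_disjSum]
    have s1 : ∑ k ∈ D1, (h1 (max |(A.gm (mv g) k).2.1| |(A.gm (mv g) k).2.2.1|) -
        h1 (max |k.2.1| |k.2.2.1|)) ^ 2 ≤ n * (ε / (2 * (n + 1))) := by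
      have : ∀ (τ : T) (i : ι), ∑ s ∈ Finset.Icc (-((A.N : ℤ) + A.r)) (A.N + A.r),
          ∑ t ∈ Finset.Icc (-((A.N : ℤ) + A.r)) (A.N + A.r),
          (h1 (max |(A.gm (mv g) (τ, s, t, i)).2.1| |(A.gm (mv g) (τ, s, t, i)).2.2.1|) -
            h1 (max |s| |t|)) ^ 2 ≤ ε / (2 * (n + 1)) := by
        intro τ i
        rw [← Finset.sum_product']
        refine a4 _ (fun z => max |(A.gm (mv g) (τ, z.1, z.2, i)).2.1|
          |(A.gm (mv g) (τ, z.1, z.2, i)).2.2.1|) (fun z _ => ?_)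
        have hb := (bd_iff d).1 ((hmv g hg).bd (vec d z.1 z.2 +ᵥ A.yy τ) i)
        exact max_abs_le z.1 z.2 _ _ A.r ⟨hb.1, hb.2.1⟩ ⟨hb.2.2.1, hb.2.2.2⟩
      simp only [D1, Finset.sum_product]
      calc _ = ∑ τ : T, ∑ i : ι, ∑ s ∈ Finset.Icc (-((A.N : ℤ) + A.r)) (A.N + A.r),
          ∑ t ∈ Finset.Icc (-((A.N : ℤ) + A.r)) (A.N + A.r),
          (h1 (max |(A.gm (mv g) (τ, s, t, i)).2.1| |(A.gm (mv g) (τ, s, t, i)).2.2.1|) -
            h1 (max |s| |t|)) ^ 2 := by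
            refine Finset.sum_congr rfl (fun τ _ => ?_)
            rw [Finset.sum_comm]
            refine (Finset.sum_congr rfl (fun s _ => Finset.sum_comm)).trans ?_
            rw [Finset.sum_comm]
            refine Finset.sum_congr rfl (fun s _ => Finset.sum_comm)
        _ ≤ ∑ τ : T, ∑ i : ι, ε / (2 * (n + 1)) :=
            Finset.sum_le_sum (fun τ _ => Finset.sum_le_sum (fun i _ => this τ i))
        _ = _ := by simp [hn, mul_assoc]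
    have s2 : ∑ k ∈ D2, (h2 (A.gp (mv g) k).2.1 - h2 k.2.1) ^ 2 ≤
        n * (A.P * (4 * (A.r : ℝ) ^ 2 * (A.W + 2 * A.r + 1) / (A.W : ℝ) ^ 2)) := by
      have : ∀ (τ : T) (t : ZMod A.P) (i : ι), ∑ s ∈ Finset.Icc (0 : ℤ) (A.W + 4 * A.r),
          (h2 (A.gp (mv g) (τ, s, t, i)).2.1 - h2 s) ^ 2 ≤
          4 * (A.r : ℝ) ^ 2 * (A.W + 2 * A.r + 1) / (A.W : ℝ) ^ 2 := by
        intro τ t i
        refine b4 _ (fun s => (A.gp (mv g) (τ, s, t, i)).2.1) (fun s _ => ?_)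
        have hb := (bd_iff d).1 ((hmv g hg).bd (vec d s (A.ht t) +ᵥ A.yy τ) i)
        unfold Dat.gp
        split_ifs
        · simp only [add_sub_cancel_left]
          exact abs_le.2 ⟨hb.1, hb.2.1⟩
        · simp
      simp only [D2, Finset.sum_product]
      calc _ = ∑ τ : T, ∑ t : ZMod A.P, ∑ i : ι, ∑ s ∈ Finset.Icc (0 : ℤ) (A.W + 4 * A.r),
          (h2 (A.gp (mv g) (τ, s, t, i)).2.1 - h2 s) ^ 2 := by
            refine Finset.sum_congr rfl (fun τ _ => ?_)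
            rw [Finset.sum_comm]
            exact Finset.sum_congr rfl (fun s _ => Finset.sum_comm)
        _ ≤ ∑ τ : T, ∑ t : ZMod A.P, ∑ i : ι,
            4 * (A.r : ℝ) ^ 2 * (A.W + 2 * A.r + 1) / (A.W : ℝ) ^ 2 :=
            Finset.sum_le_sum (fun τ _ => Finset.sum_le_sum (fun t _ =>
              Finset.sum_le_sum (fun i _ => this τ t i)))
        _ = _ := by simp [hn, ZMod.card]; ring
    have s3 : n * (ε / (2 * (n + 1))) ≤ ε / 2 := by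
      rw [← mul_div_assoc, div_le_div_iff₀ (by positivity) (by positivity)]
      nlinarith
    have s4 : n * (A.P * (4 * (A.r : ℝ) ^ 2 * (A.W + 2 * A.r + 1) / (A.W : ℝ) ^ 2)) ≤ ε / 2 := by
      have p0 : (0 : ℝ) < A.P := by exact_mod_cast (by omega : 0 < A.P)
      have m0 : (0 : ℝ) < m := by exact_mod_cast hm1
      have w0 : (A.W : ℝ) = m * A.P := by exact_mod_cast hW
      have w1 : (A.W : ℝ) + 2 * A.r + 1 ≤ 2 * A.W := by
        exact_mod_cast (by omega : A.W + 2 * A.r + 1 ≤ 2 * A.W)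
      have w2 : 4 * (A.r : ℝ) ^ 2 * (A.W + 2 * A.r + 1) / (A.W : ℝ) ^ 2 ≤
          4 * (A.r : ℝ) ^ 2 * (2 * A.W) / (A.W : ℝ) ^ 2 := by gcongr
      have w3 : (A.P : ℝ) * (4 * (A.r : ℝ) ^ 2 * (2 * A.W) / (A.W : ℝ) ^ 2) =
          8 * (A.r : ℝ) ^ 2 / m := by
        rw [w0]; field_simp; ring
      have w4 : 16 * (A.r : ℝ) ^ 2 * n ≤ m * ε := by
        rw [← div_le_iff₀ hε]; linarith
      calc _ ≤ n * (A.P * (4 * (A.r : ℝ) ^ 2 * (2 * A.W) / (A.W : ℝ) ^ 2)) := by gcongr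
        _ = n * (8 * (A.r : ℝ) ^ 2 / m) := by rw [w3]
        _ ≤ ε / 2 := by
          rw [← mul_div_assoc, div_le_div_iff₀ m0 (by positivity)]
          nlinarith
    have := add_le_add (s1.trans s3) (s2.trans s4)
    refine le_trans (le_of_eq rfl) (this.trans (le_of_eq (by ring)))
  · rintro ξ hξ ⟨x, i⟩ z hz
    have e : z = (mv g x i).1 := by
      rw [(hmv g hg).app, star_fst] at hz
      exact (vadd_inj hz).symm
    rw [e]
    exact A.own_equiv (hmv g hg) ξ (fun k hk => (hξ (Sum.inl k)).1 (a2 _ (by push_cast; exact hk)))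
      (fun k hk => (hξ (Sum.inl k)).2 (a3 _ hk)) (fun k hk => (hξ (Sum.inr k)).1 (b3 _ hk))
      (fun k hk => (hξ (Sum.inr k)).2 (b2 _ hk)) x i

end Crest.Agent.R189
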