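import Crest.Agent.R189.Amen3

/-! # Row 189: groups of local permutations are amenable -/

set_option autoImplicit false
set_option linter.unusedSectionVars false

namespace Crest.Agent.R189
open Equiv

variable {X ι : Type} [Shift X] [Good X] [Fintype ι]

theorem Amen4.finite_closure (G : Subgroup (Perm (X × ι))) (lam : X × ι → X) (B : ℤ)
    (hlam : ∀ ω, ∃ z, Bd B z ∧ lam ω = z +ᵥ ω.1) (T : Finset G)
    (hT : ∀ t ∈ T, ∀ ω, lam ((t : Perm (X × ι)) ω) = lam ω) :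
    Finite (Subgroup.closure (T : Set G)) := by
  let pt : box B × ι → Pt ι := fun f => (f.1.1, f.2)
  have hpt : ∀ (y : X) (f f' : box B × ι), y ⋆ pt f = y ⋆ pt f' → f = f' := by
    intro y f f' h
    have h1 := star_inj h
    simp only [pt, Prod.mk.injEq] at h1
    exact Prod.ext (Subtype.ext h1.1) h1.2
  have hfib : ∀ (y : X) (ω : X × ι), lam ω = y → ∃ f : box B × ι, ω = y ⋆ pt f := by
    intro y ω h
    obtain ⟨z, hz1, hz2⟩ := hlam ω
    refine ⟨(⟨-z, mem_box.2 hz1.neg⟩, ω.2), Prod.ext ?_ rfl⟩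
    rw [← h, hz2]
    simp [pt, ← add_vadd]
  let δ : X → (T → box B × ι → box B × ι → Prop) := fun y t f f' =>
    ((t.1 : G) : Perm (X × ι)) (y ⋆ pt f) = y ⋆ pt f'
  have key : ∀ g ∈ Subgroup.closure (T : Set G), (∀ ω, lam ((g : Perm (X × ι)) ω) = lam ω) ∧
      ∀ y y', δ y = δ y' → ∀ f f', lam (y ⋆ pt f) = y → (g : Perm (X × ι)) (y ⋆ pt f) = y ⋆ pt f' →
        (g : Perm (X × ι)) (y' ⋆ pt f) = y' ⋆ pt f' := by
    intro g hg
    induction hg using Subgroup.closure_induction with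
    | mem t ht =>
      refine ⟨hT t ht, fun y y' h f f' _ h2 => ?_⟩
      have h3 : δ y ⟨t, ht⟩ f f' = δ y' ⟨t, ht⟩ f f' := by rw [h]
      exact h3.mp h2
    | one =>
      refine ⟨fun _ => rfl, fun y y' _ f f' _ h2 => ?_⟩
      rw [hpt y f f' h2]
      rfl
    | mul g h _ _ ihg ihh =>
      refine ⟨fun ω => ?_, fun y y' hy f f' h1 h2 => ?_⟩
      · rw [Subgroup.coe_mul, Perm.mul_apply, ihg.1, ihh.1]
      · rw [Subgroup.coe_mul, Perm.mul_apply] at h2 ⊢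
        obtain ⟨f'', hf''⟩ := hfib y ((h : Perm (X × ι)) (y ⋆ pt f)) (by rw [ihh.1, h1])
        rw [ihh.2 y y' hy f f'' h1 hf'']
        refine ihg.2 y y' hy f'' f' ?_ ?_
        · rw [← hf'', ihh.1, h1]
        · rw [← hf'', h2]
    | inv g _ ih =>
      have h0 : ∀ ω, lam (((g⁻¹ : G) : Perm (X × ι)) ω) = lam ω := by
        intro ω
        rw [← ih.1 (((g⁻¹ : G) : Perm (X × ι)) ω)]
        simp
      refine ⟨h0, fun y y' hy f f' h1 h2 => ?_⟩
      have h3 : lam (y ⋆ pt f') = y := by rw [← h2, h0, h1]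
      rw [Subgroup.coe_inv, Perm.inv_eq_iff_eq] at h2 ⊢
      exact (ih.2 y y' hy f' f h3 h2.symm).symm
  let Φ : Subgroup.closure (T : Set G) →
      ((T → box B × ι → box B × ι → Prop) → box B × ι → box B × ι → Prop) :=
    fun g d f f' => ∃ y, δ y = d ∧ lam (y ⋆ pt f) = y ∧
      ((g.1 : G) : Perm (X × ι)) (y ⋆ pt f) = y ⋆ pt f'
  refine Finite.of_injective Φ (fun g g' h => ?_)
  refine Subtype.ext (Subtype.ext (Equiv.ext fun ω => ?_))
  obtain ⟨f, hf⟩ := hfib _ ω rfl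
  obtain ⟨f', hf'⟩ := hfib (lam ω) (((g.1 : G) : Perm (X × ι)) ω) ((key g.1 g.2).1 ω)
  have h1 : Φ g (δ (lam ω)) f f' := ⟨lam ω, rfl, by rw [← hf], by rw [← hf, hf']⟩
  rw [h] at h1
  obtain ⟨y', h2, h3, h4⟩ := h1
  have h5 := (key g'.1 g'.2).2 y' (lam ω) h2 f f' h3 h4
  rw [← hf] at h5
  rw [h5, hf']

theorem amenable_of_locP (G : Subgroup (Perm (X × ι))) (hG : ∀ g ∈ G, LocP g) :
    Crest.GroupTheory.Amenable G := by
  classical
  letI : MulAction G (X × ι → X) := arrowAction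
  have hsmul : ∀ (g : G) (lam : X × ι → X) (ω : X × ι),
      (g • lam) ω = lam (((g : Perm (X × ι)))⁻¹ ω) := fun _ _ _ => rfl
  refine amenable_of_reiter (Y := X × ι → X) (fun S ε hε => ?_)
  have hS : ∀ g ∈ S.image (fun s : G => (s : Perm (X × ι))⁻¹), LocP g := by
    intro g hg
    obtain ⟨s, _, rfl⟩ := Finset.mem_image.1 hg
    exact hG _ (G.inv_mem s.2)
  have hε' : 0 < ε ^ 2 / 8 := by positivity
  obtain ⟨C1, θ1, o1, B1, γ1, D1, h11, h12, h13, h14⟩ := dir_owner true _ hS _ hε'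
  obtain ⟨C2, θ2, o2, B2, γ2, D2, h21, h22, h23, h24⟩ := dir_owner false _ hS _ hε'
  let θ : C1 ⊕ C2 → ℝ := Sum.elim θ1 θ2
  have hθ : ∀ c, 0 ≤ θ c ∧ θ c ≤ Real.pi / 2 := by
    rintro (c | c)
    · exact h11 c
    · exact h21 c
  have hfin : (Rnd θ).Finite := by
    refine ((h12.image Sum.inl).union (h22.image Sum.inr)).subset ?_
    rintro (c | c) hc
    · exact Or.inl ⟨c, hc, rfl⟩
    · exact Or.inr ⟨c, hc, rfl⟩
  obtain ⟨Ξ, hΞ, p, ext, hp0, hp1, hadm, hest⟩ := exists_angle_measure θ hθ hfin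
  let lam : (C1 ⊕ C2 → Bool) → X × ι → X := fun ξ ω =>
    ((o1 (ξ ∘ Sum.inl) ω, o2 (ξ ∘ Sum.inr) ω) : V) +ᵥ ω.1
  refine ⟨Ξ, hΞ, p, fun ξ => lam (ext ξ), hp0, hp1, fun ξ T hT => ?_, fun s hs F hF => ?_⟩
  · refine Amen4.finite_closure G (lam (ext ξ)) (max B1 B2) (fun ω => ⟨_, ?_, rfl⟩) T
      (fun t ht ω => ?_)
    · have e1 := abs_le.1 (h13 (ext ξ ∘ Sum.inl) ω)
      have e2 := abs_le.1 (h23 (ext ξ ∘ Sum.inr) ω)
      unfold Bd
      simp only
      omega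
    · have e1 : t • lam (ext ξ) = lam (ext ξ) := hT t ht
      have e2 := hsmul t (lam (ext ξ)) ((t : Perm (X × ι)) ω)
      rw [e1] at e2
      simpa using e2
  · have hg : (s : Perm (X × ι))⁻¹ ∈ S.image (fun s : G => (s : Perm (X × ι))⁻¹) :=
      Finset.mem_image_of_mem _ hs
    obtain ⟨a1, a2, a3, a4⟩ := h14 _ hg
    obtain ⟨b1, b2, b3, b4⟩ := h24 _ hg
    obtain ⟨ρ, hρ⟩ := (hS _ hg).disp
    let γ : C1 ⊕ C2 → C1 ⊕ C2 := Sum.map (γ1 (s : Perm (X × ι))⁻¹) (γ2 (s : Perm (X × ι))⁻¹)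
    have hact : ∀ ξ, s • lam (ext ξ) = lam (ext ξ ∘ γ) := by
      intro ξ
      funext ω
      obtain ⟨z, -, hz⟩ := hρ ω
      have e1 := a4 (ext ξ ∘ Sum.inl) (fun c => hadm ξ (Sum.inl c)) ω z hz
      have e2 := b4 (ext ξ ∘ Sum.inr) (fun c => hadm ξ (Sum.inr c)) ω z hz
      rw [hsmul]
      simp only [lam]
      rw [hz, ← add_vadd]
      congr 1
      refine Prod.ext ?_ ?_
      · exact (add_comm _ _).trans e1
      · exact (add_comm _ _).trans e2
    have hinj : Set.InjOn γ (γ ⁻¹' Rnd θ) := by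
      rintro (c | c) hc (c' | c') hc' h
      · exact congrArg Sum.inl (a1 hc hc' (Sum.inl_injective h))
      · exact absurd h Sum.inl_ne_inr
      · exact absurd h Sum.inr_ne_inl
      · exact congrArg Sum.inr (b1 hc hc' (Sum.inr_injective h))
    have h1 := hest γ ((D1 (s : Perm (X × ι))⁻¹).disjSum (D2 (s : Perm (X × ι))⁻¹)) hinj (by
      rintro (c | c) hc
      · exact a2 c (by simpa using hc)
      · exact b2 c (by simpa using hc)) (fun ξ => F (lam ξ)) (fun ξ => hF _)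
    simp only [hact]
    refine h1.trans ?_
    rw [Finset.sum_disjSum]
    have h2 : Real.sqrt (∑ c ∈ D1 (s : Perm (X × ι))⁻¹, (θ (γ (Sum.inl c)) - θ (Sum.inl c)) ^ 2 +
        ∑ c ∈ D2 (s : Perm (X × ι))⁻¹, (θ (γ (Sum.inr c)) - θ (Sum.inr c)) ^ 2) ≤ ε / 2 := by
      refine Real.sqrt_le_iff.2 ⟨by positivity, ?_⟩
      have := add_le_add a3 b3
      refine le_trans this (le_of_eq (by ring))
    linarith

end Crest.Agent.R189
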