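import Crest.Agent.R189.QL

/-! # Row 189: shifts, local sets and functions, coordinates, the interface `Good` -/

set_option autoImplicit false
set_option linter.unusedSectionVars false

namespace Crest.Agent.R189

abbrev V := ℤ × ℤ

/-- sup-norm bound -/
def Bd (r : ℤ) (z : V) : Prop := -r ≤ z.1 ∧ z.1 ≤ r ∧ -r ≤ z.2 ∧ z.2 ≤ r

/-- `vec d s t` has coordinate `s` in direction `d` (`true` = horizontal) and `t` in the other -/
def vec (d : Bool) (s t : ℤ) : V := match d with
  | true => (s, t)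
  | false => (t, s)

/-- coordinate in direction `d` -/
def pr (d : Bool) (z : V) : ℤ := match d with
  | true => z.1
  | false => z.2

@[simp] theorem vec_true (s t : ℤ) : vec true s t = (s, t) := rfl
@[simp] theorem vec_false (s t : ℤ) : vec false s t = (t, s) := rfl
@[simp] theorem pr_true (z : V) : pr true z = z.1 := rfl
@[simp] theorem pr_false (z : V) : pr false z = z.2 := rfl
@[simp] theorem pr_vec (d : Bool) (s t : ℤ) : pr d (vec d s t) = s := by cases d <;> rfl
@[simp] theorem pr_not_vec (d : Bool) (s t : ℤ) : pr (!d) (vec d s t) = t := by cases d <;> rfl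
theorem vec_pr (d : Bool) (z : V) : vec d (pr d z) (pr (!d) z) = z := by cases d <;> rfl
theorem vec_add (d : Bool) (s t s' t' : ℤ) : vec d s t + vec d s' t' = vec d (s + s') (t + t') := by
  cases d <;> rfl
theorem vec_neg (d : Bool) (s t : ℤ) : - vec d s t = vec d (-s) (-t) := by cases d <;> rfl
@[simp] theorem vec_zero (d : Bool) : vec d 0 0 = 0 := by cases d <;> rfl
@[simp] theorem pr_add (d : Bool) (z w : V) : pr d (z + w) = pr d z + pr d w := by cases d <;> rfl
@[simp] theorem pr_neg (d : Bool) (z : V) : pr d (-z) = - pr d z := by cases d <;> rfl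
@[simp] theorem pr_sub (d : Bool) (z w : V) : pr d (z - w) = pr d z - pr d w := by cases d <;> rfl
@[simp] theorem pr_zero (d : Bool) : pr d 0 = 0 := by cases d <;> rfl
theorem ext_pr (d : Bool) {z w : V} (h1 : pr d z = pr d w) (h2 : pr (!d) z = pr (!d) w) : z = w := by
  rw [← vec_pr d z, h1, h2, vec_pr]
theorem bd_iff (d : Bool) {r : ℤ} {z : V} :
    Bd r z ↔ -r ≤ pr d z ∧ pr d z ≤ r ∧ -r ≤ pr (!d) z ∧ pr (!d) z ≤ r := by
  cases d <;> simp [Bd]; tauto
theorem Bd.mono {r s : ℤ} {z : V} (h : Bd r z) (hrs : r ≤ s) : Bd s z := by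
  unfold Bd at *; omega
theorem Bd.add {r s : ℤ} {z w : V} (h : Bd r z) (h' : Bd s w) : Bd (r + s) (z + w) := by
  unfold Bd at *; simp only [Prod.fst_add, Prod.snd_add]; omega
theorem Bd.neg {r : ℤ} {z : V} (h : Bd r z) : Bd r (-z) := by
  unfold Bd at *; simp only [Prod.fst_neg, Prod.snd_neg]; omega
theorem Bd.sub {r s : ℤ} {z w : V} (h : Bd r z) (h' : Bd s w) : Bd (r + s) (z - w) := by
  unfold Bd at *; simp only [Prod.fst_sub, Prod.snd_sub]; omega
theorem Bd.zero {r : ℤ} (h : 0 ≤ r) : Bd r 0 := by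
  unfold Bd; simp only [Prod.fst_zero, Prod.snd_zero]; omega
theorem Bd.nonneg {r : ℤ} {z : V} (h : Bd r z) : 0 ≤ r := by unfold Bd at h; omega
theorem exists_bd (z : V) : ∃ r : ℕ, Bd r z :=
  ⟨z.1.natAbs + z.2.natAbs, by unfold Bd; omega⟩
theorem exists_bd_finset (s : Finset V) : ∃ r : ℕ, ∀ z ∈ s, Bd r z := by
  classical
  induction s using Finset.induction_on with
  | empty => exact ⟨0, by simp⟩
  | insert a s _ ih =>
    obtain ⟨r, hr⟩ := ih
    obtain ⟨r', hr'⟩ := exists_bd a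
    refine ⟨r + r', fun z hz => ?_⟩
    rcases Finset.mem_insert.1 hz with rfl | hz
    · exact hr'.mono (by omega)
    · exact (hr z hz).mono (by omega)

/-- the box of radius `r` -/
noncomputable def box (r : ℤ) : Finset V := Finset.Icc (-r) r ×ˢ Finset.Icc (-r) r
theorem mem_box {r : ℤ} {z : V} : z ∈ box r ↔ Bd r z := by
  simp [box, Bd, and_assoc]
theorem finite_bd (r : ℤ) : {z : V | Bd r z}.Finite :=
  (box r).finite_toSet.subset (fun _ hz => mem_box.2 hz)

/-- A `ℤ²`-set with an observation map to a finite alphabet. -/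
class Shift (X : Type) extends AddAction V X where
  A : Type
  finA : Finite A
  obs : X → A

export Shift (obs)

attribute [instance] Shift.finA

section
variable {X : Type} [Shift X]

/-- the patterns of radius `r` coincide -/
def Agree (r : ℕ) (x y : X) : Prop := ∀ u, Bd r u → obs (u +ᵥ x) = obs (u +ᵥ y)

theorem Agree.refl (r : ℕ) (x : X) : Agree r x x := fun _ _ => rfl
theorem Agree.symm {r : ℕ} {x y : X} (h : Agree r x y) : Agree r y x := fun u hu => (h u hu).symm
theorem Agree.trans {r : ℕ} {x y z : X} (h : Agree r x y) (h' : Agree r y z) : Agree r x z :=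
  fun u hu => (h u hu).trans (h' u hu)
theorem Agree.mono {r s : ℕ} {x y : X} (h : Agree s x y) (hrs : r ≤ s) : Agree r x y :=
  fun u hu => h u (hu.mono (by omega))
theorem Agree.shift {r s : ℕ} {k : ℤ} {x y : X} (h : Agree s x y) {z : V} (hz : Bd k z)
    (hrs : r + k ≤ s) : Agree r (z +ᵥ x) (z +ᵥ y) := by
  intro u hu
  rw [← add_vadd, ← add_vadd]
  exact h _ ((hu.add hz).mono hrs)

/-- a function depending only on a bounded pattern -/
def LocF {β : Type} (f : X → β) : Prop := ∃ r : ℕ, ∀ x y, Agree r x y → f x = f y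

/-- a local (clopen) set -/
def Loc (U : Set X) : Prop := ∃ r : ℕ, ∀ x y, Agree r x y → x ∈ U → y ∈ U

/-- `sh z U = U - z` -/
def sh (z : V) (U : Set X) : Set X := {x | z +ᵥ x ∈ U}

@[simp] theorem mem_sh {z : V} {U : Set X} {x : X} : x ∈ sh z U ↔ z +ᵥ x ∈ U := Iff.rfl
@[simp] theorem sh_zero (U : Set X) : sh 0 U = U := by ext x; simp
theorem sh_sh (z w : V) (U : Set X) : sh z (sh w U) = sh (w + z) U := by
  ext x; simp [add_vadd]
theorem sh_union (z : V) (U U' : Set X) : sh z (U ∪ U') = sh z U ∪ sh z U' := rfl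
theorem sh_inter (z : V) (U U' : Set X) : sh z (U ∩ U') = sh z U ∩ sh z U' := rfl
theorem sh_compl (z : V) (U : Set X) : sh z Uᶜ = (sh z U)ᶜ := rfl
theorem sh_mono (z : V) {U U' : Set X} (h : U ⊆ U') : sh z U ⊆ sh z U' := fun _ hx => h hx
theorem sh_disjoint (z : V) {U U' : Set X} (h : Disjoint U U') : Disjoint (sh z U) (sh z U') :=
  h.preimage (fun x => z +ᵥ x)

namespace LocF
variable {β γ : Type} {f : X → β} {g : X → γ}

theorem const (b : β) : LocF (fun _ : X => b) := ⟨0, fun _ _ _ => rfl⟩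
theorem comp (h : LocF f) (k : β → γ) : LocF (fun x => k (f x)) :=
  let ⟨r, hr⟩ := h; ⟨r, fun x y hxy => congrArg k (hr x y hxy)⟩
theorem prod (h : LocF f) (h' : LocF g) : LocF (fun x => (f x, g x)) := by
  obtain ⟨r, hr⟩ := h
  obtain ⟨s, hs⟩ := h'
  exact ⟨r + s, fun x y hxy =>
    Prod.ext (hr x y (hxy.mono (by omega))) (hs x y (hxy.mono (by omega)))⟩
theorem comp₂ {δ : Type} (h : LocF f) (h' : LocF g) (k : β → γ → δ) :
    LocF (fun x => k (f x) (g x)) := (h.prod h').comp (fun p => k p.1 p.2)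
theorem shift (h : LocF f) (z : V) : LocF (fun x => f (z +ᵥ x)) := by
  obtain ⟨r, hr⟩ := h
  obtain ⟨k, hk⟩ := exists_bd z
  exact ⟨r + k, fun x y hxy => hr _ _ (hxy.shift hk (by push_cast; omega))⟩
theorem obs_at (z : V) : LocF (fun x : X => obs (z +ᵥ x)) := by
  obtain ⟨k, hk⟩ := exists_bd z
  exact ⟨k, fun x y hxy => hxy z hk⟩
theorem uniform {I : Type} [Finite I] {β : I → Type} {f : ∀ i, X → β i} (h : ∀ i, LocF (f i)) :
    ∃ r : ℕ, ∀ i x y, Agree r x y → f i x = f i y := by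
  have := Fintype.ofFinite I
  choose r hr using h
  exact ⟨Finset.univ.sup r, fun i x y hxy =>
    hr i x y (hxy.mono (Finset.le_sup (f := r) (Finset.mem_univ i)))⟩
theorem pi {I : Type} [Finite I] {β : I → Type} {f : X → ∀ i, β i}
    (h : ∀ i, LocF (fun x => f x i)) : LocF f := by
  obtain ⟨r, hr⟩ := uniform h
  exact ⟨r, fun x y hxy => funext (fun i => hr i x y hxy)⟩
/-- a function determined by the values of a local function is local -/
theorem of_det (h : LocF f) (hg : ∀ x y, f x = f y → g x = g y) : LocF g :=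
  let ⟨r, hr⟩ := h; ⟨r, fun x y hxy => hg x y (hr x y hxy)⟩
theorem finite_range (h : LocF f) : (Set.range f).Finite := by
  classical
  obtain ⟨r, hr⟩ := h
  let pat : X → (box r → Shift.A X) := fun x u => obs (u.1 +ᵥ x)
  have hdet : ∀ x y, pat x = pat y → f x = f y := fun x y hxy =>
    hr x y (fun u hu => congrFun hxy ⟨u, mem_box.2 hu⟩)
  have hfin : (Set.range pat).Finite := Set.toFinite _
  refine Set.Finite.of_finite_image (f := fun b => if hb : b ∈ Set.range f then
    some (pat hb.choose) else none) ((Set.toFinite (Set.range (fun p : box r → Shift.A X =>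
      some p))).subset ?_) ?_
  · rintro _ ⟨b, hb, rfl⟩
    exact ⟨pat hb.choose, by simp only [dif_pos hb]⟩
  · intro a ha b hb hab
    simp only [dif_pos ha, dif_pos hb, Option.some.injEq] at hab
    rw [← ha.choose_spec, ← hb.choose_spec]; exact hdet _ _ hab
theorem loc (h : LocF f) (p : β → Prop) : Loc {x | p (f x)} :=
  let ⟨r, hr⟩ := h; ⟨r, fun x y hxy hx => by
    change p (f y); rw [← hr x y hxy]; exact hx⟩
/-- evaluation of a family of local functions at a local index -/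
theorem bind (h : LocF f) {k : β → X → γ} (hk : ∀ b, LocF (k b)) : LocF (fun x => k (f x) x) := by
  have hfin := h.finite_range.to_subtype
  obtain ⟨r, hr⟩ := uniform (I := Set.range f) (fun b => hk b.1)
  obtain ⟨s, hs⟩ := h
  refine ⟨r + s, fun x y hxy => ?_⟩
  change k (f x) x = k (f y) y
  rw [← hs x y (hxy.mono (by omega))]
  exact hr ⟨f x, x, rfl⟩ x y (hxy.mono (by omega))
end LocF

namespace Loc
variable {U U' : Set X}

theorem locF (h : Loc U) : LocF (fun x => x ∈ U) :=
  let ⟨r, hr⟩ := h; ⟨r, fun x y hxy => propext ⟨hr x y hxy, hr y x hxy.symm⟩⟩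
theorem empty : Loc (∅ : Set X) := ⟨0, fun _ _ _ h => h⟩
theorem univ : Loc (Set.univ : Set X) := ⟨0, fun _ _ _ h => h⟩
theorem inter (h : Loc U) (h' : Loc U') : Loc (U ∩ U') :=
  (h.locF.prod h'.locF).loc (fun p => p.1 ∧ p.2)
theorem union (h : Loc U) (h' : Loc U') : Loc (U ∪ U') :=
  (h.locF.prod h'.locF).loc (fun p => p.1 ∨ p.2)
theorem compl (h : Loc U) : Loc Uᶜ := h.locF.loc (fun p => ¬ p)
theorem diff (h : Loc U) (h' : Loc U') : Loc (U \ U') := h.inter h'.compl
theorem symmDiff (h : Loc U) (h' : Loc U') : Loc (symmDiff U U') := (h.diff h').union (h'.diff h)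
theorem sh (h : Loc U) (z : V) : Loc (sh z U) := (h.locF.shift z).loc (fun p => p)
theorem ite {β : Type} (h : Loc U) [DecidablePred (· ∈ U)] {f g : X → β} (hf : LocF f)
    (hg : LocF g) : LocF (fun x => if x ∈ U then f x else g x) := by
  refine (h.locF.prod (hf.prod hg)).of_det (fun x y hxy => ?_)
  simp only [Prod.mk.injEq, eq_iff_iff] at hxy
  by_cases hx : x ∈ U
  · rw [if_pos hx, if_pos (hxy.1.1 hx), hxy.2.1]
  · rw [if_neg hx, if_neg (fun hy => hx (hxy.1.2 hy)), hxy.2.2]
theorem iUnion {I : Type} [Finite I] {W : I → Set X} (h : ∀ i, Loc (W i)) : Loc (⋃ i, W i) := by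
  have := (LocF.pi (f := fun x i => x ∈ W i) (fun i => (h i).locF)).loc (fun p => ∃ i, p i)
  convert this using 1; ext x; simp
theorem iInter {I : Type} [Finite I] {W : I → Set X} (h : ∀ i, Loc (W i)) : Loc (⋂ i, W i) := by
  have := (LocF.pi (f := fun x i => x ∈ W i) (fun i => (h i).locF)).loc (fun p => ∀ i, p i)
  convert this using 1; ext x; simp
end Loc

/-- Induction over local sets: cut along the fibres of a local function. -/
theorem loc_induction {β : Type} {f : X → β} (hf : LocF f) {U : Set X} (hU : Loc U)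
    (P : Set X → Prop) (h0 : P ∅)
    (hc : ∀ W, Loc W → W ⊆ U → W.Nonempty → (∀ x ∈ W, ∀ y ∈ W, f x = f y) → P W)
    (hu : ∀ W W', Loc W → Loc W' → W ⊆ U → W' ⊆ U → Disjoint W W' → P W → P W' → P (W ∪ W')) :
    P U := by
  classical
  have key : ∀ s : Finset β, P (U ∩ {x | f x ∈ s}) := by
    intro s
    induction s using Finset.induction_on with
    | empty => simpa using h0
    | insert b s hb ih =>
      have h1 : U ∩ {x | f x ∈ insert b s} = (U ∩ {x | f x = b}) ∪ (U ∩ {x | f x ∈ s}) := by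
        ext x; simp [and_or_left]
      rw [h1]
      refine hu _ _ (hU.inter (hf.loc (· = b))) (hU.inter (hf.loc (· ∈ s))) Set.inter_subset_left
        Set.inter_subset_left ?_ ?_ ih
      · rw [Set.disjoint_left]
        rintro x ⟨_, h2⟩ ⟨_, h3⟩
        exact hb (h2 ▸ h3)
      · rcases (U ∩ {x | f x = b}).eq_empty_or_nonempty with h2 | h2
        · rw [h2]; exact h0
        · exact hc _ (hU.inter (hf.loc (· = b))) Set.inter_subset_left h2
            (fun x hx y hy => hx.2.trans hy.2.symm)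
  have := key hf.finite_range.toFinset
  convert this using 1
  ext x; simp

end

/-- A local coordinate modulo `L` in direction `d`. -/
structure Crd (X : Type) [Shift X] (d : Bool) (L : ℕ) where
  rep : X → ℤ → Prop
  pos : 0 < L
  ex : ∀ x, ∃ s, rep x s
  iff : ∀ {x s}, rep x s → ∀ s', rep x s' ↔ (L : ℤ) ∣ s' - s
  shift : ∀ {x s} (z : V), rep x s → rep (z +ᵥ x) (s + pr d z)
  loc : ∃ r : ℕ, ∀ x y s, Agree r x y → rep x s → rep y s

namespace Crd
variable {X : Type} [Shift X] {d : Bool} {L : ℕ} (c : Crd X d L)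

theorem dvd {x : X} {s s' : ℤ} (h : c.rep x s) (h' : c.rep x s') : (L : ℤ) ∣ s' - s :=
  (c.iff h s').1 h'
theorem of_dvd {x : X} {s s' : ℤ} (h : c.rep x s) (h' : (L : ℤ) ∣ s' - s) : c.rep x s' :=
  (c.iff h s').2 h'
theorem eq {x : X} {s s' : ℤ} (h : c.rep x s) (h' : c.rep x s') (h1 : s' - s < L)
    (h2 : s - s' < L) : s = s' := by
  have := Int.eq_zero_of_abs_lt_dvd (c.dvd h h') (abs_lt.2 ⟨by omega, h1⟩)
  omega
theorem add_L {x : X} {s : ℤ} (h : c.rep x s) : c.rep x (s + L) := c.of_dvd h (by simp)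
theorem sub_L {x : X} {s : ℤ} (h : c.rep x s) : c.rep x (s - L) := c.of_dvd h (by simp)
theorem ex_window (x : X) (w : ℤ) : ∃ s, c.rep x s ∧ w ≤ s ∧ s < w + L := by
  obtain ⟨s, hs⟩ := c.ex x
  have hL : (0 : ℤ) < L := by exact_mod_cast c.pos
  refine ⟨w + (s - w) % L, c.of_dvd hs ⟨-((s - w) / L), ?_⟩, ?_, ?_⟩
  · have := Int.emod_add_mul_ediv (s - w) L
    linarith
  · have := Int.emod_nonneg (s - w) hL.ne'; omega
  · have := Int.emod_lt_of_pos (s - w) hL; omega
theorem shift_iff {x : X} {s : ℤ} (z : V) : c.rep (z +ᵥ x) (s + pr d z) ↔ c.rep x s := by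
  refine ⟨fun h => ?_, c.shift z⟩
  have := c.shift (-z) h
  simpa [← add_vadd] using this
theorem loc_set (P : ℤ → Prop) : Loc {x | ∃ s, c.rep x s ∧ P s} :=
  let ⟨r, hr⟩ := c.loc; ⟨r, fun x y hxy ⟨s, hs, hp⟩ => ⟨s, hr x y s hxy hs, hp⟩⟩
theorem loc_rep (s : ℤ) : Loc {x | c.rep x s} :=
  let ⟨r, hr⟩ := c.loc; ⟨r, fun x y hxy hs => hr x y s hxy hs⟩
/-- the representative in the window `[w, w + L)` -/
noncomputable def win (w : ℤ) (x : X) : ℤ := (c.ex_window x w).choose
theorem win_rep (w : ℤ) (x : X) : c.rep x (c.win w x) := (c.ex_window x w).choose_spec.1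
theorem le_win (w : ℤ) (x : X) : w ≤ c.win w x := (c.ex_window x w).choose_spec.2.1
theorem win_lt (w : ℤ) (x : X) : c.win w x < w + L := (c.ex_window x w).choose_spec.2.2
theorem win_eq {w s : ℤ} {x : X} (h : c.rep x s) (h1 : w ≤ s) (h2 : s < w + L) : c.win w x = s :=
  c.eq (c.win_rep w x) h (by have := c.le_win w x; omega) (by have := c.win_lt w x; omega)
theorem locF_win (w : ℤ) : LocF (c.win w) := by
  obtain ⟨r, hr⟩ := c.loc
  exact ⟨r, fun x y hxy =>
    (c.win_eq (hr x y _ hxy (c.win_rep w x)) (c.le_win w x) (c.win_lt w x)).symm⟩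
end Crd

section Iface
variable (X : Type) [Shift X]

def HasCrd : Prop := ∀ (d : Bool) (L0 : ℕ), ∃ L, L0 ≤ L ∧ Nonempty (Crd X d L)

def Minimal : Prop := ∀ (x : X) (r : ℕ), ∃ s : Finset V, ∀ y : X, ∃ z ∈ s, Agree r x (z +ᵥ y)

/-- nearest neighbour rules which define `X` and are "quantum rigid" -/
structure Rules (ok : Bool → Shift.A X → Shift.A X → Prop) : Prop where
  obs_ok : ∀ d (x : X), ok d (obs x) (obs (vec d 1 0 +ᵥ x))
  realize : ∀ ξ : V → Shift.A X, (∀ d u, ok d (ξ u) (ξ (u + vec d 1 0))) →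
    ∃ x : X, ∀ u, obs (u +ᵥ x) = ξ u
  quantum : ∀ (Q : Type) [QL Q] (o : V → Obs Q (Shift.A X)),
    (∀ d u a b, ¬ ok d a b → (o u).e a ≤ QL.neg ((o (u + vec d 1 0)).e b)) →
    ∀ u v a b, QL.C ((o u).e a) ((o v).e b)

/-- arbitrarily fine partitions into translates of boundedly many local sets -/
def FinRank : Prop := ∃ (J : Type) (_ : Fintype J), ∀ r : ℕ, ∃ (W : J → Set X) (I : Type)
  (_ : Finite I) (base : I → J) (off : I → V), (∀ b, Loc (W b)) ∧
    (∀ x : X, ∃! i, off i +ᵥ x ∈ W (base i)) ∧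
    (∀ i (x y : X), off i +ᵥ x ∈ W (base i) → off i +ᵥ y ∈ W (base i) → Agree r x y)

/-- sums of local `ℤ/2` valued functions along long segments live in a space of bounded
dimension -/
def FinCoh : Prop := ∃ (J : Type) (_ : Fintype J), ∀ r : ℕ, ∃ (L : ℕ) (c : ∀ d, Crd X d L)
  (s : Bool → ℤ) (n : Bool → J → X → ZMod 2), ∀ (d : Bool) (ψ : X → ZMod 2),
    (∀ x y, Agree r x y → ψ x = ψ y) → ∃ a : J → ZMod 2, ∀ x, (∀ d', (c d').rep x (s d')) →
      ∑ t ∈ Finset.range L, ψ (vec d t 0 +ᵥ x) = ∑ b, a b * n d b x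

/-- periodic strips along the high lines, with boundedly many types -/
def Strips : Prop := ∃ (T : Type) (_ : Fintype T), ∀ (d : Bool) (M : ℕ), ∃ (P Q L : ℕ)
  (c : Crd X d L) (c' : Crd X (!d) Q) (typ : X → T), M ≤ P ∧ M * P ≤ Q ∧ Q ≤ L ∧
    ∀ y y' : X, c.rep y 0 → c'.rep y 0 → c.rep y' 0 → c'.rep y' 0 → typ y = typ y' →
      (∀ s t : ℤ, 2 * |s| ≤ Q → 2 * |t| ≤ Q → obs (vec d s t +ᵥ y) = obs (vec d s t +ᵥ y')) ∧
      (∀ s t t' : ℤ, 1 ≤ s → s + 3 * P < t → s + 3 * P < t' → t + 3 * P < Q → t' + 3 * P < Q →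
        (P : ℤ) ∣ t - t' → obs (vec d s t +ᵥ y) = obs (vec d s t' +ᵥ y'))

/-- everything the group theoretic part needs to know about `X` -/
class Good : Prop where
  nonempty : Nonempty X
  crd : HasCrd X
  minimal : Minimal X
  rules : ∃ ok, Rules X ok
  rank : FinRank X
  coh : FinCoh X
  strips : Strips X

end Iface

section
variable {X : Type} [Shift X] [Good X]

theorem exists_crd (d : Bool) (L0 : ℕ) : ∃ L, L0 ≤ L ∧ Nonempty (Crd X d L) := Good.crd d L0

/-- the action is free -/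
theorem vadd_inj {z w : V} {x : X} (h : z +ᵥ x = w +ᵥ x) : z = w := by
  have key : ∀ d, pr d z = pr d w := by
    intro d
    obtain ⟨L, hL, ⟨c⟩⟩ := exists_crd (X := X) d ((pr d z - pr d w).natAbs + 1)
    obtain ⟨s, hs⟩ := c.ex x
    have h1 := c.shift z hs
    have h2 := c.shift w hs
    rw [h] at h1
    have := c.eq h1 h2 (by omega) (by omega)
    omega
  exact ext_pr true (key _) (key _)

theorem vadd_eq_self {z : V} {x : X} (h : z +ᵥ x = x) : z = 0 :=
  vadd_inj (x := x) (by simpa using h)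

/-- a local function which separates a point from its nearby translates -/
theorem exists_sep (r : ℤ) : ∃ κ : X → V, LocF κ ∧
    ∀ (x : X) (z : V), Bd r z → κ (z +ᵥ x) = κ x → z = 0 := by
  obtain ⟨L, hL, ⟨c⟩⟩ := exists_crd (X := X) true (r.natAbs + 1)
  obtain ⟨L', hL', ⟨c'⟩⟩ := exists_crd (X := X) false (r.natAbs + 1)
  refine ⟨fun x => (c.win 0 x, c'.win 0 x), (c.locF_win 0).prod (c'.locF_win 0), ?_⟩
  intro x z hz h
  simp only [Prod.mk.injEq] at h
  have h1 := c.shift z (c.win_rep 0 x)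
  have h2 := c.win_rep 0 (z +ᵥ x)
  have h3 := c'.shift z (c'.win_rep 0 x)
  have h4 := c'.win_rep 0 (z +ᵥ x)
  rw [h.1] at h2
  rw [h.2] at h4
  unfold Bd at hz
  have h5 := c.eq h1 h2 (by simp; omega) (by simp; omega)
  have h6 := c'.eq h3 h4 (by simp; omega) (by simp; omega)
  simp at h5 h6
  exact Prod.ext h5 h6

end

end Crest.Agent.R189
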