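import Crest.Agent.R189.SysA

/-! # Row 189: facts on the universal group `AA` -/

set_option autoImplicit false
set_option linter.unusedSectionVars false

namespace Crest.Agent.R189
open Equiv
open scoped commutatorElement

section
variable {α : Type} [DecidableEq α]

namespace AA

theorem exists_perm_eq {S : Set α} {σ : Perm α} (h : σ ∈ AltOn S) : ∃ s ∈ AS S, perm s = σ := by
  refine Subgroup.closure_induction (p := fun σ _ => ∃ s ∈ AS S, perm s = σ) ?_ ?_ ?_ ?_ h
  · rintro _ ⟨a, ha, b, hb, c, hc, rfl⟩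
    exact ⟨x a b c, x_mem_AS ha hb hc, perm_x a b c⟩
  · exact ⟨1, one_mem _, map_one _⟩
  · rintro _ _ _ _ ⟨s, hs, rfl⟩ ⟨t, ht, rfl⟩
    exact ⟨s * t, mul_mem hs ht, map_mul _ _ _⟩
  · rintro _ _ ⟨s, hs, rfl⟩
    exact ⟨s⁻¹, inv_mem hs, map_inv _ _⟩

theorem perm_mem_altOn {S : Set α} {s : AA α} (h : s ∈ AS S) : perm s ∈ AltOn S := by
  refine Subgroup.closure_induction (p := fun s _ => perm s ∈ AltOn S) ?_ ?_ ?_ ?_ h
  · rintro _ ⟨a, ha, b, hb, c, hc, rfl⟩
    rw [perm_x]
    exact c3_mem_altOn ha hb hc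
  · rw [map_one]; exact one_mem _
  · intro a b _ _ ha hb
    rw [map_mul]; exact mul_mem ha hb
  · intro a _ ha
    rw [map_inv]; exact inv_mem ha

theorem sys_exists_supp {k : ℕ} (f g : Fin k → α) (hf : Function.Injective f)
    (hg : Function.Injective g) (S : Set α) (hfS : ∀ i, f i ∈ S) (hgS : ∀ i, g i ∈ S) :
    ∃ σ ∈ SuppOn S, ∀ i, σ (f i) = g i := by
  induction k with
  | zero => exact ⟨1, one_mem _, fun i => i.elim0⟩
  | succ k ih =>
    obtain ⟨σ, hσ, h⟩ := ih (fun i => f i.succ) (fun i => g i.succ)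
      (hf.comp (Fin.succ_injective k)) (hg.comp (Fin.succ_injective k)) (fun i => hfS _)
      (fun i => hgS _)
    refine ⟨swap (σ (f 0)) (g 0) * σ,
      mul_mem (swap_mem_suppOn ((SuppOn.mem_iff hσ _).2 (hfS 0)) (hgS 0)) hσ, fun i => ?_⟩
    refine Fin.cases ?_ (fun i => ?_) i
    · rw [Perm.mul_apply, swap_apply_left]
    · rw [Perm.mul_apply, swap_apply_of_ne_of_ne, h]
      · exact fun e => Fin.succ_ne_zero i (hf (σ.injective e))
      · rw [h]
        exact fun e => Fin.succ_ne_zero i (hg e)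

theorem exists_move {k : ℕ} (f g : Fin k → α) (hf : Function.Injective f)
    (hg : Function.Injective g) (S : Finset α) (hfS : ∀ i, f i ∈ S) (hgS : ∀ i, g i ∈ S)
    (hk : k + 2 ≤ S.card) : ∃ s ∈ AS (S : Set α), ∀ i, perm s (f i) = g i := by
  obtain ⟨σ, hσ, hfg⟩ := sys_exists_supp f g hf hg (S : Set α) hfS hgS
  have hcard : 1 < (S \ Finset.univ.image f).card := by
    have h1 : (Finset.univ.image f).card ≤ k := Finset.card_image_le.trans (by simp)
    have h2 := Finset.le_card_sdiff (Finset.univ.image f) S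
    omega
  obtain ⟨p, hp, q, hq, hpq⟩ := Finset.one_lt_card.1 hcard
  rw [Finset.mem_sdiff] at hp hq
  rcases altOn_or hσ hp.1 hq.1 hpq with h | h
  · obtain ⟨s, hs, e⟩ := exists_perm_eq h
    exact ⟨s, hs, fun i => by rw [e, hfg]⟩
  · obtain ⟨s, hs, e⟩ := exists_perm_eq h
    refine ⟨s, hs, fun i => ?_⟩
    have hi : f i ∈ Finset.univ.image f := Finset.mem_image_of_mem f (Finset.mem_univ i)
    have h1 : f i ≠ p := fun e => hp.2 (e ▸ hi)
    have h2 : f i ≠ q := fun e => hq.2 (e ▸ hi)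
    rw [e, Perm.mul_apply, swap_apply_of_ne_of_ne h1 h2, hfg]

theorem central {s : AA α} (h : perm s = 1) (t : AA α) : Commute s t := by
  induction t using induction with
  | h1 => exact Commute.one_right _
  | hx i j k _ =>
    have := conj_x s i j k
    rw [h, mul_inv_eq_iff_eq_mul] at this
    exact this
  | hm s t hs ht => exact hs.mul_right ht

variable {Γ : Type} [Group Γ]

theorem commute_of_gen {f g : AA α →* Γ}
    (h : ∀ i j k, D3 i j k → ∀ a b c, D3 a b c → Commute (f (x i j k)) (g (x a b c))) (s t : AA α) :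
    Commute (f s) (g t) := by
  induction s using induction with
  | h1 => rw [map_one]; exact Commute.one_left _
  | hx i j k hd =>
    induction t using induction with
    | h1 => rw [map_one]; exact Commute.one_right _
    | hx a b c hd' => exact h i j k hd a b c hd'
    | hm s t hs ht => rw [map_mul]; exact hs.mul_right ht
  | hm s s' hs hs' => rw [map_mul]; exact hs.mul_left hs'

theorem commute_of_gen' {f : AA α →* Γ} {g : Γ}
    (h : ∀ i j k, D3 i j k → Commute (f (x i j k)) g) (s : AA α) : Commute (f s) g := by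
  induction s using induction with
  | h1 => rw [map_one]; exact Commute.one_left _
  | hx i j k hd => exact h i j k hd
  | hm s s' hs hs' => rw [map_mul]; exact hs.mul_left hs'

variable [Fintype α]

/-- `AA α` is perfect -/
theorem hom_trivial (hα : 40 ≤ Fintype.card α) (f : AA α →* Γ)
    (h : ∀ s t, Commute (f s) (f t)) (s : AA α) : f s = 1 := by
  induction s using induction with
  | h1 => exact map_one f
  | hx i j k hd =>
    obtain ⟨a, ha⟩ := fresh hα [i, j, k] (by simp)
    obtain ⟨m, hm⟩ := fresh hα [i, j, k, a] (by simp)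
    simp only [List.mem_cons, List.not_mem_nil, or_false, not_or] at ha hm
    rw [isSys.comm hd ha ⟨hm.1, hm.2.1, hm.2.2.1⟩ (Ne.symm hm.2.2.2), map_commutatorElement]
    exact commutatorElement_eq_one_iff_commute.2 (h _ _)
  | hm s t hs ht => rw [map_mul, hs, ht, one_mul]

omit [Fintype α] in
theorem sys_comm_central {z z' : Γ} (hz : ∀ t, Commute z t) (hz' : ∀ t, Commute z' t) (a b : Γ) :
    ⁅z * a, z' * b⁆ = ⁅a, b⁆ := by
  have h1 : z * a * (z' * b) * (z * a)⁻¹ = a * (z' * b) * a⁻¹ := by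
    rw [mul_assoc z, mul_inv_rev, ← mul_assoc, mul_assoc z, (hz _).eq, mul_inv_cancel_right]
  rw [commutatorElement_def, commutatorElement_def, h1, ← mul_assoc a, ← (hz' a).eq, mul_inv_rev,
    ← mul_assoc, mul_assoc z', mul_assoc z', mul_assoc z', (hz' _).eq, mul_inv_cancel_right]

theorem finite (hα : 40 ≤ Fintype.card α) : Finite (AA α) := by
  have hfin : Finite (commutatorSet (AA α)) := by
    let l : Perm α → AA α := Function.invFun perm
    have hl : ∀ s : AA α, ∃ z : AA α, (∀ t, Commute z t) ∧ s = z * l (perm s) := fun s =>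
      ⟨s * (l (perm s))⁻¹, central (by
        rw [map_mul, map_inv, Function.invFun_eq (f := perm) ⟨s, rfl⟩, mul_inv_cancel]), by group⟩
    refine Set.Finite.to_subtype ((Set.finite_range
      fun p : Perm α × Perm α => ⁅l p.1, l p.2⁆).subset ?_)
    rintro _ ⟨s, t, rfl⟩
    refine ⟨(perm s, perm t), ?_⟩
    obtain ⟨z, hz, e⟩ := hl s
    obtain ⟨z', hz', e'⟩ := hl t
    conv_rhs => rw [e, e']
    exact (sys_comm_central hz hz' _ _).symm
  have htop : _root_.commutator (AA α) = ⊤ := by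
    rw [eq_top_iff]
    intro s _
    rw [← Abelianization.ker_of, MonoidHom.mem_ker]
    exact hom_trivial hα _ (fun s t => Commute.all _ _) s
  have h1 : Finite (_root_.commutator (AA α)) := inferInstance
  rw [htop] at h1
  exact Finite.of_equiv _ Subgroup.topEquiv.toEquiv

theorem commute_of_bilin (hα : 40 ≤ Fintype.card α) (f g : AA α →* Γ)
    (h1 : ∀ s t r, Commute ⁅f s, g t⁆ (f r)) (h2 : ∀ s t r, Commute ⁅f s, g t⁆ (g r)) (s t : AA α) :
    Commute (f s) (g t) := by
  have hc : ∀ s s', Commute ⁅f s, g t⁆ ⁅f s', g t⁆ := fun s s' => by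
    rw [commutatorElement_def (f s')]
    exact (((h1 s t s').mul_right (h2 s t t)).mul_right (h1 s t s').inv_right).mul_right
      (h2 s t t).inv_right
  let φ : AA α →* Γ := MonoidHom.mk' (fun s => ⁅f s, g t⁆) (fun s s' => by
    rw [(hc s s').eq, map_mul]
    have e : ⁅f s * f s', g t⁆ = f s * ⁅f s', g t⁆ * (f s)⁻¹ * ⁅f s, g t⁆ := by
      simp only [commutatorElement_def]; group
    rw [e, ← (h1 s' t s).eq, mul_inv_cancel_right])
  exact commutatorElement_eq_one_iff_commute.1 (hom_trivial hα φ hc s)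

omit [Fintype α] in
/-- elements which centralise `p` up to the centre: their commutators centralise `p` -/
theorem sys_comm_commute {p e e' : Γ} (h : ∀ t, Commute ⁅e, p⁆ t) (h' : ∀ t, Commute ⁅e', p⁆ t) :
    Commute ⁅e, e'⁆ p := by
  have key : ∀ {a b : Γ}, (∀ t, Commute ⁅a, p⁆ t) → (∀ t, Commute ⁅b, p⁆ t) →
      a * b * p * (a * b)⁻¹ = ⁅a, p⁆ * ⁅b, p⁆ * p := by
    intro a b ha hb
    calc a * b * p * (a * b)⁻¹ = a * ⁅b, p⁆ * (p * a⁻¹) := by
          simp only [commutatorElement_def]; group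
      _ = ⁅b, p⁆ * (⁅a, p⁆ * p) := by
          rw [← (hb a).eq, mul_assoc]
          congr 1
          simp only [commutatorElement_def]; group
      _ = _ := by rw [← mul_assoc, (hb _).eq]
  have e1 := key h h'
  have e2 := key h' h
  rw [(h' _).eq, ← e1] at e2
  -- `e' e` and `e e'` conjugate `p` in the same way
  have hc : ∀ t, Commute (⁅e, p⁆ * ⁅e', p⁆) t := fun t => (h t).mul_left (h' t)
  have e3 : (e' * e)⁻¹ * p * (e' * e) = (⁅e, p⁆ * ⁅e', p⁆)⁻¹ * p := by
    rw [eq_inv_mul_iff_mul_eq]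
    calc ⁅e, p⁆ * ⁅e', p⁆ * ((e' * e)⁻¹ * p * (e' * e))
        = (e' * e)⁻¹ * (⁅e, p⁆ * ⁅e', p⁆ * p) * (e' * e) := by
          rw [mul_assoc (e' * e)⁻¹ p, ← mul_assoc (⁅e, p⁆ * ⁅e', p⁆), (hc (e' * e)⁻¹).eq]
          simp only [mul_assoc]
      _ = p := by rw [← e1, ← e2]; group
  have e4 : ⁅e, e'⁆ * p * ⁅e, e'⁆⁻¹ = p := by
    calc ⁅e, e'⁆ * p * ⁅e, e'⁆⁻¹ = e * e' * ((e' * e)⁻¹ * p * (e' * e)) * (e * e')⁻¹ := by
          simp only [commutatorElement_def]; group
      _ = (⁅e, p⁆ * ⁅e', p⁆)⁻¹ * (e * e' * p * (e * e')⁻¹) := by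
          rw [e3, ← mul_assoc (e * e'), ← (hc (e * e')).inv_left.eq]
          simp only [mul_assoc]
      _ = p := by rw [e1, inv_mul_cancel_left]
  rw [mul_inv_eq_iff_eq_mul] at e4
  exact e4

section Ext
variable {E : Type} [Group E] {π : E →* AA α}

omit [Fintype α] in
theorem sys_commute_of_AS (hπ : Function.Surjective π) (hker : ∀ e, π e = 1 → ∀ e', Commute e e')
    {S : Set α} (hS : ∀ l : List α, l.length ≤ 4 → ∃ a ∈ S, a ∉ l) {p : E}
    (hp : ∀ a ∈ S, ∀ b ∈ S, ∀ c ∈ S, Commute (x a b c) (π p)) {s : AA α} (hs : s ∈ AS S) :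
    ∀ e, π e = s → Commute e p := by
  refine Subgroup.closure_induction (p := fun s _ => ∀ e, π e = s → Commute e p) ?_ ?_ ?_ ?_ hs
  · rintro _ ⟨i, hi, j, hj, k, hk, rfl⟩ e he
    by_cases hd : D3 i j k
    · obtain ⟨a, haS, ha⟩ := hS [i, j, k] (by simp)
      obtain ⟨m, hmS, hm⟩ := hS [i, j, k, a] (by simp)
      simp only [List.mem_cons, List.not_mem_nil, or_false, not_or] at ha hm
      obtain ⟨e1, h1⟩ := hπ (x k i m)
      obtain ⟨e2, h2⟩ := hπ (x a k j)
      have h3 : π (e * ⁅e1, e2⁆⁻¹) = 1 := by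
        rw [map_mul, map_inv, map_commutatorElement, h1, h2, he,
          ← isSys.comm hd ha ⟨hm.1, hm.2.1, hm.2.2.1⟩ (Ne.symm hm.2.2.2), mul_inv_cancel]
      have h4 : Commute ⁅e1, e2⁆ p := by
        refine sys_comm_commute (hker _ ?_) (hker _ ?_)
        · rw [map_commutatorElement, h1]
          exact commutatorElement_eq_one_iff_commute.2 (hp k hk i hi m hmS)
        · rw [map_commutatorElement, h2]
          exact commutatorElement_eq_one_iff_commute.2 (hp a haS k hk j hj)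
      have := (hker _ h3 p).mul_left h4
      rwa [inv_mul_cancel_right] at this
    · exact hker e (by rw [he, isSys.junk hd]) p
  · exact fun e he => hker e he p
  · intro s t _ _ hs ht e he
    obtain ⟨e1, h1⟩ := hπ s
    have := (hs e1 h1).mul_left (ht (e1⁻¹ * e) (by rw [map_mul, map_inv, h1, he]; group))
    rwa [mul_inv_cancel_left] at this
  · intro s _ hs e he
    have := (hs e⁻¹ (by rw [map_inv, he, inv_inv])).inv_left
    rwa [inv_inv] at this

omit [Fintype α] in
theorem sys_mem_AS_univ (s : AA α) : s ∈ AS (Set.univ : Set α) := by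
  induction s using induction with
  | h1 => exact one_mem _
  | hx i j k _ => exact x_mem_AS trivial trivial trivial
  | hm s t hs ht => exact mul_mem hs ht

theorem sys_central (hα : 40 ≤ Fintype.card α) (hπ : Function.Surjective π)
    (hker : ∀ e, π e = 1 → ∀ e', Commute e e') {p : E} (hp : perm (π p) = 1) (e : E) :
    Commute p e :=
  (sys_commute_of_AS hπ hker (S := Set.univ) (fun l hl => by
    obtain ⟨a, ha⟩ := fresh hα l (by omega)
    exact ⟨a, trivial, ha⟩) (fun _ _ _ _ _ _ => (central hp _).symm) (sys_mem_AS_univ (π e)) e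
    rfl).symm

theorem sys_sign_altOn {S : Set α} {σ : Perm α} (h : σ ∈ AltOn S) : Perm.sign σ = 1 := by
  refine Subgroup.closure_induction (p := fun σ _ => Perm.sign σ = 1) ?_ ?_ ?_ ?_ h
  · rintro _ ⟨a, _, b, _, c, _, rfl⟩
    unfold c3
    split_ifs with hd
    · rw [map_mul, Perm.sign_swap hd.2.1, Perm.sign_swap hd.1]
      simp
    · exact map_one _
  · exact map_one _
  · intro a b _ _ ha hb
    rw [map_mul, ha, hb, one_mul]
  · intro a _ ha
    rw [map_inv, ha, inv_one]

theorem sys_commute_of_fix (hα : 40 ≤ Fintype.card α) (hπ : Function.Surjective π)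
    (hker : ∀ e, π e = 1 → ∀ e', Commute e e') {i j k : α} {p e : E} (hp : π p = x i j k)
    (hi : perm (π e) i = i) (hj : perm (π e) j = j) (hk : perm (π e) k = k) : Commute e p := by
  let S : Finset α := Finset.univ.filter fun a => a ≠ i ∧ a ≠ j ∧ a ≠ k
  have hS : ∀ a, a ∈ S ↔ a ≠ i ∧ a ≠ j ∧ a ≠ k := fun a => by simp [S]
  have hfr : ∀ l : List α, l.length ≤ 4 → ∃ a ∈ (S : Set α), a ∉ l := fun l hl => by
    obtain ⟨a, ha⟩ := fresh hα (i :: j :: k :: l) (by simp only [List.length_cons]; omega)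
    simp only [List.mem_cons, not_or] at ha
    exact ⟨a, (hS a).2 ⟨ha.1, ha.2.1, ha.2.2.1⟩, ha.2.2.2⟩
  have h1 : perm (π e) ∈ SuppOn (S : Set α) := by
    intro a ha
    rw [Finset.mem_coe, hS] at ha
    by_cases h1 : a = i
    · rw [h1, hi]
    by_cases h2 : a = j
    · rw [h2, hj]
    by_cases h3 : a = k
    · rw [h3, hk]
    exact absurd ⟨h1, h2, h3⟩ ha
  have h2 : perm (π e) ∈ AltOn (S : Set α) := by
    obtain ⟨a, ha, _⟩ := hfr [] (by simp)
    obtain ⟨b, hb, hab⟩ := hfr [a] (by simp)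
    have hab' : a ≠ b := fun e => hab (by simp [e])
    refine (altOn_or h1 ha hb hab').resolve_right fun h => ?_
    have h3 := sys_sign_altOn h
    rw [map_mul, sys_sign_altOn (perm_mem_altOn (sys_mem_AS_univ (π e))), Perm.sign_swap hab',
      one_mul] at h3
    exact absurd h3 (by decide)
  obtain ⟨s, hs, hs'⟩ := exists_perm_eq h2
  obtain ⟨e', he'⟩ := hπ s
  have h3 : Commute e' p := sys_commute_of_AS hπ hker hfr (fun a ha b hb c hc => by
    rw [hp]
    exact (isSys.commute ((hS a).1 ha) ((hS b).1 hb) ((hS c).1 hc)).symm) hs e' he'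
  have h4 : Commute (e * e'⁻¹) p := sys_central hα hπ hker (by
    rw [map_mul, map_mul, map_inv, map_inv, he', hs', mul_inv_cancel]) p
  have := h4.mul_left h3
  rwa [inv_mul_cancel_right] at this

theorem sys_move3 (hα : 40 ≤ Fintype.card α) (hπ : Function.Surjective π) {a b c i j k : α}
    (h : D3 a b c) (h' : D3 i j k) :
    ∃ e : E, perm (π e) a = i ∧ perm (π e) b = j ∧ perm (π e) c = k := by
  have inj : ∀ {a b c : α}, D3 a b c → Function.Injective ![a, b, c] := by
    intro a b c h u v huv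
    have h1 := h.1
    have h2 := h.2.1
    have h3 := h.2.2
    fin_cases u <;> fin_cases v <;> simp_all [eq_comm]
  obtain ⟨s, _, hs⟩ := exists_move ![a, b, c] ![i, j, k] (inj h) (inj h') Finset.univ
    (fun _ => Finset.mem_univ _) (fun _ => Finset.mem_univ _) (by rw [Finset.card_univ]; omega)
  obtain ⟨e, rfl⟩ := hπ s
  exact ⟨e, hs 0, hs 1, hs 2⟩

theorem sys_move4 (hα : 40 ≤ Fintype.card α) (hπ : Function.Surjective π) {a b c d i j k l : α}
    (h : D3 a b c) (hd : d ≠ a ∧ d ≠ b ∧ d ≠ c) (h' : D3 i j k) (hl : l ≠ i ∧ l ≠ j ∧ l ≠ k) :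
    ∃ e : E, perm (π e) a = i ∧ perm (π e) b = j ∧ perm (π e) c = k ∧ perm (π e) d = l := by
  have inj : ∀ {a b c d : α}, D3 a b c → (d ≠ a ∧ d ≠ b ∧ d ≠ c) →
      Function.Injective ![a, b, c, d] := by
    intro a b c d h hd u v huv
    have h1 := h.1
    have h2 := h.2.1
    have h3 := h.2.2
    have h4 := hd.1
    have h5 := hd.2.1
    have h6 := hd.2.2
    fin_cases u <;> fin_cases v <;> simp_all [eq_comm]
  obtain ⟨s, _, hs⟩ := exists_move ![a, b, c, d] ![i, j, k, l] (inj h hd) (inj h' hl) Finset.univ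
    (fun _ => Finset.mem_univ _) (fun _ => Finset.mem_univ _) (by rw [Finset.card_univ]; omega)
  obtain ⟨e, rfl⟩ := hπ s
  exact ⟨e, hs 0, hs 1, hs 2, hs 3⟩

/-- equivariant lifts of the generators -/
structure SysLift (π : E →* AA α) (y : α → α → α → E) : Prop where
  junk : ∀ {i j k}, ¬ D3 i j k → y i j k = 1
  lifts : ∀ i j k, π (y i j k) = x i j k
  equiv : ∀ e i j k, e * y i j k * e⁻¹ = y (perm (π e) i) (perm (π e) j) (perm (π e) k)

theorem sys_exists_lift (hα : 40 ≤ Fintype.card α) (hπ : Function.Surjective π)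
    (hker : ∀ e, π e = 1 → ∀ e', Commute e e') : ∃ y, SysLift π y := by
  obtain ⟨a, -⟩ := fresh hα [] (by simp)
  obtain ⟨b, hb⟩ := fresh hα [a] (by simp)
  obtain ⟨c, hc⟩ := fresh hα [a, b] (by simp)
  simp only [List.mem_cons, List.not_mem_nil, or_false, not_or] at hb hc
  have h0 : D3 a b c := ⟨Ne.symm hb, Ne.symm hc.1, Ne.symm hc.2⟩
  obtain ⟨p, hp⟩ := hπ (x a b c)
  choose mv hmv using fun (i j k : α) (h : D3 i j k) => sys_move3 hα hπ h0 h
  refine ⟨fun i j k => if h : D3 i j k then mv i j k h * p * (mv i j k h)⁻¹ else 1,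
    fun h => dif_neg h, fun i j k => ?_, fun e i j k => ?_⟩
  · by_cases h : D3 i j k
    · obtain ⟨h1, h2, h3⟩ := hmv i j k h
      rw [dif_pos h, map_mul, map_mul, map_inv, hp, conj_x, h1, h2, h3]
    · rw [dif_neg h, map_one, isSys.junk h]
  · by_cases h : D3 i j k
    · have h' : D3 (perm (π e) i) (perm (π e) j) (perm (π e) k) := h.map (perm (π e)).injective
      rw [dif_pos h, dif_pos h']
      obtain ⟨h1, h2, h3⟩ := hmv i j k h
      obtain ⟨h1', h2', h3'⟩ := hmv _ _ _ h'
      have hc : Commute ((mv _ _ _ h')⁻¹ * (e * mv i j k h)) p := by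
        refine sys_commute_of_fix hα hπ hker hp ?_ ?_ ?_ <;>
          simp only [map_mul, map_inv, Perm.mul_apply, Perm.coe_inv,
            Equiv.symm_apply_eq, h1, h2, h3, h1', h2', h3']
      calc e * (mv i j k h * p * (mv i j k h)⁻¹) * e⁻¹
          = mv _ _ _ h' * ((mv _ _ _ h')⁻¹ * (e * mv i j k h) * p) * (e * mv i j k h)⁻¹ := by group
        _ = _ := by rw [hc.eq]; group
    · rw [dif_neg h, dif_neg (fun h' => h h'.of_map), mul_one, mul_inv_cancel]

theorem sys_exists_lift_mul (hα : 40 ≤ Fintype.card α) (hπ : Function.Surjective π)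
    (hker : ∀ e, π e = 1 → ∀ e', Commute e e') : ∃ y, SysLift π y ∧
      ∀ {a b d e}, D3 a b d → e ≠ a → e ≠ b → e ≠ d → y a b d * y a d e = y b d e := by
  obtain ⟨y, hy⟩ := sys_exists_lift hα hπ hker
  obtain ⟨a0, -⟩ := fresh hα [] (by simp)
  obtain ⟨b0, hb⟩ := fresh hα [a0] (by simp)
  obtain ⟨d0, hd⟩ := fresh hα [a0, b0] (by simp)
  obtain ⟨e0, he⟩ := fresh hα [a0, b0, d0] (by simp)
  simp only [List.mem_cons, List.not_mem_nil, or_false, not_or] at hb hd he
  have h0 : D3 a0 b0 d0 := ⟨Ne.symm hb, Ne.symm hd.1, Ne.symm hd.2⟩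
  obtain ⟨z, hz⟩ : ∃ z, z = y a0 b0 d0 * y a0 d0 e0 * (y b0 d0 e0)⁻¹ := ⟨_, rfl⟩
  have hz1 : π z = 1 := by
    rw [hz, map_mul, map_mul, map_inv, hy.lifts, hy.lifts, hy.lifts,
      isSys.mul h0 he.1 he.2.1 he.2.2, mul_inv_cancel]
  have hzc := hker z hz1
  have hall : ∀ {a b d e}, D3 a b d → e ≠ a → e ≠ b → e ≠ d →
      y a b d * y a d e = z * y b d e := by
    intro a b d e h h1 h2 h3
    obtain ⟨g, g1, g2, g3, g4⟩ := sys_move4 hα hπ h0 he h ⟨h1, h2, h3⟩
    have e1 : g * z * g⁻¹ = z := by rw [← (hzc g).eq, mul_inv_cancel_right]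
    rw [← e1, hz, ← g1, ← g2, ← g3, ← g4, ← hy.equiv, ← hy.equiv, ← hy.equiv]
    group
  refine ⟨fun i j k => if D3 i j k then z⁻¹ * y i j k else 1,
    ⟨fun h => if_neg h, fun i j k => ?_, fun e i j k => ?_⟩, fun {a b d e} h h1 h2 h3 => ?_⟩
  · by_cases h : D3 i j k
    · rw [if_pos h, map_mul, map_inv, hz1, inv_one, one_mul, hy.lifts]
    · rw [if_neg h, map_one, isSys.junk h]
  · by_cases h : D3 i j k
    · rw [if_pos h, if_pos (h.map (perm (π e)).injective), ← hy.equiv, ← mul_assoc,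
        ← (hzc e).inv_left.eq]
      simp only [mul_assoc]
    · rw [if_neg h, if_neg (fun h' => h h'.of_map), mul_one, mul_inv_cancel]
  · have h' : D3 a d e := ⟨h.2.1, h1.symm, h3.symm⟩
    have h'' : D3 b d e := ⟨h.2.2, h2.symm, h3.symm⟩
    simp only [if_pos h, if_pos h', if_pos h'']
    rw [mul_assoc, ← mul_assoc (y a b d), ← (hzc (y a b d)).inv_left.eq, mul_assoc,
      hall h h1 h2 h3, inv_mul_cancel_left]

/-- central extensions of `AA α` split -/
theorem sys_split (hα : 40 ≤ Fintype.card α) (π : E →* AA α) (hπ : Function.Surjective π)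
    (hker : ∀ e, π e = 1 → ∀ e', Commute e e') : ∃ m : AA α →* E, ∀ s, π (m s) = s := by
  obtain ⟨y, hy, hmul⟩ := sys_exists_lift_mul hα hπ hker
  have hrot : ∀ i j k, y i j k = y j k i := by
    intro i j k
    by_cases h : D3 i j k
    · have := hy.equiv (y i j k) i j k
      rw [mul_inv_cancel_right, hy.lifts, perm_x, c3_fst h, c3_snd h, c3_thd h] at this
      exact this
    · rw [hy.junk h, hy.junk (fun h' => h h'.rot.rot)]
  have hinv : ∀ i j k, y i j k * y i k j = 1 := by
    intro b d e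
    by_cases h : D3 b d e
    · obtain ⟨z, hz⟩ : ∃ z, z = y b d e * y b e d := ⟨_, rfl⟩
      have hz1 : π z = 1 := by rw [hz, map_mul, hy.lifts, hy.lifts, isSys.inv]
      have hzc := hker z hz1
      have hall : ∀ {i j k}, D3 i j k → y i j k * y i k j = z := by
        intro i j k h'
        obtain ⟨g, g1, g2, g3⟩ := sys_move3 hα hπ h h'
        have e1 : g * z * g⁻¹ = z := by rw [← (hzc g).eq, mul_inv_cancel_right]
        rw [← e1, hz, ← g1, ← g2, ← g3, ← hy.equiv, ← hy.equiv]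
        group
      obtain ⟨a, ha⟩ := fresh hα [b, d, e] (by simp)
      simp only [List.mem_cons, List.not_mem_nil, or_false, not_or] at ha
      have h1 : D3 a b d := ⟨ha.1, ha.2.1, h.1⟩
      have h2 : D3 a d e := ⟨ha.2.1, ha.2.2, h.2.2⟩
      have m1 : y a b d * y a d e = y b d e :=
        hmul h1 (Ne.symm ha.2.2) h.2.1.symm h.2.2.symm
      have m2 : y a e d * y a d b = y b e d := by
        rw [hrot b e d]
        exact hmul h2.swap (Ne.symm ha.1) h.2.1 h.1
      have e2 : z = z * z := by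
        calc z = y a b d * (y a d e * y a e d) * y a d b := by
              rw [hz, ← m1, ← m2]; simp only [mul_assoc]
          _ = z * z := by rw [hall h2, ← (hzc _).eq, mul_assoc, hall h1]
      rw [← hz]
      exact left_eq_mul.1 e2
    · rw [hy.junk h, hy.junk (fun h' => h h'.swap), one_mul]
  have hs : IsSys y :=
    { junk := hy.junk
      rot := hrot
      inv := hinv
      mul := hmul
      conj := fun a b c i j k => by rw [hy.equiv, hy.lifts, perm_x] }
  refine ⟨lift hs, fun s => ?_⟩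
  have : π.comp (lift hs) = MonoidHom.id _ := hom_ext fun i j k => by
    rw [MonoidHom.comp_apply, lift_x, hy.lifts, MonoidHom.id_apply]
  exact DFunLike.congr_fun this s

end Ext

/-- Lifting lemma: an action of `AA α` on `W` by inner automorphisms comes from a homomorphism
to `W`. -/
theorem exists_inner_lift (hα : 40 ≤ Fintype.card α) (one : AA α →* Γ) (W : Subgroup Γ)
    (h : ∀ s, ∃ p ∈ W, ∀ w ∈ W, p * w * p⁻¹ = one s * w * (one s)⁻¹) :
    ∃ m : AA α →* Γ, (∀ s, m s ∈ W) ∧ ∀ s, ∀ w ∈ W, m s * w * (m s)⁻¹ = one s * w * (one s)⁻¹ := by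
  let E : Subgroup (Γ × AA α) :=
    { carrier := {p | p.1 ∈ W ∧ ∀ w ∈ W, p.1 * w * p.1⁻¹ = one p.2 * w * (one p.2)⁻¹}
      one_mem' := ⟨one_mem _, fun w _ => by simp⟩
      mul_mem' := fun {p q} hp hq => ⟨mul_mem hp.1 hq.1, fun w hw => by
        have h1 := hp.2 _ (mul_mem (mul_mem hq.1 hw) (inv_mem hq.1))
        simp only [Prod.fst_mul, Prod.snd_mul, map_mul]
        calc p.1 * q.1 * w * (p.1 * q.1)⁻¹ = p.1 * (q.1 * w * q.1⁻¹) * p.1⁻¹ := by group
          _ = one p.2 * (one q.2 * w * (one q.2)⁻¹) * (one p.2)⁻¹ := by rw [h1, hq.2 w hw]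
          _ = _ := by group⟩
      inv_mem' := fun {p} hp => ⟨inv_mem hp.1, fun w hw => by
        have h1 := hp.2 _ (mul_mem (mul_mem (inv_mem hp.1) hw) hp.1)
        simp only [Prod.fst_inv, Prod.snd_inv, map_inv, inv_inv]
        calc p.1⁻¹ * w * p.1
            = (one p.2)⁻¹ * (one p.2 * (p.1⁻¹ * w * p.1) * (one p.2)⁻¹) * one p.2 := by group
          _ = _ := by rw [← h1]; group⟩ }
  let π : E →* AA α := (MonoidHom.snd Γ (AA α)).comp E.subtype
  have hπ : Function.Surjective π := fun s => by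
    obtain ⟨p, hp, hp'⟩ := h s
    exact ⟨⟨(p, s), hp, hp'⟩, rfl⟩
  have hker : ∀ e, π e = 1 → ∀ e', Commute e e' := by
    intro e he e'
    have he' : e.1.2 = 1 := he
    have h1 := e.2.2 _ e'.2.1
    rw [he', map_one, one_mul, inv_one, mul_one, mul_inv_eq_iff_eq_mul] at h1
    refine Subtype.ext (Prod.ext h1 ?_)
    change e.1.2 * e'.1.2 = e'.1.2 * e.1.2
    rw [he', one_mul, mul_one]
  obtain ⟨m, hm⟩ := sys_split hα π hπ hker
  refine ⟨((MonoidHom.fst Γ (AA α)).comp E.subtype).comp m, fun s => (m s).2.1, fun s w hw => ?_⟩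
  have h1 := (m s).2.2 w hw
  have h2 : (m s).1.2 = s := hm s
  rw [h2] at h1
  exact h1

end AA
end

end Crest.Agent.R189
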