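import Crest.Agent.R189.Supp
import Crest.Agent.R189.Sys

/-! # Row 189: block structures -/

set_option autoImplicit false
set_option linter.unusedSectionVars false

namespace Crest.Agent.R189
open Equiv

variable {X ι Γ : Type} [Shift X] [DecidableEq ι] [Fintype ι] [Group Γ]

/-- the three-cycle lives in the block structure with base `B` and fibre `F` -/
def InB (B : Set X) (F : Finset (Pt ι)) (τ : Tri X ι) : Prop := τ.U ⊆ B ∧ τ.pts ⊆ (F : Set (Pt ι))

theorem InB.rev {B : Set X} {F : Finset (Pt ι)} {τ : Tri X ι} (h : InB B F τ) : InB B F τ.rev :=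
  ⟨h.1, by rw [Tri.rev_pts]; exact h.2⟩

theorem exists_acts_of_locP [Good X] {g : Perm (X × ι)} (hg : LocP g) {B : Set X} (hB : Loc B)
    {F : Finset (Pt ι)} (hI : Inj B (F : Set (Pt ι))) (hfix : g ∈ SuppOn (Sup B (F : Set (Pt ι))))
    (hpres : ∀ x ∈ B, ∀ f ∈ F, ∃ f' ∈ F, g (x ⋆ f) = x ⋆ f') :
    ∃ s : X → Perm (Pt ι), LocF s ∧ (∀ x, s x ∈ SuppOn (F : Set (Pt ι))) ∧
      Acts g B (F : Set (Pt ι)) s := by
  classical
  have _ := hB
  have _ := hI
  choose k hk1 hk2 using hg.rel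
  let D : (F → Pt ι) → Perm (Pt ι) := fun p =>
    if h : ∃ σ ∈ SuppOn (F : Set (Pt ι)), ∀ f : F, σ f = p f then h.choose else 1
  refine ⟨fun x => D (fun f => k f x), (LocF.pi (f := fun x (f : F) => k f x)
    (fun f => hk1 f)).comp D, fun x => ?_, fun x hx f hf => ?_, hfix⟩
  · simp only [D]
    split_ifs with h
    · exact h.choose_spec.1
    · exact one_mem _
  · have hm : ∀ f ∈ F, k f x ∈ F := fun f hf => by
      obtain ⟨f', h1, h2⟩ := hpres x hx f hf
      rw [hk2] at h2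
      rw [star_inj h2]; exact h1
    let m : F → F := fun f => ⟨k f x, hm f f.2⟩
    have hinj : Function.Injective m := fun f f' h => by
      have h1 : k f x = k f' x := congrArg Subtype.val h
      have h2 : g (x ⋆ f) = g (x ⋆ f') := by rw [hk2, hk2, h1]
      exact Subtype.ext (star_inj (g.injective h2))
    have h : ∃ σ ∈ SuppOn (F : Set (Pt ι)), ∀ f : F, σ f = k f x :=
      ⟨Perm.ofSubtype (p := fun f => f ∈ F)
        (Equiv.ofBijective m (Finite.injective_iff_bijective.1 hinj)),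
        fun a ha => Perm.ofSubtype_apply_of_not_mem _ ha,
        fun f => Perm.ofSubtype_apply_of_mem _ f.2⟩
    simp only [D, dif_pos h]
    rw [h.choose_spec.2 ⟨f, hf⟩, hk2]

open Classical in
/-- the permutation of the fibre over `x` defined by a word -/
noncomputable def wp (w : List (Tri X ι)) (x : X) : Perm (Pt ι) :=
  (w.map fun τ => if x ∈ τ.U then c3 τ.a τ.b τ.c else 1).prod

theorem wp_resw (w : List (Tri X ι)) {W : Set X} {x : X} (hx : x ∈ W) :
    wp (resw w W) x = wp w x := by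
  classical
  simp only [wp, resw, List.map_map]
  congr 1
  refine List.map_congr_left fun τ _ => ?_
  exact if_congr (and_iff_left hx) rfl rfl

theorem acts_evp {B : Set X} {F : Finset (Pt ι)} (hI : Inj B (F : Set (Pt ι)))
    {w : List (Tri X ι)} (hw : ∀ τ ∈ w, τ.Ok ∧ InB B F τ) :
    Acts (evp w) B (F : Set (Pt ι)) (wp w) ∧ ∀ x, wp w x ∈ SuppOn (F : Set (Pt ι)) := by
  classical
  induction w with
  | nil => exact ⟨Acts.one, fun _ => one_mem _⟩
  | cons τ w ih =>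
    obtain ⟨h1, h2⟩ := ih fun τ' h' => hw τ' (by simp [h'])
    obtain ⟨hok, hU, hp⟩ := hw τ (by simp)
    refine ⟨(cyc_acts_big hI hU hok.1 (hp τ.a_mem) (hp τ.b_mem) (hp τ.c_mem)).mul h1
      fun x _ f hf => (SuppOn.mem_iff (h2 x) f).2 hf, fun x => mul_mem ?_ (h2 x)⟩
    beta_reduce
    split_ifs
    · exact c3_mem_suppOn (hp τ.a_mem) (hp τ.b_mem) (hp τ.c_mem)
    · exact one_mem _

theorem acts_TT {B E : Set X} {F : Finset (Pt ι)} (hI : Inj B (F : Set (Pt ι))) (hE : E ⊆ B)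
    {a b : ι} {z : V} (ha : (z, a) ∈ F) (hb : (z, b) ∈ F) [DecidablePred (· ∈ E)] :
    Acts (TT a b (sh (-z) E)) B (F : Set (Pt ι))
      (fun x => if x ∈ E then swap ((z, a) : Pt ι) (z, b) else 1) := by
  have h0 : Acts (TT a b (sh (-z) E)) E ({(z, a), (z, b)} : Set (Pt ι))
      (fun _ => swap ((z, a) : Pt ι) (z, b)) := by
    refine ⟨fun x hx f hf => ?_, fun ⟨y, i⟩ hω => ?_⟩
    · have hx' : z +ᵥ x ∈ sh (-z) E := by simpa [← add_vadd] using hx
      rcases hf with rfl | rfl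
      · rw [swap_apply_left]
        exact (TT_mem a b hx' a).trans (by rw [swap_apply_left]; rfl)
      · rw [swap_apply_right]
        exact (TT_mem a b hx' b).trans (by rw [swap_apply_right]; rfl)
    · by_cases hy : y ∈ sh (-z) E
      · have e : ∀ j : ι, (-z +ᵥ y) ⋆ ((z, j) : Pt ι) = (y, j) := fun j => by
          simp [star, ← add_vadd]
        rw [TT_mem a b hy, swap_apply_of_ne_of_ne]
        · rintro rfl
          exact hω ⟨_, hy, _, Or.inl rfl, (e _).symm⟩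
        · rintro rfl
          exact hω ⟨_, hy, _, Or.inr rfl, (e _).symm⟩
      · exact TT_not_mem a b hy i
  refine h0.enlarge hI hE ?_ (fun x hx f _ => by rw [if_pos hx]) fun x _ f _ h => ?_
  · rintro f (rfl | rfl) <;> assumption
  · split_ifs with hx
    · have h' := h.resolve_left (not_not.2 hx)
      exact swap_apply_of_ne_of_ne (fun e => h' (Or.inl e)) (fun e => h' (Or.inr e))
    · rfl

/-- a word in a block structure, restricted to a part of the base -/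
theorem evp_resw_block {B W : Set X} {F : Finset (Pt ι)} (hI : Inj B (F : Set (Pt ι)))
    (hW : W ⊆ B) {w : List (Tri X ι)} (hw : ∀ τ ∈ w, τ.Ok ∧ InB B F τ) :
    evp (resw w W) ∈ SuppOn (Sup W (F : Set (Pt ι))) ∧
      ∀ ω ∈ Sup W (F : Set (Pt ι)), evp (resw w W) ω = evp w ω := by
  have h1 := acts_evp hI hw
  have h2 := acts_evp (hI.mono hW le_rfl) (w := resw w W) (fun τ hτ => by
    obtain ⟨τ', h', rfl⟩ := List.mem_map.1 hτ
    exact ⟨(hw τ' h').1.res W, Set.inter_subset_right, (hw τ' h').2.2⟩)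
  refine ⟨h2.1.mem_suppOn, ?_⟩
  rintro _ ⟨x, hx, f, hf, rfl⟩
  rw [h2.1.app x hx f hf, h1.1.app x (hW hx) f hf, wp_resw w hx]

namespace PreCan
variable (C : PreCan X ι Γ)

theorem ev_resw_pair {B W : Set X} {F : Finset (Pt ι)} (hI : Inj B (F : Set (Pt ι)))
    (hW : W ⊆ B) {w : List (Tri X ι)} (hw : ∀ τ ∈ w, τ.Ok ∧ InB B F τ)
    (hc : ∀ τ ∈ w, W ⊆ τ.U ∨ Disjoint W τ.U) :
    ∃ σ, (C.ev (resw w W), σ) ∈ PairGrp (fun a b c => C.xh ⟨W, a, b, c⟩) (F : Set (Pt ι)) ∧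
      Acts (evp (resw w W)) W (F : Set (Pt ι)) (fun _ => σ) := by
  classical
  have hI' := hI.mono hW le_rfl
  induction w with
  | nil => exact ⟨1, one_mem _, Acts.one⟩
  | cons τ w ih =>
    obtain ⟨σ, h1, h2⟩ := ih (fun τ' h' => hw τ' (by simp [h'])) (fun τ' h' => hc τ' (by simp [h']))
    obtain ⟨hok, hU, hp⟩ := hw τ (by simp)
    rw [resw_cons, ev_cons, evp_cons]
    rcases hc τ (by simp) with h | h
    · have e : τ.res W = ⟨W, τ.a, τ.b, τ.c⟩ := by
        rw [Tri.res, Set.inter_eq_right.2 h]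
      rw [e]
      refine ⟨c3 τ.a τ.b τ.c * σ, mul_mem (mem_pairGrp _ (hp τ.a_mem) (hp τ.b_mem) (hp τ.c_mem)
        hok.1) h1, Acts.mul (s := fun _ => c3 τ.a τ.b τ.c) ?_ h2 fun _ _ f hf =>
          (SuppOn.mem_iff (altOn_le_suppOn _ (pairGrp_snd h1)) f).2 hf⟩
      exact (cyc_acts_big hI' le_rfl hok.1 (hp τ.a_mem) (hp τ.b_mem) (hp τ.c_mem)).congr
        fun x hx f _ => by rw [if_pos hx]
    · have e : τ.res W = ⟨∅, τ.a, τ.b, τ.c⟩ := by
        rw [Tri.res, Set.disjoint_iff_inter_eq_empty.1 h.symm]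
      rw [e, C.xh_empty hok.1, cyc_empty, one_mul, one_mul]
      exact ⟨σ, h1, h2⟩

theorem pair_acts {W : Set X} (hW : Loc W) {F : Finset (Pt ι)} (hI : Inj W (F : Set (Pt ι)))
    {g : Γ} {σ : Perm (Pt ι)}
    (h : (g, σ) ∈ PairGrp (fun a b c => C.xh ⟨W, a, b, c⟩) (F : Set (Pt ι))) :
    Acts (C.π g) W (F : Set (Pt ι)) (fun _ => σ) ∧ g ∈ C.GS (InB W F) := by
  classical
  have key : ∀ p ∈ PairGrp (fun a b c => C.xh ⟨W, a, b, c⟩) (F : Set (Pt ι)),
      Acts (C.π p.1) W (F : Set (Pt ι)) (fun _ => p.2) ∧ p.1 ∈ C.GS (InB W F) ∧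
        p.2 ∈ SuppOn (F : Set (Pt ι)) := by
    intro p hp
    induction hp using Subgroup.closure_induction with
    | mem p hp =>
      obtain ⟨a, ha, b, hb, c, hc, hd, rfl⟩ := hp
      have hF : (⟨W, a, b, c⟩ : Tri X ι).pts ⊆ (F : Set (Pt ι)) := by
        intro f hf
        rcases Tri.mem_pts.1 hf with rfl | rfl | rfl <;> assumption
      have hg : (⟨W, a, b, c⟩ : Tri X ι).Gd := ⟨⟨hd, hI.mono le_rfl hF⟩, hW⟩
      refine ⟨?_, C.xh_mem_GS hg ⟨le_rfl, hF⟩, c3_mem_suppOn ha hb hc⟩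
      rw [C.π_xh hg]
      exact (cyc_acts_big hI le_rfl hd ha hb hc).congr fun x hx f _ => by rw [if_pos hx]
    | one => exact ⟨by rw [Prod.fst_one, map_one]; exact Acts.one, one_mem _, one_mem _⟩
    | mul p q _ _ hp hq =>
      refine ⟨?_, mul_mem hp.2.1 hq.2.1, mul_mem hp.2.2 hq.2.2⟩
      rw [Prod.fst_mul, map_mul]
      exact hp.1.mul hq.1 fun _ _ f hf => (SuppOn.mem_iff hq.2.2 f).2 hf
    | inv p _ hp =>
      refine ⟨?_, inv_mem hp.2.1, inv_mem hp.2.2⟩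
      rw [Prod.fst_inv, map_inv]
      exact hp.1.inv fun _ _ f hf => (SuppOn.mem_iff (inv_mem hp.2.2) f).2 hf
  exact ⟨(key _ h).1, (key _ h).2.1⟩

theorem block_lift_even {g : Perm (X × ι)} {B : Set X} (hB : Loc B) {F : Finset (Pt ι)}
    (hI : Inj B (F : Set (Pt ι))) {s : X → Perm (Pt ι)} (hs : LocF s)
    (ha : ∀ x ∈ B, s x ∈ AltOn (F : Set (Pt ι))) (h : Acts g B (F : Set (Pt ι)) s) :
    ∃ k ∈ C.GS (InB B F), C.π k = g := by
  have key : ∃ k ∈ C.GS (InB B F), Acts (C.π k) B (F : Set (Pt ι)) s := by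
    refine loc_induction hs hB (fun W => ∃ k ∈ C.GS (InB B F), Acts (C.π k) W (F : Set (Pt ι)) s)
      ⟨1, one_mem _, ?_⟩ (fun W hW hWB hne hc => ?_) ?_
    · rw [map_one]
      exact Acts.one.congr fun x hx => hx.elim
    · obtain ⟨x₀, hx₀⟩ := hne
      obtain ⟨k, hk⟩ := pairGrp_surj (fun a b c => C.xh ⟨W, a, b, c⟩) (ha x₀ (hWB hx₀))
      obtain ⟨h1, h2⟩ := C.pair_acts hW (hI.mono hWB le_rfl) hk
      exact ⟨k, C.GS_mono (fun τ _ hτ => ⟨hτ.1.trans hWB, hτ.2⟩) h2,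
        h1.congr fun x hx f _ => by rw [hc x hx x₀ hx₀]⟩
    · rintro W W' _ _ hWB hWB' hd ⟨k, hk, h1⟩ ⟨k', hk', h2⟩
      refine ⟨k * k', mul_mem hk hk', ?_⟩
      rw [map_mul]
      exact h1.union h2 (hI.mono (Set.union_subset hWB hWB') le_rfl) hd fun x hx f hf =>
        (SuppOn.mem_iff (altOn_le_suppOn _ (ha x (hWB' hx))) f).2 hf
  obtain ⟨k, hk, h1⟩ := key
  exact ⟨k, hk, h1.ext h fun _ _ _ _ => rfl⟩

/-- a local permutation preserving the blocks lifts up to a transposition of labels -/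
theorem block_lift [Good X] {g : Perm (X × ι)} (hg : LocP g) {B : Set X} (hB : Loc B)
    {F : Finset (Pt ι)} (hI : Inj B (F : Set (Pt ι))) (hfix : g ∈ SuppOn (Sup B (F : Set (Pt ι))))
    (hpres : ∀ x ∈ B, ∀ f ∈ F, ∃ f' ∈ F, g (x ⋆ f) = x ⋆ f') {a b : ι} (hab : a ≠ b) {z : V}
    (ha : (z, a) ∈ F) (hb : (z, b) ∈ F) :
    ∃ k ∈ C.GS (InB B F), ∃ E, Loc E ∧ E ⊆ sh (-z) B ∧ g = C.π k * TT a b E := by
  classical
  obtain ⟨s, hs, hsupp, hact⟩ := exists_acts_of_locP hg hB hI hfix hpres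
  set E₀ : Set X := B ∩ {x | s x ∉ AltOn (F : Set (Pt ι))} with hE₀
  have hloc : Loc E₀ := hB.inter (hs.loc fun σ => σ ∉ AltOn (F : Set (Pt ι)))
  have hne : ((z, a) : Pt ι) ≠ (z, b) := fun e => hab (congrArg Prod.snd e)
  have hT := acts_TT hI (Set.inter_subset_left : E₀ ⊆ B) ha hb
  have hmul := hact.mul hT fun x _ f hf => by
    split_ifs
    · exact (SuppOn.mem_iff (swap_mem_suppOn ha hb) f).2 hf
    · exact hf
  obtain ⟨k, hk, e⟩ := C.block_lift_even hB hI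
    (hs.comp₂ (hloc.ite (LocF.const (swap ((z, a) : Pt ι) (z, b))) (LocF.const 1)) (· * ·))
    (fun x hx => by
      split_ifs with h
      · exact (altOn_or (hsupp x) ha hb hne).resolve_left h.2
      · rw [mul_one]
        by_contra h'
        exact h ⟨hx, h'⟩) hmul
  refine ⟨k, hk, sh (-z) E₀, hloc.sh _, sh_mono _ Set.inter_subset_left, ?_⟩
  rw [e, mul_assoc, TT_mul_self, mul_one]

end PreCan

end Crest.Agent.R189
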