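import Crest.Agent.R189.Base

/-! # Row 189: the Boolean homomorphism from local sets to a quantum logic -/

set_option autoImplicit false
set_option linter.unusedSectionVars false

namespace Crest.Agent.R189
open QL

variable {X : Type} [Shift X]

/-- local sets are Boolean combinations of cylinders -/
theorem loc_bool_induction (P : Set X → Prop) (h1 : P Set.univ)
    (h2 : ∀ (u : V) (a : Shift.A X), P {x | obs (u +ᵥ x) = a})
    (h3 : ∀ U, Loc U → P U → P Uᶜ)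
    (h4 : ∀ U U', Loc U → Loc U' → P U → P U' → P (U ∩ U')) {U : Set X} (hU : Loc U) : P U := by
  classical
  have hemp : P ∅ := by simpa using h3 _ Loc.univ h1
  have hun : ∀ U U', Loc U → Loc U' → P U → P U' → P (U ∪ U') := by
    intro U U' hU hU' hP hP'
    have := h3 _ (hU.compl.inter hU'.compl) (h4 _ _ hU.compl hU'.compl (h3 _ hU hP) (h3 _ hU' hP'))
    rwa [Set.compl_inter, compl_compl, compl_compl] at this
  have hcyl : ∀ (s : Finset V) (y : X),
      Loc {x : X | ∀ u ∈ s, obs (u +ᵥ x) = obs (u +ᵥ y)} ∧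
        P {x : X | ∀ u ∈ s, obs (u +ᵥ x) = obs (u +ᵥ y)} := by
    intro s y
    induction s using Finset.induction_on with
    | empty => simpa using ⟨Loc.univ, h1⟩
    | insert u s _ ih =>
      have e : {x : X | ∀ v ∈ insert u s, obs (v +ᵥ x) = obs (v +ᵥ y)} =
          {x : X | obs (u +ᵥ x) = obs (u +ᵥ y)} ∩ {x : X | ∀ v ∈ s, obs (v +ᵥ x) = obs (v +ᵥ y)} := by
        ext x; simp
      have hl : Loc {x : X | obs (u +ᵥ x) = obs (u +ᵥ y)} :=
        (LocF.obs_at u).loc (fun a => a = obs (u +ᵥ y))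
      rw [e]
      exact ⟨hl.inter ih.1, h4 _ _ hl ih.1 (h2 u _) ih.2⟩
  obtain ⟨r, hr⟩ := hU
  let pat : X → (box r → Shift.A X) := fun x u => obs (u.1 +ᵥ x)
  have key : ∀ t : Finset (box r → Shift.A X),
      Loc (U ∩ {x | pat x ∈ t}) ∧ P (U ∩ {x | pat x ∈ t}) := by
    intro t
    induction t using Finset.induction_on with
    | empty => simpa using ⟨Loc.empty, hemp⟩
    | insert b t _ ih =>
      have e : U ∩ {x | pat x ∈ insert b t} = (U ∩ {x | pat x = b}) ∪ (U ∩ {x | pat x ∈ t}) := by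
        ext x; simp [and_or_left]
      have hb : Loc (U ∩ {x | pat x = b}) ∧ P (U ∩ {x | pat x = b}) := by
        rcases (U ∩ {x | pat x = b}).eq_empty_or_nonempty with h0 | ⟨y, hyU, hyb⟩
        · rw [h0]; exact ⟨Loc.empty, hemp⟩
        · have e2 : U ∩ {x | pat x = b} =
              {x : X | ∀ u ∈ box r, obs (u +ᵥ x) = obs (u +ᵥ y)} := by
            ext x
            constructor
            · rintro ⟨_, hx⟩ u hu
              exact congrFun (hx.trans hyb.symm) ⟨u, hu⟩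
            · intro hx
              refine ⟨hr y x (fun u hu => (hx u (mem_box.2 hu)).symm) hyU, ?_⟩
              rw [← hyb]
              funext u
              exact hx u.1 u.2
          rw [e2]
          exact hcyl _ y
      rw [e]
      exact ⟨hb.1.union ih.1, hun _ _ hb.1 ih.1 hb.2 ih.2⟩
  have := Fintype.ofFinite (box r → Shift.A X)
  simpa using (key Finset.univ).2

/-- the graph of the Boolean homomorphism -/
inductive BHRel {Q : Type} [QL Q] (o : V → Obs Q (Shift.A X)) : Set X → Q → Prop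
  | top : BHRel o Set.univ ⊤
  | cyl (u : V) (a : Shift.A X) : BHRel o {x | obs (u +ᵥ x) = a} ((o u).e a)
  | compl {U : Set X} {q : Q} : BHRel o U q → BHRel o Uᶜ (neg q)
  | inter {U U' : Set X} {q q' : Q} : BHRel o U q → BHRel o U' q' → BHRel o (U ∩ U') (meet q q')

/-- ultrafilters in a Boolean part `B` of a quantum logic -/
theorem bh_ultra {Q : Type} [QL Q] (B : Set Q) (hC : ∀ a ∈ B, ∀ b ∈ B, C a b)
    (hn : ∀ a ∈ B, neg a ∈ B) (hm : ∀ a ∈ B, ∀ b ∈ B, meet a b ∈ B) {z : Q} (hz : z ∈ B)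
    (hz0 : ¬ z ≤ ⊥) :
    ∃ F : Set Q, F ⊆ B ∧ z ∈ F ∧ (∀ a ∈ F, ∀ b ∈ F, meet a b ∈ F) ∧
      (∀ a ∈ F, ∀ b ∈ B, a ≤ b → b ∈ F) ∧ (∀ a ∈ F, ¬ a ≤ ⊥) ∧
      ∀ a ∈ B, a ∈ F ∨ neg a ∈ F := by
  let S : Set (Set Q) := {F | F ⊆ B ∧ z ∈ F ∧ (∀ a ∈ F, ∀ b ∈ F, meet a b ∈ F) ∧
      (∀ a ∈ F, ∀ b ∈ B, a ≤ b → b ∈ F) ∧ (∀ a ∈ F, ¬ a ≤ ⊥)}
  have h0 : {b | b ∈ B ∧ z ≤ b} ∈ S := by
    refine ⟨fun b hb => hb.1, ⟨hz, le_rfl⟩, fun a ha b hb =>
      ⟨hm a ha.1 b hb.1, le_meet (hC a ha.1 b hb.1) ha.2 hb.2⟩,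
      fun a ha b hb hab => ⟨hb, ha.2.trans hab⟩, fun a ha h => hz0 (ha.2.trans h)⟩
  obtain ⟨F, -, hF⟩ := zorn_subset_nonempty S (fun c hc hch hne => by
    refine ⟨⋃₀ c, ⟨?_, ?_, ?_, ?_, ?_⟩, fun s hs => Set.subset_sUnion_of_mem hs⟩
    · rintro a ⟨s, hs, ha⟩; exact (hc hs).1 ha
    · obtain ⟨s, hs⟩ := hne; exact ⟨s, hs, (hc hs).2.1⟩
    · rintro a ⟨s, hs, ha⟩ b ⟨t, ht, hb⟩
      rcases hch.total hs ht with h | h
      · exact ⟨t, ht, (hc ht).2.2.1 a (h ha) b hb⟩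
      · exact ⟨s, hs, (hc hs).2.2.1 a ha b (h hb)⟩
    · rintro a ⟨s, hs, ha⟩ b hb hab
      exact ⟨s, hs, (hc hs).2.2.2.1 a ha b hb hab⟩
    · rintro a ⟨s, hs, ha⟩
      exact (hc hs).2.2.2.2 a ha) _ h0
  obtain ⟨h1, h2, h3, h4, h5⟩ := hF.prop
  refine ⟨F, h1, h2, h3, h4, h5, fun a ha => ?_⟩
  by_contra hcon
  push Not at hcon
  have hF' : {b | b ∈ B ∧ ∃ f ∈ F, meet f a ≤ b} ∈ S := by
    refine ⟨fun b hb => hb.1, ⟨hz, z, h2, meet_le_left (hC z hz a ha)⟩, ?_, ?_, ?_⟩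
    · rintro b ⟨hb, f, hf, hfb⟩ b' ⟨hb', f', hf', hfb'⟩
      have c1 := hC f (h1 hf) f' (h1 hf')
      have c2 := hC _ (h1 (h3 f hf f' hf')) a ha
      refine ⟨hm b hb b' hb', meet f f', h3 f hf f' hf', le_meet (hC b hb b' hb') ?_ ?_⟩
      · exact (le_meet (hC f (h1 hf) a ha) ((meet_le_left c2).trans (meet_le_left c1))
          (meet_le_right c2)).trans hfb
      · exact (le_meet (hC f' (h1 hf') a ha) ((meet_le_left c2).trans (meet_le_right c1))
          (meet_le_right c2)).trans hfb'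
    · rintro b ⟨_, f, hf, hfb⟩ b' hb' hbb
      exact ⟨hb', f, hf, hfb.trans hbb⟩
    · rintro b ⟨_, f, hf, hfb⟩ hb0
      exact hcon.2 (h4 f hf _ (hn a ha) (le_neg_of_meet (hC f (h1 hf) a ha) (hfb.trans hb0)))
  have hsub : F ⊆ {b | b ∈ B ∧ ∃ f ∈ F, meet f a ≤ b} := fun f hf =>
    ⟨h1 hf, f, hf, meet_le_left (hC f (h1 hf) a ha)⟩
  exact hcon.1 (hF.le_of_ge hF' hsub ⟨ha, z, h2, meet_le_right (hC z hz a ha)⟩)

theorem exists_bool_hom {ok : Bool → Shift.A X → Shift.A X → Prop} (hR : Rules X ok)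
    {Q : Type} [QL Q] (o : V → Obs Q (Shift.A X))
    (ho : ∀ d u a b, ¬ ok d a b → (o u).e a ≤ neg ((o (u + vec d 1 0)).e b)) :
    ∃ Φ : Set X → Q, (∀ U U', Loc U → Loc U' → C (Φ U) (Φ U')) ∧ Φ Set.univ = ⊤ ∧
      (∀ U, Loc U → Φ Uᶜ = neg (Φ U)) ∧
      (∀ U U', Loc U → Loc U' → Φ (U ∩ U') = meet (Φ U) (Φ U')) ∧
      (∀ u a, Φ {x | obs (u +ᵥ x) = a} = (o u).e a) := by
  classical
  have hq := hR.quantum Q o ho
  let B : Set Q := {q | ∀ b, (∀ u t, C b ((o u).e t)) → C q b}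
  have he : ∀ u t, (o u).e t ∈ B := fun u t b hb => C_symm (hb u t)
  have hC : ∀ a ∈ B, ∀ b ∈ B, C a b := fun a ha b hb =>
    ha b (fun u t => hb _ (fun v s => hq u v t s))
  have hn : ∀ a ∈ B, neg a ∈ B := fun a ha b hb => C_neg_left (ha b hb)
  have hm : ∀ a ∈ B, ∀ b ∈ B, meet a b ∈ B := fun a ha b hb c hc =>
    C_meet (hC a ha b hb) (ha c hc) (hb c hc)
  have hRB : ∀ U q, BHRel o U q → q ∈ B := by
    intro U q h
    induction h with
    | top => exact fun b _ => C_top_left b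
    | cyl u a => exact he u a
    | compl _ ih => exact hn _ ih
    | inter _ _ ih ih' => exact hm _ ih _ ih'
  have hle : ∀ U q q', BHRel o U q → BHRel o U q' → q ≤ q' := by
    intro U q q' h h'
    have hqB := hRB U q h
    have hqB' := hRB U q' h'
    have c1 := hC q hqB q' hqB'
    refine split c1 (meet_le_right c1) (le_trans ?_ bot_le)
    by_contra hz0
    obtain ⟨F, h1, h2, h3, h4, h5, h6⟩ :=
      bh_ultra B hC hn hm (hm q hqB _ (hn q' hqB')) hz0
    have hcon : ∀ a ∈ F, neg a ∉ F := fun a ha hna =>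
      h5 _ (h3 a ha _ hna) (le_bot_of (meet_le_left (C_neg (C_refl a)))
        (meet_le_right (C_neg (C_refl a))))
    have hex : ∀ u, ∃ a, (o u).e a ∈ F := by
      intro u
      by_contra hne
      push Not at hne
      have hfin : ∀ s : Finset (Shift.A X), ∃ w ∈ F, ∀ a ∈ s, w ≤ neg ((o u).e a) := by
        intro s
        induction s using Finset.induction_on with
        | empty => exact ⟨_, h2, by simp⟩
        | insert a s _ ih =>
          obtain ⟨w, hw, hws⟩ := ih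
          have ha : neg ((o u).e a) ∈ F := (h6 _ (he u a)).resolve_left (hne a)
          have c2 := hC w (h1 hw) _ (h1 ha)
          refine ⟨_, h3 w hw _ ha, fun b hb => ?_⟩
          rcases Finset.mem_insert.1 hb with rfl | hb
          · exact meet_le_right c2
          · exact (meet_le_left c2).trans (hws b hb)
      have := Fintype.ofFinite (Shift.A X)
      obtain ⟨w, hw, hws⟩ := hfin Finset.univ
      have h7 : (⊤ : Q) ≤ neg w := (o u).full _ (fun a => le_neg_comm (hws a (Finset.mem_univ a)))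
      exact h5 w hw (le_bot_of le_rfl (le_top.trans h7))
    choose ξ hξ using hex
    obtain ⟨x, hx⟩ := hR.realize ξ (fun d u => by
      by_contra hok
      exact hcon _ (hξ _) (h4 _ (hξ u) _ (hn _ (he _ _)) (ho d u _ _ hok)))
    have hiff : ∀ U q, BHRel o U q → (q ∈ F ↔ x ∈ U) := by
      intro U q h
      induction h with
      | top => exact ⟨fun _ => trivial, fun _ => h4 _ h2 _ (fun b _ => C_top_left b) le_top⟩
      | cyl u a =>
        change _ ↔ obs (u +ᵥ x) = a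
        rw [hx]
        refine ⟨fun ha => ?_, fun ha => ha ▸ hξ u⟩
        by_contra hne
        exact hcon _ ha (h4 _ (hξ u) _ (hn _ (he _ _)) ((o u).orth hne))
      | compl h ih =>
        rw [Set.mem_compl_iff, ← ih]
        exact ⟨fun h' h'' => hcon _ h'' h', fun h' => (h6 _ (hRB _ _ h)).resolve_left h'⟩
      | inter h h' ih ih' =>
        have c2 := hC _ (hRB _ _ h) _ (hRB _ _ h')
        rw [Set.mem_inter_iff, ← ih, ← ih']
        exact ⟨fun hh => ⟨h4 _ hh _ (hRB _ _ h) (meet_le_left c2),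
          h4 _ hh _ (hRB _ _ h') (meet_le_right c2)⟩, fun hh => h3 _ hh.1 _ hh.2⟩
    have c3 := C_neg c1
    have hqF : q ∈ F := h4 _ h2 _ hqB (meet_le_left c3)
    have hqF' : neg q' ∈ F := h4 _ h2 _ (hn _ hqB') (meet_le_right c3)
    exact hcon _ ((hiff U q' h').2 ((hiff U q h).1 hqF)) hqF'
  have huniq : ∀ U q q', BHRel o U q → BHRel o U q' → q = q' := fun U q q' h h' =>
    le_antisymm (hle U q q' h h') (hle U q' q h' h)
  have hex : ∀ U : Set X, Loc U → ∃ q, BHRel o U q := fun U hU =>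
    loc_bool_induction (fun U => ∃ q, BHRel o U q) ⟨_, .top⟩ (fun u a => ⟨_, .cyl u a⟩)
      (fun _ _ ⟨_, h⟩ => ⟨_, .compl h⟩) (fun _ _ _ _ ⟨_, h⟩ ⟨_, h'⟩ => ⟨_, .inter h h'⟩) hU
  let Φ : Set X → Q := fun U => if h : ∃ q, BHRel o U q then h.choose else ⊤
  have hΦ : ∀ U, (∃ q, BHRel o U q) → BHRel o U (Φ U) := fun U h => by
    simp only [Φ, dif_pos h]; exact h.choose_spec
  have hΦ' : ∀ U q, BHRel o U q → Φ U = q := fun U q h => huniq U _ _ (hΦ U ⟨q, h⟩) h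
  refine ⟨Φ, fun U U' hU hU' => hC _ (hRB _ _ (hΦ U (hex U hU))) _ (hRB _ _ (hΦ U' (hex U' hU'))),
    hΦ' _ _ .top, fun U hU => hΦ' _ _ (.compl (hΦ U (hex U hU))),
    fun U U' hU hU' => hΦ' _ _ (.inter (hΦ U (hex U hU)) (hΦ U' (hex U' hU'))),
    fun u a => hΦ' _ _ (.cyl u a)⟩

end Crest.Agent.R189
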