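import Mathlib

/-! # Row 189: three-cycles, systems of three-cycles, the universal group `AA` (definitions) -/

set_option autoImplicit false
set_option linter.unusedSectionVars false

namespace Crest.Agent.R189
open Equiv
open scoped commutatorElement

section
variable {α : Type}

/-- pairwise distinct -/
def D3 (a b c : α) : Prop := a ≠ b ∧ a ≠ c ∧ b ≠ c

theorem D3.rot {a b c : α} (h : D3 a b c) : D3 b c a := ⟨h.2.2, h.1.symm, h.2.1.symm⟩
theorem D3.swap {a b c : α} (h : D3 a b c) : D3 a c b := ⟨h.2.1, h.1, h.2.2.symm⟩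
theorem D3.map {β : Type} {f : α → β} (hf : Function.Injective f) {a b c : α} (h : D3 a b c) :
    D3 (f a) (f b) (f c) := ⟨hf.ne h.1, hf.ne h.2.1, hf.ne h.2.2⟩
theorem D3.of_map {β : Type} {f : α → β} {a b c : α} (h : D3 (f a) (f b) (f c)) : D3 a b c :=
  ⟨fun e => h.1 (e ▸ rfl), fun e => h.2.1 (e ▸ rfl), fun e => h.2.2 (e ▸ rfl)⟩

variable [DecidableEq α]

instance (a b c : α) : Decidable (D3 a b c) := by unfold D3; infer_instance

/-- the three-cycle `a → b → c → a` (the identity if the points are not distinct) -/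
def c3 (a b c : α) : Perm α := if D3 a b c then swap a c * swap a b else 1

theorem c3_junk {a b c : α} (h : ¬ D3 a b c) : c3 a b c = 1 := if_neg h
theorem c3_fst {a b c : α} (h : D3 a b c) : c3 a b c a = b := by
  rw [c3, if_pos h, Perm.mul_apply, swap_apply_left,
    swap_apply_of_ne_of_ne h.1.symm h.2.2]
theorem c3_snd {a b c : α} (h : D3 a b c) : c3 a b c b = c := by
  rw [c3, if_pos h, Perm.mul_apply, swap_apply_right, swap_apply_left]
theorem c3_thd {a b c : α} (h : D3 a b c) : c3 a b c c = a := by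
  rw [c3, if_pos h, Perm.mul_apply, swap_apply_of_ne_of_ne h.2.1.symm h.2.2.symm, swap_apply_right]
theorem c3_other {a b c x : α} (h1 : x ≠ a) (h2 : x ≠ b) (h3 : x ≠ c) : c3 a b c x = x := by
  unfold c3
  split_ifs
  · rw [Perm.mul_apply, swap_apply_of_ne_of_ne h1 h2, swap_apply_of_ne_of_ne h1 h3]
  · rfl
theorem c3_ext {a b c : α} (h : D3 a b c) {σ : Perm α} (h1 : σ a = b) (h2 : σ b = c) (h3 : σ c = a)
    (h4 : ∀ x, x ≠ a → x ≠ b → x ≠ c → σ x = x) : σ = c3 a b c := by
  ext x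
  by_cases ha : x = a
  · rw [ha, h1, c3_fst h]
  by_cases hb : x = b
  · rw [hb, h2, c3_snd h]
  by_cases hc : x = c
  · rw [hc, h3, c3_thd h]
  rw [h4 x ha hb hc, c3_other ha hb hc]
theorem c3_mem {a b c x : α} {S : Set α} (ha : a ∈ S) (hb : b ∈ S) (hc : c ∈ S) :
    c3 a b c x ∈ S ↔ x ∈ S := by
  by_cases h : D3 a b c
  · by_cases h1 : x = a
    · rw [h1, c3_fst h]; tauto
    by_cases h2 : x = b
    · rw [h2, c3_snd h]; tauto
    by_cases h3 : x = c
    · rw [h3, c3_thd h]; tauto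
    rw [c3_other h1 h2 h3]
  · rw [c3_junk h]; rfl
theorem c3_conj (σ : Perm α) (a b c : α) : σ * c3 a b c * σ⁻¹ = c3 (σ a) (σ b) (σ c) := by
  by_cases h : D3 a b c
  · refine c3_ext (h.map σ.injective) ?_ ?_ ?_ ?_
    · simp [c3_fst h]
    · simp [c3_snd h]
    · simp [c3_thd h]
    · intro x h1 h2 h3
      simp only [Perm.mul_apply]
      rw [c3_other]
      · simp
      · rintro e; exact h1 (by rw [← e]; simp)
      · rintro e; exact h2 (by rw [← e]; simp)
      · rintro e; exact h3 (by rw [← e]; simp)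
  · rw [c3_junk h, c3_junk (fun h' => h h'.of_map)]; simp

/-- permutations fixing everything outside `S` -/
def SuppOn (S : Set α) : Subgroup (Perm α) where
  carrier := {σ | ∀ a, a ∉ S → σ a = a}
  mul_mem' {σ τ} h1 h2 a ha := by rw [Perm.mul_apply, h2 a ha, h1 a ha]
  one_mem' _ _ := rfl
  inv_mem' {σ} h a ha := by rw [Perm.inv_eq_iff_eq, h a ha]

omit [DecidableEq α] in
theorem SuppOn.mem_iff {S : Set α} {σ : Perm α} (h : σ ∈ SuppOn S) (a : α) : σ a ∈ S ↔ a ∈ S := by
  by_cases ha : a ∈ S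
  · refine ⟨fun _ => ha, fun _ => ?_⟩
    by_contra h1
    exact h1 (by rw [σ.injective (h _ h1)]; exact ha)
  · rw [h a ha]

theorem c3_mem_suppOn {S : Set α} {a b c : α} (ha : a ∈ S) (hb : b ∈ S) (hc : c ∈ S) :
    c3 a b c ∈ SuppOn S := fun _ hx =>
  c3_other (fun e => hx (e ▸ ha)) (fun e => hx (e ▸ hb)) (fun e => hx (e ▸ hc))

theorem swap_mem_suppOn {S : Set α} {a b : α} (ha : a ∈ S) (hb : b ∈ S) :
    swap a b ∈ SuppOn S := fun _ hx =>
  swap_apply_of_ne_of_ne (fun e => hx (e ▸ ha)) (fun e => hx (e ▸ hb))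

/-- the group generated by the three-cycles on `S` -/
def AltOn (S : Set α) : Subgroup (Perm α) :=
  Subgroup.closure {σ | ∃ a ∈ S, ∃ b ∈ S, ∃ c ∈ S, σ = c3 a b c}

theorem altOn_le_suppOn (S : Set α) : AltOn S ≤ SuppOn S := by
  rw [AltOn, Subgroup.closure_le]
  rintro _ ⟨a, ha, b, hb, c, hc, rfl⟩
  exact c3_mem_suppOn ha hb hc

theorem c3_mem_altOn {S : Set α} {a b c : α} (ha : a ∈ S) (hb : b ∈ S) (hc : c ∈ S) :
    c3 a b c ∈ AltOn S := Subgroup.subset_closure ⟨a, ha, b, hb, c, hc, rfl⟩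

/-- the group generated by the pairs (lift, three-cycle) on `S` -/
def PairGrp {Γ : Type} [Group Γ] (y : α → α → α → Γ) (S : Set α) : Subgroup (Γ × Perm α) :=
  Subgroup.closure {p | ∃ a ∈ S, ∃ b ∈ S, ∃ c ∈ S, D3 a b c ∧ p = (y a b c, c3 a b c)}

/-- a system of three-cycles in a group -/
structure IsSys {Γ : Type} [Group Γ] (x : α → α → α → Γ) : Prop where
  junk : ∀ {i j k}, ¬ D3 i j k → x i j k = 1
  rot : ∀ i j k, x i j k = x j k i
  inv : ∀ i j k, x i j k * x i k j = 1
  mul : ∀ {a b d e}, D3 a b d → e ≠ a → e ≠ b → e ≠ d → x a b d * x a d e = x b d e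
  conj : ∀ a b c i j k, x a b c * x i j k * (x a b c)⁻¹ = x (c3 a b c i) (c3 a b c j) (c3 a b c k)

theorem isSys_c3 : IsSys (c3 : α → α → α → Perm α) where
  junk := c3_junk
  rot i j k := by
    by_cases h : D3 i j k
    · exact c3_ext h.rot (c3_snd h) (c3_thd h) (c3_fst h) (fun x h1 h2 h3 => c3_other h3 h1 h2)
    · rw [c3_junk h, c3_junk (fun h' => h h'.rot.rot)]
  inv i j k := by
    by_cases h : D3 i j k
    · ext x
      by_cases h1 : x = i
      · simp [h1, c3_fst h.swap, c3_thd h]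
      by_cases h2 : x = j
      · simp [h2, c3_thd h.swap, c3_fst h]
      by_cases h3 : x = k
      · simp [h3, c3_snd h.swap, c3_snd h]
      simp [c3_other h1 h3 h2, c3_other h1 h2 h3]
    · rw [c3_junk h, c3_junk (fun h' => h h'.swap), one_mul]
  mul {a b d e} h h1 h2 h3 := by
    have h' : D3 a d e := ⟨h.2.1, h1.symm, h3.symm⟩
    refine c3_ext ⟨h.2.2, h2.symm, h3.symm⟩ ?_ ?_ ?_ ?_
    · rw [Perm.mul_apply, c3_other h.1.symm h.2.2 h2.symm, c3_snd h]
    · rw [Perm.mul_apply, c3_snd h', c3_other h1 h2 h3]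
    · rw [Perm.mul_apply, c3_thd h', c3_fst h]
    · intro x hb hd he
      by_cases ha : x = a
      · rw [ha, Perm.mul_apply, c3_fst h', c3_thd h]
      · rw [Perm.mul_apply, c3_other ha hd he, c3_other ha hb hd]
  conj a b c i j k := c3_conj _ _ _ _

theorem IsSys.map {Γ Γ' : Type} [Group Γ] [Group Γ'] {x : α → α → α → Γ} (h : IsSys x)
    (f : Γ →* Γ') : IsSys (fun i j k => f (x i j k)) where
  junk hh := by simp [h.junk hh]
  rot i j k := by rw [h.rot]
  inv i j k := by rw [← map_mul, h.inv, map_one]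
  mul h0 h1 h2 h3 := by rw [← map_mul, h.mul h0 h1 h2 h3]
  conj a b c i j k := by rw [← map_inv, ← map_mul, ← map_mul, h.conj]

/-- relators of the universal group -/
def sysRels (α : Type) [DecidableEq α] : Set (FreeGroup (α × α × α)) :=
  {w | (∃ i j k, ¬ D3 i j k ∧ w = .of (i, j, k)) ∨
    (∃ i j k, w = .of (i, j, k) * (.of (j, k, i))⁻¹) ∨
    (∃ i j k, w = .of (i, j, k) * .of (i, k, j)) ∨
    (∃ a b d e, D3 a b d ∧ e ≠ a ∧ e ≠ b ∧ e ≠ d ∧
      w = .of (a, b, d) * .of (a, d, e) * (.of (b, d, e))⁻¹) ∨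
    (∃ a b c i j k, w = .of (a, b, c) * .of (i, j, k) * (.of (a, b, c))⁻¹ *
      (.of (c3 a b c i, c3 a b c j, c3 a b c k))⁻¹)}

/-- the universal group generated by a system of three-cycles -/
def AA (α : Type) [DecidableEq α] : Type := PresentedGroup (sysRels α)

instance : Group (AA α) := inferInstanceAs (Group (PresentedGroup (sysRels α)))

namespace AA

def x (i j k : α) : AA α := PresentedGroup.of (rels := sysRels α) (i, j, k)

theorem rel {w : FreeGroup (α × α × α)} (h : w ∈ sysRels α) :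
    (PresentedGroup.mk (sysRels α) w : AA α) = 1 := PresentedGroup.one_of_mem h

theorem isSys : IsSys (x : α → α → α → AA α) where
  junk {i j k} h := rel (Or.inl ⟨i, j, k, h, rfl⟩)
  rot i j k := by
    have := rel (α := α) (Or.inr (Or.inl ⟨i, j, k, rfl⟩))
    rw [map_mul, map_inv, mul_inv_eq_one] at this; exact this
  inv i j k := by
    have := rel (α := α) (Or.inr (Or.inr (Or.inl ⟨i, j, k, rfl⟩)))
    rw [map_mul] at this; exact this
  mul {a b d e} h h1 h2 h3 := by
    have := rel (α := α) (Or.inr (Or.inr (Or.inr (Or.inl ⟨a, b, d, e, h, h1, h2, h3, rfl⟩))))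
    rw [map_mul, map_inv, mul_inv_eq_one, map_mul] at this; exact this
  conj a b c i j k := by
    have := rel (α := α) (Or.inr (Or.inr (Or.inr (Or.inr ⟨a, b, c, i, j, k, rfl⟩))))
    rw [map_mul, map_inv, mul_inv_eq_one, map_mul, map_mul, map_inv] at this; exact this

variable {Γ : Type} [Group Γ]

/-- the homomorphism defined by a system -/
def lift {y : α → α → α → Γ} (h : IsSys y) : AA α →* Γ :=
  PresentedGroup.toGroup (f := fun p : α × α × α => y p.1 p.2.1 p.2.2) (by
    rintro w (⟨i, j, k, h1, rfl⟩ | ⟨i, j, k, rfl⟩ | ⟨i, j, k, rfl⟩ | ⟨a, b, d, e, h0, h1, h2, h3, rfl⟩ |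
      ⟨a, b, c, i, j, k, rfl⟩)
    · simp [h.junk h1]
    · simp [h.rot i j k]
    · simp [h.inv]
    · simp [h.mul h0 h1 h2 h3]
    · simp [h.conj])

@[simp] theorem lift_x {y : α → α → α → Γ} (h : IsSys y) (i j k : α) :
    lift h (x i j k) = y i j k := PresentedGroup.toGroup.of _

theorem hom_ext {f g : AA α →* Γ} (h : ∀ i j k, f (x i j k) = g (x i j k)) : f = g :=
  PresentedGroup.ext (fun p => h p.1 p.2.1 p.2.2)

theorem closure_x : Subgroup.closure {s : AA α | ∃ i j k, s = x i j k} = ⊤ := by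
  have := PresentedGroup.closure_range_of (sysRels α)
  rw [eq_top_iff]
  refine le_trans (le_of_eq this.symm) (Subgroup.closure_mono ?_)
  rintro _ ⟨p, rfl⟩
  exact ⟨p.1, p.2.1, p.2.2, rfl⟩

theorem x_inv (i j k : α) : (x i j k)⁻¹ = x i k j :=
  inv_eq_of_mul_eq_one_right (isSys.inv i j k)

/-- induction over the universal group -/
theorem induction {P : AA α → Prop} (h1 : P 1) (hx : ∀ i j k, D3 i j k → P (x i j k))
    (hm : ∀ s t, P s → P t → P (s * t)) (s : AA α) : P s := by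
  have hs : s ∈ Subgroup.closure {s : AA α | ∃ i j k, s = x i j k} := by rw [closure_x]; trivial
  have hx' : ∀ i j k, P (x i j k) := fun i j k => by
    by_cases h : D3 i j k
    · exact hx i j k h
    · rw [isSys.junk h]; exact h1
  refine Subgroup.closure_induction'' (p := fun s _ => P s) ?_ ?_ h1 (fun s t _ _ => hm s t) hs
  · rintro _ ⟨i, j, k, rfl⟩; exact hx' i j k
  · rintro _ ⟨i, j, k, rfl⟩; rw [x_inv]; exact hx' i k j

/-- the action on the index set -/
def perm : AA α →* Perm α := lift isSys_c3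

@[simp] theorem perm_x (i j k : α) : perm (x i j k) = c3 i j k := lift_x _ _ _ _

theorem conj_x (s : AA α) (i j k : α) :
    s * x i j k * s⁻¹ = x (perm s i) (perm s j) (perm s k) := by
  induction s using induction generalizing i j k with
  | h1 => simp
  | hx a b c _ => rw [isSys.conj, perm_x]
  | hm s t hs ht =>
    rw [map_mul, Perm.mul_apply, Perm.mul_apply, Perm.mul_apply, ← hs, ← ht]; group

/-- the subgroup generated by the three-cycles on `S` -/
def AS (S : Set α) : Subgroup (AA α) :=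
  Subgroup.closure {s | ∃ i ∈ S, ∃ j ∈ S, ∃ k ∈ S, s = x i j k}

theorem x_mem_AS {S : Set α} {i j k : α} (hi : i ∈ S) (hj : j ∈ S) (hk : k ∈ S) :
    x i j k ∈ AS S := Subgroup.subset_closure ⟨i, hi, j, hj, k, hk, rfl⟩

end AA

/-- every three-cycle of a system is a commutator -/
theorem IsSys.comm {Γ : Type} [Group Γ] {x : α → α → α → Γ} (h : IsSys x) {a b d e m : α}
    (h0 : D3 b d e) (ha : a ≠ b ∧ a ≠ d ∧ a ≠ e) (hm : m ≠ b ∧ m ≠ d ∧ m ≠ e) (ham : a ≠ m) :
    x b d e = ⁅x e b m, x a e d⁆ := by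
  have h1 : D3 e b m := ⟨h0.2.1.symm, hm.2.2.symm, hm.1.symm⟩
  rw [commutatorElement_def, h.conj, c3_other ha.2.2 ha.1 ham, c3_fst h1,
    c3_other h0.2.2 h0.1.symm hm.2.1.symm, ← h.mul ⟨ha.1, ha.2.1, h0.1⟩ ha.2.2.symm h0.2.1.symm
      h0.2.2.symm]
  congr 1
  exact (inv_eq_of_mul_eq_one_left (h.inv a d e)).symm

/-- three-cycles of a system with disjoint supports commute -/
theorem IsSys.commute {Γ : Type} [Group Γ] {x : α → α → α → Γ} (h : IsSys x) {a b c i j k : α}
    (hi : i ≠ a ∧ i ≠ b ∧ i ≠ c) (hj : j ≠ a ∧ j ≠ b ∧ j ≠ c) (hk : k ≠ a ∧ k ≠ b ∧ k ≠ c) :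
    Commute (x a b c) (x i j k) := by
  have := h.conj a b c i j k
  rw [c3_other hi.1 hi.2.1 hi.2.2, c3_other hj.1 hj.2.1 hj.2.2, c3_other hk.1 hk.2.1 hk.2.2,
    mul_inv_eq_iff_eq_mul] at this
  exact this

end

/-- a label outside a short list -/
theorem fresh {ι : Type} [Fintype ι] (h : 40 ≤ Fintype.card ι) (l : List ι) (hl : l.length < 40) :
    ∃ a, a ∉ l := by
  classical
  by_contra hc
  push Not at hc
  have h1 : (Finset.univ : Finset ι) ⊆ l.toFinset := fun a _ => List.mem_toFinset.2 (hc a)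
  have h2 := Finset.card_le_card h1
  have h3 := List.toFinset_card_le l
  rw [Finset.card_univ] at h2
  omega

theorem fresh_finset {ι : Type} [Fintype ι] (h : 40 ≤ Fintype.card ι) (s : Finset ι)
    (hs : s.card < 40) : ∃ a, a ∉ s := by
  obtain ⟨a, ha⟩ := fresh h s.toList (by simpa using hs)
  exact ⟨a, by simpa using ha⟩

end Crest.Agent.R189
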