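import Crest.Agent.R189.Tile

/-! # Row 189: forcing along the junctions of the cells -/

set_option autoImplicit false
set_option linter.unusedSectionVars false
set_option linter.constructorNameAsVariable false

namespace Crest.Agent.R189
open QL

variable {Q : Type} [QL Q]

/-- forcing on the label of the junction `(p, q)` of the cell `(x, y)` -/
def FL (o : V → Obs Q Tile) (n : ℕ) (z : Q) (x y p q : ℤ) (P : Lab → Prop) : Prop :=
  Frc z (o (site n x p, site n y q)) (fun t => P t.E.a)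
/-- forcing on the role of the cell `(x, y)` -/
def FP (o : V → Obs Q Tile) (n : ℕ) (z : Q) (x y : ℤ) (P : Role → Prop) : Prop :=
  FL o n z x y 1 1 (fun l => P l.par)
/-- forcing on the class of the column `x` of cells -/
def FH (o : V → Obs Q Tile) (n : ℕ) (z : Q) (x : ℤ) (P : Cl → Prop) : Prop :=
  FP o n z x 0 (fun r => P r.H)
/-- forcing on the class of the row `y` of cells -/
def FV (o : V → Obs Q Tile) (n : ℕ) (z : Q) (y : ℤ) (P : Cl → Prop) : Prop :=
  FP o n z 0 y (fun r => P r.V)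

/-- the classes of all columns and rows of cells are forced, with base cell `g` -/
structure Forced (o : V → Obs Q Tile) (n : ℕ) (z : Q) (g : V) : Prop where
  hH : ∀ X i : ℤ, 0 ≤ i → i ≤ n + 2 → FH o n z (g.1 + site (n + 1) X i) (· = cls (n + 1) i)
  hV : ∀ Y j : ℤ, 0 ≤ j → j ≤ n + 2 → FV o n z (g.2 + site (n + 1) Y j) (· = cls (n + 1) j)

variable {o : V → Obs Q Tile} {n : ℕ} {κ z : Q}

theorem TObs.right (hT : TObs o) {x y : ℤ} {P : Col → Prop} (h : Frc z (o (x, y)) (fun t => P t.E)) :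
    Frc z (o (x + 1, y)) (fun t => P t.W) :=
  h.transfer (R := fun t t' => t.E = t'.W) (hT.mH x y) (fun _ _ e hp => e ▸ hp)

theorem TObs.left (hT : TObs o) {x y : ℤ} {P : Col → Prop}
    (h : Frc z (o (x + 1, y)) (fun t => P t.W)) : Frc z (o (x, y)) (fun t => P t.E) :=
  h.transfer (R := fun t' t => t.E = t'.W) (fun t' t e => le_neg_comm (hT.mH x y t t' e))
    (fun _ _ e hp => e ▸ hp)

theorem TObs.up (hT : TObs o) {x y : ℤ} {P : Col → Prop} (h : Frc z (o (x, y)) (fun t => P t.N)) :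
    Frc z (o (x, y + 1)) (fun t => P t.S) :=
  h.transfer (R := fun t t' => t.N = t'.S) (hT.mV x y) (fun _ _ e hp => e ▸ hp)

theorem TObs.down (hT : TObs o) {x y : ℤ} {P : Col → Prop}
    (h : Frc z (o (x, y + 1)) (fun t => P t.S)) : Frc z (o (x, y)) (fun t => P t.N) :=
  h.transfer (R := fun t' t => t.N = t'.S) (fun t' t e => le_neg_comm (hT.mV x y t t' e))
    (fun _ _ e hp => e ▸ hp)

theorem TObs.of_frc (h0 : ∀ u, Frc ⊤ (o u) Tile.ok)
    (h1 : ∀ z x y c, Frc z (o (x, y)) (fun t => t.E = c) → Frc z (o (x + 1, y)) (fun t => t.W = c))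
    (h2 : ∀ z x y c, Frc z (o (x, y)) (fun t => t.N = c) → Frc z (o (x, y + 1)) (fun t => t.S = c)) :
    TObs o where
  ok := h0
  mH x y t t' e := h1 _ x y t.E ((Frc.self _ t).mono (fun _ h => by rw [h])) t' (Ne.symm e)
  mV x y t t' e := h2 _ x y t.N ((Frc.self _ t).mono (fun _ h => by rw [h])) t' (Ne.symm e)

theorem frc_trO {x y : ℤ} {P : Tile → Prop} :
    Frc z (trO o (x, y)) P ↔ Frc z (o (y, x)) (fun t => P t.tr) := Obs.frc_map _ _

theorem TObs.tr (h : TObs o) : TObs (trO o) := by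
  refine TObs.of_frc (fun ⟨x, y⟩ => frc_trO.2 ((h.ok _).mono (fun _ ht => ht.tr))) ?_ ?_
  · intro z x y c hz
    exact frc_trO.2 (h.up (P := fun k => k.tr = c) (frc_trO.1 hz))
  · intro z x y c hz
    exact frc_trO.2 (h.right (P := fun k => k.tr = c) (frc_trO.1 hz))

theorem Lev.tr (h : Lev κ o n) : Lev κ (trO o) n := by
  refine ⟨fun x y p q h1 h2 h3 h4 => frc_trO.2 ((h.J y x q p h3 h4 h1 h2).mono ?_),
    fun x y q h1 h2 => frc_trO.2 (h.L y x q h1 h2),
    fun x y q h1 h2 => frc_trO.2 ((h.G y x q h1 h2).mono (fun _ ht => ht.tr))⟩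
  rintro t ⟨ht, ho⟩
  refine ⟨ht.tr, ?_⟩
  change t.N.a.own.tr = _
  rw [ht.2.1, ho, role_tr]

theorem Lev.of_le (h : Lev κ o n) (hz : z ≤ κ) : Lev z o n :=
  ⟨fun x y p q h1 h2 h3 h4 => (h.J x y p q h1 h2 h3 h4).of_le hz,
    fun x y q h1 h2 => (h.G x y q h1 h2).of_le hz, fun x y q h1 h2 => (h.L x y q h1 h2).of_le hz⟩

theorem site_succ (n : ℕ) (x p : ℤ) : site n x (p + 1) = site n x p + 1 := by unfold site; ring
theorem site_next (n : ℕ) (x : ℤ) : site n (x + 1) 0 = site n x (n + 1) + 1 := by unfold site; ring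

/-- colours pass along the rows of higher level -/
theorem pass_row (hT : TObs o) (hL : Lev z o n) {x y p : ℤ} (hp : 0 ≤ p) (hp' : p ≤ n + 1)
    {P : Col → Prop} : Frc z (o (site n x p, site n y 0)) (fun t => P t.E) ↔
      Frc z (o (site n x 0, site n y 0)) (fun t => P t.E) := by
  induction p, hp using Int.leInduction with
  | base => rfl
  | succ p hp ih =>
    rw [← ih (by omega)]
    have hl := hL.L x y (p + 1) (by omega) hp'
    have e : ∀ t : Tile, t.IsL → t.W = t.E := fun t ht => Col.tr_inj ht.2.2.2.2.1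
    rw [site_succ] at hl ⊢
    constructor
    · intro h
      exact hT.left (h.mono₂ hl (fun t h1 h2 => by rw [e t h2]; exact h1))
    · intro h
      exact (hT.right h).mono₂ hl (fun t h1 h2 => by rw [← e t h2]; exact h1)

theorem pass_col (hT : TObs o) (hL : Lev z o n) {x y q : ℤ} (hq : 0 ≤ q) (hq' : q ≤ n + 1)
    {P : Col → Prop} : Frc z (o (site n x 0, site n y q)) (fun t => P t.N) ↔
      Frc z (o (site n x 0, site n y 0)) (fun t => P t.N) := by
  have := pass_row hT.tr hL.tr (x := y) (y := x) hq hq' (P := fun c => P c.tr)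
  rw [frc_trO, frc_trO] at this
  simpa [Tile.tr] using this

theorem pass_row_next (hT : TObs o) (hL : Lev z o n) {x y : ℤ} {P : Col → Prop} :
    Frc z (o (site n (x + 1) 0, site n y 0)) (fun t => P t.W) ↔
      Frc z (o (site n x 0, site n y 0)) (fun t => P t.E) := by
  rw [← pass_row hT hL (p := n + 1) (by omega) le_rfl, site_next]
  exact ⟨hT.left, hT.right⟩

theorem pass_col_next (hT : TObs o) (hL : Lev z o n) {x y : ℤ} {P : Col → Prop} :
    Frc z (o (site n x 0, site n (y + 1) 0)) (fun t => P t.S) ↔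
      Frc z (o (site n x 0, site n y 0)) (fun t => P t.N) := by
  rw [← pass_col hT hL (q := n + 1) (by omega) le_rfl, site_next]
  exact ⟨hT.down, hT.up⟩

theorem der_tobs (hT : TObs o) (hL : Lev ⊤ o n) (g : V) : TObs (der n g o) := by
  refine TObs.of_frc (fun u => hT.ok _) ?_ ?_
  · intro z x y c h
    have := (pass_row_next hT (hL.of_le le_top) (P := (· = c))).2 h
    simpa [der, add_assoc] using this
  · intro z x y c h
    have := (pass_col_next hT (hL.of_le le_top) (P := (· = c))).2 h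
    simpa [der, add_assoc] using this

theorem cls_eq_z {i : ℤ} : cls n i = .z ↔ i = 0 := by
  unfold cls; split_ifs <;> simp_all
theorem cls_eq_f {i : ℤ} : cls n i = .f ↔ i = 1 := by
  unfold cls; split_ifs <;> simp_all
theorem cls_eq_l (hn : 3 ≤ n) {i : ℤ} : cls n i = .l ↔ i = n := by
  unfold cls; split_ifs <;> simp_all <;> omega
theorem cls_eq_b (hn : 3 ≤ n) {i : ℤ} : cls n i = .b ↔ i = n + 1 := by
  unfold cls; split_ifs <;> simp_all <;> omega
theorem cls_eq_m {i : ℤ} : cls n i = .m ↔ i ≠ 0 ∧ i ≠ 1 ∧ i ≠ n ∧ i ≠ n + 1 := by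
  unfold cls; split_ifs <;> simp_all
theorem cls_act (hn : 3 ≤ n) {i : ℤ} : (cls n i).act ↔ i ≠ 0 ∧ i ≠ n + 1 := by
  unfold Cl.act; rw [cls_eq_f, cls_eq_m, cls_eq_l hn]; omega
theorem role_H (i j : ℤ) : (role n i j).H = cls n i := rfl
theorem role_V (i j : ℤ) : (role n i j).V = cls n j := rfl
theorem role_T {i j : ℤ} : (role n i j).ty = .T ↔ i ≠ 0 ∧ j ≠ 0 ∧ i ≠ n + 1 ∧ j ≠ n + 1 ∧ i < j := by
  simp only [role]; split_ifs <;> simp <;> omega
theorem role_D {i j : ℤ} : (role n i j).ty = .D ↔ i ≠ 0 ∧ i ≠ n + 1 ∧ i = j := by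
  simp only [role]; split_ifs <;> simp <;> omega
theorem role_R {i j : ℤ} : (role n i j).ty = .R ↔ i ≠ 0 ∧ j ≠ 0 ∧ i ≠ n + 1 ∧ j ≠ n + 1 ∧ j < i := by
  simp only [role]; split_ifs <;> simp <;> omega
theorem role_N {i j : ℤ} : (role n i j).ty = .N ↔ i = 0 ∨ j = 0 ∨ i = n + 1 ∨ j = n + 1 := by
  simp only [role]; split_ifs <;> simp <;> omega

theorem FL.mono {x y p q : ℤ} {P R : Lab → Prop} (h : FL o n z x y p q P) (hP : ∀ l, P l → R l) :
    FL o n z x y p q R := Frc.mono h (fun _ => hP _)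
theorem FL.mono₂ {x y p q : ℤ} {P P' R : Lab → Prop} (h : FL o n z x y p q P)
    (h' : FL o n z x y p q P') (hP : ∀ l, P l → P' l → R l) : FL o n z x y p q R :=
  Frc.mono₂ h h' (fun _ => hP _)
theorem FL.triv {x y p q : ℤ} : FL o n z x y p q (fun _ => True) := Frc.of_forall (fun _ => trivial)
theorem FP.mono {x y : ℤ} {P R : Role → Prop} (h : FP o n z x y P) (hP : ∀ l, P l → R l) :
    FP o n z x y R := FL.mono h (fun _ => hP _)
theorem FP.mono₂ {x y : ℤ} {P P' R : Role → Prop} (h : FP o n z x y P) (h' : FP o n z x y P')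
    (hP : ∀ l, P l → P' l → R l) : FP o n z x y R := FL.mono₂ h h' (fun _ => hP _)
theorem FH.mono {x : ℤ} {P R : Cl → Prop} (h : FH o n z x P) (hP : ∀ l, P l → R l) :
    FH o n z x R := FP.mono h (fun _ => hP _)
theorem FV.mono {x : ℤ} {P R : Cl → Prop} (h : FV o n z x P) (hP : ∀ l, P l → R l) :
    FV o n z x R := FP.mono h (fun _ => hP _)

/-- the next junction in a row or column -/
def Nx (n : ℕ) (x p x' p' : ℤ) : Prop :=
  (1 ≤ p ∧ p ≤ n ∧ x' = x ∧ p' = p + 1) ∨ (p = n + 1 ∧ x' = x + 1 ∧ p' = 1)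

theorem Nx.int {x p : ℤ} (h1 : 1 ≤ p) (h2 : p ≤ n) : Nx n x p x (p + 1) := Or.inl ⟨h1, h2, rfl, rfl⟩
theorem Nx.str {x : ℤ} : Nx n x (n + 1) (x + 1) 1 := Or.inr ⟨rfl, rfl, rfl⟩

section
variable (hT : TObs o) (hn : 3 ≤ n) (hL : Lev z o n)
include hT hn hL

theorem fl_tr {x y p q : ℤ} (hp : 1 ≤ p) (hp' : p ≤ n + 1) (hq : 1 ≤ q) (hq' : q ≤ n + 1)
    {P : Lab → Prop} : FL (trO o) n z y x q p P ↔ FL o n z x y p q (fun l => P l.tr) := by
  unfold FL
  rw [frc_trO]
  have hJ := hL.J x y p q hp hp' hq hq'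
  have e : ∀ t : Tile, t.IsJ → t.tr.E.a = t.E.a.tr := fun t ht => by
    change t.N.a.tr = _; rw [ht.2.1]
  exact ⟨fun h => h.mono₂ hJ (fun t h1 h2 => by rw [e t h2.1] at h1; exact h1),
    fun h => h.mono₂ hJ (fun t h1 h2 => by rw [e t h2.1]; exact h1)⟩

theorem fh_tr {x : ℤ} {P : Cl → Prop} : FH (trO o) n z x P ↔ FV o n z x P :=
  fl_tr hT hn hL (P := fun l => P l.par.H) le_rfl (by omega) le_rfl (by omega)

theorem fv_tr {x : ℤ} {P : Cl → Prop} : FV (trO o) n z x P ↔ FH o n z x P :=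
  fl_tr hT hn hL (P := fun l => P l.par.V) le_rfl (by omega) le_rfl (by omega)

theorem fp_tr {x y : ℤ} {P : Role → Prop} :
    FP (trO o) n z y x P ↔ FP o n z x y (fun r => P r.tr) :=
  fl_tr hT hn hL le_rfl (by omega) le_rfl (by omega)

theorem fl_ok {x y p q : ℤ} (hp : 1 ≤ p) (hp' : p ≤ n + 1) (hq : 1 ≤ q) (hq' : q ≤ n + 1) :
    FL o n z x y p q (fun l => l.ok ∧ l.own = role n p q) :=
  (hT.ok _).top.mono₂ (hL.J x y p q hp hp' hq hq') (fun _ h1 h2 => ⟨h1.2.1.1.okl, h2.2⟩)

theorem edge_iff {x p x' p' y q : ℤ} (h : Nx n x p x' p') (hq : 1 ≤ q) (hq' : q ≤ n + 1)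
    {P : Lab → Lab → Prop} : Frc z (o (site n x p, site n y q)) (fun t => P t.E.a t.E.b) ↔
      Frc z (o (site n x' p', site n y q)) (fun t => P t.W.a t.W.b) := by
  rcases h with ⟨_, _, rfl, rfl⟩ | ⟨rfl, rfl, rfl⟩
  · rw [site_succ]
    exact ⟨hT.right (P := fun c => P c.a c.b), hT.left (P := fun c => P c.a c.b)⟩
  · have hG := hL.G (x + 1) y q hq hq'
    have e1 : site n (x + 1) 1 = site n (x + 1) 0 + 1 := by unfold site; ring
    rw [e1]
    constructor
    · intro h
      refine hT.right (P := fun c => P c.a c.b) ?_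
      have := hT.right (P := fun c => P c.a c.b) h
      rw [← site_next] at this
      exact this.mono₂ hG (fun t h1 h2 => by rw [← h2.1, ← h2.2.1]; exact h1)
    · intro h
      refine hT.left (P := fun c => P c.a c.b) ?_
      rw [← site_next]
      exact (hT.left (P := fun c => P c.a c.b) h).mono₂ hG
        (fun t h1 h2 => by rw [h2.1, h2.2.1]; exact h1)

theorem stepR {x p x' p' y q : ℤ} (h : Nx n x p x' p') (hq : 1 ≤ q) (hq' : q ≤ n + 1)
    {P P' R : Lab → Prop} (h1 : FL o n z x y p q P) (h2 : FL o n z x' y p' q P')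
    (h3 : ∀ l l', LegalH l l' → l.own = role n p q → l'.own = role n p' q → P l → P' l' → R l') :
    FL o n z x' y p' q R := by
  have hp : 1 ≤ p ∧ p ≤ n + 1 ∧ 1 ≤ p' ∧ p' ≤ n + 1 := by unfold Nx at h; omega
  have a1 := (edge_iff hT hn hL h hq hq' (P := fun l _ => P l ∧ l.own = role n p q)).1
    (Frc.mono₂ h1 (hL.J x y p q hp.1 hp.2.1 hq hq') (fun _ a b => ⟨a, b.2⟩))
  have a2 := (a1.and h2).and ((hT.ok _).top.and (hL.J x' y p' q hp.2.2.1 hp.2.2.2 hq hq'))
  refine a2.mono ?_
  rintro t ⟨⟨⟨b1, b2⟩, b3⟩, b4, b5, b6⟩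
  exact h3 t.W.a t.E.a (b5.1 ▸ b4.1.1) b2 b6 b1 b3

theorem stepL {x p x' p' y q : ℤ} (h : Nx n x p x' p') (hq : 1 ≤ q) (hq' : q ≤ n + 1)
    {P P' R : Lab → Prop} (h1 : FL o n z x y p q P) (h2 : FL o n z x' y p' q P')
    (h3 : ∀ l l', LegalH l l' → l.own = role n p q → l'.own = role n p' q → P l → P' l' → R l) :
    FL o n z x y p q R := by
  have hp : 1 ≤ p ∧ p ≤ n + 1 ∧ 1 ≤ p' ∧ p' ≤ n + 1 := by unfold Nx at h; omega
  have a1 := (edge_iff hT hn hL h hq hq' (P := fun _ l => P' l ∧ l.own = role n p' q)).2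
    (Frc.mono₂ h2 (hL.J x' y p' q hp.2.2.1 hp.2.2.2 hq hq')
      (fun _ a b => by rw [b.1.1]; exact ⟨a, b.2⟩))
  have a2 := (a1.and h1).and ((hT.ok _).top.and (hL.J x y p q hp.1 hp.2.1 hq hq'))
  refine a2.mono ?_
  rintro t ⟨⟨⟨b1, b2⟩, b3⟩, b4, _, b6⟩
  exact h3 t.E.a t.E.b b4.2.1.1 b6 b2 b3 b1

theorem stepU {y q y' q' x p : ℤ} (h : Nx n y q y' q') (hp : 1 ≤ p) (hp' : p ≤ n + 1)
    {P P' R : Lab → Prop} (h1 : FL o n z x y p q P) (h2 : FL o n z x y' p q' P')
    (h3 : ∀ l l', LegalH l.tr l'.tr → l.own = role n p q → l'.own = role n p q' → P l → P' l' →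
      R l') : FL o n z x y' p q' R := by
  have hq : 1 ≤ q ∧ q ≤ n + 1 ∧ 1 ≤ q' ∧ q' ≤ n + 1 := by unfold Nx at h; omega
  have := stepR hT.tr hn hL.tr h hp hp' (P := fun l => P l.tr) (P' := fun l => P' l.tr)
    (R := fun l => R l.tr) ((fl_tr hT hn hL hp hp' hq.1 hq.2.1).2 (by simpa using h1))
    ((fl_tr hT hn hL hp hp' hq.2.2.1 hq.2.2.2).2 (by simpa using h2))
    (fun l l' a b c => h3 l.tr l'.tr (by simpa using a)
      (by change l.own.tr = _; rw [b, role_tr]) (by change l'.own.tr = _; rw [c, role_tr]))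
  simpa using (fl_tr hT hn hL hp hp' hq.2.2.1 hq.2.2.2).1 this

theorem stepD {y q y' q' x p : ℤ} (h : Nx n y q y' q') (hp : 1 ≤ p) (hp' : p ≤ n + 1)
    {P P' R : Lab → Prop} (h1 : FL o n z x y p q P) (h2 : FL o n z x y' p q' P')
    (h3 : ∀ l l', LegalH l.tr l'.tr → l.own = role n p q → l'.own = role n p q' → P l → P' l' →
      R l) : FL o n z x y p q R := by
  have hq : 1 ≤ q ∧ q ≤ n + 1 ∧ 1 ≤ q' ∧ q' ≤ n + 1 := by unfold Nx at h; omega
  have := stepL hT.tr hn hL.tr h hp hp' (P := fun l => P l.tr) (P' := fun l => P' l.tr)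
    (R := fun l => R l.tr) ((fl_tr hT hn hL hp hp' hq.1 hq.2.1).2 (by simpa using h1))
    ((fl_tr hT hn hL hp hp' hq.2.2.1 hq.2.2.2).2 (by simpa using h2))
    (fun l l' a b c => h3 l.tr l'.tr (by simpa using a)
      (by change l.own.tr = _; rw [b, role_tr]) (by change l'.own.tr = _; rw [c, role_tr]))
  simpa using (fl_tr hT hn hL hp hp' hq.1 hq.2.1).1 this

theorem rowR {x y a b q : ℤ} (ha : 1 ≤ a) (hab : a ≤ b) (hb : b ≤ n + 1) (hq : 1 ≤ q)
    (hq' : q ≤ n + 1) {P : Lab → Prop} (h : ∀ p l l', a ≤ p → p < b → LegalH l l' →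
      l.own = role n p q → l.own.H ≠ .b → P l → P l') (h1 : FL o n z x y a q P) :
    FL o n z x y b q P := by
  induction b, hab using Int.leInduction with
  | base => exact h1
  | succ b hab ih =>
    exact stepR hT hn hL (Nx.int (by omega) (by omega)) hq hq'
      (ih (by omega) (fun p l l' h1 h2 => h p l l' h1 (by omega))) FL.triv
      (fun l l' a1 a2 _ a4 _ => h b l l' hab (by omega) a1 a2
        (by rw [a2, role_H, Ne, cls_eq_b hn]; omega) a4)

theorem rowL {x y a b q : ℤ} (ha : 1 ≤ a) (hab : a ≤ b) (hb : b ≤ n + 1) (hq : 1 ≤ q)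
    (hq' : q ≤ n + 1) {P : Lab → Prop} (h : ∀ p l l', a ≤ p → p < b → LegalH l l' →
      l.own = role n p q → l.own.H ≠ .b → P l' → P l) (h1 : FL o n z x y b q P) :
    FL o n z x y a q P := by
  induction b, hab using Int.leInduction with
  | base => exact h1
  | succ b hab ih =>
    refine ih (by omega) (fun p l l' h1 h2 => h p l l' h1 (by omega)) ?_
    exact stepL hT hn hL (Nx.int (by omega) (by omega)) hq hq' FL.triv h1
      (fun l l' a1 a2 _ _ a5 => h b l l' hab (by omega) a1 a2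
        (by rw [a2, role_H, Ne, cls_eq_b hn]; omega) a5)

theorem colU {x y a b p : ℤ} (ha : 1 ≤ a) (hab : a ≤ b) (hb : b ≤ n + 1) (hp : 1 ≤ p)
    (hp' : p ≤ n + 1) {P : Lab → Prop} (h : ∀ q l l', a ≤ q → q < b → LegalH l.tr l'.tr →
      l.own = role n p q → l.tr.own.H ≠ .b → P l → P l') (h1 : FL o n z x y p a P) :
    FL o n z x y p b P := by
  induction b, hab using Int.leInduction with
  | base => exact h1
  | succ b hab ih =>
    exact stepU hT hn hL (Nx.int (by omega) (by omega)) hp hp'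
      (ih (by omega) (fun p l l' h1 h2 => h p l l' h1 (by omega))) FL.triv
      (fun l l' a1 a2 _ a4 _ => h b l l' hab (by omega) a1 a2
        (by change l.own.V ≠ _; rw [a2, role_V, Ne, cls_eq_b hn]; omega) a4)

theorem colD {x y a b p : ℤ} (ha : 1 ≤ a) (hab : a ≤ b) (hb : b ≤ n + 1) (hp : 1 ≤ p)
    (hp' : p ≤ n + 1) {P : Lab → Prop} (h : ∀ q l l', a ≤ q → q < b → LegalH l.tr l'.tr →
      l.own = role n p q → l.tr.own.H ≠ .b → P l' → P l) (h1 : FL o n z x y p b P) :
    FL o n z x y p a P := by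
  induction b, hab using Int.leInduction with
  | base => exact h1
  | succ b hab ih =>
    refine ih (by omega) (fun p l l' h1 h2 => h p l l' h1 (by omega)) ?_
    exact stepD hT hn hL (Nx.int (by omega) (by omega)) hp hp' FL.triv h1
      (fun l l' a1 a2 _ _ a5 => h b l l' hab (by omega) a1 a2
        (by change l.own.V ≠ _; rw [a2, role_V, Ne, cls_eq_b hn]; omega) a5)

theorem fp_iff {x y p q : ℤ} (hp : 1 ≤ p) (hp' : p ≤ n + 1) (hq : 1 ≤ q) (hq' : q ≤ n + 1)
    {P : Role → Prop} : FL o n z x y p q (fun l => P l.par) ↔ FP o n z x y P := by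
  have e : ∀ l l' : Lab, LegalH l.tr l'.tr → l.tr.own.H ≠ .b → l'.par = l.par :=
    fun l l' a b => Role.tr_inj (a.par b)
  constructor
  · intro h
    refine colD hT hn hL le_rfl hq hq' le_rfl (by omega)
      (fun _ l l' _ _ a _ b c => by rw [← e l l' a b]; exact c) ?_
    exact rowL hT hn hL le_rfl hp hp' hq hq' (fun _ l l' _ _ a _ b c => by rw [← a.par b]; exact c) h
  · intro h
    refine rowR hT hn hL le_rfl hp hp' hq hq' (fun _ l l' _ _ a _ b c => by rw [a.par b]; exact c) ?_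
    exact colU hT hn hL le_rfl hq hq' le_rfl (by omega)
      (fun _ l l' _ _ a _ b c => by rw [e l l' a b]; exact c) h

theorem fp_ok {x y : ℤ} : FP o n z x y Role.ok :=
  (fl_ok hT hn hL le_rfl (by omega) le_rfl (by omega)).mono (fun _ h => h.1.role)

end

/-- roles of horizontally adjacent cells -/
structure TrH (r r' : Role) : Prop where
  okl : r.ok
  okr : r'.ok
  eqV : r'.V = r.V
  succ : r.H.succ r'.H
  nT : r.ty = .T → r'.ty = .T ∨ r'.ty = .D
  nR : r.ty = .D ∨ r.ty = .R → r'.ty = .R ∨ r'.ty = .N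

theorem LegalH.trH {l l' : Lab} (h : LegalH l l') (hb : l.own.H = .b) : TrH l.par l'.par :=
  ⟨h.okl.role, h.okr.role, h.nextV hb, h.nextH hb, fun a => (h.nextT hb a).1, h.nextR hb⟩

theorem TrH.prev {r r' : Role} (h : TrH r r') (h1 : r'.H = .m ∨ r'.H = .l)
    (h2 : r'.ty = .T ∨ r'.ty = .D) : r.ty = .T := by
  obtain ⟨H, W, ty⟩ := r
  obtain ⟨H', W', ty'⟩ := r'
  obtain ⟨a, b, c, d, -, f⟩ := h
  simp only at c d f h1 h2
  subst c
  have a1 := a.1
  have b1 := b.1
  simp only [Cl.act, Cl.succ] at a1 b1 d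
  cases ty
  · rfl
  · rcases f (Or.inl rfl) with rfl | rfl <;> simp at h2
  · rcases f (Or.inr rfl) with rfl | rfl <;> simp at h2
  · exfalso
    clear a b
    rcases h2 with rfl | rfl <;> rcases h1 with rfl | rfl <;> cases H <;> cases W' <;> simp_all

section
variable (hT : TObs o) (hn : 3 ≤ n) (hL : Lev z o n)
include hT hn hL

theorem own_b {l : Lab} {q : ℤ} (h : l.own = role n (n + 1) q) : l.own.H = .b := by
  rw [h, role_H, cls_eq_b hn]

theorem fp_R {x y : ℤ} {P P' R : Role → Prop} (h1 : FP o n z x y P) (h2 : FP o n z (x + 1) y P')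
    (h3 : ∀ r r', TrH r r' → P r → P' r' → R r') : FP o n z (x + 1) y R :=
  stepR hT hn hL Nx.str le_rfl (by omega)
    ((fp_iff hT hn hL (by omega) le_rfl le_rfl (by omega)).2 h1) h2
    (fun _ _ a b _ => h3 _ _ (a.trH (own_b hT hn hL b)))

theorem fp_L {x y : ℤ} {P P' R : Role → Prop} (h1 : FP o n z x y P) (h2 : FP o n z (x + 1) y P')
    (h3 : ∀ r r', TrH r r' → P r → P' r' → R r) : FP o n z x y R :=
  (fp_iff hT hn hL (p := n + 1) (by omega) le_rfl le_rfl (by omega)).1
    (stepL hT hn hL Nx.str le_rfl (by omega)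
      ((fp_iff hT hn hL (by omega) le_rfl le_rfl (by omega)).2 h1) h2
      (fun _ _ a b _ => h3 _ _ (a.trH (own_b hT hn hL b))))

theorem fv_iff {x y : ℤ} {P : Cl → Prop} : FP o n z x y (fun r => P r.V) ↔ FV o n z y P := by
  have key : ∀ x, FP o n z (x + 1) y (fun r => P r.V) ↔ FP o n z x y (fun r => P r.V) := fun x =>
    ⟨fun h => fp_L hT hn hL (P := fun _ => True) FL.triv h (fun _ _ a _ c => a.eqV ▸ c),
      fun h => fp_R hT hn hL (P' := fun _ => True) h FL.triv (fun _ _ a b _ => a.eqV ▸ b)⟩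
  induction x using Int.induction_on with
  | zero => rfl
  | succ x ih => exact (key x).trans ih
  | pred x ih => rw [← key, sub_add_cancel]; exact ih

theorem fh_iff {x y : ℤ} {P : Cl → Prop} : FP o n z x y (fun r => P r.H) ↔ FH o n z x P := by
  rw [← fv_tr hT hn hL, ← fv_iff hT.tr hn hL.tr (x := y), fp_tr hT hn hL]
  rfl

theorem fh_fwd {x : ℤ} {P : Cl → Prop} (h : FH o n z x P) :
    FH o n z (x + 1) (fun c' => ∃ c, P c ∧ c.succ c') :=
  fp_R hT hn hL (P' := fun _ => True) h FL.triv (fun _ _ a b _ => ⟨_, b, a.succ⟩)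

theorem fh_bwd {x : ℤ} {P : Cl → Prop} (h : FH o n z (x + 1) P) :
    FH o n z x (fun c => ∃ c', P c' ∧ c.succ c') :=
  fp_L hT hn hL (P := fun _ => True) FL.triv h (fun _ _ a _ c => ⟨_, c, a.succ⟩)

/-- the counter of a cell of type `T` or `D` is the counter of its left neighbour plus one -/
theorem bit_next {x y q : ℤ} (b : Bool) (hq : 1 ≤ q) (hq' : q ≤ n + 1)
    (h0 : FH o n z (x + 1) (fun c => c = .m ∨ c = .l))
    (h1 : (q = 1 ∧ b = true) ∨ (2 ≤ q ∧
      FL o n z x y 1 (q - 1) (fun l => l.par.ty = .T ∨ l.par.ty = .D → l.β = b))) :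
    FL o n z (x + 1) y 1 q (fun l => l.par.ty = .T ∨ l.par.ty = .D → l.β = b) := by
  have a1 : FL o n z x y (n + 1) q (fun l => l.par.ty = .T → l.β' = b) := by
    rcases h1 with ⟨rfl, rfl⟩ | ⟨h2, h1⟩
    · exact (fl_ok hT hn hL (by omega) le_rfl hq hq').mono
        (fun l h e => h.1.startT e (by rw [h.2, role_V, cls_eq_f]))
    · have a2 : FL o n z x y (n + 1) (q - 1) (fun l => l.par.ty = .T → l.β = b) :=
        rowR hT hn hL le_rfl (by omega) le_rfl (by omega) (by omega)
          (fun _ l l' _ _ a _ c d e => by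
            rw [a.par c] at e; rw [a.keepT c e, d e]) (h1.mono (fun _ h e => h (Or.inl e)))
      have a3 := stepU hT hn hL (Nx.int (x := y) (p := q - 1) (by omega) (by omega)) (by omega) le_rfl
        a2 FL.triv (R := fun l => l.par.ty = .T → l.β' = b) (fun l l' a c _ d _ e => by
          have c' : l.tr.own.H ≠ .b := by
            change l.own.V ≠ _; rw [c, role_V, Ne, cls_eq_b hn]; omega
          have e' : l.par.ty = .T := by rw [← Role.tr_inj (a.par c')]; exact e
          rw [← d e']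
          exact a.moveR c' (by change l.par.ty.tr = _; rw [e']; rfl))
      simpa using a3
  refine stepR hT hn hL Nx.str hq hq' a1
    ((fp_iff hT hn hL le_rfl (by omega) hq hq').2 ((fh_iff hT hn hL (y := y)).2 h0)) ?_
  intro l l' a c _ d e f
  have c' := own_b hT hn hL c
  have g := (a.trH c').prev e f
  rw [(a.nextT c' g).2, d g]

theorem chainU {x y : ℤ} (h0 : FH o n z x (· = .f)) (s : ℤ) (hs : 0 ≤ s)
    (h1 : ∀ s', 1 ≤ s' → s' ≤ s → FH o n z (x + s') (fun c => c = .m ∨ c = .l)) (q : ℤ)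
    (hq : s + 1 ≤ q) (hq' : q ≤ n + 1) :
    FL o n z (x + s) y 1 q (fun l => l.par.ty = .T ∨ l.par.ty = .D → l.β = false) := by
  induction s, hs using Int.leInduction generalizing q with
  | base =>
    rw [add_zero]
    exact ((fp_iff hT hn hL le_rfl (by omega) (by omega) hq').2
      ((fh_iff hT hn hL (y := y)).2 h0)).mono₂ (fl_ok hT hn hL le_rfl (by omega) (by omega) hq')
      (fun l a b _ => b.1.first (Or.inl a))
  | succ s hs ih =>
    rw [← add_assoc]
    refine bit_next hT hn hL false (by omega) hq' ?_ (Or.inr ⟨by omega, ?_⟩)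
    · rw [add_assoc]; exact h1 _ (by omega) le_rfl
    · exact ih (fun s' a b => h1 s' a (by omega)) _ (by omega) (by omega)

theorem chainS {y : ℤ} (q : ℤ) (hq : 1 ≤ q) (hq' : q ≤ n + 1) (x : ℤ)
    (h1 : ∀ s, 0 ≤ s → s < q → FH o n z (x - s) (fun c => c = .m ∨ c = .l)) :
    FL o n z x y 1 q (fun l => l.par.ty = .T ∨ l.par.ty = .D → l.β = true) := by
  induction q, hq using Int.leInduction generalizing x with
  | base =>
    have := bit_next hT hn hL (x := x - 1) (y := y) true le_rfl hq'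
      (by simpa using h1 0 le_rfl (by omega)) (Or.inl ⟨rfl, rfl⟩)
    simpa using this
  | succ q hq ih =>
    have := bit_next hT hn hL (x := x - 1) (y := y) (q := q + 1) true (by omega) hq'
      (by simpa using h1 0 le_rfl (by omega)) (Or.inr ⟨by omega, by
        rw [add_sub_cancel_right]
        exact ih (by omega) _ (fun s a b => by
          rw [show x - 1 - s = x - (s + 1) by ring]; exact h1 _ (by omega) (by omega))⟩)
    simpa using this

theorem chainU' {x y : ℤ} (h0 : FV o n z y (· = .f)) (s : ℤ) (hs : 0 ≤ s)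
    (h1 : ∀ s', 1 ≤ s' → s' ≤ s → FV o n z (y + s') (fun c => c = .m ∨ c = .l)) (p : ℤ)
    (hp : s + 1 ≤ p) (hp' : p ≤ n + 1) :
    FL o n z x (y + s) p 1 (fun l => l.par.ty = .R ∨ l.par.ty = .D → l.β = false) := by
  have := chainU hT.tr hn hL.tr (y := x) ((fh_tr hT hn hL).2 h0) s hs
    (fun s' a b => (fh_tr hT hn hL).2 (h1 s' a b)) p hp hp'
  exact ((fl_tr hT hn hL (by omega) hp' le_rfl (by omega)).1 this).mono
    (fun l h => by simpa [Lab.tr, Role.tr] using h)

theorem chainS' {x : ℤ} (p : ℤ) (hp : 1 ≤ p) (hp' : p ≤ n + 1) (y : ℤ)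
    (h1 : ∀ s, 0 ≤ s → s < p → FV o n z (y - s) (fun c => c = .m ∨ c = .l)) :
    FL o n z x y p 1 (fun l => l.par.ty = .R ∨ l.par.ty = .D → l.β = true) := by
  have := chainS hT.tr hn hL.tr (y := x) p hp hp' y (fun s a b => (fh_tr hT hn hL).2 (h1 s a b))
  exact ((fl_tr hT hn hL hp hp' le_rfl (by omega)).1 this).mono
    (fun l h => by simpa [Lab.tr, Role.tr] using h)

/-- in a diagonal cell the bits move along the rows up to the diagonal -/
theorem diag_row {x y p q : ℤ} (b : Bool) (hp : 1 ≤ p) (hpq : p ≤ q) (hq : q ≤ n)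
    (h : FL o n z x y 1 q (fun l => l.par.ty = .D → l.β = b)) :
    FL o n z x y p q (fun l => l.par.ty = .D → l.β = b) :=
  rowR hT hn hL le_rfl hp (by omega) (by omega) (by omega) (fun p' l l' _ _ a c d e f => by
    rw [a.par d] at f
    rw [a.keepD d f (by rw [c, role_T]; omega), e f]) h

theorem diag_col {x y p q : ℤ} (b : Bool) (hq : 1 ≤ q) (hpq : q ≤ p) (hp : p ≤ n)
    (h : FL o n z x y p 1 (fun l => l.par.ty = .D → l.β = b)) :
    FL o n z x y p q (fun l => l.par.ty = .D → l.β = b) :=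
  colU hT hn hL le_rfl hq (by omega) (by omega) (by omega) (fun p' l l' _ _ a c d e f => by
    rw [Role.tr_inj (a.par d)] at f
    rw [← e f]
    exact a.keepD d (by change l.par.ty.tr = _; rw [f]; rfl)
      (by change l.own.ty.tr = _; rw [Ty.tr_eq_T, c, role_R]; omega)) h

theorem chainT {x y i : ℤ} (hi : i ≤ n) (h0 : FH o n z x (· = .f))
    (h1 : ∀ s, 1 ≤ s → s < i → FH o n z (x + s) (· = .m))
    (h2 : FV o n z y (· = .l) ∨ ∀ s, 0 ≤ s → s < i → FV o n z (y - s) (fun c => c = .m ∨ c = .l))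
    (s : ℤ) (hs : 0 ≤ s) (hs' : s < i) : FP o n z (x + s) y (fun r => r.ty = .T) := by
  have hV : FV o n z y (fun c => c = .m ∨ c = .l) := by
    rcases h2 with h | h
    · exact h.mono (fun _ => Or.inr)
    · simpa using h 0 le_rfl (by omega)
  induction s, hs using Int.leInduction with
  | base =>
    rw [add_zero]
    refine (((fh_iff hT hn hL).2 h0).mono₂ ((fv_iff hT hn hL).2 hV)
      (R := fun r => r.H = .f ∧ (r.V = .m ∨ r.V = .l)) (fun _ a b => ⟨a, b⟩)).mono₂
        (fp_ok hT hn hL) ?_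
    rintro ⟨H, W, ty⟩ ⟨rfl, a⟩ b
    revert b; unfold Role.ok Cl.act
    rcases a with rfl | rfl <;> cases ty <;> simp
  | succ s hs ih =>
    have a1 : FP o n z (x + (s + 1)) y (fun r => r.ty = .T ∨ r.ty = .D) := by
      rw [← add_assoc]
      exact fp_R hT hn hL (P' := fun _ => True) (ih (by omega)) FL.triv (fun _ _ a b _ => a.nT b)
    rcases h2 with h | h
    · refine ((((fh_iff hT hn hL).2 (h1 _ (by omega) hs')).mono₂ ((fv_iff hT hn hL).2 h)
        (R := fun r => r.H = .m ∧ r.V = .l) (fun _ a b => ⟨a, b⟩))).mono₂ (fp_ok hT hn hL) ?_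
      rintro ⟨H, W, ty⟩ ⟨rfl, rfl⟩ b
      revert b; unfold Role.ok Cl.act
      cases ty <;> simp
    · have a2 := diag_row hT hn hL (p := s + 2) (q := s + 2) false (by omega) le_rfl (by omega)
        ((chainU hT hn hL (y := y) h0 (s + 1) (by omega)
          (fun s' a b => (h1 s' a (by omega)).mono (fun _ => Or.inl)) (s + 2) (by omega)
          (by omega)).mono (fun _ a b => a (Or.inr b)))
      have a3 := diag_col hT hn hL (p := s + 2) (q := s + 2) true (by omega) le_rfl (by omega)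
        ((chainS' hT hn hL (x := x + (s + 1)) (s + 2) (by omega) (by omega) y
          (fun s' a b => h s' a (by omega))).mono (fun _ a b => a (Or.inr b)))
      have a4 : FP o n z (x + (s + 1)) y (fun r => r.ty ≠ .D) :=
        (fp_iff hT hn hL (p := s + 2) (q := s + 2) (by omega) (by omega) (by omega) (by omega)).1
          (a2.mono₂ a3 (fun l a b c => by have := a c; rw [b c] at this; simp at this))
      exact a1.mono₂ a4 (fun _ a b => a.resolve_right b)

theorem cell_key {x y i : ℤ} (h1 : 1 ≤ i) (h2 : i ≤ n) (h3 : FH o n z x (· = .f))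
    (h4 : ∀ s, 1 ≤ s → s < i → FH o n z (x + s) (· = .m))
    (h5 : FV o n z y (· = .l) ∨ ∀ s, 0 ≤ s → s < i → FV o n z (y - s) (· = .m)) :
    FH o n z (x + i) (· = cls (n + 1) (i + 1)) := by
  have a0 := chainT hT hn hL h2 h3 h4 (h5.imp_right (fun h s a b => (h s a b).mono
    (fun _ => Or.inl))) (i - 1) (by omega) (by omega)
  have e : x + i = x + (i - 1) + 1 := by ring
  have a1 : FP o n z (x + i) y (fun r => r.ty = .T ∨ r.ty = .D) := by
    rw [e]
    exact fp_R hT hn hL (P' := fun _ => True) a0 FL.triv (fun _ _ a b _ => a.nT b)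
  have a2 : FH o n z (x + i) (fun c => c = .m ∨ c = .l) := by
    rw [e]
    rcases eq_or_lt_of_le h1 with rfl | h
    · refine (fh_fwd hT hn hL (by simpa using h3)).mono ?_
      rintro c ⟨_, rfl, a⟩; revert a; cases c <;> decide
    · refine (fh_fwd hT hn hL (h4 _ (by omega) (by omega))).mono ?_
      rintro c ⟨_, rfl, a⟩; revert a; cases c <;> decide
  have a3 : ∀ s', 1 ≤ s' → s' ≤ i → FH o n z (x + s') (fun c => c = .m ∨ c = .l) := by
    intro s' a b
    rcases eq_or_lt_of_le b with rfl | b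
    · exact a2
    · exact (h4 s' a b).mono (fun _ => Or.inl)
  have a4 : FL o n z (x + i) y 1 n (fun l => l.β = true ↔ l.par.H = .l) :=
    ((fp_iff hT hn hL le_rfl (by omega) (by omega) (by omega)).2 a1).mono₂
      (fl_ok hT hn hL le_rfl (by omega) (by omega) (by omega)) (fun l a b => b.1.lastT
        (by rw [b.2, role_V, cls_eq_l hn]) (by rw [b.2, role_H, Ne, cls_eq_b hn]; omega) a)
  have a1' := (fp_iff hT hn hL (p := 1) (q := n) le_rfl (by omega) (by omega) (by omega)).2 a1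
  rcases eq_or_lt_of_le h2 with rfl | h
  · have a5 := chainS hT hn hL (y := y) n (by omega) (by omega) (x + n) (fun s a b => by
      rw [add_sub_assoc]; exact a3 _ (by omega) (by omega))
    refine (fh_iff hT hn hL (y := y)).1
      ((fp_iff hT hn hL (p := 1) (q := n) le_rfl (by omega) (by omega) (by omega)).1 ?_)
    refine (a5.mono₂ a1' (R := fun l => l.β = true) (fun _ a b => a b)).mono₂ a4 (fun l a b => ?_)
    rw [b.1 a, eq_comm, cls_eq_l (by omega)]; push_cast; rfl
  · have a5 := chainU hT hn hL (y := y) h3 i (by omega) a3 n (by omega) (by omega)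
    have a6 : FH o n z (x + i) (fun c => c ≠ .l) := by
      refine (fh_iff hT hn hL (y := y)).1
        ((fp_iff hT hn hL (p := 1) (q := n) le_rfl (by omega) (by omega) (by omega)).1 ?_)
      refine (a5.mono₂ a1' (R := fun l => l.β = false) (fun _ a b => a b)).mono₂ a4
        (fun l a b c => ?_)
      rw [b.2 c] at a; simp at a
    refine FP.mono₂ a2 a6 (fun r a b => ?_)
    change r.H = _
    rw [a.resolve_right b, eq_comm, cls_eq_m]; push_cast; omega

theorem not_TD {x y : ℤ} (h1 : ∀ s : ℤ, 0 ≤ s → s < n → FH o n z (x - s) (· = .m)) :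
    FP o n z x y (fun r => r.H = .m ∧ r.ty ≠ .T ∧ r.ty ≠ .D) := by
  have a1 := chainS hT hn hL (y := y) n (by omega) (by omega) x
    (fun s a b => (h1 s a b).mono (fun _ => Or.inl))
  have a2 := (fp_iff hT hn hL (p := 1) (q := n) le_rfl (by omega) (by omega) (by omega)).2
    ((fh_iff hT hn hL (y := y)).2 (show FH o n z x (· = .m) by simpa using h1 0 le_rfl (by omega)))
  refine (fp_iff hT hn hL (p := 1) (q := n) le_rfl (by omega) (by omega) (by omega)).1 ?_
  refine (a1.mono₂ a2 (R := fun l => (l.par.ty = .T ∨ l.par.ty = .D → l.β = true) ∧ l.par.H = .m)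
    (fun _ a b => ⟨a, b⟩)).mono₂ (fl_ok hT hn hL le_rfl (by omega) (by omega) (by omega)) ?_
  rintro l ⟨a, b⟩ c
  have key : ¬ (l.par.ty = .T ∨ l.par.ty = .D) := fun d => by
    have := (c.1.lastT (by rw [c.2, role_V, cls_eq_l hn])
      (by rw [c.2, role_H, Ne, cls_eq_b hn]; omega) d).1 (a d)
    rw [b] at this; simp at this
  exact ⟨b, fun d => key (Or.inl d), fun d => key (Or.inr d)⟩

theorem cell_over {x y : ℤ} (h1 : ∀ s : ℤ, 0 ≤ s → s < n → FH o n z (x - s) (· = .m))
    (h2 : FV o n z y (· = .l) ∨ ∀ s : ℤ, 0 ≤ s → s < n → FV o n z (y - s) (· = .m)) : z ≤ ⊥ := by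
  have a1 := (not_TD hT hn hL (y := y) h1).mono₂ (fp_ok hT hn hL)
    (R := fun r => (r.H = .m ∧ r.ty ≠ .T ∧ r.ty ≠ .D) ∧ r.ok) (fun _ a b => ⟨a, b⟩)
  rcases h2 with h | h
  · refine Frc.le_bot (a1.mono₂ ((fv_iff hT hn hL).2 h) (R := fun _ => False) ?_)
    rintro ⟨H, W, ty⟩ ⟨⟨rfl, a, b⟩, c⟩ rfl
    revert a b c; unfold Role.ok Cl.act
    cases ty <;> simp
  · have a2 := (fp_tr hT hn hL).1 (not_TD hT.tr hn hL.tr (y := x)
      (fun s a b => (fh_tr hT hn hL).2 (h s a b)))
    refine Frc.le_bot (a1.mono₂ a2 (R := fun _ => False) ?_)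
    rintro ⟨H, W, ty⟩ ⟨⟨rfl, a, b⟩, c⟩ ⟨(rfl : W = _), d, e⟩
    revert a b c d e; unfold Role.ok Cl.act Role.tr
    cases ty <;> simp [Ty.tr]

theorem Forced.tr {g : V} (h : Forced o n z g) : Forced (trO o) n z g.swap :=
  ⟨fun X i a b => (fh_tr hT hn hL).2 (h.hV X i a b), fun X i a b => (fv_tr hT hn hL).2 (h.hH X i a b)⟩

omit hT hn hL in
theorem site_add (g X i s : ℤ) : g + site (n + 1) X i + s = g + site (n + 1) X (i + s) := by
  unfold site; ring

theorem Forced.ml {g : V} (h : Forced o n z g) (X i : ℤ) (hi : 2 ≤ i) (hi' : i ≤ n + 1) :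
    FH o n z (g.1 + site (n + 1) X i) (fun c => c = .m ∨ c = .l) :=
  (h.hH X i (by omega) (by omega)).mono (fun c a => by
    rw [a, cls_eq_m, cls_eq_l (by omega)]; push_cast; omega)

theorem Forced.f {g : V} (h : Forced o n z g) (X : ℤ) :
    FH o n z (g.1 + site (n + 1) X 1) (· = .f) :=
  (h.hH X 1 (by omega) (by omega)).mono (fun c a => by rw [a, cls_eq_f])

theorem Forced.HV {g : V} (h : Forced o n z g) (X Y i j : ℤ) (hi : 0 ≤ i) (hi' : i ≤ n + 2)
    (hj : 0 ≤ j) (hj' : j ≤ n + 2) : FP o n z (g.1 + site (n + 1) X i) (g.2 + site (n + 1) Y j)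
      (fun r => r.ok ∧ r.H = cls (n + 1) i ∧ r.V = cls (n + 1) j) :=
  (fp_ok hT hn hL).mono₂ (((fh_iff hT hn hL).2 (h.hH X i hi hi')).mono₂
    ((fv_iff hT hn hL).2 (h.hV Y j hj hj')) (R := fun r => r.H = cls (n + 1) i ∧ r.V = cls (n + 1) j)
    (fun _ a b => ⟨a, b⟩)) (fun _ a b => ⟨a, b⟩)

theorem Forced.T {g : V} (h : Forced o n z g) (X Y i j : ℤ) (hi : 1 ≤ i) (hij : i < j)
    (hj' : j ≤ n + 1) : FP o n z (g.1 + site (n + 1) X i) (g.2 + site (n + 1) Y j)
      (fun r => r.ty = .T) := by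
  have := chainT hT hn hL (i := i) (y := g.2 + site (n + 1) Y j) (by omega) (h.f hT hn hL X)
    (fun s a b => by
      rw [site_add]
      exact (h.hH X _ (by omega) (by omega)).mono (fun c e => by
        rw [e, cls_eq_m]; push_cast; omega))
    (Or.inr (fun s a b => by
      rw [sub_eq_add_neg, site_add]
      exact (fh_tr hT hn hL).1 ((h.tr hT hn hL).ml hT.tr hn hL.tr Y _ (by omega) (by omega))))
    (i - 1) (by omega) (by omega)
  rwa [site_add, add_sub_cancel] at this

theorem Forced.TD {g : V} (h : Forced o n z g) (X Y i j : ℤ) (hi : 1 ≤ i) (hij : i ≤ j)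
    (hj' : j ≤ n + 1) : FP o n z (g.1 + site (n + 1) X i) (g.2 + site (n + 1) Y j)
      (fun r => r.ty = .T ∨ r.ty = .D) := by
  rcases eq_or_lt_of_le hi with rfl | hi
  · refine (h.HV hT hn hL X Y 1 j (by omega) (by omega) (by omega) (by omega)).mono ?_
    rintro ⟨H, W, ty⟩ ⟨a, b, c⟩
    have b' : H = .f := b.trans (cls_eq_f.2 rfl)
    have c' : W.act := by
      simp only at c; rw [c, cls_act (by omega)]; push_cast; omega
    subst b'
    have a1 := a.1
    have a2 := a.2.1 rfl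
    cases ty <;> simp_all [Cl.act]
  · have := fp_R hT hn hL (P' := fun _ => True) (h.T hT hn hL X Y (i - 1) j (by omega) (by omega) hj')
      FL.triv (R := fun r => r.ty = .T ∨ r.ty = .D) (fun _ _ a b _ => a.nT b)
    rwa [site_add, sub_add_cancel] at this

theorem Forced.role {g : V} (h : Forced o n z g) (X Y i j : ℤ) (hi : 0 ≤ i) (hi' : i ≤ n + 2)
    (hj : 0 ≤ j) (hj' : j ≤ n + 2) : FP o n z (g.1 + site (n + 1) X i) (g.2 + site (n + 1) Y j)
      (· = role (n + 1) i j) := by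
  have a0 := h.HV hT hn hL X Y i j hi hi' hj hj'
  have key : FP o n z (g.1 + site (n + 1) X i) (g.2 + site (n + 1) Y j)
      (fun r => r.ty = (R189.role (n + 1) i j).ty) := by
    by_cases hN : i = 0 ∨ j = 0 ∨ i = n + 2 ∨ j = n + 2
    · refine a0.mono (fun r ⟨a, b, c⟩ => ?_)
      rw [role_N.2 (by push_cast; omega), a.1, b, c, cls_act (by omega), cls_act (by omega)]
      push_cast; omega
    · rcases lt_trichotomy i j with hij | rfl | hij
      · refine (h.T hT hn hL X Y i j (by omega) hij (by omega)).mono (fun r a => ?_)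
        rw [a, role_T.2 (by push_cast; omega)]
      · have a1 := h.TD hT hn hL X Y i i (by omega) le_rfl (by omega)
        have a2 := (fp_tr hT hn hL).1
          ((h.tr hT hn hL).TD hT.tr hn hL.tr Y X i i (by omega) le_rfl (by omega))
        refine a1.mono₂ a2 (fun r a b => ?_)
        rw [role_D.2 (by push_cast; omega)]
        simp only [Role.tr, Ty.tr_eq_T, Ty.tr_eq_D] at b
        rcases a with a | a
        · rw [a] at b; simp at b
        · exact a
      · have a2 := (fp_tr hT hn hL).1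
          ((h.tr hT hn hL).T hT.tr hn hL.tr Y X j i (by omega) hij (by omega))
        refine a2.mono (fun r b => ?_)
        rw [role_R.2 (by push_cast; omega)]
        simpa only [Role.tr, Ty.tr_eq_T] using b
  exact a0.mono₂ key (fun r a b => Role.ext a.2.1 a.2.2 b)

theorem Forced.left {g : V} (h : Forced o n z g) (X i y q : ℤ) (hi : 1 ≤ i) (hi' : i ≤ n + 1)
    (hq : 1 ≤ q) (hq' : q ≤ n + 1) : FL o n z (g.1 + site (n + 1) X i) y 1 q
      (fun l => l.par.ty = .T ∨ l.par.ty = .D → l.β = decide (q < i)) := by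
  by_cases hqi : q < i
  · rw [decide_eq_true hqi]
    exact chainS hT hn hL q hq hq' _ (fun s a b => by
      rw [sub_eq_add_neg, site_add]; exact h.ml hT hn hL X _ (by omega) (by omega))
  · rw [decide_eq_false hqi]
    have := chainU hT hn hL (y := y) (h.f hT hn hL X) (i - 1) (by omega) (fun s a b => by
      rw [site_add]; exact h.ml hT hn hL X _ (by omega) (by omega)) q (by omega) hq'
    rwa [site_add, add_sub_cancel] at this

theorem Forced.bitT {g : V} (h : Forced o n z g) (X i y p q : ℤ) (hi : 1 ≤ i) (hi' : i ≤ n + 1)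
    (hp : 1 ≤ p) (hp' : p ≤ n + 1) (hq : 1 ≤ q) (hq' : q ≤ n + 1) :
    FL o n z (g.1 + site (n + 1) X i) y p q
      (fun l => l.par.ty = .T → l.β = decide (q < i) ∧ l.β' = decide (q ≤ i)) := by
  have a1 : ∀ q : ℤ, 1 ≤ q → q ≤ n + 1 → FL o n z (g.1 + site (n + 1) X i) y p q
      (fun l => l.par.ty = .T → l.β = decide (q < i)) := fun q hq hq' =>
    rowR hT hn hL le_rfl hp hp' hq hq' (fun _ l l' _ _ a _ c d e => by
      rw [a.par c] at e; rw [a.keepT c e, d e])
      ((h.left hT hn hL X i y q hi hi' hq hq').mono (fun _ a b => a (Or.inl b)))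
  have a2 : FL o n z (g.1 + site (n + 1) X i) y p q
      (fun l => l.par.ty = .T → l.β' = decide (q ≤ i)) := by
    rcases eq_or_lt_of_le hq with rfl | hq
    · exact (fl_ok hT hn hL hp hp' hq hq').mono (fun l a e => by
        rw [a.1.startT e (by rw [a.2, role_V, cls_eq_f]), decide_eq_true hi])
    · have a3 := stepU hT hn hL (Nx.int (x := y) (p := q - 1) (by omega) (by omega)) hp hp'
        (a1 (q - 1) (by omega) (by omega)) FL.triv
        (R := fun l => l.par.ty = .T → l.β' = decide (q ≤ i)) (fun l l' a c _ d _ e => by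
          have c' : l.tr.own.H ≠ .b := by
            change l.own.V ≠ _; rw [c, role_V, Ne, cls_eq_b hn]; omega
          have e' : l.par.ty = .T := by rw [← Role.tr_inj (a.par c')]; exact e
          have := a.moveR c' (by change l.par.ty.tr = _; rw [e']; rfl)
          change l'.β' = l.β at this
          rw [this, d e', decide_eq_decide]; omega)
      simpa using a3
  exact (a1 q hq hq').mono₂ a2 (fun _ a b e => ⟨a e, b e⟩)

theorem cell_model {g : V} (h : Forced o n z g) (X Y i j p q : ℤ) (hi : 0 ≤ i) (hi' : i ≤ n + 2)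
    (hj : 0 ≤ j) (hj' : j ≤ n + 2) (hp : 1 ≤ p) (hp' : p ≤ n + 1) (hq : 1 ≤ q) (hq' : q ≤ n + 1) :
    FL o n z (g.1 + site (n + 1) X i) (g.2 + site (n + 1) Y j) p q (· = mlab n p q i j) := by
  have a0 := ((fp_iff hT hn hL hp hp' hq hq').2 (h.role hT hn hL X Y i j hi hi' hj hj')).mono₂
    (fl_ok hT hn hL hp hp' hq hq')
    (R := fun l => l.ok ∧ l.own = (mlab n p q i j).own ∧ l.par = (mlab n p q i j).par)
    (fun _ a b => ⟨b.1, b.2, a⟩)
  suffices key : FL o n z (g.1 + site (n + 1) X i) (g.2 + site (n + 1) Y j) p q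
      (fun l => l.β = (mlab n p q i j).β ∧ l.β' = (mlab n p q i j).β') from
    a0.mono₂ key (fun _ a b => Lab.ext a.2.1 a.2.2 b.1 b.2)
  cases e : (R189.role (n + 1) i j).ty
  · have e' := role_T.1 e
    push_cast at e'
    refine a0.mono₂ (h.bitT hT hn hL X i _ p q (by omega) (by omega) hp hp' hq hq') ?_
    intro l a b
    simp only [mlab, e]
    exact b (by rw [a.2.2]; exact e)
  · have e' := role_D.1 e
    push_cast at e'
    obtain ⟨e1, e2, rfl⟩ := e'
    have a1 : FL o n z (g.1 + site (n + 1) X i) (g.2 + site (n + 1) Y i) p q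
        (fun l => l.par.ty = .D → l.β = decide (max p q < i)) := by
      by_cases hb : p = n + 1 ∨ q = n + 1
      · refine (fl_ok hT hn hL hp hp' hq hq').mono (fun l a d => ?_)
        rw [a.1.blank d (by rw [a.2, role_H, role_V, cls_eq_b hn, cls_eq_b hn]; exact hb),
          eq_comm, decide_eq_false_iff_not]
        omega
      · rcases le_total p q with hpq | hpq
        · rw [max_eq_right hpq]
          exact diag_row hT hn hL _ hp hpq (by omega)
            ((h.left hT hn hL X i _ q (by omega) (by omega) hq hq').mono (fun _ a b => a (Or.inr b)))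
        · rw [max_eq_left hpq]
          refine diag_col hT hn hL _ hq hpq (by omega) ?_
          refine ((fl_tr hT hn hL hp hp' le_rfl (by omega)).1 ((h.tr hT hn hL).left hT.tr hn hL.tr
            Y i _ p (by omega) (by omega) hp hp')).mono (fun l a b => a (Or.inr ?_))
          change l.par.ty.tr = _
          rw [b]; rfl
    refine a0.mono₂ a1 (fun l a b => ?_)
    have d : l.par.ty = .D := by rw [a.2.2]; exact e
    simp only [mlab, e]
    exact ⟨b d, a.1.diag d⟩
  · have e' := role_R.1 e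
    push_cast at e'
    refine a0.mono₂ ((fl_tr hT hn hL hp hp' hq hq').1 ((h.tr hT hn hL).bitT hT.tr hn hL.tr Y j _ q p
      (by omega) (by omega) hq hq' hp hp')) ?_
    intro l a b
    simp only [mlab, e]
    exact b (by change l.par.ty.tr = _; rw [a.2.2]; change (R189.role (n + 1) i j).ty.tr = _; rw [e]; rfl)
  · refine a0.mono (fun l a => ?_)
    simp only [mlab, e]
    exact a.1.none (by rw [a.2.2]; exact e)

/-- the label of the junction to the right -/
theorem next_model {x p x' p' y q : ℤ} (h : Nx n x p x' p') (hq : 1 ≤ q) (hq' : q ≤ n + 1)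
    {l l' : Lab} (h1 : FL o n z x y p q (· = l)) (h2 : FL o n z x' y p' q (· = l')) :
    Frc z (o (site n x p, site n y q)) (fun t => t.E.a = l ∧ t.E.b = l') := by
  have hp : 1 ≤ p ∧ p ≤ n + 1 ∧ 1 ≤ p' ∧ p' ≤ n + 1 := by unfold Nx at h; omega
  exact Frc.and h1 ((edge_iff hT hn hL h hq hq' (P := fun _ b => b = l')).2
    (Frc.mono₂ h2 (hL.J x' y p' q hp.2.2.1 hp.2.2.2 hq hq') (fun _ a b => b.1.1.trans a)))

theorem col_model {g : V} (h : Forced o n z g) (X Y i j p q : ℤ) (hi : 0 ≤ i) (hi' : i ≤ n + 2)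
    (hj : 0 ≤ j) (hj' : j ≤ n + 2) (hp : 0 ≤ p) (hp' : p ≤ n + 1) (hq : 1 ≤ q) (hq' : q ≤ n + 1) :
    Frc z (o (site n (g.1 + site (n + 1) X i) p, site n (g.2 + site (n + 1) Y j) q))
      (fun t => t.E = mcolH n p q i j) := by
  have str : ∀ X i : ℤ, 0 ≤ i → i ≤ n + 2 →
      Frc z (o (site n (g.1 + site (n + 1) X i) (n + 1), site n (g.2 + site (n + 1) Y j) q))
      (fun t => t.E.a = mlab n (n + 1) q i j ∧
        t.E.b = mlab n 1 q (if i = n + 2 then 0 else i + 1) j) := by
    intro X i hi hi'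
    refine next_model hT hn hL Nx.str hq hq'
      (cell_model hT hn hL h X Y i j _ q hi hi' hj hj' (by omega) le_rfl hq hq') ?_
    split_ifs with e
    · have := cell_model hT hn hL h (X + 1) Y 0 j 1 q le_rfl (by omega) hj hj' le_rfl (by omega) hq hq'
      rwa [show g.1 + site (n + 1) (X + 1) 0 = g.1 + site (n + 1) X i + 1 by
        rw [e]; unfold site; push_cast; ring] at this
    · rw [site_add]
      exact cell_model hT hn hL h X Y (i + 1) j 1 q (by omega) (by omega) hj hj' le_rfl (by omega) hq hq'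
  unfold mcolH
  split_ifs with e1 e2 e3 e4
  · subst e1 e2
    have a1 := hT.right (P := fun c => c.a = _ ∧ c.b = _) (str (X - 1) (n + 2) (by omega) le_rfl)
    rw [← site_next, if_pos rfl, show g.1 + site (n + 1) (X - 1) (n + 2) + 1 = g.1 + site (n + 1) X 0 by
      unfold site; push_cast; ring] at a1
    exact a1.mono₂ (hL.G _ _ q hq hq') (fun t a b =>
      Col.ext (b.1.symm.trans a.1) (b.2.1.symm.trans a.2) b.2.2.2.1)
  · subst e1
    have a1 := hT.right (P := fun c => c.a = _ ∧ c.b = _) (str X (i - 1) (by omega) (by omega))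
    rw [← site_next, if_neg (by omega), site_add, sub_add_cancel] at a1
    exact a1.mono₂ (hL.G _ _ q hq hq') (fun t a b =>
      Col.ext (b.1.symm.trans a.1) (b.2.1.symm.trans a.2) b.2.2.2.1)
  · subst e3
    have a1 := str X i hi hi'
    rw [if_pos e4] at a1
    refine (a1.and ((hT.ok _).top.and (hL.J _ _ _ q (by omega) le_rfl hq hq'))).mono ?_
    rintro t ⟨a, b, c, d⟩
    refine Col.ext a.1 a.2 ?_
    have e5 := b.2.1.2
    have e6 := c.2.2.2.1
    rw [own_b hT hn hL d] at e5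
    revert e5 e6
    cases t.E.s <;> simp
  · subst e3
    have a1 := str X i hi hi'
    rw [if_neg e4] at a1
    refine (a1.and ((hT.ok _).top.and (hL.J _ _ _ q (by omega) le_rfl hq hq'))).mono ?_
    rintro t ⟨a, b, c, d⟩
    refine Col.ext a.1 a.2 ?_
    have e5 := b.2.1.2
    have e6 := c.2.2.2.1
    rw [own_b hT hn hL d] at e5
    revert e5 e6
    cases t.E.s <;> simp
  · have a1 := next_model hT hn hL (Nx.int (x := g.1 + site (n + 1) X i) (p := p) (by omega) (by omega))
      hq hq' (cell_model hT hn hL h X Y i j p q hi hi' hj hj' (by omega) hp' hq hq')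
      (cell_model hT hn hL h X Y i j (p + 1) q hi hi' hj hj' (by omega) (by omega) hq hq')
    refine (a1.and ((hT.ok _).top.and (hL.J _ _ p q (by omega) hp' hq hq'))).mono ?_
    rintro t ⟨a, b, c, d⟩
    refine Col.ext a.1 a.2 (b.2.1.2.2 ?_)
    rw [d, role_H, Ne, cls_eq_b hn]; exact e3

/-- what the check in the holes says about the north colour of the base point of a cell -/
theorem check_N {x y : ℤ} {r : Role} (h : FP o n z x y (· = r)) :
    Frc z (o (site n x 0, site n y 0)) (fun t => r.H ≠ .z →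
      (r.V ≠ .z → t.N.s ≠ .snd ∧ t.N.a.own = r) ∧ (r.V = .z → t.N.s = .snd)) := by
  rw [← pass_col hT hL (q := 1) (by omega) (by omega) (P := fun c => r.H ≠ .z →
      (r.V ≠ .z → c.s ≠ .snd ∧ c.a.own = r) ∧ (r.V = .z → c.s = .snd))]
  have a1 : Frc z (o (site n x 0 + 1, site n y 1)) (fun t => t.W.b.par = r) := by
    rw [← site_succ, zero_add]
    exact Frc.mono₂ h (hL.J x y 1 1 le_rfl (by omega) le_rfl (by omega))
      (fun t a b => by rw [b.1.1]; exact a)
  exact (hT.left (P := fun c => c.b.par = r) a1).mono₂ (hL.G x y 1 le_rfl (by omega))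
    (fun t a b => by rw [← a]; exact b.2.2.2.2.2)

theorem check_E {x y : ℤ} {r : Role} (h : FP o n z x y (· = r)) :
    Frc z (o (site n x 0, site n y 0)) (fun t => r.V ≠ .z →
      (r.H ≠ .z → t.E.s ≠ .snd ∧ t.E.a.own = r) ∧ (r.H = .z → t.E.s = .snd)) := by
  have := check_N hT.tr hn hL.tr (r := r.tr) ((fp_tr hT hn hL).2 (h.mono (fun _ a => by rw [a])))
  refine (frc_trO.1 this).mono (fun t a b => ⟨fun c => ⟨((a b).1 c).1, ?_⟩, (a b).2⟩)
  exact Role.tr_inj ((a b).1 c).2

theorem der_G {g : V} (h : Forced o n z g) (x y q : ℤ) (hq : 1 ≤ q) (hq' : q ≤ n + 2) :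
    Frc z (o (site n (g.1 + site (n + 1) x 0) 0, site n (g.2 + site (n + 1) y q) 0)) Tile.IsG := by
  have hV : cls (n + 1) q ≠ .z := by rw [Ne, cls_eq_z]; omega
  have a1 := check_E hT hn hL (h.role hT hn hL x y 0 q le_rfl (by omega) (by omega) hq')
  have a2 := (pass_row_next hT hL (P := fun c => c.s ≠ .snd)).2
    ((check_E hT hn hL (h.role hT hn hL (x - 1) y (n + 2) q (by omega) le_rfl (by omega) hq')).mono
      (fun t a => ((a hV).1 (by rw [role_H, Ne, cls_eq_z]; omega)).1))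
  rw [show g.1 + site (n + 1) (x - 1) (n + 2) + 1 = g.1 + site (n + 1) x 0 by
    unfold site; push_cast; ring] at a2
  refine ((a1.and a2).and (hT.ok _).top).mono ?_
  rintro t ⟨⟨a, b⟩, c⟩
  have d := (a hV).2 (by rw [role_H, cls_eq_z])
  rcases c.2.2.2.2 with e | e | e
  · exact absurd d e.2.2.2.1
  · exact e
  · rw [Col.tr_inj e.2.2.2.2.1] at b; exact absurd d b

theorem der_lev {g : V} (h : Forced o n z g) : Lev z (der n g o) (n + 1) := by
  refine ⟨fun x y p q hp hp' hq hq' => ?_, fun x y q hq hq' => ?_, fun x y q hq hq' => ?_⟩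
  · push_cast at hp' hq'
    have hr := h.role hT hn hL x y p q (by omega) (by omega) (by omega) (by omega)
    have hH : (R189.role (n + 1) p q).H ≠ .z := by rw [role_H, Ne, cls_eq_z]; omega
    have hV : (R189.role (n + 1) p q).V ≠ .z := by rw [role_V, Ne, cls_eq_z]; omega
    refine (((check_N hT hn hL hr).and (check_E hT hn hL hr)).and (hT.ok _).top).mono ?_
    rintro t ⟨⟨a, b⟩, c⟩
    refine ⟨?_, ((b hV).1 hH).2⟩
    rcases c.2.2.2.2 with e | e | e
    · exact e
    · exact absurd e.2.2.2.1 ((b hV).1 hH).1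
    · exact absurd e.2.2.2.1 ((a hH).1 hV).1
  · exact der_G hT hn hL h x y q hq (by push_cast at hq'; omega)
  · exact frc_trO.1 (der_G hT.tr hn hL.tr (h.tr hT hn hL) y x q hq (by push_cast at hq'; omega))


end

end Crest.Agent.R189
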