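import Crest.Agent.R189.Base

/-! # Row 189: finitely many `ℤ/2` cycles modulo boundaries -/

set_option autoImplicit false
set_option linter.unusedSectionVars false

namespace Crest.Agent.R189

variable {X : Type} [Shift X] [Good X]

/-- `c d x` is the coefficient of the edge from `x` to `vec d 1 0 +ᵥ x` -/
def IsCycle (c : Bool → X → ZMod 2) : Prop :=
  (∀ d, LocF (c d)) ∧ ∀ x, c true x + c true (vec true (-1) 0 +ᵥ x) +
    (c false x + c false (vec false (-1) 0 +ᵥ x)) = 0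

/-- `f x` is the coefficient of the unit square with lower left corner `x` -/
def IsBdry (c : Bool → X → ZMod 2) : Prop :=
  ∃ f : X → ZMod 2, LocF f ∧ ∀ d x, c d x = f x + f (vec d 0 (-1) +ᵥ x)

namespace CohAux

theorem zz_vadd (x : X) : (((0 : ℤ), (0 : ℤ)) : V) +ᵥ x = x := zero_vadd V x

theorem locF_sum {f : ℕ → X → ZMod 2} (hf : ∀ t, LocF (f t)) (n : ℕ) :
    LocF (fun x => ∑ t ∈ Finset.range n, f t x) := by
  induction n with
  | zero => simpa using LocF.const (X := X) (0 : ZMod 2)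
  | succ n ih =>
    simp only [Finset.sum_range_succ]
    exact ih.comp₂ (hf n) (· + ·)

/-- the potential along the path going `a` steps right and then `b` steps up -/
def pot (ψ : Bool → X → ZMod 2) (a b : ℕ) (x : X) : ZMod 2 :=
  ∑ t ∈ Finset.range a, ψ true (((t : ℤ), (0 : ℤ)) +ᵥ x) +
    ∑ t ∈ Finset.range b, ψ false (((a : ℤ), (t : ℤ)) +ᵥ x)

theorem locF_pot {ψ : Bool → X → ZMod 2} (hψ : ∀ d, LocF (ψ d)) (a b : ℕ) : LocF (pot ψ a b) :=
  (locF_sum (fun t => (hψ true).shift ((t : ℤ), (0 : ℤ))) a).comp₂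
    (locF_sum (fun t => (hψ false).shift ((a : ℤ), (t : ℤ))) b) (· + ·)

theorem pot_up (ψ : Bool → X → ZMod 2) (a b : ℕ) (x : X) :
    pot ψ a (b + 1) x = pot ψ a b x + ψ false (((a : ℤ), (b : ℤ)) +ᵥ x) := by
  simp only [pot, Finset.sum_range_succ, add_assoc]

theorem pot_right {ψ : Bool → X → ZMod 2}
    (hcl : ∀ x, ψ true x + ψ false (((1 : ℤ), (0 : ℤ)) +ᵥ x) =
      ψ false x + ψ true (((0 : ℤ), (1 : ℤ)) +ᵥ x)) (a b : ℕ) (x : X) :
    pot ψ (a + 1) b x = pot ψ a b x + ψ true (((a : ℤ), (b : ℤ)) +ᵥ x) := by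
  induction b with
  | zero => simp [pot, Finset.sum_range_succ]
  | succ b ih =>
    rw [pot_up, pot_up, ih]
    have h := hcl (((a : ℤ), (b : ℤ)) +ᵥ x)
    rw [← add_vadd, ← add_vadd] at h
    have e1 : ((1 : ℤ), (0 : ℤ)) + ((a : ℤ), (b : ℤ)) = (((a + 1 : ℕ) : ℤ), (b : ℤ)) := by
      ext <;> simp [add_comm]
    have e2 : ((0 : ℤ), (1 : ℤ)) + ((a : ℤ), (b : ℤ)) = ((a : ℤ), ((b + 1 : ℕ) : ℤ)) := by
      ext <;> simp [add_comm]
    rw [e1, e2] at h
    linear_combination h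

theorem pot_L_left {ψ : Bool → X → ZMod 2} {L : ℕ} {x : X}
    (h0 : ∑ t ∈ Finset.range L, ψ true (((t : ℤ), (0 : ℤ)) +ᵥ x) = 0) (b : ℕ) :
    pot ψ L b x = pot ψ 0 b (((L : ℤ), (0 : ℤ)) +ᵥ x) := by
  simp only [pot, h0, Finset.range_zero, Finset.sum_empty, ← add_vadd]
  simp

theorem pot_L_right {ψ : Bool → X → ZMod 2}
    (hcl : ∀ x, ψ true x + ψ false (((1 : ℤ), (0 : ℤ)) +ᵥ x) =
      ψ false x + ψ true (((0 : ℤ), (1 : ℤ)) +ᵥ x)) {L : ℕ} {x : X}
    (h0 : ∑ t ∈ Finset.range L, ψ false (((0 : ℤ), (t : ℤ)) +ᵥ x) = 0) (a : ℕ) :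
    pot ψ a L x = pot ψ a 0 (((0 : ℤ), (L : ℤ)) +ᵥ x) := by
  induction a with
  | zero => simpa [pot] using h0
  | succ a ih =>
    rw [pot_right hcl, pot_right hcl, ih, ← add_vadd]
    simp

/-- A closed local form whose periods vanish has a local primitive. -/
theorem exists_primitive {ψ : Bool → X → ZMod 2} (hψ : ∀ d, LocF (ψ d))
    (hcl : ∀ x, ψ true x + ψ false (((1 : ℤ), (0 : ℤ)) +ᵥ x) =
      ψ false x + ψ true (((0 : ℤ), (1 : ℤ)) +ᵥ x)) {L : ℕ} (c : ∀ d, Crd X d L) (s : Bool → ℤ)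
    (h0 : ∀ d x, (∀ d', (c d').rep x (s d')) →
      ∑ t ∈ Finset.range L, ψ d (vec d t 0 +ᵥ x) = 0) :
    ∃ f : X → ZMod 2, LocF f ∧ ∀ d x, f (vec d 1 0 +ᵥ x) = f x + ψ d x := by
  let α : Bool → X → ℕ := fun d x => ((c d).win (s d) x - s d).toNat
  have hα : ∀ d, LocF (α d) := fun d => ((c d).locF_win (s d)).comp (fun w => (w - s d).toNat)
  let f : X → ZMod 2 := fun x =>
    pot ψ (α true x) (α false x) ((-(α true x : ℤ), -(α false x : ℤ)) +ᵥ x)
  have hf : LocF f := LocF.bind ((hα true).prod (hα false))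
    (k := fun p x => pot ψ p.1 p.2 ((-(p.1 : ℤ), -(p.2 : ℤ)) +ᵥ x))
    (fun p => (locF_pot hψ p.1 p.2).shift _)
  have hL := (c true).pos
  -- value of `f` on the fundamental domain
  have key : ∀ y, (∀ d', (c d').rep y (s d')) → ∀ a b : ℕ, a < L → b < L →
      f (((a : ℤ), (b : ℤ)) +ᵥ y) = pot ψ a b y := by
    intro y hy a b ha hb
    have e1 : α true (((a : ℤ), (b : ℤ)) +ᵥ y) = a := by
      have := (c true).win_eq (w := s true) ((c true).shift ((a : ℤ), (b : ℤ)) (hy true))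
        (by simp) (by simp; omega)
      simp only [α, this]
      simp
    have e2 : α false (((a : ℤ), (b : ℤ)) +ᵥ y) = b := by
      have := (c false).win_eq (w := s false) ((c false).shift ((a : ℤ), (b : ℤ)) (hy false))
        (by simp) (by simp; omega)
      simp only [α, this]
      simp
    simp only [f, e1, e2, ← add_vadd]
    simp [zz_vadd]
  have hV1 : ∀ y, (∀ d', (c d').rep y (s d')) → ∀ d',
      (c d').rep (((L : ℤ), (0 : ℤ)) +ᵥ y) (s d') := by
    intro y hy d'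
    refine (c d').of_dvd ((c d').shift _ (hy d')) ?_
    cases d' <;> simp
  have hV2 : ∀ y, (∀ d', (c d').rep y (s d')) → ∀ d',
      (c d').rep (((0 : ℤ), (L : ℤ)) +ᵥ y) (s d') := by
    intro y hy d'
    refine (c d').of_dvd ((c d').shift _ (hy d')) ?_
    cases d' <;> simp
  have key1 : ∀ y, (∀ d', (c d').rep y (s d')) → ∀ a b : ℕ, a ≤ L → b < L →
      f (((a : ℤ), (b : ℤ)) +ᵥ y) = pot ψ a b y := by
    intro y hy a b ha hb
    rcases ha.lt_or_eq with ha | rfl
    · exact key y hy a b ha hb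
    · rw [pot_L_left (h0 true y hy), ← key _ (hV1 y hy) 0 b hL hb, ← add_vadd]
      simp
  have key2 : ∀ y, (∀ d', (c d').rep y (s d')) → ∀ a b : ℕ, a < L → b ≤ L →
      f (((a : ℤ), (b : ℤ)) +ᵥ y) = pot ψ a b y := by
    intro y hy a b ha hb
    rcases hb.lt_or_eq with hb | rfl
    · exact key y hy a b ha hb
    · rw [pot_L_right hcl (h0 false y hy), ← key _ (hV2 y hy) a 0 ha hL, ← add_vadd]
      simp
  have dec : ∀ x : X, ∃ (y : X) (a b : ℕ), (∀ d', (c d').rep y (s d')) ∧ a < L ∧ b < L ∧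
      x = ((a : ℤ), (b : ℤ)) +ᵥ y := by
    intro x
    have h1 := (c true).le_win (s true) x
    have h2 := (c true).win_lt (s true) x
    have h3 := (c false).le_win (s false) x
    have h4 := (c false).win_lt (s false) x
    refine ⟨(-(α true x : ℤ), -(α false x : ℤ)) +ᵥ x, α true x, α false x, fun d' => ?_,
      by simp only [α]; omega, by simp only [α]; omega, by rw [← add_vadd]; simp [zz_vadd]⟩
    have := (c d').shift (-(α true x : ℤ), -(α false x : ℤ)) ((c d').win_rep (s d') x)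
    convert this using 1
    cases d'
    · simp only [α, pr_false]; omega
    · simp only [α, pr_true]; omega
  refine ⟨f, hf, fun d x => ?_⟩
  obtain ⟨y, a, b, hy, ha, hb, rfl⟩ := dec x
  rw [key y hy a b ha hb, ← add_vadd]
  cases d
  · have e2 : vec false 1 0 + ((a : ℤ), (b : ℤ)) = ((a : ℤ), ((b + 1 : ℕ) : ℤ)) := by
      ext <;> simp [add_comm]
    rw [e2, key2 y hy a (b + 1) ha hb, pot_up]
  · have e1 : vec true 1 0 + ((a : ℤ), (b : ℤ)) = (((a + 1 : ℕ) : ℤ), (b : ℤ)) := by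
      ext <;> simp [add_comm]
    rw [e1, key1 y hy (a + 1) b ha hb, pot_right hcl]

theorem add_self (u : ZMod 2) : u + u = 0 := CharTwo.add_self_eq_zero u

theorem IsCycle.add {c c' : Bool → X → ZMod 2} (h : IsCycle c) (h' : IsCycle c') :
    IsCycle (c + c') := by
  refine ⟨fun d => (h.1 d).comp₂ (h'.1 d) (· + ·), fun x => ?_⟩
  simp only [Pi.add_apply]
  linear_combination h.2 x + h'.2 x

theorem isBdry_of {e : Bool → X → ZMod 2} (he : IsCycle e) {L : ℕ} (c : ∀ d, Crd X d L)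
    (s : Bool → ℤ) (h0 : ∀ d x, (∀ d', (c d').rep x (s d')) →
      ∑ t ∈ Finset.range L, e (!d) (vec d 1 0 +ᵥ vec d t 0 +ᵥ x) = 0) : IsBdry e := by
  obtain ⟨f, hf, hs⟩ := exists_primitive (ψ := fun d x => e (!d) (vec d 1 0 +ᵥ x))
    (fun d => (he.1 (!d)).shift _) (fun x => by
      have h := he.2 (((1 : ℤ), (1 : ℤ)) +ᵥ x)
      simp only [← add_vadd, vec_true, vec_false, Prod.mk_add_mk, Bool.not_true,
        Bool.not_false] at h ⊢
      norm_num at h ⊢
      have h1 := add_self (e true (((0 : ℤ), (1 : ℤ)) +ᵥ x))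
      have h2 := add_self (e false (((1 : ℤ), (1 : ℤ)) +ᵥ x))
      linear_combination h - h1 - h2) c s h0
  refine ⟨f, hf, fun d x => ?_⟩
  have h := hs (!d) (vec d 0 (-1) +ᵥ x)
  have e0 : vec (!d) 1 0 +ᵥ vec d 0 (-1) +ᵥ x = x := by
    rw [← add_vadd]
    cases d <;> simp [zz_vadd]
  rw [e0, Bool.not_not] at h
  have h1 := add_self (f (vec d 0 (-1) +ᵥ x))
  linear_combination -h - h1

theorem card_bound : ∃ K : ℕ, ∀ S : Finset (Bool → X → ZMod 2), (∀ c ∈ S, IsCycle c) →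
    K < S.card → ∃ c ∈ S, ∃ c' ∈ S, c ≠ c' ∧ IsBdry (c + c') := by
  classical
  obtain ⟨J, _, hJ⟩ := Good.coh (X := X)
  refine ⟨(Finset.univ : Finset (Bool → J → ZMod 2)).card, fun S hS hK => ?_⟩
  obtain ⟨r, hr⟩ := LocF.uniform (I := S × Bool) (β := fun _ => ZMod 2)
    (f := fun p x => p.1.1 (!p.2) (vec p.2 1 0 +ᵥ x))
    (fun p => ((hS p.1.1 p.1.2).1 (!p.2)).shift _)
  obtain ⟨L, c, s, n, h⟩ := hJ r
  have h' : ∀ e : S, ∀ d, ∃ a : J → ZMod 2, ∀ x, (∀ d', (c d').rep x (s d')) →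
      ∑ t ∈ Finset.range L, e.1 (!d) (vec d 1 0 +ᵥ vec d t 0 +ᵥ x) = ∑ b, a b * n d b x :=
    fun e d => h d (fun x => e.1 (!d) (vec d 1 0 +ᵥ x)) (hr (e, d))
  choose a ha using h'
  obtain ⟨e, -, e', -, hne, hee⟩ := Finset.exists_ne_map_eq_of_card_lt_of_maps_to
    (s := (Finset.univ : Finset S)) (t := Finset.univ) (f := a) (by simpa using hK)
    (fun _ _ => Finset.mem_coe.2 (Finset.mem_univ _))
  refine ⟨e.1, e.2, e'.1, e'.2, fun h => hne (Subtype.ext h), ?_⟩
  refine isBdry_of (IsCycle.add (hS _ e.2) (hS _ e'.2)) c s fun d x hx => ?_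
  simp only [Pi.add_apply, Finset.sum_add_distrib]
  rw [ha e d x hx, ha e' d x hx, hee]
  exact add_self _

end CohAux

theorem exists_finite_cycles : ∃ S : Set (Bool → X → ZMod 2), S.Finite ∧ (∀ c ∈ S, IsCycle c) ∧
    ∀ c, IsCycle c → ∃ c' ∈ S, IsBdry (c + c') := by
  classical
  obtain ⟨K, hK⟩ := CohAux.card_bound (X := X)
  by_contra hcon
  have step : ∀ n : ℕ, ∃ S : Finset (Bool → X → ZMod 2), S.card = n ∧ (∀ c ∈ S, IsCycle c) ∧
      ∀ c ∈ S, ∀ c' ∈ S, c ≠ c' → ¬ IsBdry (c + c') := by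
    intro n
    induction n with
    | zero => exact ⟨∅, rfl, by simp, by simp⟩
    | succ n ih =>
      obtain ⟨S, h1, h2, h3⟩ := ih
      have : ∃ c, IsCycle c ∧ ∀ c' ∈ S, ¬ IsBdry (c + c') := by
        by_contra h4
        refine hcon ⟨S, S.finite_toSet, h2, fun c hc => ?_⟩
        by_contra h5
        exact h4 ⟨c, hc, fun c' hc' hb => h5 ⟨c', hc', hb⟩⟩
      obtain ⟨c, hc, hcS⟩ := this
      have hn : c ∉ S := fun h => hcS c h ⟨fun _ => 0, LocF.const _, fun d x => by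
        simp only [Pi.add_apply, CohAux.add_self]⟩
      refine ⟨insert c S, by rw [Finset.card_insert_of_notMem hn, h1], fun e he => ?_,
        fun e he e' he' hne => ?_⟩
      · rcases Finset.mem_insert.1 he with rfl | he
        · exact hc
        · exact h2 e he
      · rcases Finset.mem_insert.1 he with h5 | h5
        · rcases Finset.mem_insert.1 he' with h6 | h6
          · exact absurd (h5.trans h6.symm) hne
          · rw [h5]; exact hcS e' h6
        · rcases Finset.mem_insert.1 he' with h6 | h6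
          · rw [h6, add_comm]; exact hcS e h5
          · exact h3 e h5 e' h6 hne
  obtain ⟨S, h1, h2, h3⟩ := step (K + 1)
  obtain ⟨c, hc, c', hc', hne, hb⟩ := hK S h2 (by omega)
  exact h3 c hc c' hc' hne hb

end Crest.Agent.R189
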