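import Crest.Agent.R189.CutDefs

/-! # Row 189: the four cut lemma -/

set_option autoImplicit false
set_option linter.unusedSectionVars false

namespace Crest.Agent.R189
open Equiv

variable {X ι Γ : Type} [Shift X] [Good X] [DecidableEq ι] [Fintype ι] [Group Γ]

section Aux
variable {d : Bool} {L : ℕ} (c : Crd X d L)

theorem mem_band_iff_cut {x : X} {s lo hi : ℤ} (h : c.rep x s) (h1 : hi - L < s) (h2 : s - L < lo) :
    x ∈ c.band lo hi ↔ lo ≤ s ∧ s ≤ hi := by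
  constructor
  · rintro ⟨s', h', h3, h4⟩
    have := c.eq h h' (by omega) (by omega)
    omega
  · rintro ⟨h3, h4⟩
    exact ⟨s, h, h3, h4⟩

theorem mem_base_iff_cut {x : X} {s p q : ℤ} (h : c.rep x s) (h1 : q - L ≤ s) (h2 : s - L < p) :
    x ∈ c.base p q ↔ p ≤ s ∧ s < q := by
  constructor
  · rintro ⟨s', h', h3, h4⟩
    have := c.eq h h' (by omega) (by omega)
    omega
  · rintro ⟨h3, h4⟩
    exact ⟨s, h, h3, h4⟩

theorem band_shift_cut {x : X} {lo hi r : ℤ} (h : x ∈ c.band lo hi) {z : V} (hz : Bd r z) :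
    z +ᵥ x ∈ c.band (lo - r) (hi + r) := by
  obtain ⟨s, hs, h1, h2⟩ := h
  have := (bd_iff d).1 hz
  exact ⟨_, c.shift z hs, by omega, by omega⟩

theorem band_mono_cut {lo hi lo' hi' : ℤ} (h1 : lo' ≤ lo) (h2 : hi ≤ hi') :
    c.band lo hi ⊆ c.band lo' hi' := fun _ ⟨s, hs, h3, h4⟩ => ⟨s, hs, by omega, by omega⟩

theorem strip_mono_cut {lo hi lo' hi' : ℤ} (h1 : lo' ≤ lo) (h2 : hi ≤ hi') :
    (c.strip lo hi : Set (X × ι)) ⊆ c.strip lo' hi' := fun _ h => band_mono_cut c h1 h2 h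

theorem band_disjoint_cut {lo hi lo' hi' : ℤ} (h1 : hi < lo') (h2 : hi' - L < lo) :
    Disjoint (c.band lo hi) (c.band lo' hi') := by
  rw [Set.disjoint_left]
  rintro x ⟨s, hs, h3, h4⟩ ⟨s', hs', h5, h6⟩
  have := c.eq hs hs' (by omega) (by have := c.pos; omega)
  omega

theorem strip_disjoint_cut {lo hi lo' hi' : ℤ} (h1 : hi < lo') (h2 : hi' - L < lo) :
    Disjoint (c.strip lo hi : Set (X × ι)) (c.strip lo' hi') :=
  (band_disjoint_cut c h1 h2).preimage Prod.fst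

theorem base_disjoint_cut {p q p' q' : ℤ} (h1 : q ≤ p') (h2 : q' - L ≤ p) :
    Disjoint (c.base p q) (c.base p' q') := by
  rw [Set.disjoint_left]
  rintro x ⟨s, hs, h3, h4⟩ ⟨s', hs', h5, h6⟩
  have := c.eq hs hs' (by omega) (by have := c.pos; omega)
  omega

theorem band_add_L_cut (lo hi : ℤ) : c.band (lo + L) (hi + L) = c.band lo hi := by
  ext x
  constructor
  · rintro ⟨s, hs, h1, h2⟩
    exact ⟨_, c.sub_L hs, by omega, by omega⟩
  · rintro ⟨s, hs, h1, h2⟩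
    exact ⟨_, c.add_L hs, by omega, by omega⟩

theorem base_add_L_cut (p q : ℤ) : c.base (p + L) (q + L) = c.base p q := by
  ext x
  constructor
  · rintro ⟨s, hs, h1, h2⟩
    exact ⟨_, c.sub_L hs, by omega, by omega⟩
  · rintro ⟨s, hs, h1, h2⟩
    exact ⟨_, c.add_L hs, by omega, by omega⟩

theorem in_add_L_cut {lo hi : ℤ} {τ : Tri X ι} (h : c.In lo hi τ) : c.In (lo + L) (hi + L) τ := by
  intro x hx
  obtain ⟨s, hs, h'⟩ := h x hx
  exact ⟨_, c.add_L hs, fun f hf => by have := h' f hf; omega⟩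

theorem in_res_base_cut {ρ : ℤ} {τ : Tri X ι} (h : τ.Rad ρ) (p q : ℤ) :
    c.In (p - ρ) (q + ρ) (τ.res (c.base p q)) := by
  rintro x ⟨_, s, hs, h1, h2⟩
  refine ⟨s, hs, fun f hf => ?_⟩
  have := (bd_iff d).1 (h.mem hf)
  omega

theorem disp_strip_cut {r lo hi : ℤ} {g : Perm (X × ι)} (hg : Disp r g) {ω : X × ι}
    (hω : ω ∈ c.strip lo hi) : g ω ∈ c.strip (lo - r) (hi + r) := by
  obtain ⟨z, hz, e⟩ := hg ω
  change (g ω).1 ∈ c.band _ _
  rw [e]
  exact band_shift_cut c hω hz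

end Aux

theorem res_univ_cut (τ : Tri X ι) : τ.res Set.univ = τ := by
  cases τ; simp [Tri.res]

theorem resw_univ_cut (w : List (Tri X ι)) : resw w Set.univ = w := by
  induction w with
  | nil => rfl
  | cons τ w ih => rw [resw_cons, ih, res_univ_cut]

theorem evp_resw_empty_cut (w : List (Tri X ι)) : evp (resw w ∅) = 1 := by
  induction w with
  | nil => rfl
  | cons τ w ih =>
    rw [resw_cons, evp_cons, ih, mul_one]
    have : τ.res ∅ = ⟨∅, τ.a, τ.b, τ.c⟩ := by simp [Tri.res]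
    rw [this, cyc_empty]

theorem locP_evp_cut {w : List (Tri X ι)} (h : ∀ τ ∈ w, τ.Gd) : LocP (evp w) := by
  induction w with
  | nil => exact LocP.one
  | cons τ w ih =>
    rw [evp_cons]
    exact (locP_cyc (h τ (by simp))).mul (ih (fun τ' h' => h τ' (by simp [h'])))

theorem forall_resw_cut {w : List (Tri X ι)} {W : Set X} {P : Tri X ι → Prop}
    (h : ∀ τ ∈ w, P (τ.res W)) : ∀ τ ∈ resw w W, P τ := by
  intro τ hτ
  obtain ⟨τ', h1, rfl⟩ := List.mem_map.1 hτ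
  exact h τ' h1

/-- inclusion-exclusion for far apart pieces -/
theorem incl_excl_cut (C : PreCan X ι Γ) {w : List (Tri X ι)} (hw : ∀ τ ∈ w, τ.Gd)
    {A M B : Set X} (hA : Loc A) (hM : Loc M) (hB : Loc B) (dAM : Disjoint A M)
    (dB : Disjoint (A ∪ M) B) (S : ℕ → Set (X × ι)) (T : Set (X × ι))
    (hSA : ∀ τ ∈ w, ∀ k, (τ.res A).supp ⊆ S k)
    (hSM : ∀ τ ∈ w, ∀ k, ∀ ω ∈ S k, cyc (τ.res M) ω ∈ S (k + 1))
    (hT : ∀ τ ∈ w, (τ.res B).supp ⊆ T) (hd : ∀ k < w.length, Disjoint (S k) T) :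
    C.ev (resw w (A ∪ M)) * (C.ev (resw w M))⁻¹ ∈ C.HS (S w.length) ∧
    C.ev (resw w (A ∪ M ∪ B)) * (C.ev (resw w (M ∪ B)))⁻¹ =
      C.ev (resw w (A ∪ M)) * (C.ev (resw w M))⁻¹ := by
  induction w with
  | nil => simp [one_mem]
  | cons τ w ih =>
    obtain ⟨ih1, ih2⟩ := ih (fun τ' h' => hw τ' (by simp [h'])) (fun τ' h' => hSA τ' (by simp [h']))
      (fun τ' h' => hSM τ' (by simp [h'])) (fun τ' h' => hT τ' (by simp [h']))
      (fun k hk => hd k (by simp only [List.length_cons]; omega))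
    have hτ : τ.Gd := hw τ (by simp)
    have dMB : Disjoint M B := dB.mono_left Set.subset_union_right
    simp only [resw_cons, PreCan.ev_cons, List.length_cons]
    rw [C.xh_res_union hτ (hA.union hM) hB dB, C.xh_res_union hτ hA hM dAM,
      C.xh_res_union hτ hM hB dMB]
    set x := C.xh (τ.res A)
    set y := C.xh (τ.res M) with hy
    set z := C.xh (τ.res B)
    set R := C.ev (resw w (A ∪ M)) * (C.ev (resw w M))⁻¹ with hR
    have e1 : x * y * C.ev (resw w (A ∪ M)) * (y * C.ev (resw w M))⁻¹ = x * (y * R * y⁻¹) := by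
      rw [hR]; group
    have e2 : x * y * z * C.ev (resw w (A ∪ M ∪ B)) * (y * z * C.ev (resw w (M ∪ B)))⁻¹ =
        x * (y * (z * R * z⁻¹) * y⁻¹) := by
      rw [← ih2]; group
    have hz : z ∈ C.HS T := C.xh_mem_GS (hτ.res hB) (hT τ (by simp))
    have hc : Commute z R := C.HS_commute ih1 hz (hd _ (by simp))
    refine ⟨?_, ?_⟩
    · rw [e1]
      refine mul_mem (C.xh_mem_GS (hτ.res hA) (hSA τ (by simp) _)) (C.conj_mem_HS ih1 y ?_)
      intro ω hω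
      rw [hy, C.π_xh (hτ.res hM)]
      exact hSM τ (by simp) _ ω hω
    · rw [e1, e2, hc.eq, mul_inv_cancel_right]

/-- the defect of a word restricted to a base set -/
noncomputable def gW_cut (a b : ι) (w : List (Tri X ι)) (E W : Set X) : Perm (X × ι) :=
  evp (resw w W) * TT a b (E ∩ W)

theorem TT_congr_cut (a b : ι) {E E' : Set X} {ω : X × ι} (h : ω.1 ∈ E ↔ ω.1 ∈ E') :
    TT a b E ω = TT a b E' ω := by
  obtain ⟨x, i⟩ := ω
  by_cases hx : x ∈ E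
  · rw [TT_mem a b hx, TT_mem a b (h.1 hx)]
  · rw [TT_not_mem a b hx, TT_not_mem a b (fun h' => hx (h.2 h'))]

theorem TT_fix_cut (a b : ι) {E : Set X} {ω : X × ι} (h : ω.1 ∉ E) : TT a b E ω = ω :=
  TT_not_mem a b h ω.2

theorem gW_congr_cut (a b : ι) {ρ : ℤ} (hρ : 0 ≤ ρ) {w : List (Tri X ι)} (hok : ∀ τ ∈ w, τ.Ok)
    (h : ∀ τ ∈ w, τ.Rad ρ) (E : Set X) {W W' : Set X} (ω : X × ι)
    (hW : ∀ z, Bd (2 * ρ * w.length) z → (z +ᵥ ω.1 ∈ W ↔ z +ᵥ ω.1 ∈ W')) :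
    gW_cut a b w E W ω = gW_cut a b w E W' ω := by
  have h0 : ω.1 ∈ W ↔ ω.1 ∈ W' := by
    have := hW 0 (Bd.zero (by positivity))
    simpa using this
  unfold gW_cut
  rw [Perm.mul_apply, Perm.mul_apply, TT_congr_cut a b (E := E ∩ W) (E' := E ∩ W')
    (by simp only [Set.mem_inter_iff, h0])]
  exact evp_resw_congr hρ hok h _ hW

theorem gW_univ_cut {a b : ι} {w : List (Tri X ι)} {E : Set X} (hwE : evp w = TT a b E) :
    gW_cut a b w E Set.univ = 1 := by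
  unfold gW_cut
  rw [resw_univ_cut, Set.inter_univ, hwE, TT_mul_self]

theorem gW_empty_cut (a b : ι) (w : List (Tri X ι)) (E : Set X) : gW_cut a b w E ∅ = 1 := by
  unfold gW_cut
  rw [evp_resw_empty_cut, Set.inter_empty, TT_empty, mul_one]

theorem disp_gW_cut (a b : ι) {ρ : ℤ} (hρ : 0 ≤ ρ) {w : List (Tri X ι)}
    (h : ∀ τ ∈ w, τ.Rad ρ) (E W : Set X) : Disp (2 * ρ * w.length) (gW_cut a b w E W) := by
  have hd : Disp (2 * ρ * (resw w W).length) (evp (resw w W)) :=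
    disp_evp hρ (forall_resw_cut h)
  have hl : (resw w W).length = w.length := List.length_map _
  rw [hl] at hd
  exact (hd.mul (disp_TT a b (E ∩ W))).mono (by simp)

theorem locP_gW_cut (a b : ι) {w : List (Tri X ι)} (h : ∀ τ ∈ w, τ.Gd) {E W : Set X} (hE : Loc E)
    (hW : Loc W) : LocP (gW_cut a b w E W) :=
  (locP_evp_cut (forall_resw_cut (fun τ hτ => (h τ hτ).res hW))).mul (locP_TT a b (hE.inter hW))

theorem exists_restr_cut {α : Type} (g : Perm α) (P : Set α) (h : ∀ ω, g ω ∈ P ↔ ω ∈ P) :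
    ∃ u : Perm α, u ∈ SuppOn P ∧ ∀ ω ∈ P, u ω = g ω := by
  classical
  exact ⟨Perm.ofSubtype (g.subtypePerm (p := (· ∈ P)) h),
    fun ω hω => Perm.ofSubtype_subtypePerm_of_not_mem h hω,
    fun ω hω => Perm.ofSubtype_subtypePerm_of_mem h hω⟩

theorem locP_restr_cut {g u : Perm (X × ι)} (hg : LocP g) {B : Set X} (hB : Loc B)
    (h1 : u ∈ SuppOn {ω : X × ι | ω.1 ∈ B}) (h2 : ∀ ω : X × ι, ω.1 ∈ B → u ω = g ω) : LocP u := by
  classical
  obtain ⟨k, hk1, hk2⟩ := hg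
  refine ⟨fun x i => if x ∈ B then k x i else (0, i), fun i => hB.ite (hk1 i) (LocF.const _),
    fun x i => ?_⟩
  by_cases hx : x ∈ B
  · simp only [if_pos hx]
    rw [h2 _ hx, hk2]
  · simp only [if_neg hx]
    rw [star_zero, h1 _ hx]

theorem pres_cut {α : Type} {g : Perm α} {S T P : Set α} (hg : g ∈ SuppOn (S ∪ T)) (hS : S ⊆ P)
    (hT : Disjoint P T) (h1 : ∀ ω ∈ S, g ω ∉ T) (h2 : ∀ ω ∈ T, g ω ∉ S) (ω : α) :
    g ω ∈ P ↔ ω ∈ P := by
  have key := SuppOn.mem_iff hg ω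
  by_cases hω : ω ∈ S ∪ T
  · rcases hω with hω | hω
    · exact ⟨fun _ => hS hω, fun _ => hS ((key.2 (Or.inl hω)).resolve_right (h1 ω hω))⟩
    · exact ⟨fun h => (Set.disjoint_left.1 hT h
          ((key.2 (Or.inr hω)).resolve_left (h2 ω hω))).elim,
        fun h => (Set.disjoint_left.1 hT h hω).elim⟩
  · rw [hg ω hω]

theorem split_cut {α : Type} {g u v : Perm α} {P R : Set α} (hg : g ∈ SuppOn (P ∪ R))
    (hd : Disjoint P R) (hu : u ∈ SuppOn P) (hv : v ∈ SuppOn R) (hu' : ∀ ω ∈ P, u ω = g ω)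
    (hv' : ∀ ω ∈ R, v ω = g ω) : g = u * v := by
  refine Equiv.ext (fun ω => ?_)
  rw [Perm.mul_apply]
  by_cases h1 : ω ∈ R
  · rw [hu _ (Set.disjoint_right.1 hd ((SuppOn.mem_iff hv ω).2 h1)), hv' ω h1]
  · rw [hv ω h1]
    by_cases h2 : ω ∈ P
    · rw [hu' ω h2]
    · rw [hu ω h2, hg ω (by rintro (h | h); exacts [h2 h, h1 h])]

section Main
variable {d : Bool} {L : ℕ} (c : Crd X d L) {a b : ι} {w : List (Tri X ι)} {ρ Δ : ℤ} {E : Set X}

theorem gI_supp_cut (hρ : 0 ≤ ρ) (hok : ∀ τ ∈ w, τ.Ok) (h : ∀ τ ∈ w, τ.Rad ρ)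
    (hwE : evp w = TT a b E) {p q : ℤ} (_hpq : p ≤ q) (_hqp : q ≤ p + L) :
    c.gI a b w E p q ∈ SuppOn (c.strip (p - 2 * ρ * w.length) (p + 2 * ρ * w.length) ∪
      c.strip (q - 2 * ρ * w.length) (q + 2 * ρ * w.length)) := by
  intro ω hω
  set m := 2 * ρ * w.length with hm
  have hm0 : 0 ≤ m := by positivity
  obtain ⟨s, hs, h1, h2⟩ := c.ex_window ω.1 (p - m)
  have h3 : p + m < s := by
    by_contra h3
    exact hω (Or.inl ⟨s, hs, h1, by omega⟩)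
  have h4 : s < q - m ∨ q + m < s := by
    by_contra h4
    exact hω (Or.inr ⟨s, hs, by omega, by omega⟩)
  change gW_cut a b w E (c.base p q) ω = ω
  rcases h4 with h4 | h4
  · rw [gW_congr_cut a b hρ hok h E (W' := Set.univ) ω, gW_univ_cut hwE]
    · rfl
    · intro z hz
      have := (bd_iff d).1 hz
      exact ⟨fun _ => trivial, fun _ => ⟨_, c.shift z hs, by omega, by omega⟩⟩
  · rw [gW_congr_cut a b hρ hok h E (W' := ∅) ω, gW_empty_cut]
    · rfl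
    · intro z hz
      have := (bd_iff d).1 hz
      rw [mem_base_iff_cut c (c.shift z hs) (by omega) (by omega)]
      exact ⟨fun h' => by omega, fun h' => h'.elim⟩

theorem exists_left_cut (hρ : 0 ≤ ρ) (hw : ∀ τ ∈ w, τ.Gd) (h : ∀ τ ∈ w, τ.Rad ρ)
    (hΔ : 2 * ρ * w.length < Δ) (hL : 8 * Δ ≤ L) (hE : Loc E) (hwE : evp w = TT a b E) (p : ℤ) :
    ∃ u, c.Edge a b w E Δ p u ∧ ∀ q, p + 4 * Δ ≤ q → q + 4 * Δ ≤ p + L →
      ∀ ω ∈ c.strip (p - Δ) (p + Δ), u ω = c.gI a b w E p q ω := by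
  have hok : ∀ τ ∈ w, τ.Ok := fun τ hτ => (hw τ hτ).1
  have hs := gI_supp_cut c hρ hok h hwE (p := p) (q := p + 4 * Δ)
  have hd : Disp (2 * ρ * w.length) (c.gI a b w E p (p + 4 * Δ)) := disp_gW_cut a b hρ h E _
  have hcg := fun W W' ω => gW_congr_cut a b hρ hok h E (W := W) (W' := W') ω
  set m := 2 * ρ * w.length with hm
  have hm0 : 0 ≤ m := by positivity
  obtain ⟨u, hu1, hu2⟩ := exists_restr_cut (c.gI a b w E p (p + 4 * Δ)) (c.strip (p - Δ) (p + Δ))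
    (pres_cut (hs (by omega) (by omega)) (strip_mono_cut c (by omega) (by omega))
      (strip_disjoint_cut c (by omega) (by omega))
      (fun ω hω => Set.disjoint_left.1 (strip_disjoint_cut c (by omega) (by omega))
        (disp_strip_cut c hd hω))
      (fun ω hω => Set.disjoint_right.1 (strip_disjoint_cut c (by omega) (by omega))
        (disp_strip_cut c hd hω)))
  refine ⟨u, ⟨locP_restr_cut (locP_gW_cut a b hw hE (c.loc_base p (p + 4 * Δ))) (c.loc_band _ _)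
    hu1 hu2, hu1, p, p + 4 * Δ, Or.inl rfl, le_rfl, by omega, hu2⟩, fun q h1 h2 ω hω => ?_⟩
  rw [hu2 ω hω]
  obtain ⟨s, hs, h3, h4⟩ := hω
  refine hcg _ _ ω (fun z hz => ?_)
  have := (bd_iff d).1 hz
  rw [mem_base_iff_cut c (c.shift z hs) (by omega) (by omega),
    mem_base_iff_cut c (c.shift z hs) (by omega) (by omega)]
  omega

theorem exists_right_cut (hρ : 0 ≤ ρ) (hw : ∀ τ ∈ w, τ.Gd) (h : ∀ τ ∈ w, τ.Rad ρ)
    (hΔ : 2 * ρ * w.length < Δ) (hL : 8 * Δ ≤ L) (hE : Loc E) (hwE : evp w = TT a b E) (q : ℤ) :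
    ∃ u, c.Edge a b w E Δ q u ∧ ∀ p, p + 4 * Δ ≤ q → q + 4 * Δ ≤ p + L →
      ∀ ω ∈ c.strip (q - Δ) (q + Δ), u ω = c.gI a b w E p q ω := by
  have hok : ∀ τ ∈ w, τ.Ok := fun τ hτ => (hw τ hτ).1
  have hs := gI_supp_cut c hρ hok h hwE (p := q - 4 * Δ) (q := q)
  have hd : Disp (2 * ρ * w.length) (c.gI a b w E (q - 4 * Δ) q) := disp_gW_cut a b hρ h E _
  have hcg := fun W W' ω => gW_congr_cut a b hρ hok h E (W := W) (W' := W') ω
  set m := 2 * ρ * w.length with hm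
  have hm0 : 0 ≤ m := by positivity
  rw [Set.union_comm] at hs
  obtain ⟨u, hu1, hu2⟩ := exists_restr_cut (c.gI a b w E (q - 4 * Δ) q) (c.strip (q - Δ) (q + Δ))
    (pres_cut (hs (by omega) (by omega)) (strip_mono_cut c (by omega) (by omega))
      (strip_disjoint_cut c (by omega) (by omega)).symm
      (fun ω hω => Set.disjoint_right.1 (strip_disjoint_cut c (by omega) (by omega))
        (disp_strip_cut c hd hω))
      (fun ω hω => Set.disjoint_left.1 (strip_disjoint_cut c (by omega) (by omega))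
        (disp_strip_cut c hd hω)))
  refine ⟨u, ⟨locP_restr_cut (locP_gW_cut a b hw hE (c.loc_base (q - 4 * Δ) q)) (c.loc_band _ _)
    hu1 hu2, hu1, q - 4 * Δ, q, Or.inr rfl, by omega, by omega, hu2⟩, fun p h1 h2 ω hω => ?_⟩
  rw [hu2 ω hω]
  obtain ⟨s, hs, h3, h4⟩ := hω
  refine hcg _ _ ω (fun z hz => ?_)
  have := (bd_iff d).1 hz
  rw [mem_base_iff_cut c (c.shift z hs) (by omega) (by omega),
    mem_base_iff_cut c (c.shift z hs) (by omega) (by omega)]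
  omega

theorem GS_le_HS_cut (C : PreCan X ι Γ) (Q : Tri X ι → Prop) (lo hi : ℤ) :
    C.GS (fun τ => Q τ ∧ c.In lo hi τ) ≤ C.HS (c.strip lo hi) :=
  C.GS_mono (fun _ _ h => h.2.supp)

theorem delta_cut (C : PreCan X ι Γ) (D : Subgroup Γ) {Q : Tri X ι → Prop}
    (hQ : ∀ τ W, Q τ → Q (τ.res W)) (hρ : 0 ≤ ρ) (hw : ∀ τ ∈ w, τ.Gd ∧ Q τ ∧ τ.Rad ρ)
    (hΔ : 2 * ρ * w.length < Δ) (hρΔ : ρ ≤ Δ) (hE : Loc E) (hwE : evp w = TT a b E)
    (hInj : ∀ lo hi : ℤ, hi - lo < L → ∀ h ∈ C.GS (fun τ => Q τ ∧ c.In lo hi τ), ∀ E', Loc E' →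
      C.π h = TT a b E' → h ∈ D)
    {p q : ℤ} (h1 : p + 4 * Δ ≤ q) (h2 : q + 4 * Δ ≤ p + L) {hp hq : Γ} {Ep Eq : Set X}
    (mp : hp ∈ C.GS (fun τ => Q τ ∧ c.In (p - Δ) (p + Δ) τ))
    (mq : hq ∈ C.GS (fun τ => Q τ ∧ c.In (q - Δ) (q + Δ) τ))
    (lp : Loc Ep) (lq : Loc Eq) (sp : Ep ⊆ c.band (p - Δ) (p + Δ)) (sq : Eq ⊆ c.band (q - Δ) (q + Δ))
    (ep : ∀ ω ∈ c.strip (p - Δ) (p + Δ), (C.π hp * TT a b Ep) ω = c.gI a b w E p q ω)
    (eq : ∀ ω ∈ c.strip (q - Δ) (q + Δ), (C.π hq * TT a b Eq) ω = c.gI a b w E p q ω) :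
    ∃ δ ∈ D, C.ev (resw w (c.base p q)) = hp * hq * δ ∧
      C.π δ = TT a b (symmDiff (symmDiff Ep Eq) (E ∩ c.base p q)) := by
  have hs := gI_supp_cut c hρ (fun τ hτ => (hw τ hτ).1.1) (fun τ hτ => (hw τ hτ).2.2) hwE
    (p := p) (q := q)
  set m := 2 * ρ * w.length with hm
  have hm0 : 0 ≤ m := by positivity
  have hd : Disjoint (c.strip (p - Δ) (p + Δ) : Set (X × ι)) (c.strip (q - Δ) (q + Δ)) :=
    strip_disjoint_cut c (by omega) (by omega)
  have a1 := C.π_mem_suppOn (GS_le_HS_cut c C Q _ _ mp)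
  have a2 := C.π_mem_suppOn (GS_le_HS_cut c C Q _ _ mq)
  have a3 : TT a b Ep ∈ SuppOn (c.strip (p - Δ) (p + Δ) : Set (X × ι)) :=
    fun ω hω => TT_fix_cut a b (fun h' => hω (sp h'))
  have a4 : TT a b Eq ∈ SuppOn (c.strip (q - Δ) (q + Δ) : Set (X × ι)) :=
    fun ω hω => TT_fix_cut a b (fun h' => hω (sq h'))
  have hg : c.gI a b w E p q = (C.π hp * TT a b Ep) * (C.π hq * TT a b Eq) := by
    refine split_cut (fun ω hω => hs (by omega) (by omega) ω (fun h' => hω ?_)) hd (mul_mem a1 a3)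
      (mul_mem a2 a4) ep eq
    rcases h' with h' | h'
    · exact Or.inl (strip_mono_cut c (by omega) (by omega) h')
    · exact Or.inr (strip_mono_cut c (by omega) (by omega) h')
  have hc : Commute (TT a b Ep) (C.π hq) := commute_of_suppOn a3 a2 hd
  have hπ : C.π ((hp * hq)⁻¹ * C.ev (resw w (c.base p q))) =
      TT a b (symmDiff (symmDiff Ep Eq) (E ∩ c.base p q)) := by
    have e1 : evp (resw w (c.base p q)) = c.gI a b w E p q * TT a b (E ∩ c.base p q) := by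
      unfold Crd.gI
      rw [mul_assoc, TT_mul_self, mul_one]
    rw [map_mul, map_inv, map_mul,
      C.π_ev (forall_resw_cut (fun τ hτ => (hw τ hτ).1.res (c.loc_base p q))), e1, hg,
      ← TT_mul, ← TT_mul, mul_assoc (C.π hp) (TT a b Ep), ← mul_assoc (TT a b Ep), hc.eq]
    group
  refine ⟨(hp * hq)⁻¹ * C.ev (resw w (c.base p q)), ?_, by group, hπ⟩
  refine hInj (p - Δ) (q + Δ) (by omega) _ ?_ _
    ((lp.symmDiff lq).symmDiff (hE.inter (c.loc_base p q))) hπ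
  refine mul_mem (inv_mem (mul_mem (C.GS_mono ?_ mp) (C.GS_mono ?_ mq))) (C.ev_mem_GS ?_)
  · exact fun τ _ h' => ⟨h'.1, h'.2.mono le_rfl (by omega)⟩
  · exact fun τ _ h' => ⟨h'.1, h'.2.mono (by omega) le_rfl⟩
  · exact forall_resw_cut (P := fun τ => τ.Gd ∧ Q τ ∧ c.In (p - Δ) (q + Δ) τ) (fun τ hτ =>
      ⟨(hw τ hτ).1.res (c.loc_base p q), hQ _ _ (hw τ hτ).2.1,
        (in_res_base_cut c (hw τ hτ).2.2 p q).mono (by omega) (by omega)⟩)

theorem factor_cut (C : PreCan X ι Γ) (hρ : 0 ≤ ρ) (hw : ∀ τ ∈ w, τ.Gd) (h : ∀ τ ∈ w, τ.Rad ρ)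
    (hΔ : 2 * ρ * (w.length + 1) < Δ) (hL : 20 * Δ ≤ L) :
    C.ev w = C.ev (resw w (c.base 0 (12 * Δ))) * (C.ev (resw w (c.base (8 * Δ) (12 * Δ))))⁻¹ *
      (C.ev (resw w (c.base 0 (4 * Δ))))⁻¹ * C.ev (resw w (c.base (8 * Δ) (4 * Δ + L))) := by
  have hn : 0 ≤ 2 * ρ * w.length := by positivity
  have hΔ' : 2 * ρ * w.length + 2 * ρ < Δ := by linarith
  have hsupp : ∀ τ ∈ w, ∀ p q, (τ.res (c.base p q)).supp ⊆ c.strip (p - ρ) (q + ρ) :=
    fun τ hτ p q => (in_res_base_cut c (h τ hτ) p q).supp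
  have e1 : c.base (4 * Δ) (8 * Δ) ∪ (c.base 0 (4 * Δ) ∪ c.base (8 * Δ) (12 * Δ)) =
      c.base 0 (12 * Δ) := by
    ext x
    obtain ⟨s, hs, h1, h2⟩ := c.ex_window x 0
    simp only [Set.mem_union]
    rw [mem_base_iff_cut c hs (by omega) (by omega), mem_base_iff_cut c hs (by omega) (by omega),
      mem_base_iff_cut c hs (by omega) (by omega), mem_base_iff_cut c hs (by omega) (by omega)]
    omega
  have e2 : c.base 0 (12 * Δ) ∪ c.base (12 * Δ) L = Set.univ := by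
    ext x
    obtain ⟨s, hs, h1, h2⟩ := c.ex_window x 0
    simp only [Set.mem_union, Set.mem_univ, iff_true]
    rw [mem_base_iff_cut c hs (by omega) (by omega), mem_base_iff_cut c hs (by omega) (by omega)]
    omega
  have e3 : c.base 0 (4 * Δ) ∪ c.base (8 * Δ) (12 * Δ) ∪ c.base (12 * Δ) L =
      c.base (8 * Δ) (4 * Δ + L) := by
    rw [← base_add_L_cut c 0 (4 * Δ)]
    ext x
    obtain ⟨s, hs, h1, h2⟩ := c.ex_window x (6 * Δ)
    simp only [Set.mem_union]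
    rw [mem_base_iff_cut c hs (by omega) (by omega), mem_base_iff_cut c hs (by omega) (by omega),
      mem_base_iff_cut c hs (by omega) (by omega), mem_base_iff_cut c hs (by omega) (by omega)]
    omega
  have key := (incl_excl_cut C hw (A := c.base (4 * Δ) (8 * Δ))
    (M := c.base 0 (4 * Δ) ∪ c.base (8 * Δ) (12 * Δ)) (B := c.base (12 * Δ) L)
    (c.loc_base _ _) ((c.loc_base _ _).union (c.loc_base _ _)) (c.loc_base _ _)
    (Set.disjoint_union_right.2 ⟨(base_disjoint_cut c le_rfl (by omega)).symm,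
      base_disjoint_cut c le_rfl (by omega)⟩)
    (by rw [e1]; exact base_disjoint_cut c le_rfl (by omega))
    (fun k => c.strip (4 * Δ - ρ - 2 * ρ * k) (8 * Δ + ρ + 2 * ρ * k))
    (c.strip (12 * Δ - ρ) (L + ρ))
    (fun τ hτ k => by
      have : 0 ≤ 2 * ρ * k := by positivity
      exact (hsupp τ hτ _ _).trans (strip_mono_cut c (by omega) (by omega)))
    (fun τ hτ k ω hω => by
      have := disp_strip_cut c (disp_cyc (τ := τ.res (c.base 0 (4 * Δ) ∪ c.base (8 * Δ) (12 * Δ)))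
        (h τ hτ)) hω
      exact strip_mono_cut c (by push_cast; linarith) (by push_cast; linarith) this)
    (fun τ hτ => hsupp τ hτ _ _)
    (fun k hk => by
      have h1 : (k : ℤ) ≤ w.length := by exact_mod_cast hk.le
      have h2 : 2 * ρ * k ≤ 2 * ρ * w.length := by nlinarith
      exact strip_disjoint_cut c (by omega) (by omega))).2
  rw [e1, e2, e3, resw_univ_cut, C.ev_resw_union hw (c.loc_base _ _) (c.loc_base _ _)
    (base_disjoint_cut c (by omega) (by omega))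
    (strip_disjoint_cut c (lo := 0 - ρ) (hi := 4 * Δ + ρ) (lo' := 8 * Δ - ρ) (hi' := 12 * Δ + ρ)
      (by omega) (by omega))
    (fun τ hτ => hsupp τ hτ _ _) (fun τ hτ => hsupp τ hτ _ _), mul_inv_eq_iff_eq_mul] at key
  rw [key]
  group

end Main

theorem four_cut (C : PreCan X ι Γ) (a b : ι) (D : Subgroup Γ) {d : Bool} {L : ℕ} (c : Crd X d L)
    (Q : Tri X ι → Prop) (hQ : ∀ τ W, Q τ → Q (τ.res W)) (w : List (Tri X ι)) (ρ Δ : ℤ)
    (hρ : 0 ≤ ρ) (hw : ∀ τ ∈ w, τ.Gd ∧ Q τ ∧ τ.Rad ρ) (hΔ : 2 * ρ * (w.length + 1) < Δ)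
    (hL : 20 * Δ ≤ L) (E : Set X) (hE : Loc E) (hwE : evp w = TT a b E)
    (hInj : ∀ lo hi : ℤ, hi - lo < L → ∀ h ∈ C.GS (fun τ => Q τ ∧ c.In lo hi τ), ∀ E', Loc E' →
      C.π h = TT a b E' → h ∈ D)
    (hLift : ∀ p u, c.Edge a b w E Δ p u →
      ∃ h ∈ C.GS (fun τ => Q τ ∧ c.In (p - Δ) (p + Δ) τ), ∃ E', Loc E' ∧
        E' ⊆ c.band (p - Δ) (p + Δ) ∧ u = C.π h * TT a b E') :
    C.ev w ∈ D := by
  have hn : 0 ≤ 2 * ρ * w.length := by positivity
  have hΔ' : 2 * ρ * w.length + 2 * ρ < Δ := by linarith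
  have hG : ∀ τ ∈ w, τ.Gd := fun τ hτ => (hw τ hτ).1
  have hR : ∀ τ ∈ w, τ.Rad ρ := fun τ hτ => (hw τ hτ).2.2
  have hΔ1 : 2 * ρ * w.length < Δ := by omega
  obtain ⟨u0, d0, f0⟩ := exists_left_cut c hρ hG hR hΔ1 (by omega) hE hwE 0
  obtain ⟨u8, d8, f8⟩ := exists_left_cut c hρ hG hR hΔ1 (by omega) hE hwE (8 * Δ)
  obtain ⟨u4, d4, f4⟩ := exists_right_cut c hρ hG hR hΔ1 (by omega) hE hwE (4 * Δ)
  obtain ⟨u12, d12, f12⟩ := exists_right_cut c hρ hG hR hΔ1 (by omega) hE hwE (12 * Δ)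
  obtain ⟨h0, m0, E0, l0, s0, rfl⟩ := hLift _ _ d0
  obtain ⟨h8, m8, E8, l8, s8, rfl⟩ := hLift _ _ d8
  obtain ⟨h4, m4, E4, l4, s4, rfl⟩ := hLift _ _ d4
  obtain ⟨h12, m12, E12, l12, s12, rfl⟩ := hLift _ _ d12
  obtain ⟨δ1, n1, e1, p1⟩ := delta_cut c C D hQ hρ hw hΔ1 (by omega) hE hwE hInj
    (p := 0) (q := 12 * Δ) (by omega) (by omega) m0 m12 l0 l12 s0 s12
    (f0 _ (by omega) (by omega)) (f12 _ (by omega) (by omega))
  obtain ⟨δ2, n2, e2, p2⟩ := delta_cut c C D hQ hρ hw hΔ1 (by omega) hE hwE hInj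
    (p := 8 * Δ) (q := 12 * Δ) (by omega) (by omega) m8 m12 l8 l12 s8 s12
    (f8 _ (by omega) (by omega)) (f12 _ (by omega) (by omega))
  obtain ⟨δ3, n3, e3, p3⟩ := delta_cut c C D hQ hρ hw hΔ1 (by omega) hE hwE hInj
    (p := 0) (q := 4 * Δ) (by omega) (by omega) m0 m4 l0 l4 s0 s4
    (f0 _ (by omega) (by omega)) (f4 _ (by omega) (by omega))
  have b4 : c.band (4 * Δ + L - Δ) (4 * Δ + L + Δ) = c.band (4 * Δ - Δ) (4 * Δ + Δ) := by
    rw [← band_add_L_cut c (4 * Δ - Δ)]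
    congr 1 <;> ring
  have g4 : c.gI a b w E (8 * Δ) (4 * Δ + L) = c.gI a b w E (8 * Δ - L) (4 * Δ) := by
    unfold Crd.gI
    rw [← base_add_L_cut c (8 * Δ - L), sub_add_cancel]
  obtain ⟨δ4, n4, e4, -⟩ := delta_cut c C D hQ hρ hw hΔ1 (by omega) hE hwE hInj
    (p := 8 * Δ) (q := 4 * Δ + L) (by omega) (by omega) m8 (hq := h4)
    (C.GS_mono (fun τ _ h' => ⟨h'.1, (in_add_L_cut c h'.2).mono (by omega) (by omega)⟩) m4)
    l8 l4 s8 (by rw [b4]; exact s4) (f8 _ (by omega) (by omega))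
    (fun ω hω => by
      rw [g4]
      refine f4 _ (by omega) (by omega) ω ?_
      change ω.1 ∈ c.band _ _
      rw [← b4]
      exact hω)
  have k0 := GS_le_HS_cut c C Q _ _ m0
  have k4 := GS_le_HS_cut c C Q _ _ m4
  have k8 := GS_le_HS_cut c C Q _ _ m8
  have k12 := GS_le_HS_cut c C Q _ _ m12
  have c04 : Commute h4 h0 := C.HS_commute k0 k4 (strip_disjoint_cut c (by omega) (by omega))
  have c08 : Commute h8 h0 := C.HS_commute k0 k8 (strip_disjoint_cut c (by omega) (by omega))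
  have c48 : Commute h8 h4 := C.HS_commute k4 k8 (strip_disjoint_cut c (by omega) (by omega))
  have nb : ∀ {F : Set X} {lo hi s : ℤ} {x : X}, F ⊆ c.band lo hi → c.rep x s → hi - L < s →
      s - L < lo → (s < lo ∨ hi < s) → x ∉ F := by
    intro F lo hi s x h1 h2 h3 h4 h5 h6
    have := (mem_band_iff_cut c h2 h3 h4).1 (h1 h6)
    omega
  have cA : Commute (δ1 * δ2⁻¹) h12 := by
    refine C.commute_of_fix k12 ?_
    rintro ω ⟨s, hs, h1, h2⟩
    rw [map_mul, map_inv, p1, p2, TT_inv, TT_mul]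
    refine TT_fix_cut a b ?_
    have x0 := nb s0 hs (by omega) (by omega) (by omega)
    have x8 := nb s8 hs (by omega) (by omega) (by omega)
    have y : ω.1 ∈ c.base 0 (12 * Δ) ↔ ω.1 ∈ c.base (8 * Δ) (12 * Δ) := by
      rw [mem_base_iff_cut c hs (by omega) (by omega), mem_base_iff_cut c hs (by omega) (by omega)]
      omega
    simp only [Set.mem_symmDiff, Set.mem_inter_iff, y]
    tauto
  have cB : Commute δ3 h8 := by
    refine C.commute_of_fix k8 ?_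
    rintro ω ⟨s, hs, h1, h2⟩
    rw [p3]
    refine TT_fix_cut a b ?_
    have x0 := nb s0 hs (by omega) (by omega) (by omega)
    have x4 := nb s4 hs (by omega) (by omega) (by omega)
    have y : ω.1 ∉ c.base 0 (4 * Δ) := by
      rw [mem_base_iff_cut c hs (by omega) (by omega)]
      omega
    simp only [Set.mem_symmDiff, Set.mem_inter_iff]
    tauto
  have cC : Commute (δ1 * δ2⁻¹ * δ3⁻¹) h0 := by
    refine C.commute_of_fix k0 ?_
    rintro ω ⟨s, hs, h1, h2⟩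
    rw [map_mul, map_mul, map_inv, map_inv, p1, p2, p3, TT_inv, TT_inv, TT_mul, TT_mul]
    refine TT_fix_cut a b ?_
    have x4 := nb s4 hs (by omega) (by omega) (by omega)
    have x8 := nb s8 hs (by omega) (by omega) (by omega)
    have y : ω.1 ∈ c.base 0 (12 * Δ) ↔ ω.1 ∈ c.base 0 (4 * Δ) := by
      rw [mem_base_iff_cut c hs (by omega) (by omega), mem_base_iff_cut c hs (by omega) (by omega)]
      omega
    have y' : ω.1 ∉ c.base (8 * Δ) (12 * Δ) := by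
      rw [mem_base_iff_cut c hs (by omega) (by omega)]
      omega
    simp only [Set.mem_symmDiff, Set.mem_inter_iff, y]
    tauto
  have fin : C.ev w = δ1 * δ2⁻¹ * δ3⁻¹ * δ4 := by
    rw [factor_cut c C hρ hG hR hΔ hL, e1, e2, e3, e4]
    calc h0 * h12 * δ1 * (h8 * h12 * δ2)⁻¹ * (h0 * h4 * δ3)⁻¹ * (h8 * h4 * δ4)
        = h0 * (h12 * (δ1 * δ2⁻¹)) * h12⁻¹ * (δ3 * h8)⁻¹ * h4⁻¹ * h0⁻¹ * (h8 * h4) * δ4 := by group
      _ = h0 * ((δ1 * δ2⁻¹) * h12) * h12⁻¹ * (h8 * δ3)⁻¹ * h4⁻¹ * h0⁻¹ * (h4 * h8) * δ4 := by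
        rw [cA.eq, cB.eq, c48.eq]
      _ = h0 * (δ1 * δ2⁻¹ * δ3⁻¹) * h8⁻¹ * (h0 * h4)⁻¹ * h4 * h8 * δ4 := by group
      _ = (δ1 * δ2⁻¹ * δ3⁻¹) * h0 * h8⁻¹ * (h4 * h0)⁻¹ * h4 * h8 * δ4 := by
        rw [cC.eq, c04.eq]
      _ = (δ1 * δ2⁻¹ * δ3⁻¹) * h0 * (h0 * h8)⁻¹ * h8 * δ4 := by group
      _ = (δ1 * δ2⁻¹ * δ3⁻¹) * h0 * (h8 * h0)⁻¹ * h8 * δ4 := by rw [c08.eq]
      _ = δ1 * δ2⁻¹ * δ3⁻¹ * δ4 := by group
  rw [fin]
  exact mul_mem (mul_mem (mul_mem n1 (inv_mem n2)) (inv_mem n3)) n4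

end Crest.Agent.R189
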