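import Crest.Agent.R189.Supp

/-! # Row 189: strips, edge effects, flux (definitions) -/

set_option autoImplicit false
set_option linter.unusedSectionVars false

namespace Crest.Agent.R189
open Equiv

variable {X ι : Type} [Shift X] {d : Bool} {L : ℕ}

namespace Crd
variable (c : Crd X d L)

/-- base points with coordinate in `[p, q)` -/
def base (p q : ℤ) : Set X := {x | ∃ s, c.rep x s ∧ p ≤ s ∧ s < q}
/-- base points with coordinate in `[lo, hi]` -/
def band (lo hi : ℤ) : Set X := {x | ∃ s, c.rep x s ∧ lo ≤ s ∧ s ≤ hi}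
/-- points with coordinate in `[lo, hi]` -/
def strip (lo hi : ℤ) : Set (X × ι) := {ω | ω.1 ∈ c.band lo hi}
/-- the three points of each cycle lie in one and the same strip -/
def In (lo hi : ℤ) (τ : Tri X ι) : Prop :=
  ∀ x ∈ τ.U, ∃ s, c.rep x s ∧ ∀ f ∈ τ.pts, lo ≤ s + pr d f.1 ∧ s + pr d f.1 ≤ hi

theorem loc_base (p q : ℤ) : Loc (c.base p q) := c.loc_set _
theorem loc_band (p q : ℤ) : Loc (c.band p q) := c.loc_set _
theorem In.rev {c : Crd X d L} {lo hi : ℤ} {τ : Tri X ι} (h : c.In lo hi τ) : c.In lo hi τ.rev := by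
  intro x hx; rw [Tri.rev_pts]; exact h x hx
theorem In.res {c : Crd X d L} {lo hi : ℤ} {τ : Tri X ι} (h : c.In lo hi τ) (W : Set X) :
    c.In lo hi (τ.res W) := fun x hx => h x hx.1
theorem In.mono {c : Crd X d L} {lo hi lo' hi' : ℤ} {τ : Tri X ι} (h : c.In lo hi τ) (h1 : lo' ≤ lo)
    (h2 : hi ≤ hi') : c.In lo' hi' τ := fun x hx =>
  let ⟨s, hs, h'⟩ := h x hx
  ⟨s, hs, fun f hf => ⟨h1.trans (h' f hf).1, (h' f hf).2.trans h2⟩⟩
theorem In.supp {c : Crd X d L} {lo hi : ℤ} {τ : Tri X ι} (h : c.In lo hi τ) :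
    τ.supp ⊆ c.strip lo hi := by
  rintro _ ⟨x, hx, f, hf, rfl⟩
  obtain ⟨s, hs, h'⟩ := h x hx
  exact ⟨_, c.shift f.1 hs, h' f hf⟩

variable [DecidableEq ι]

/-- the defect of the word `w` (with `evp w = TT a b E`) restricted to the base `[p, q)` -/
noncomputable def gI (a b : ι) (w : List (Tri X ι)) (E : Set X) (p q : ℤ) : Perm (X × ι) :=
  evp (resw w (c.base p q)) * TT a b (E ∩ c.base p q)

/-- `u` is an edge effect of the word `w` at the cut `p` -/
structure Edge (a b : ι) (w : List (Tri X ι)) (E : Set X) (Δ p : ℤ) (u : Perm (X × ι)) : Prop where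
  locP : LocP u
  supp : u ∈ SuppOn (c.strip (p - Δ) (p + Δ))
  ex : ∃ p' q', (p' = p ∨ q' = p) ∧ p' + 4 * Δ ≤ q' ∧ q' + 4 * Δ ≤ p' + L ∧
    ∀ ω ∈ c.strip (p - Δ) (p + Δ), u ω = c.gI a b w E p' q' ω

end Crd

open Classical in
/-- the index of a permutation with respect to a commensurated set -/
noncomputable def ind {α : Type} (B : Set α) (p : Perm α) : ℤ :=
  ∑ᶠ ω, ((if p ω ∈ B then 1 else 0) - (if ω ∈ B then 1 else 0) : ℤ)

/-- the set of points changing sides -/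
def Cross {α : Type} (B : Set α) (p : Perm α) : Set α := {ω | ¬ (p ω ∈ B ↔ ω ∈ B)}

/-- right half plane in the orbit of `x0` -/
def Hp (x0 : X) : Set X := {x | ∃ z : V, 0 ≤ z.1 ∧ x = z +ᵥ x0}
/-- lower half plane in the orbit of `x0` -/
def Lo (x0 : X) : Set (X × ι) := {ω | ∃ z : V, z.2 < 0 ∧ ω.1 = z +ᵥ x0}
/-- lower half of the vertical strip of half width `Δ` through `x0` -/
def LoS (Δ : ℤ) (x0 : X) : Set (X × ι) :=
  {ω | ∃ z : V, -Δ ≤ z.1 ∧ z.1 ≤ Δ ∧ z.2 < 0 ∧ ω.1 = z +ᵥ x0}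

/-- the flux of a trivial word along the boundary of a half plane -/
noncomputable def flux [DecidableEq ι] (w : List (Tri X ι)) (x0 : X) : ℤ :=
  ind (Lo x0) (evp (resw w (Hp x0)))

end Crest.Agent.R189
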