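import Crest.Agent.R189.Perm

/-! # Row 189: the interfaces between the steps of the finite presentation proof -/

set_option autoImplicit false
set_option linter.unusedSectionVars false

namespace Crest.Agent.R189
open Equiv

variable (X ι Γ : Type) [Shift X] [DecidableEq ι] [Fintype ι] [Group Γ]

/-- A group with finitely many generators satisfying the (finitely many) relations we need,
mapping to the permutations of `X × ι`.  `v i j d` moves the copy `i` by one step in direction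
`d` and the copy `j` by one step back; `φ t i j k` is the three-cycle of labels at the sites
where `t` is observed. -/
structure Model (ok : Bool → Shift.A X → Shift.A X → Prop) where
  v : ι → ι → Bool → Γ
  φ : Shift.A X → ι → ι → ι → Γ
  one : ι → ι → ι → Γ
  π : Γ →* Perm (X × ι)
  L : List (Shift.A X)
  L_nodup : L.Nodup
  L_all : ∀ t, t ∈ L
  sys : ∀ t, IsSys (φ t)
  sys_one : IsSys one
  orth : ∀ t t', t ≠ t' → ∀ i j k a b c, Commute (φ t i j k) (φ t' a b c)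
  one_eq : ∀ i j k, one i j k = (L.map (fun t => φ t i j k)).prod
  v_comm : ∀ i j d k l d', Commute (v i j d) (v k l d')
  v_mul : ∀ i j k d, v i j d * v j k d = v i k d
  φ_v : ∀ t i j k l m d, (l ≠ i ∧ l ≠ j ∧ l ≠ k) → (m ≠ i ∧ m ≠ j ∧ m ≠ k) →
    Commute (φ t i j k) (v l m d)
  one_v : ∀ i j k l d, D3 i j k → (l ≠ i ∧ l ≠ j ∧ l ≠ k) →
    Commute (one i j k) (v i l d * v j l d * v k l d)
  edge : ∀ d t t', ¬ ok d t t' → ∀ a b c i j k l, D3 i j k → (l ≠ i ∧ l ≠ j ∧ l ≠ k) →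
    Commute (φ t a b c) ((v i l d * v j l d * v k l d)⁻¹ * φ t' i j k * (v i l d * v j l d * v k l d))
  v_eq : ∀ i j k l d, D3 i j l → (k ≠ i ∧ k ≠ j ∧ k ≠ l) →
    v i j d = v i k d * one i j l * (v i k d)⁻¹ * (one i j l)⁻¹
  gen : Subgroup.closure ({g | ∃ i j d, g = v i j d} ∪ {g | ∃ t i j k, g = φ t i j k}) = ⊤
  π_v : ∀ i j d, π (v i j d) = trl (Pi.single i (vec d 1 0) - Pi.single j (vec d 1 0))
  π_φ : ∀ t i j k x l, π (φ t i j k) (x, l) = (x, (open Classical in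
    if obs x = t then c3 i j k l else l))

/-- translations of the copies with total sum zero -/
def Lam : AddSubgroup (ι → V) where
  carrier := {a | ∑ i, a i = 0}
  add_mem' {a b} ha hb := by
    simp only [Set.mem_ofPred_eq, Pi.add_apply, Finset.sum_add_distrib] at *
    rw [ha, hb, add_zero]
  zero_mem' := by simp
  neg_mem' {a} ha := by
    simp only [Set.mem_ofPred_eq, Pi.neg_apply, Finset.sum_neg_distrib] at *
    rw [ha, neg_zero]

/-- systems of three-cycles of labels over all local sets -/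
structure Phi where
  π : Γ →* Perm (X × ι)
  u : Lam ι → Γ
  Φ : Set X → AA ι →* Γ
  u_add : ∀ a b, u (a + b) = u a * u b
  add : ∀ {U U' : Set X}, Loc U → Loc U' → Disjoint U U' → ∀ s, Φ (U ∪ U') s = Φ U s * Φ U' s
  orth : ∀ {U U' : Set X}, Loc U → Loc U' → Disjoint U U' → ∀ s t, Commute (Φ U s) (Φ U' t)
  cov : ∀ {U : Set X}, Loc U → ∀ (a : Lam ι) (w : V) (i j k : ι), a.1 i = w → a.1 j = w → a.1 k = w →
    Φ U (AA.x i j k) = u a * Φ (sh w U) (AA.x i j k) * (u a)⁻¹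
  π_u : ∀ a, π (u a) = trl a.1
  π_Φ : ∀ {U : Set X}, Loc U → ∀ s x l, π (Φ U s) (x, l) = (x, (open Classical in
    if x ∈ U then AA.perm s l else l))
  gen : Subgroup.closure {g | ∃ (a : Lam ι) (U : Set X) (i j k : ι), Loc U ∧ D3 i j k ∧
    g = u a * Φ U (AA.x i j k) * (u a)⁻¹} = ⊤

/-- canonical lifts of all local three-cycles -/
structure PreCan where
  π : Γ →* Perm (X × ι)
  xh : Tri X ι → Γ
  π_xh : ∀ {τ : Tri X ι}, τ.Gd → π (xh τ) = cyc τ
  add : ∀ {U U' : Set X} {a b c : Pt ι}, (⟨U ∪ U', a, b, c⟩ : Tri X ι).Ok → Loc U → Loc U' →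
    Disjoint U U' → xh ⟨U ∪ U', a, b, c⟩ = xh ⟨U, a, b, c⟩ * xh ⟨U', a, b, c⟩
  reb : ∀ {τ : Tri X ι}, τ.Gd → ∀ z, xh (τ.reb z) = xh τ
  equiv : ∀ (g : Γ) {U : Set X} {a b c a' b' c' : Pt ι}, Loc U → (⟨U, a, b, c⟩ : Tri X ι).Ok →
    (⟨U, a', b', c'⟩ : Tri X ι).Ok →
    (∀ x ∈ U, π g (x ⋆ a) = x ⋆ a' ∧ π g (x ⋆ b) = x ⋆ b' ∧ π g (x ⋆ c) = x ⋆ c') →
    g * xh ⟨U, a, b, c⟩ * g⁻¹ = xh ⟨U, a', b', c'⟩
  inv : ∀ {τ : Tri X ι}, τ.Gd → xh τ.rev = (xh τ)⁻¹
  gen : Subgroup.closure {g | ∃ τ : Tri X ι, τ.Gd ∧ g = xh τ} = ⊤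

/-- canonical lifts together with a finite group containing all "small" relations -/
structure Can extends PreCan X ι Γ where
  Z : Subgroup Γ
  Z_fin : Finite Z
  Z_le : Z ≤ π.ker
  stab : ∀ {U : Set X} (S : Finset (Pt ι)), Loc U → Inj U (S : Set (Pt ι)) → ∀ g,
    (g, 1) ∈ PairGrp (fun a b c => xh ⟨U, a, b, c⟩) (S : Set (Pt ι)) → g ∈ Z

end Crest.Agent.R189
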