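import Crest.Agent.R189.DgrpAuxA

/-! # Row 189: auxiliary facts for `Dgrp` (lifts of double transpositions) -/

set_option autoImplicit false
set_option linter.unusedSectionVars false

namespace Crest.Agent.R189
open Equiv

namespace Dg

variable {X ι Γ : Type} [Shift X] [Good X] [DecidableEq ι] [Fintype ι] [Group Γ]

/-- four distinct labels -/
structure L4 (a b c d : ι) : Prop where
  ab : a ≠ b
  ac : a ≠ c
  ad : a ≠ d
  bc : b ≠ c
  bd : b ≠ d
  cd : c ≠ d

instance normalZ (C : Can X ι Γ) : C.Z.Normal := C.toPreCan.normal_of_le_ker C.Z_le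

/-- the pair group over `U` -/
abbrev PG (C : Can X ι Γ) (U : Set X) (S : Set (Pt ι)) : Subgroup (Γ × Perm (Pt ι)) :=
  PairGrp (fun a b c => C.xh ⟨U, a, b, c⟩) S

/-- the projection modulo `Z` -/
abbrev mk (C : Can X ι Γ) : Γ →* Γ ⧸ C.Z := QuotientGroup.mk' C.Z

theorem uniq (C : Can X ι Γ) {U : Set X} {S : Finset (Pt ι)} (hU : Loc U)
    (hI : Inj U (S : Set (Pt ι))) {g g' : Γ} {σ : Perm (Pt ι)} (h : (g, σ) ∈ PG C U S)
    (h' : (g', σ) ∈ PG C U S) : mk C g = mk C g' := by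
  have h1 := mul_mem (inv_mem h) h'
  have e : ((g, σ)⁻¹ * (g', σ) : Γ × Perm (Pt ι)) = (g⁻¹ * g', 1) := by simp
  rw [e] at h1
  exact QuotientGroup.eq.2 (C.stab S hU hI _ h1)

theorem conj_mem (C : Can X ι Γ) {U : Set X} {S : Set (Pt ι)} (hU : Loc U) (hI : Inj U S) (k : Γ)
    (ρ : Perm (Pt ι)) (hρ : ∀ f ∈ S, ρ f ∈ S) (hk : ∀ x ∈ U, ∀ f ∈ S, C.π k (x ⋆ f) = x ⋆ ρ f)
    {p : Γ × Perm (Pt ι)} (h : p ∈ PG C U S) : (k, ρ) * p * (k, ρ)⁻¹ ∈ PG C U S := by
  refine Subgroup.closure_induction (p := fun p _ => (k, ρ) * p * (k, ρ)⁻¹ ∈ PG C U S) ?_ ?_ ?_ ?_ h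
  · rintro _ ⟨p, hp, q, hq, r, hr, hd, rfl⟩
    have hsub : ∀ {p q r : Pt ι}, p ∈ S → q ∈ S → r ∈ S → (⟨U, p, q, r⟩ : Tri X ι).pts ⊆ S := by
      intro p q r hp hq hr f hf
      rcases Tri.mem_pts.1 hf with rfl | rfl | rfl <;> assumption
    have h1 := C.equiv k hU ⟨hd, hI.mono le_rfl (hsub hp hq hr)⟩
      ⟨hd.map ρ.injective, hI.mono le_rfl (hsub (hρ p hp) (hρ q hq) (hρ r hr))⟩
      (fun x hx => ⟨hk x hx p hp, hk x hx q hq, hk x hx r hr⟩)
    have h2 := mem_pairGrp (fun a b c => C.xh ⟨U, a, b, c⟩) (hρ p hp) (hρ q hq) (hρ r hr)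
      (hd.map ρ.injective)
    rw [← h1, ← c3_conj] at h2
    exact h2
  · rw [mul_one, mul_inv_cancel]; exact one_mem _
  · intro p q _ _ hp hq
    rw [← conj_mul]; exact mul_mem hp hq
  · intro p _ hp
    rw [← conj_inv]; exact inv_mem hp

variable (C : Can X ι Γ) (a b c d : ι)

/-- the lift of the double transposition -/
def al (U : Set X) (z z' : V) : Γ :=
  C.xh ⟨U, (z, a), (z', c), (z, b)⟩ * C.xh ⟨U, (z', c), (z', d), (z, a)⟩

/-- the rainbow set carrying `al` -/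
def rb (z z' : V) : Finset (Pt ι) :=
  Finset.univ.image (fun i => ((if i = a ∨ i = b then z else z'), i))

variable {a b c d}

theorem mem_rb {z z' : V} {f : Pt ι} :
    f ∈ rb a b z z' ↔ f.1 = if f.2 = a ∨ f.2 = b then z else z' := by
  simp only [rb, Finset.mem_image, Finset.mem_univ, true_and]
  constructor
  · rintro ⟨i, rfl⟩; rfl
  · intro h; exact ⟨f.2, by rw [← h]⟩

theorem inj_rb (U : Set X) (z z' : V) : Inj U ((rb a b z z' : Finset (Pt ι)) : Set (Pt ι)) :=
  inj_of_snd U (fun f hf g hg e => Prod.ext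
    (by rw [mem_rb.1 (Finset.mem_coe.1 hf), mem_rb.1 (Finset.mem_coe.1 hg), e]) e)

theorem a_rb (z z' : V) : (z, a) ∈ rb a b z z' := mem_rb.2 (by simp)
theorem b_rb (z z' : V) : (z, b) ∈ rb a b z z' := mem_rb.2 (by simp)
theorem c_rb (h : L4 a b c d) (z z' : V) : (z', c) ∈ rb a b z z' :=
  mem_rb.2 (by simp [h.ac.symm, h.bc.symm])
theorem d_rb (h : L4 a b c d) (z z' : V) : (z', d) ∈ rb a b z z' :=
  mem_rb.2 (by simp [h.ad.symm, h.bd.symm])

theorem d3_one (h : L4 a b c d) (z z' : V) : D3 ((z, a) : Pt ι) (z', c) (z, b) :=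
  ⟨by simp [h.ac], by simp [h.ab], by simp [h.bc.symm]⟩
theorem d3_two (h : L4 a b c d) (z z' : V) : D3 ((z', c) : Pt ι) (z', d) (z, a) :=
  ⟨by simp [h.cd], by simp [h.ac.symm], by simp [h.ad.symm]⟩

theorem pts_one (h : L4 a b c d) (U : Set X) (z z' : V) :
    (⟨U, (z, a), (z', c), (z, b)⟩ : Tri X ι).pts ⊆ (rb a b z z' : Set (Pt ι)) := by
  intro f hf
  rcases Tri.mem_pts.1 hf with rfl | rfl | rfl
  exacts [a_rb z z', c_rb h z z', b_rb z z']
theorem pts_two (h : L4 a b c d) (U : Set X) (z z' : V) :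
    (⟨U, (z', c), (z', d), (z, a)⟩ : Tri X ι).pts ⊆ (rb a b z z' : Set (Pt ι)) := by
  intro f hf
  rcases Tri.mem_pts.1 hf with rfl | rfl | rfl
  exacts [c_rb h z z', d_rb h z z', a_rb z z']

theorem ok_one (h : L4 a b c d) (U : Set X) (z z' : V) :
    (⟨U, (z, a), (z', c), (z, b)⟩ : Tri X ι).Ok :=
  ⟨d3_one h z z', (inj_rb U z z').mono le_rfl (pts_one h U z z')⟩
theorem ok_two (h : L4 a b c d) (U : Set X) (z z' : V) :
    (⟨U, (z', c), (z', d), (z, a)⟩ : Tri X ι).Ok :=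
  ⟨d3_two h z z', (inj_rb U z z').mono le_rfl (pts_two h U z z')⟩

theorem al_mem (h : L4 a b c d) (U : Set X) {z z' : V} {S : Set (Pt ι)} (h1 : (z, a) ∈ S)
    (h2 : (z, b) ∈ S) (h3 : (z', c) ∈ S) (h4 : (z', d) ∈ S) :
    (al C a b c d U z z', TT a b ({z} : Set V) * TT c d ({z'} : Set V)) ∈ PG C U S := by
  have := mul_mem (mem_pairGrp (fun a b c => C.xh ⟨U, a, b, c⟩) h1 h3 h2 (d3_one h z z'))
    (mem_pairGrp (fun a b c => C.xh ⟨U, a, b, c⟩) h3 h4 h1 (d3_two h z z'))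
  convert this using 1
  refine Prod.ext rfl ?_
  change _ = c3 _ _ _ * c3 _ _ _
  rw [TT_single, TT_single, c3, c3, if_pos (d3_one h z z'), if_pos (d3_two h z z'), mul_assoc,
    ← mul_assoc (swap (z, a) (z', c)), swap_comm (z', c) (z, a), swap_mul_self, one_mul]

theorem al_mem_rb (h : L4 a b c d) (U : Set X) (z z' : V) :
    (al C a b c d U z z', TT a b ({z} : Set V) * TT c d ({z'} : Set V)) ∈ PG C U (rb a b z z') :=
  al_mem C h U (a_rb z z') (b_rb z z') (c_rb h z z') (d_rb h z z')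

theorem al_mem_prod (h : L4 a b c d) (U : Set X) {z z' : V} {T : Finset V} (hz : z ∈ T)
    (hz' : z' ∈ T) : (al C a b c d U z z', TT a b ({z} : Set V) * TT c d ({z'} : Set V)) ∈
      PG C U ((T ×ˢ Finset.univ : Finset (Pt ι)) : Set (Pt ι)) :=
  al_mem C h U (by simp [hz]) (by simp [hz]) (by simp [hz']) (by simp [hz'])

theorem al_empty (h : L4 a b c d) (z z' : V) : al C a b c d ∅ z z' = 1 := by
  rw [al, C.toPreCan.xh_empty (d3_one h z z'), C.toPreCan.xh_empty (d3_two h z z'), mul_one]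

theorem al_add (h : L4 a b c d) {W W' : Set X} (hW : Loc W) (hW' : Loc W') (hd : Disjoint W W')
    (z z' : V) : al C a b c d (W ∪ W') z z' = al C a b c d W z z' * al C a b c d W' z z' := by
  have hc : Commute (C.xh ⟨W', (z, a), (z', c), (z, b)⟩) (C.xh ⟨W, (z', c), (z', d), (z, a)⟩) :=
    C.toPreCan.HS_commute (S := Sup W (rb a b z z' : Set (Pt ι)))
      (T := Sup W' (rb a b z z' : Set (Pt ι)))
      (C.toPreCan.xh_mem_GS ⟨ok_two h W z z', hW⟩ (Sup.mono le_rfl (pts_two h W z z')))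
      (C.toPreCan.xh_mem_GS ⟨ok_one h W' z z', hW'⟩ (Sup.mono le_rfl (pts_one h W' z z')))
      ((inj_rb (W ∪ W') z z').disjoint Set.subset_union_left Set.subset_union_right hd)
  rw [al, C.add (ok_one h _ z z') hW hW' hd, C.add (ok_two h _ z z') hW hW' hd]
  exact hc.mul_mul_mul_comm _ _

theorem al_reb (h : L4 a b c d) {U : Set X} (hU : Loc U) (z z' w : V) :
    al C a b c d (sh w U) (z + w) (z' + w) = al C a b c d U z z' := by
  rw [al, al, ← C.reb ⟨ok_one h U z z', hU⟩ w, ← C.reb ⟨ok_two h U z z', hU⟩ w]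
  rfl

theorem acts_TT {i j : ι} (U : Set X) {z : V} {F : Set (Pt ι)}
    (h1 : ∀ f ∈ F, f.2 = i ∨ f.2 = j → f.1 = z) (hi : (z, i) ∈ F) (hj : (z, j) ∈ F) :
    Acts (TT i j (sh (-z) U)) U F (fun _ => TT i j ({z} : Set V)) := by
  refine ⟨fun x hx f hf => ?_, fun ω hω => ?_⟩
  · rw [TT_star]
    by_cases h2 : f.2 = i ∨ f.2 = j
    · congr 1
      refine TT_congr i j ?_
      rw [h1 f hf h2]
      simpa [← add_vadd] using hx
    · obtain ⟨u, l⟩ := f
      push Not at h2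
      rw [TT_apply, TT_apply, swap_apply_of_ne_of_ne h2.1 h2.2, ite_self, ite_self]
  · obtain ⟨y, l⟩ := ω
    by_cases hy : y ∈ sh (-z) U
    · rw [TT_mem i j hy, swap_apply_of_ne_of_ne]
      · rintro rfl
        exact hω ⟨-z +ᵥ y, hy, _, hi, by simp [star, ← add_vadd]⟩
      · rintro rfl
        exact hω ⟨-z +ᵥ y, hy, _, hj, by simp [star, ← add_vadd]⟩
    · exact TT_not_mem i j hy l

theorem π_al (h : L4 a b c d) {U : Set X} (hU : Loc U) (z z' : V) :
    C.π (al C a b c d U z z') = TT a b (sh (-z) U) * TT c d (sh (-z') U) := by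
  have h1 := (C.toPreCan.pair_acts hU (inj_rb U z z') (al_mem_rb C h U z z')).1
  have h2 : Acts (TT a b (sh (-z) U)) U (rb a b z z' : Set (Pt ι)) (fun _ => TT a b ({z} : Set V)) :=
    acts_TT U (fun f hf h2 => by rw [mem_rb.1 (Finset.mem_coe.1 hf), if_pos h2])
      (a_rb z z') (b_rb z z')
  have h3 : Acts (TT c d (sh (-z') U)) U (rb a b z z' : Set (Pt ι))
      (fun _ => TT c d ({z'} : Set V)) := by
    refine acts_TT U (fun f hf h2 => ?_) (c_rb h z z') (d_rb h z z')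
    rw [mem_rb.1 (Finset.mem_coe.1 hf), if_neg]
    rcases h2 with h2 | h2 <;> rw [h2]
    · simp [h.ac.symm, h.bc.symm]
    · simp [h.ad.symm, h.bd.symm]
  refine h1.ext (h2.mul h3 (fun x _ f hf => ?_)) (fun _ _ _ _ => rfl)
  rw [TT_single]
  exact (SuppOn.mem_iff (swap_mem_suppOn (c_rb h z z') (d_rb h z z')) f).2 hf

theorem al_sq (h : L4 a b c d) {U : Set X} (hU : Loc U) (z z' : V) :
    mk C (al C a b c d U z z') * mk C (al C a b c d U z z') = 1 := by
  have h1 := mul_mem (al_mem_rb C h U z z') (al_mem_rb C h U z z')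
  rw [Prod.mk_mul_mk, ((TT_comm h.ab h.ac h.ad h.bc h.bd h.cd _ _).symm).mul_mul_mul_comm,
    TT_mul_self, TT_mul_self, mul_one] at h1
  rw [← map_mul, uniq C hU (inj_rb U z z') (g' := 1) h1 (one_mem _), map_one]

theorem al_conj (h : L4 a b c d) {U : Set X} (hU : Loc U) (z z' : V) (k : Γ) {E E' : Set X}
    (hE : Loc E) (hE' : Loc E') (hk : C.π k = TT a b E * TT c d E') :
    Commute (mk C k) (mk C (al C a b c d U z z')) := by
  classical
  refine piece_induction (ι := ι) {z, z'} (f := fun x (u : ({z, z'} : Finset V)) =>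
      (u.1 +ᵥ x ∈ E, u.1 +ᵥ x ∈ E'))
    (LocF.pi (fun u => (hE.sh u.1).locF.prod (hE'.sh u.1).locF)) hU
    (fun W => Commute (mk C k) (mk C (al C a b c d W z z'))) ?_ ?_ ?_
  · rw [al_empty C h, map_one]; exact Commute.one_right _
  · rintro W hW - ⟨x0, hx0⟩ hI hc
    have h1 := al_mem_prod C h W (T := {z, z'}) (z := z) (z' := z') (by simp) (by simp)
    have h2 := conj_mem C hW hI k (TT a b {u : V | u +ᵥ x0 ∈ E} * TT c d {u : V | u +ᵥ x0 ∈ E'})
      (fun f hf => by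
        simp only [Finset.coe_product, Set.mem_prod, Perm.mul_apply, TT_fst] at hf ⊢
        exact ⟨hf.1, by simp⟩)
      (fun x hx f hf => by
        have hf1 : f.1 ∈ ({z, z'} : Finset V) := (Finset.mem_product.1 hf).1
        have := congrFun (hc x hx x0 hx0) ⟨f.1, hf1⟩
        simp only [Prod.mk.injEq, eq_iff_iff] at this
        rw [hk, Perm.mul_apply, TT_star, TT_star, Perm.mul_apply, TT_congr c d (E' := {u : V | u +ᵥ x0 ∈ E'}) this.2]
        congr 1
        exact TT_congr a b this.1) h1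
    have hcm : Commute (TT a b {u : V | u +ᵥ x0 ∈ E} * TT c d {u : V | u +ᵥ x0 ∈ E'})
        (TT a b ({z} : Set V) * TT c d ({z'} : Set V)) :=
      ((TT_comm_same _ _ _ _).mul_right (TT_comm h.ab h.ac h.ad h.bc h.bd h.cd _ _)).mul_left
        ((TT_comm h.ab h.ac h.ad h.bc h.bd h.cd _ _).symm.mul_right (TT_comm_same _ _ _ _))
    rw [Prod.inv_mk, Prod.mk_mul_mk, Prod.mk_mul_mk, hcm.mul_inv_cancel] at h2
    have h3 := uniq C hW hI h2 h1
    rw [map_mul, map_mul, map_inv, mul_inv_eq_iff_eq_mul] at h3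
    exact h3
  · intro W W' hW hW' _ _ hd h1 h2
    rw [al_add C h hW hW' hd, map_mul]
    exact h1.mul_right h2

theorem al_comm (h : L4 a b c d) {U U' : Set X} (hU : Loc U) (hU' : Loc U') (z z' w w' : V) :
    Commute (mk C (al C a b c d U z z')) (mk C (al C a b c d U' w w')) :=
  al_conj C h hU' w w' _ (hU.sh _) (hU.sh _) (π_al C h hU z z')

theorem al_rect (h : L4 a b c d) {U : Set X} (hU : Loc U) (u v s t : V) :
    mk C (al C a b c d U u s) * mk C (al C a b c d U v s) * mk C (al C a b c d U v t) =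
      mk C (al C a b c d U u t) := by
  classical
  refine piece_induction (ι := ι) {u, v, s, t} (f := fun _ => ()) (LocF.const _) hU
    (fun W => mk C (al C a b c d W u s) * mk C (al C a b c d W v s) * mk C (al C a b c d W v t) =
      mk C (al C a b c d W u t)) ?_ ?_ ?_
  · simp only [al_empty C h, map_one, mul_one]
  · rintro W hW - - hI -
    have h1 := mul_mem (mul_mem
      (al_mem_prod C h W (T := {u, v, s, t}) (z := u) (z' := s) (by simp) (by simp))
      (al_mem_prod C h W (T := {u, v, s, t}) (z := v) (z' := s) (by simp) (by simp)))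
      (al_mem_prod C h W (T := {u, v, s, t}) (z := v) (z' := t) (by simp) (by simp))
    have h2 := al_mem_prod C h W (T := {u, v, s, t}) (z := u) (z' := t) (by simp) (by simp)
    rw [Prod.mk_mul_mk, Prod.mk_mul_mk,
      ((TT_comm h.ab h.ac h.ad h.bc h.bd h.cd _ _).symm).mul_mul_mul_comm, TT_mul_self, mul_one,
      mul_assoc (TT a b _), ← mul_assoc (TT a b {v}), TT_mul_self, one_mul] at h1
    rw [← map_mul, ← map_mul]
    exact uniq C hW hI h1 h2
  · intro W W' hW hW' _ _ hd h1 h2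
    simp only [al_add C h hW hW' hd, map_mul]
    rw [← h1, ← h2, (al_comm C h hW' hW _ _ _ _).mul_mul_mul_comm,
      ((al_comm C h hW' hW _ _ _ _).mul_left (al_comm C h hW' hW _ _ _ _)).mul_mul_mul_comm]

variable (a b c d) in
/-- the lift of a transposition of labels at two sites -/
def be (U : Set X) (z : V) : Γ ⧸ C.Z := mk C (al C a b c d U 0 z) * mk C (al C a b c d U z z)

theorem be_shift (h : L4 a b c d) {U : Set X} (hU : Loc U) (z z' : V) :
    be C a b c d (sh (-z) U) z' =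
      mk C (al C a b c d U z (z + z')) * mk C (al C a b c d U (z + z') (z + z')) := by
  have e : sh z (sh (-z) U) = U := by rw [sh_sh, neg_add_cancel, sh_zero]
  rw [be, ← al_reb C h (hU.sh (-z)) 0 z' z, ← al_reb C h (hU.sh (-z)) z' z' z, e, zero_add,
    add_comm z' z]

theorem exists_B (h : L4 a b c d) : ∃ B : Subgroup (Γ ⧸ C.Z),
    (∀ U z, Loc U → be C a b c d U z ∈ B) ∧
      {q | q ∈ B ∧ QuotientGroup.lift C.Z C.π C.Z_le q = 1}.Finite := by
  refine abstract h.ab (be C a b c d) _ ?_ ?_ ?_ ?_ ?_ ?_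
  · intro U z U' z' hU hU'
    exact ((al_comm C h hU hU' _ _ _ _).mul_right (al_comm C h hU hU' _ _ _ _)).mul_left
      ((al_comm C h hU hU' _ _ _ _).mul_right (al_comm C h hU hU' _ _ _ _))
  · intro U z hU
    rw [be, (al_comm C h hU hU _ _ _ _).mul_mul_mul_comm, al_sq C h hU, al_sq C h hU, mul_one]
  · intro U hU
    exact al_sq C h hU 0 0
  · intro W W' z hW hW' hd
    simp only [be, al_add C h hW hW' hd, map_mul]
    exact (al_comm C h hW' hW _ _ _ _).mul_mul_mul_comm _ _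
  · intro U z z' hU
    rw [be_shift C h hU, be, be, ← mul_assoc, al_rect C h hU]
  · intro U z hU
    rw [be, ← map_mul]
    change C.π _ = _
    rw [map_mul, π_al C h hU, π_al C h hU, neg_zero, sh_zero,
      ((TT_comm h.ab h.ac h.ad h.bc h.bd h.cd _ _).symm).mul_mul_mul_comm, TT_mul_self, mul_one]

end Dg

end Crest.Agent.R189
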