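import Crest.Agent.R189.Block
import Crest.Agent.R189.Coh
import Crest.Agent.R189.DgrpAuxB

/-! # Row 189: the lifts of the label transpositions -/

set_option autoImplicit false
set_option linter.unusedSectionVars false

namespace Crest.Agent.R189
open Equiv

variable {X ι Γ : Type} [Shift X] [Good X] [DecidableEq ι] [Fintype ι] [Group Γ]

/-- every element of a block group which maps to a label transposition lies in `D` -/
def BlockInj (C : PreCan X ι Γ) (a b : ι) (D : Subgroup Γ) : Prop :=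
  ∀ (B : Set X) (Z : Finset V), Loc B → Inj B ((Z ×ˢ Finset.univ : Finset (Pt ι)) : Set (Pt ι)) →
    ∀ h ∈ C.GS (InB B (Z ×ˢ Finset.univ)), ∀ E, Loc E → C.π h = TT a b E → h ∈ D

namespace Dg

theorem piece_mem (C : Can X ι Γ) {a b c d : ι} (h : L4 a b c d) {D : Subgroup (Γ ⧸ C.Z)}
    (hD : ∀ U z, Loc U → be C a b c d U z ∈ D) {W : Set X} (hW : Loc W) {Z : Finset V}
    (hI : Inj W ((Z ×ˢ Finset.univ : Finset (Pt ι)) : Set (Pt ι))) (E : Finset V) :
    E ⊆ Z → ∀ g : Γ, (g, TT a b (E : Set V)) ∈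
      PG C W ((Z ×ˢ Finset.univ : Finset (Pt ι)) : Set (Pt ι)) → mk C g ∈ D := by
  classical
  induction E using Finset.strongInduction with
  | H E ih =>
    intro hE g hg
    rcases E.eq_empty_or_nonempty with rfl | ⟨z, hz⟩
    · rw [Finset.coe_empty, TT_empty] at hg
      rw [uniq C hW hI (g' := 1) hg (one_mem _), map_one]
      exact one_mem _
    by_cases h1 : ∃ z' ∈ E, z' ≠ z
    · obtain ⟨z', hz', hne⟩ := h1
      have h2 := mul_mem (al_mem_prod C h W (hE hz) (hE hz')) (al_mem_prod C h W (hE hz') (hE hz'))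
      rw [Prod.mk_mul_mk, ((TT_comm h.ab h.ac h.ad h.bc h.bd h.cd _ _).symm).mul_mul_mul_comm,
        TT_mul_self, mul_one] at h2
      have h3 := mul_mem hg h2
      have e : symmDiff (E : Set V) (symmDiff {z} {z'}) = ((E.erase z).erase z' : Finset V) := by
        ext u
        simp only [Set.mem_symmDiff, Finset.mem_coe, Set.mem_singleton_iff, Finset.mem_erase]
        by_cases e1 : u = z
        · subst e1; simp [hz, hne.symm]
        · by_cases e2 : u = z'
          · subst e2; simp [hz', hne]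
          · simp [e1, e2]
      rw [Prod.mk_mul_mk, TT_mul, TT_mul, e] at h3
      have h4 := ih _ (lt_of_le_of_lt (Finset.erase_subset _ _) (Finset.erase_ssubset hz))
        (((Finset.erase_subset _ _).trans (Finset.erase_subset _ _)).trans hE) _ h3
      have h5 := hD _ (z' - z) (hW.sh (-z))
      rw [be_shift C h hW, add_sub_cancel, ← map_mul] at h5
      rw [map_mul] at h4
      exact (D.mul_mem_cancel_right h5).1 h4
    · exfalso
      push Not at h1
      have e : (E : Set V) = {z} := by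
        ext u
        exact ⟨fun hu => h1 u hu, fun hu => by rw [Set.mem_singleton_iff.1 hu]; exact hz⟩
      rw [e, TT_single] at hg
      obtain ⟨sg, -, h2, h3⟩ := exists_sgn (Z ×ˢ Finset.univ : Finset (Pt ι))
      have h4 := pairGrp_snd hg
      have h5 := (h3 _ (altOn_le_suppOn _ h4)).1 h4
      rw [h2 _ (by simp [hE hz]) _ (by simp [hE hz]) (by simp [h.ab])] at h5
      exact absurd h5 (by decide)

theorem ev_resw_empty (C : PreCan X ι Γ) {w : List (Tri X ι)} (hw : ∀ τ ∈ w, τ.Gd) :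
    C.ev (resw w ∅) = 1 := by
  induction w with
  | nil => rfl
  | cons τ w ih =>
    rw [resw_cons, PreCan.ev_cons, ih (fun τ' h' => hw τ' (by simp [h'])), mul_one, Tri.res,
      Set.inter_empty]
    exact C.xh_empty (hw τ (by simp)).1.1

theorem resw_self {B : Set X} {w : List (Tri X ι)} (hw : ∀ τ ∈ w, τ.U ⊆ B) : resw w B = w := by
  conv_rhs => rw [← List.map_id w]
  refine List.map_congr_left (fun τ hτ => ?_)
  rw [Tri.res, Set.inter_eq_left.2 (hw τ hτ)]; rfl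

theorem sigma_eq {a b : ι} {B W E : Set X} {Z : Finset V}
    (hI : Inj B ((Z ×ˢ Finset.univ : Finset (Pt ι)) : Set (Pt ι))) (hWB : W ⊆ B)
    {w : List (Tri X ι)} (hok : ∀ τ ∈ w, τ.Ok ∧ InB B (Z ×ˢ Finset.univ) τ)
    (hπ : evp w = TT a b E) {x0 : X} (hx0 : x0 ∈ W) {σ : Perm (Pt ι)}
    (h1 : σ ∈ SuppOn ((Z ×ˢ Finset.univ : Finset (Pt ι)) : Set (Pt ι)))
    (h2 : Acts (evp (resw w W)) W ((Z ×ˢ Finset.univ : Finset (Pt ι)) : Set (Pt ι)) (fun _ => σ))
    (E' : Finset V) (hE' : ∀ z, z ∈ E' ↔ z ∈ Z ∧ z +ᵥ x0 ∈ E) : σ = TT a b (E' : Set V) := by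
  have h3 := (evp_resw_block hI hWB hok).2
  refine Equiv.ext (fun f => ?_)
  by_cases hf : f ∈ ((Z ×ˢ Finset.univ : Finset (Pt ι)) : Set (Pt ι))
  · have h4 := h2.app x0 hx0 f hf
    rw [h3 _ (star_mem_sup hx0 hf), hπ, TT_star] at h4
    rw [← star_inj h4]
    refine TT_congr a b ?_
    rw [Finset.mem_coe, hE']
    exact ⟨fun h => ⟨(Finset.mem_product.1 hf).1, h⟩, fun h => h.2⟩
  · rw [h1 f hf]
    obtain ⟨u, i⟩ := f
    refine (TT_not_mem a b (fun hu => hf ?_) i).symm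
    exact Finset.mem_product.2 ⟨((hE' u).1 hu).1, Finset.mem_univ _⟩

theorem locF_word {w : List (Tri X ι)} (hgd : ∀ τ ∈ w, τ.Gd) :
    ∃ f : X → (Fin w.length → Prop), LocF f ∧ ∀ W : Set X, (∀ x ∈ W, ∀ y ∈ W, f x = f y) → ∀ τ ∈ w, W ⊆ τ.U ∨ Disjoint W τ.U := by
  refine ⟨fun x i => x ∈ (w.get i).U, LocF.pi (fun i => (hgd _ (List.get_mem w i)).2.locF), ?_⟩
  intro W hc τ hτ
  obtain ⟨i, rfl⟩ := List.get_of_mem hτ
  by_cases h0 : Disjoint W (w.get i).U
  · exact Or.inr h0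
  · left
    obtain ⟨x0, hx0, h1⟩ := Set.not_disjoint_iff.1 h0
    intro x hx
    exact (eq_iff_iff.1 (congrFun (hc x hx x0 hx0) i)).2 h1

theorem blockInj (C : Can X ι Γ) {a b c d : ι} (h : L4 a b c d) {D : Subgroup (Γ ⧸ C.Z)}
    (hD : ∀ U z, Loc U → be C a b c d U z ∈ D) : BlockInj C.toPreCan a b (D.comap (mk C)) := by
  classical
  intro B Z hB hI k hk E _ hπ
  obtain ⟨w, hw, rfl⟩ := C.toPreCan.exists_word (Q := InB B (Z ×ˢ Finset.univ))
    (fun _ h => h.rev) hk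
  have hgd : ∀ τ ∈ w, τ.Gd := fun τ hτ => (hw τ hτ).1
  have hok : ∀ τ ∈ w, τ.Ok ∧ InB B (Z ×ˢ Finset.univ) τ := fun τ hτ => ⟨(hw τ hτ).1.1, (hw τ hτ).2⟩
  have hres : resw w B = w := resw_self (fun τ hτ => (hw τ hτ).2.1)
  rw [C.toPreCan.π_ev hgd] at hπ
  obtain ⟨f, hf, hf'⟩ := locF_word hgd
  have key : mk C (C.toPreCan.ev (resw w B)) ∈ D := by
    refine loc_induction hf hB (fun W => mk C (C.toPreCan.ev (resw w W)) ∈ D) ?_ ?_ ?_
    · rw [ev_resw_empty _ hgd, map_one]; exact one_mem _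
    · rintro W hW hWB ⟨x0, hx0⟩ hc
      obtain ⟨σ, h1, h2⟩ := C.toPreCan.ev_resw_pair hI hWB hok (hf' W hc)
      have hσ := sigma_eq hI hWB hok hπ hx0 (altOn_le_suppOn _ (pairGrp_snd h1)) h2
        (Z.filter (fun z => z +ᵥ x0 ∈ E)) (fun z => Finset.mem_filter)
      rw [hσ] at h1
      exact piece_mem C h hD hW (hI.mono hWB le_rfl) _ (Finset.filter_subset _ _) _ h1
    · intro W W' hW hW' hWB hWB' hd h1 h2
      have h3 := C.toPreCan.ev_resw_union hgd hW hW' hd (hI.disjoint hWB hWB' hd)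
        (fun τ hτ => Sup.mono Set.inter_subset_right (hw τ hτ).2.2)
        (fun τ hτ => Sup.mono Set.inter_subset_right (hw τ hτ).2.2)
      rw [h3, map_mul]
      exact mul_mem h1 h2
  rw [hres] at key
  exact key

end Dg

theorem exists_D (hι : 40 ≤ Fintype.card ι) (C : Can X ι Γ) {a b : ι} (hab : a ≠ b) :
    ∃ D : Subgroup Γ, Finite (D ⊓ C.π.ker : Subgroup Γ) ∧ BlockInj C.toPreCan a b D := by
  obtain ⟨c, hc⟩ := fresh hι [a, b] (by simp)
  obtain ⟨d, hd⟩ := fresh hι [a, b, c] (by simp)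
  simp only [List.mem_cons, List.not_mem_nil, or_false, not_or] at hc hd
  have h : Dg.L4 a b c d := ⟨hab, Ne.symm hc.1, Ne.symm hd.1, Ne.symm hc.2, Ne.symm hd.2.1,
    Ne.symm hd.2.2⟩
  obtain ⟨B, hB, hfin⟩ := Dg.exists_B C h
  refine ⟨B.comap (Dg.mk C), ?_, Dg.blockInj C h hB⟩
  have hZ : (C.Z : Set Γ).Finite := C.Z_fin
  have h1 := hfin.preimage' (f := Dg.mk C) (fun q _ => by
    obtain ⟨g, rfl⟩ := QuotientGroup.mk'_surjective C.Z q
    refine (hZ.image (fun k => g * k)).subset (fun g' hg' => ?_)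
    exact ⟨g⁻¹ * g', QuotientGroup.eq.1 (Eq.symm hg'), by simp⟩)
  exact h1.subset (fun g hg => ⟨hg.1, hg.2⟩)

end Crest.Agent.R189
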