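import Crest.Agent.R189.Block
import Crest.Agent.R189.Coh

/-! # Row 189: auxiliary facts for `Dgrp` (label transpositions, the abstract chain argument) -/

set_option autoImplicit false
set_option linter.unusedSectionVars false

namespace Crest.Agent.R189
open Equiv

namespace Dg

section TT
variable {Y ι : Type} [DecidableEq ι]

theorem TT_apply (a b : ι) (E : Set Y) (y : Y) (i : ι) :
    TT a b E (y, i) = (y, (open Classical in if y ∈ E then swap a b i else i)) := by
  by_cases h : y ∈ E
  · rw [TT_mem a b h, if_pos h]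
  · rw [TT_not_mem a b h, if_neg h]

theorem TT_comm_same (a b : ι) (E E' : Set Y) : Commute (TT a b E) (TT a b E') := by
  rw [Commute, SemiconjBy, TT_mul, TT_mul, symmDiff_comm]

theorem TT_comm {a b c d : ι} (hab : a ≠ b) (hac : a ≠ c) (had : a ≠ d) (hbc : b ≠ c)
    (hbd : b ≠ d) (hcd : c ≠ d) (E E' : Set Y) : Commute (TT a b E) (TT c d E') := by
  have hs : ∀ i, swap a b (swap c d i) = swap c d (swap a b i) := by
    intro i
    have : Commute (swap a b) (swap c d) :=
      (Perm.disjoint_swap_swap (by simp [hab, hac, had, hbc, hbd, hcd])).commute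
    exact congrArg (fun σ : Perm ι => σ i) this.eq
  refine Equiv.ext (fun ⟨y, i⟩ => ?_)
  simp only [Perm.mul_apply]
  by_cases h : y ∈ E <;> by_cases h' : y ∈ E'
  · rw [TT_mem c d h', TT_mem a b h, TT_mem a b h, TT_mem c d h', hs]
  · rw [TT_not_mem c d h', TT_mem a b h, TT_not_mem c d h']
  · rw [TT_mem c d h', TT_not_mem a b h, TT_not_mem a b h, TT_mem c d h']
  · rw [TT_not_mem c d h', TT_not_mem a b h, TT_not_mem c d h']

theorem TT_single [DecidableEq Y] (a b : ι) (z : Y) :
    TT a b ({z} : Set Y) = swap (z, a) (z, b) := by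
  refine Equiv.ext (fun ⟨y, i⟩ => ?_)
  by_cases h : y = z
  · subst h
    rw [TT_mem a b (Set.mem_singleton y)]
    exact ((Prod.mk_right_injective y).swap_apply a b i).symm
  · rw [TT_not_mem a b (by simpa using h), swap_apply_of_ne_of_ne (by simp [h]) (by simp [h])]

theorem TT_congr (a b : ι) {E E' : Set Y} {f : Y × ι} (h : f.1 ∈ E ↔ f.1 ∈ E') :
    TT a b E f = TT a b E' f := by
  obtain ⟨y, i⟩ := f
  by_cases h1 : y ∈ E
  · rw [TT_mem a b h1, TT_mem a b (h.1 h1)]
  · rw [TT_not_mem a b h1, TT_not_mem a b (fun h2 => h1 (h.2 h2))]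

end TT

variable {X ι : Type} [Shift X] [DecidableEq ι]

theorem TT_star (a b : ι) (E : Set X) (x : X) (f : Pt ι) :
    TT a b E (x ⋆ f) = x ⋆ TT a b {u : V | u +ᵥ x ∈ E} f := by
  obtain ⟨u, i⟩ := f
  change TT a b E (u +ᵥ x, i) = _
  by_cases h : u +ᵥ x ∈ E
  · rw [TT_mem a b h, TT_mem a b (E := {u : V | u +ᵥ x ∈ E}) h]; rfl
  · rw [TT_not_mem a b h, TT_not_mem a b (E := {u : V | u +ᵥ x ∈ E}) h]; rfl

/-- induction over local sets with small pieces -/
theorem piece_induction [Good X] [Fintype ι] (T : Finset V) {β : Type} {f : X → β} (hf : LocF f)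
    {U : Set X} (hU : Loc U) (P : Set X → Prop) (h0 : P ∅)
    (hc : ∀ W, Loc W → W ⊆ U → W.Nonempty →
      Inj W ((T ×ˢ Finset.univ : Finset (Pt ι)) : Set (Pt ι)) → (∀ x ∈ W, ∀ y ∈ W, f x = f y) → P W)
    (hu : ∀ W W', Loc W → Loc W' → W ⊆ U → W' ⊆ U → Disjoint W W' → P W → P W' → P (W ∪ W')) :
    P U := by
  obtain ⟨r, hr⟩ := exists_bd_finset T
  obtain ⟨κ, hκ, hs⟩ := exists_sep (X := X) ((r : ℤ) + r)
  refine loc_induction (hκ.prod hf) hU P h0 (fun W hW hWU hne hcst => ?_) hu
  refine hc W hW hWU hne (inj_of_sep hs (fun x hx y hy => congrArg Prod.fst (hcst x hx y hy)) ?_)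
    (fun x hx y hy => congrArg Prod.snd (hcst x hx y hy))
  intro g hg
  exact hr _ (Finset.mem_product.1 hg).1

/-- the support of a `ℤ/2` valued function -/
def on (f : X → ZMod 2) : Set X := {x | f x = 1}

theorem on_add (f g : X → ZMod 2) : on (f + g) = symmDiff (on f) (on g) := by
  have key : ∀ u v : ZMod 2, u + v = 1 ↔ (u = 1 ∧ ¬ v = 1) ∨ (v = 1 ∧ ¬ u = 1) := by decide
  ext x
  exact key (f x) (g x)

theorem on_zero : on (0 : X → ZMod 2) = ∅ := by
  ext x; simp [on]

theorem loc_on {f : X → ZMod 2} (h : LocF f) : Loc (on f) := h.loc (· = 1)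

/-- The abstract chain argument. -/
theorem abstract [Good X] {A : Type} [Group A] {a b : ι} (hab : a ≠ b) (β : Set X → V → A)
    (p : A →* Perm (X × ι))
    (comm : ∀ U z U' z', Loc U → Loc U' → Commute (β U z) (β U' z'))
    (sq : ∀ U z, Loc U → β U z * β U z = 1)
    (zero : ∀ U, Loc U → β U 0 = 1)
    (add : ∀ W W' z, Loc W → Loc W' → Disjoint W W' → β (W ∪ W') z = β W z * β W' z)
    (coc : ∀ U z z', Loc U → β U z * β (sh (-z) U) z' = β U (z + z'))
    (hp : ∀ U z, Loc U → p (β U z) = TT a b U * TT a b (sh (-z) U)) :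
    ∃ B : Subgroup A, (∀ U z, Loc U → β U z ∈ B) ∧ {q | q ∈ B ∧ p q = 1}.Finite := by
  classical
  have emp : ∀ z, β ∅ z = 1 := by
    intro z
    have := add ∅ ∅ z Loc.empty Loc.empty (by simp)
    simpa using this
  have symm : ∀ U U' z, Loc U → Loc U' → β (symmDiff U U') z = β U z * β U' z := by
    intro U U' z hU hU'
    have e1 : U = (U \ U') ∪ (U ∩ U') := by simp
    have e2 : U' = (U ∩ U') ∪ (U' \ U) := by rw [Set.inter_comm]; simp
    have h1 : β U z = β (U \ U') z * β (U ∩ U') z := by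
      conv_lhs => rw [e1]
      exact add _ _ z (hU.diff hU') (hU.inter hU') Set.disjoint_sdiff_inter
    have h2 : β U' z = β (U ∩ U') z * β (U' \ U) z := by
      conv_lhs => rw [e2]
      refine add _ _ z (hU.inter hU') (hU'.diff hU) ?_
      rw [Set.inter_comm]; exact Set.disjoint_sdiff_inter.symm
    rw [h1, h2, mul_assoc, ← mul_assoc (β (U ∩ U') z), sq _ _ (hU.inter hU'), one_mul]
    exact add _ _ z (hU.diff hU') (hU'.diff hU) disjoint_sdiff_sdiff
  let bb : (Bool → X → ZMod 2) → A := fun c =>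
    β (on (c true)) (vec true 1 0) * β (on (c false)) (vec false 1 0)
  have bb_add : ∀ c c' : Bool → X → ZMod 2, (∀ d, LocF (c d)) → (∀ d, LocF (c' d)) →
      bb (c + c') = bb c * bb c' := by
    intro c c' hc hc'
    simp only [bb, Pi.add_apply, on_add]
    rw [symm _ _ _ (loc_on (hc _)) (loc_on (hc' _)), symm _ _ _ (loc_on (hc _)) (loc_on (hc' _))]
    exact (comm _ _ _ _ (loc_on (hc' _)) (loc_on (hc _))).mul_mul_mul_comm _ _
  have bb_zero : bb 0 = 1 := by
    simp only [bb, Pi.zero_apply, on_zero, emp, mul_one]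
  have bb_sq : ∀ c : Bool → X → ZMod 2, (∀ d, LocF (c d)) → bb c * bb c = 1 := by
    intro c hc
    rw [← bb_add c c hc hc, ← bb_zero]
    congr 1
    funext d x
    exact CharTwo.add_self_eq_zero _
  have bb_bdry : ∀ c, IsBdry c → bb c = 1 := by
    rintro c ⟨f, hf, hc⟩
    have hF := loc_on hf
    have e1 : on (c true) = symmDiff (on f) (sh (-vec false 1 0) (on f)) := by
      have : c true = f + fun x => f (vec true 0 (-1) +ᵥ x) := funext (hc true)
      rw [this, on_add]; rfl
    have e2 : on (c false) = symmDiff (on f) (sh (-vec true 1 0) (on f)) := by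
      have : c false = f + fun x => f (vec false 0 (-1) +ᵥ x) := funext (hc false)
      rw [this, on_add]; rfl
    simp only [bb]
    rw [e1, e2, symm _ _ _ hF (hF.sh _), symm _ _ _ hF (hF.sh _)]
    have h1 := coc (on f) (vec true 1 0) (vec false 1 0) hF
    have h2 := coc (on f) (vec false 1 0) (vec true 1 0) hF
    rw [add_comm] at h2
    rw [mul_assoc, ← mul_assoc (β (sh _ _) _), (comm _ _ _ _ (hF.sh _) hF).eq, h2,
      (comm _ _ _ _ hF (hF.sh _)).eq, ← mul_assoc, h1]
    exact sq _ _ hF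
  let B : Subgroup A :=
    { carrier := {q | ∃ c : Bool → X → ZMod 2, (∀ d, LocF (c d)) ∧ q = bb c}
      mul_mem' := by
        rintro _ _ ⟨c, hc, rfl⟩ ⟨c', hc', rfl⟩
        exact ⟨c + c', fun d => (hc d).comp₂ (hc' d) (· + ·), (bb_add c c' hc hc').symm⟩
      one_mem' := ⟨0, fun _ => LocF.const _, bb_zero.symm⟩
      inv_mem' := by
        rintro _ ⟨c, hc, rfl⟩
        exact ⟨c, hc, inv_eq_of_mul_eq_one_right (bb_sq c hc)⟩ }
  have unit : ∀ d U, Loc U → β U (vec d 1 0) ∈ B := by
    intro d U hU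
    let f : X → ZMod 2 := fun x => if x ∈ U then 1 else 0
    have hf : LocF f := hU.ite (LocF.const _) (LocF.const _)
    have ef : on f = U := by
      ext x; by_cases hx : x ∈ U <;> simp [on, f, hx]
    refine ⟨fun d' => if d' = d then f else 0, fun d' => ?_, ?_⟩
    · dsimp only
      split_ifs
      · exact hf
      · exact LocF.const _
    · cases d <;> simp [bb, ef, on_zero, emp]
  have step : ∀ d (n : ℤ) U, Loc U → β U (vec d n 0) ∈ B := by
    intro d n
    induction n using Int.induction_on with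
    | zero => intro U hU; rw [vec_zero, zero U hU]; exact one_mem _
    | succ n ih =>
      intro U hU
      have := coc U (vec d n 0) (vec d 1 0) hU
      rw [vec_add, add_zero] at this
      rw [← this]
      exact mul_mem (ih U hU) (unit d _ (hU.sh _))
    | pred n ih =>
      intro U hU
      have := coc U (vec d (-n - 1) 0) (vec d 1 0) hU
      rw [vec_add, add_zero, sub_add_cancel] at this
      rw [eq_mul_inv_of_mul_eq this]
      exact mul_mem (ih U hU) (inv_mem (unit d _ (hU.sh _)))
  refine ⟨B, fun U z hU => ?_, ?_⟩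
  · have := coc U (vec true z.1 0) (vec false z.2 0) hU
    have e : vec true z.1 0 + vec false z.2 0 = z := by simp
    rw [e] at this
    rw [← this]
    exact mul_mem (step _ _ _ hU) (step _ _ _ (hU.sh _))
  · obtain ⟨S, hS, hS1, hS2⟩ := exists_finite_cycles (X := X)
    refine (hS.image bb).subset ?_
    rintro _ ⟨⟨c, hc, rfl⟩, hq⟩
    have hcyc : IsCycle c := by
      refine ⟨hc, fun x => ?_⟩
      simp only [bb] at hq
      rw [map_mul, hp _ _ (loc_on (hc _)), hp _ _ (loc_on (hc _)), TT_mul, TT_mul, TT_mul,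
        ← TT_empty a b] at hq
      have h1 := TT_inj hab hq
      have h2 : on (c true + (fun x => c true (vec true (-1) 0 +ᵥ x)) +
          (c false + fun x => c false (vec false (-1) 0 +ᵥ x))) = ∅ := by
        rw [on_add, on_add, on_add]; exact h1
      have h3 : x ∉ on (c true + (fun x => c true (vec true (-1) 0 +ᵥ x)) +
          (c false + fun x => c false (vec false (-1) 0 +ᵥ x))) := by rw [h2]; simp
      have key : ∀ u : ZMod 2, ¬ u = 1 → u = 0 := by decide
      exact key _ h3
    obtain ⟨c', hc', hb⟩ := hS2 c hcyc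
    refine ⟨c', hc', ?_⟩
    have h1 := bb_bdry _ hb
    rw [bb_add c c' hc (hS1 c' hc').1] at h1
    have h2 := bb_sq c hc
    exact mul_left_cancel (h1.trans h2.symm)

end Dg

end Crest.Agent.R189
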