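import Crest.Agent.R189.CutDefs

/-! # Row 189: the flux -/

set_option autoImplicit false
set_option linter.unusedSectionVars false

namespace Crest.Agent.R189
open Equiv

section
variable {α : Type} {B : Set α} {p q : Perm α}

namespace Flx

open Classical in
/-- the summand of the index -/
noncomputable def indF (B : Set α) (p : Perm α) (ω : α) : ℤ :=
  (if p ω ∈ B then 1 else 0) - (if ω ∈ B then 1 else 0)

theorem ind_eq_indF (B : Set α) (p : Perm α) : ind B p = ∑ᶠ ω, indF B p ω := rfl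

theorem indF_eq_zero {ω : α} (h : ω ∉ Cross B p) : indF B p ω = 0 := by
  have h' : p ω ∈ B ↔ ω ∈ B := not_not.1 h
  unfold indF
  by_cases h1 : ω ∈ B
  · rw [if_pos h1, if_pos (h'.2 h1)]; rfl
  · rw [if_neg h1, if_neg (fun h2 => h1 (h'.1 h2))]; rfl

theorem indF_of_fix {ω : α} (h : p ω = ω) : indF B p ω = 0 :=
  indF_eq_zero (fun h' => h' (by rw [h]))

theorem indF_congr {B' : Set α} {ω : α} (h1 : p ω ∈ B ↔ q ω ∈ B') (h2 : ω ∈ B ↔ ω ∈ B') :
    indF B p ω = indF B' q ω := by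
  unfold indF
  rw [propext h1, propext h2]

theorem indF_supp (hp : (Cross B p).Finite) : (indF B p).HasFiniteSupport :=
  hp.subset (fun _ h => by_contra (fun h' => h (indF_eq_zero h')))

end Flx
open Flx

theorem cross_mul (hp : (Cross B p).Finite) (hq : (Cross B q).Finite) :
    (Cross B (p * q)).Finite := by
  refine (hq.union (hp.preimage q.injective.injOn)).subset (fun ω h => ?_)
  by_cases h1 : ω ∈ Cross B q
  · exact Or.inl h1
  · refine Or.inr (fun h2 => h ?_)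
    exact h2.trans (not_not.1 h1)
theorem ind_mul (hp : (Cross B p).Finite) (hq : (Cross B q).Finite) :
    ind B (p * q) = ind B p + ind B q := by
  have h1 : (fun ω => indF B p (q ω)).HasFiniteSupport :=
    (hp.preimage q.injective.injOn).subset (fun _ h => by_contra (fun h' => h (indF_eq_zero h')))
  rw [ind_eq_indF, ind_eq_indF, ind_eq_indF, ← finsum_comp_equiv q (f := indF B p),
    ← finsum_add_distrib h1 (indF_supp hq)]
  refine finsum_congr (fun ω => ?_)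
  unfold indF
  rw [Perm.mul_apply]
  ring
theorem ind_one : ind B (1 : Perm α) = 0 := by
  rw [ind_eq_indF, finsum_congr (g := fun _ => (0 : ℤ)) (fun ω => indF_of_fix rfl), finsum_zero]
theorem ind_eq_ncard (hp : (Cross B p).Finite) :
    ind B p = ({ω | ω ∉ B ∧ p ω ∈ B}.ncard : ℤ) - ({ω | ω ∈ B ∧ p ω ∉ B}.ncard : ℤ) := by
  classical
  have h1 : {ω | ω ∉ B ∧ p ω ∈ B}.Finite := hp.subset (fun ω h h' => h.1 (h'.1 h.2))
  have h2 : {ω | ω ∈ B ∧ p ω ∉ B}.Finite := hp.subset (fun ω h h' => h.2 (h'.2 h.1))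
  have key : ∀ {A : Set α}, A.Finite → (A.ncard : ℤ) = ∑ᶠ ω, A.indicator (fun _ => (1 : ℤ)) ω := by
    intro A hA
    rw [← finsum_mem_def, finsum_mem_eq_finite_toFinset_sum _ hA, Set.ncard_eq_toFinset_card A hA]
    simp
  have hs : ∀ {A : Set α}, A.Finite → (A.indicator (fun _ => (1 : ℤ))).HasFiniteSupport :=
    fun hA => hA.subset Set.support_indicator_subset
  rw [key h1, key h2, ← finsum_sub_distrib (hs h1) (hs h2), ind_eq_indF]
  refine finsum_congr (fun ω => ?_)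
  by_cases a : ω ∈ B <;> by_cases b : p ω ∈ B <;> simp [indF, Set.indicator, a, b]

namespace Flx

theorem cross_one : (Cross B (1 : Perm α)).Finite :=
  Set.finite_empty.subset (fun _ h => h Iff.rfl)

theorem cross_inv (hp : (Cross B p).Finite) : (Cross B p⁻¹).Finite := by
  refine (hp.preimage p⁻¹.injective.injOn).subset (fun ω h h' => h ?_)
  simpa using h'.symm

theorem ind_inv (hp : (Cross B p).Finite) : ind B p⁻¹ = - ind B p := by
  have := ind_mul (cross_inv hp) hp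
  rw [inv_mul_cancel, ind_one] at this
  omega

theorem ind_of_cube (hp : (Cross B p).Finite) (h : p * p * p = 1) : ind B p = 0 := by
  have := ind_mul (cross_mul hp hp) hp
  rw [h, ind_one, ind_mul hp hp] at this
  omega

/-- changing the set in finitely many moved points does not change the index -/
theorem ind_congr_set {B' : Set α} (hp : (Cross B p).Finite)
    (h : {ω | p ω ≠ ω ∧ ¬ (ω ∈ B' ↔ ω ∈ B)}.Finite) : ind B' p = ind B p := by
  classical
  let g : α → ℤ := fun ω =>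
    if p ω = ω then 0 else (if ω ∈ B' then 1 else 0) - (if ω ∈ B then 1 else 0)
  have hg : g.HasFiniteSupport := by
    refine h.subset (fun ω hω => ?_)
    by_contra h1
    apply hω
    by_cases h2 : p ω = ω
    · simp only [g, if_pos h2]
    · have h3 : ω ∈ B' ↔ ω ∈ B := by_contra (fun h3 => h1 ⟨h2, h3⟩)
      simp only [g, if_neg h2, h3, sub_self]
  have hg' : (fun ω => g (p ω)).HasFiniteSupport := Set.Finite.preimage p.injective.injOn hg
  have h0 : ∑ᶠ ω, (g (p ω) - g ω) = 0 := by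
    rw [finsum_sub_distrib hg' hg, finsum_comp_equiv p (f := g), sub_self]
  have hs : (fun ω => g (p ω) - g ω).HasFiniteSupport := by
    refine (Set.Finite.union hg' hg).subset (fun ω hω => ?_)
    by_contra h1
    simp only [Set.mem_union, Function.mem_support, not_or, not_not] at h1
    exact hω (by simp only [h1.1, h1.2, sub_self])
  rw [ind_eq_indF, ind_eq_indF, ← add_zero (∑ᶠ ω, indF B p ω), ← h0,
    ← finsum_add_distrib (indF_supp hp) hs]
  refine finsum_congr (fun ω => ?_)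
  by_cases h2 : p ω = ω
  · rw [indF_of_fix h2, indF_of_fix h2, h2]; simp
  · have h3 : ¬ p (p ω) = p ω := fun e => h2 (p.injective e)
    simp only [g, indF, if_neg h2, if_neg h3]
    ring

/-- a permutation which agrees on `R` with a permutation supported in `R` -/
theorem ind_restrict {R : Set α} (hq : ∀ ω, q ω ≠ ω → ω ∈ R) (hp : ∀ ω ∈ R, p ω = q ω) :
    ind (B ∩ R) p = ind B q := by
  have hq1 : ∀ ω ∈ R, q ω ∈ R := fun ω hω => by
    by_cases h : q ω = ω
    · rw [h]; exact hω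
    · exact hq _ (fun e => h (q.injective e))
  have hq2 : ∀ ω ∈ R, q⁻¹ ω ∈ R := fun ω hω => by
    by_cases h : q (q⁻¹ ω) = q⁻¹ ω
    · rw [← h]; simpa using hω
    · exact hq _ h
  rw [ind_eq_indF, ind_eq_indF]
  refine finsum_congr (fun ω => ?_)
  by_cases hω : ω ∈ R
  · exact indF_congr (by rw [hp ω hω]; exact and_iff_left (hq1 ω hω)) (and_iff_left hω)
  · rw [indF_of_fix (p := q) (by_contra (fun h => hω (hq ω h)))]
    refine indF_eq_zero (fun h => h ⟨fun h1 => ?_, fun h1 => (hω h1.2).elim⟩)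
    have h2 := hq2 _ h1.2
    have h3 : p (q⁻¹ (p ω)) = p ω := by rw [hp _ h2]; simp
    rw [p.injective h3] at h2
    exact (hω h2).elim

end Flx
end

variable {X ι : Type} [Shift X] [Good X] [DecidableEq ι] [Fintype ι]

namespace Flx

/-- the part of the orbit of `y` with offsets in `S` -/
def OS (S : Set V) (y : X) : Set X := {x | ∃ z ∈ S, x = z +ᵥ y}

theorem mem_OS {S : Set V} {y : X} {z : V} : z +ᵥ y ∈ OS S y ↔ z ∈ S :=
  ⟨fun ⟨_, h1, h2⟩ => by rw [vadd_inj h2]; exact h1, fun h => ⟨z, h, rfl⟩⟩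

theorem hp_eq (v : V) (y : X) : Hp (v +ᵥ y) = OS {z | v.1 ≤ z.1} y := by
  ext x
  constructor
  · rintro ⟨z, h1, rfl⟩
    exact ⟨z + v, by simp only [Set.mem_ofPred_eq, Prod.fst_add]; omega, (add_vadd _ _ _).symm⟩
  · rintro ⟨z, h1, rfl⟩
    exact ⟨z - v, by simp only [Set.mem_ofPred_eq] at h1; simp only [Prod.fst_sub]; omega,
      by rw [← add_vadd, sub_add_cancel]⟩

theorem hp_eq' (y : X) : Hp y = OS {z | 0 ≤ z.1} y := rfl

theorem mem_lo {y : X} {ω : X × ι} {z : V} (h : ω.1 = z +ᵥ y) : ω ∈ Lo y ↔ z.2 < 0 :=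
  ⟨fun ⟨_, h1, h2⟩ => by rw [vadd_inj (h.symm.trans h2)]; exact h1, fun h' => ⟨z, h', h⟩⟩

theorem mem_lo' {y : X} {ω : X × ι} {z : V} (v : V) (h : ω.1 = z +ᵥ y) :
    ω ∈ Lo (v +ᵥ y) ↔ z.2 < v.2 := by
  rw [mem_lo (z := z - v) (by rw [h, ← add_vadd, sub_add_cancel]), Prod.snd_sub]
  omega

theorem finite_near (D : ℤ) (y : X) : {ω : X × ι | ∃ z, Bd D z ∧ ω.1 = z +ᵥ y}.Finite := by
  refine (((finite_bd D).prod (Set.finite_univ (α := ι))).image (fun f => y ⋆ f)).subset ?_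
  rintro ⟨x, i⟩ ⟨z, h1, h2⟩
  exact ⟨(z, i), ⟨h1, trivial⟩, Prod.ext h2.symm rfl⟩

/-- supported in a vertical strip of the orbit of `y` -/
def ColS (K : ℤ) (y : X) (g : Perm (X × ι)) : Prop :=
  ∀ ω, g ω ≠ ω → ∃ z : V, -K ≤ z.1 ∧ z.1 ≤ K ∧ ω.1 = z +ᵥ y

theorem ColS.mono {K K' : ℤ} {y : X} {g : Perm (X × ι)} (h : ColS K y g) (h' : K ≤ K') :
    ColS K' y g := fun ω hω =>
  let ⟨z, h1, h2, h3⟩ := h ω hω
  ⟨z, by omega, by omega, h3⟩

theorem cross_sub {D : ℤ} {y : X} {g : Perm (X × ι)} (hd : Disp D g) (hc : ColS D y g) :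
    Cross (Lo y) g ⊆ {ω | ∃ z, Bd D z ∧ ω.1 = z +ᵥ y} := by
  intro ω hω
  obtain ⟨z, h1, h2, h3⟩ := hc ω (fun e => hω (by rw [e]))
  obtain ⟨u, hu, e⟩ := hd ω
  rw [h3, ← add_vadd] at e
  have h4 : ¬ ((u + z).2 < 0 ↔ z.2 < 0) := by rw [← mem_lo e, ← mem_lo h3]; exact hω
  refine ⟨z, ?_, h3⟩
  unfold Bd at *
  simp only [Prod.snd_add] at h4
  omega

theorem cross_fin {D K : ℤ} {y : X} {g : Perm (X × ι)} (hd : Disp D g) (hc : ColS K y g) :
    (Cross (Lo y) g).Finite :=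
  (finite_near (max D K) y).subset
    (cross_sub (hd.mono (le_max_left _ _)) (hc.mono (le_max_right _ _)))

theorem ind_height {D K : ℤ} {y : X} {g : Perm (X × ι)} (hd : Disp D g) (hc : ColS K y g) (v : V) :
    ind (Lo (v +ᵥ y)) g = ind (Lo y) g := by
  refine ind_congr_set (cross_fin hd hc) ((finite_near (|K| + |v.2|) y).subset ?_)
  rintro ω ⟨h0, h⟩
  obtain ⟨z, h1, h2, h3⟩ := hc ω h0
  rw [mem_lo h3, mem_lo' v h3] at h
  refine ⟨z, ?_, h3⟩
  have := le_abs_self K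
  have := abs_nonneg K
  have := le_abs_self v.2
  have := neg_abs_le v.2
  unfold Bd
  omega

theorem evp_append (w w' : List (Tri X ι)) : evp (w ++ w') = evp w * evp w' := by
  simp [evp]

theorem resw_append (w w' : List (Tri X ι)) (W : Set X) :
    resw (w ++ w') W = resw w W ++ resw w' W := by
  simp [resw]

theorem resw_univ (w : List (Tri X ι)) : resw w Set.univ = w := by
  induction w with
  | nil => rfl
  | cons τ w ih => rw [resw_cons, ih]; simp [Tri.res]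

theorem evp_resw_empty (w : List (Tri X ι)) : evp (resw w ∅) = 1 := by
  induction w with
  | nil => rfl
  | cons τ w ih => rw [resw_cons, evp_cons, ih, Tri.res, Set.inter_empty, cyc_empty, mul_one]

theorem evp_resw_rev {w : List (Tri X ι)} (hw : ∀ τ ∈ w, τ.Ok) (W : Set X) :
    evp (resw (w.reverse.map Tri.rev) W) = (evp (resw w W))⁻¹ := by
  induction w with
  | nil => rfl
  | cons τ w ih =>
    rw [List.reverse_cons, List.map_append, resw_append, evp_append,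
      ih (fun τ' h' => hw τ' (by simp [h'])), resw_cons, evp_cons, mul_inv_rev,
      ← cyc_rev ((hw τ (by simp)).res W)]
    simp only [List.map_cons, List.map_nil, resw_cons, resw_nil, evp_cons, evp_nil, mul_one]
    rfl

theorem disp_resw {ρ : ℤ} (hρ : 0 ≤ ρ) {w : List (Tri X ι)} (h : ∀ τ ∈ w, τ.Rad ρ) (W : Set X) :
    Disp (2 * ρ * w.length) (evp (resw w W)) := by
  have hd : Disp (2 * ρ * (resw w W).length) (evp (resw w W)) := disp_evp hρ (fun τ' h' => by
    obtain ⟨τ'', h1, rfl⟩ := List.mem_map.1 h'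
    exact h τ'' h1)
  have hl : (resw w W).length = w.length := List.length_map _
  rwa [hl] at hd

theorem cyc_cube (τ : Tri X ι) (h : τ.Ok) : cyc τ * cyc τ * cyc τ = 1 := by
  refine Equiv.ext (fun ω => ?_)
  simp only [Perm.mul_apply, Perm.one_apply]
  by_cases hω : ω ∈ τ.supp
  · obtain ⟨x, hx, f, hf, rfl⟩ := hω
    rcases Tri.mem_pts.1 hf with rfl | rfl | rfl
    · rw [cyc_a h hx, cyc_b h hx, cyc_c h hx]
    · rw [cyc_b h hx, cyc_c h hx, cyc_a h hx]
    · rw [cyc_c h hx, cyc_a h hx, cyc_b h hx]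
  · rw [cyc_fix τ hω, cyc_fix τ hω, cyc_fix τ hω]

section
variable {w : List (Tri X ι)} {ρ : ℤ}

theorem fix_of_far (hρ : 0 ≤ ρ) (hok : ∀ τ ∈ w, τ.Ok) (hr : ∀ τ ∈ w, τ.Rad ρ) {W : Set X}
    {ω : X × ι} (h : ∀ z, Bd (2 * ρ * w.length) z → z +ᵥ ω.1 ∉ W) : evp (resw w W) ω = ω := by
  rw [evp_resw_congr hρ hok hr (W' := ∅) ω (fun z hz => iff_of_false (h z hz) (Set.notMem_empty _)),
    evp_resw_empty, Perm.one_apply]

theorem fix_of_deep (hρ : 0 ≤ ρ) (hok : ∀ τ ∈ w, τ.Ok) (hr : ∀ τ ∈ w, τ.Rad ρ) (h1 : evp w = 1)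
    {W : Set X} {ω : X × ι} (h : ∀ z, Bd (2 * ρ * w.length) z → z +ᵥ ω.1 ∈ W) :
    evp (resw w W) ω = ω := by
  rw [evp_resw_congr hρ hok hr (W' := Set.univ) ω
    (fun z hz => iff_of_true (h z hz) (Set.mem_univ _)), resw_univ, h1, Perm.one_apply]

theorem orbit_of_moved (hρ : 0 ≤ ρ) (hok : ∀ τ ∈ w, τ.Ok) (hr : ∀ τ ∈ w, τ.Rad ρ) {S : Set V}
    {y : X} {ω : X × ι} (h : evp (resw w (OS S y)) ω ≠ ω) : ∃ z : V, ω.1 = z +ᵥ y := by
  by_contra h'
  refine h (fix_of_far hρ hok hr (fun u _ hu => h' ?_))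
  obtain ⟨z, _, e⟩ := hu
  exact ⟨-u + z, by rw [add_vadd, ← e, ← add_vadd, neg_add_cancel, zero_vadd]⟩

theorem col_right (hρ : 0 ≤ ρ) (hok : ∀ τ ∈ w, τ.Ok) (hr : ∀ τ ∈ w, τ.Rad ρ) (h1 : evp w = 1)
    (s : ℤ) (y : X) : ColS (2 * ρ * w.length + |s|) y (evp (resw w (OS {z | s ≤ z.1} y))) := by
  intro ω hω
  obtain ⟨z, e⟩ := orbit_of_moved hρ hok hr hω
  have := le_abs_self s
  have := neg_abs_le s
  refine ⟨z, ?_, ?_, e⟩
  · by_contra h
    refine hω (fix_of_far hρ hok hr (fun u hu => ?_))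
    rw [e, ← add_vadd, mem_OS]
    unfold Bd at hu
    simp only [Set.mem_ofPred_eq, Prod.fst_add]
    omega
  · by_contra h
    refine hω (fix_of_deep hρ hok hr h1 (fun u hu => ?_))
    rw [e, ← add_vadd, mem_OS]
    unfold Bd at hu
    simp only [Set.mem_ofPred_eq, Prod.fst_add]
    omega

theorem col_left (hρ : 0 ≤ ρ) (hok : ∀ τ ∈ w, τ.Ok) (hr : ∀ τ ∈ w, τ.Rad ρ) (h1 : evp w = 1)
    (s : ℤ) (y : X) : ColS (2 * ρ * w.length + |s|) y (evp (resw w (OS {z | z.1 < s} y))) := by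
  intro ω hω
  obtain ⟨z, e⟩ := orbit_of_moved hρ hok hr hω
  have := le_abs_self s
  have := neg_abs_le s
  refine ⟨z, ?_, ?_, e⟩
  · by_contra h
    refine hω (fix_of_deep hρ hok hr h1 (fun u hu => ?_))
    rw [e, ← add_vadd, mem_OS]
    unfold Bd at hu
    simp only [Set.mem_ofPred_eq, Prod.fst_add]
    omega
  · by_contra h
    refine hω (fix_of_far hρ hok hr (fun u hu => ?_))
    rw [e, ← add_vadd, mem_OS]
    unfold Bd at hu
    simp only [Set.mem_ofPred_eq, Prod.fst_add]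
    omega

/-- a word restricted to a bounded range of columns has index zero -/
theorem ind_mid (hok : ∀ τ ∈ w, τ.Ok) (hr : ∀ τ ∈ w, τ.Rad ρ) (s K : ℤ) (y : X) :
    (Cross (Lo y) (evp (resw w (OS {z | s ≤ z.1 ∧ z.1 < K} y)))).Finite ∧
      ind (Lo y) (evp (resw w (OS {z | s ≤ z.1 ∧ z.1 < K} y))) = 0 := by
  induction w with
  | nil => exact ⟨cross_one, ind_one⟩
  | cons τ w ih =>
    obtain ⟨ih1, ih2⟩ := ih (fun τ' h' => hok τ' (by simp [h'])) (fun τ' h' => hr τ' (by simp [h']))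
    have hτ : τ.Rad ρ := hr τ (by simp)
    have hc : ColS (ρ + |s| + |K|) y (cyc (τ.res (OS {z | s ≤ z.1 ∧ z.1 < K} y))) := by
      intro ω hω
      obtain ⟨x, ⟨_, z, hz, rfl⟩, f, hf, rfl⟩ : ω ∈ (τ.res (OS {z | s ≤ z.1 ∧ z.1 < K} y)).supp :=
        by_contra (fun h => hω (cyc_fix _ h))
      have hb := hτ.mem hf
      have := le_abs_self s
      have := neg_abs_le s
      have := le_abs_self K
      have := neg_abs_le K
      unfold Bd at hb
      simp only [Set.mem_ofPred_eq] at hz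
      refine ⟨f.1 + z, ?_, ?_, by rw [star_fst, add_vadd]⟩ <;> simp only [Prod.fst_add] <;> omega
    have hf := cross_fin (disp_cyc (τ := τ.res (OS {z | s ≤ z.1 ∧ z.1 < K} y)) (ρ := ρ) hτ) hc
    rw [resw_cons, evp_cons]
    refine ⟨cross_mul hf ih1, ?_⟩
    rw [ind_mul hf ih1, ih2, ind_of_cube hf (cyc_cube _ ((hok τ (by simp)).res _)), add_zero]

theorem ind_right_left (hρ : 0 ≤ ρ) (hok : ∀ τ ∈ w, τ.Ok) (hr : ∀ τ ∈ w, τ.Rad ρ) (h1 : evp w = 1)
    {s K : ℤ} (hK : s + 2 * (2 * ρ * w.length) ≤ K) (y : X) :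
    ind (Lo y) (evp (resw w (OS {z | s ≤ z.1} y))) +
      ind (Lo y) (evp (resw w (OS {z | z.1 < K} y))) = 0 := by
  rw [← (ind_mid hok hr s K y).2, ind_eq_indF, ind_eq_indF, ind_eq_indF,
    ← finsum_add_distrib (indF_supp (cross_fin (disp_resw hρ hr _) (col_right hρ hok hr h1 s y)))
      (indF_supp (cross_fin (disp_resw hρ hr _) (col_left hρ hok hr h1 K y)))]
  refine finsum_congr (fun ω => ?_)
  by_cases hω : ∃ z : V, ω.1 = z +ᵥ y
  · obtain ⟨z, e⟩ := hω
    by_cases hz : z.1 + 2 * ρ * w.length < K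
    · have e1 : evp (resw w (OS {z | z.1 < K} y)) ω = ω := by
        refine fix_of_deep hρ hok hr h1 (fun u hu => ?_)
        rw [e, ← add_vadd, mem_OS]
        unfold Bd at hu
        simp only [Set.mem_ofPred_eq, Prod.fst_add]
        omega
      have e2 : evp (resw w (OS {z | s ≤ z.1} y)) ω =
          evp (resw w (OS {z | s ≤ z.1 ∧ z.1 < K} y)) ω := by
        refine evp_resw_congr hρ hok hr ω (fun u hu => ?_)
        rw [e, ← add_vadd, mem_OS, mem_OS]
        unfold Bd at hu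
        simp only [Set.mem_ofPred_eq, Prod.fst_add]
        omega
      rw [indF_of_fix e1, add_zero]
      exact indF_congr (by rw [e2]) Iff.rfl
    · have e1 : evp (resw w (OS {z | s ≤ z.1} y)) ω = ω := by
        refine fix_of_deep hρ hok hr h1 (fun u hu => ?_)
        rw [e, ← add_vadd, mem_OS]
        unfold Bd at hu
        simp only [Set.mem_ofPred_eq, Prod.fst_add]
        omega
      have e2 : evp (resw w (OS {z | z.1 < K} y)) ω =
          evp (resw w (OS {z | s ≤ z.1 ∧ z.1 < K} y)) ω := by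
        refine evp_resw_congr hρ hok hr ω (fun u hu => ?_)
        rw [e, ← add_vadd, mem_OS, mem_OS]
        unfold Bd at hu
        simp only [Set.mem_ofPred_eq, Prod.fst_add]
        omega
      rw [indF_of_fix e1, zero_add]
      exact indF_congr (by rw [e2]) Iff.rfl
  · have key : ∀ S : Set V, indF (Lo y) (evp (resw w (OS S y))) ω = 0 := fun S =>
      indF_of_fix (by_contra (fun h => hω (orbit_of_moved hρ hok hr h)))
    rw [key, key, key, add_zero]

theorem flux_vadd_eq (hρ : 0 ≤ ρ) (hok : ∀ τ ∈ w, τ.Ok) (hr : ∀ τ ∈ w, τ.Rad ρ) (h1 : evp w = 1)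
    (v : V) (y : X) : flux w (v +ᵥ y) = ind (Lo y) (evp (resw w (OS {z | v.1 ≤ z.1} y))) := by
  rw [flux, hp_eq, ind_height (disp_resw hρ hr _) (col_right hρ hok hr h1 v.1 y)]

theorem flux_vadd (hρ : 0 ≤ ρ) (hok : ∀ τ ∈ w, τ.Ok) (hr : ∀ τ ∈ w, τ.Rad ρ) (h1 : evp w = 1)
    (v : V) (y : X) : flux w (v +ᵥ y) = flux w y := by
  have e1 := ind_right_left hρ hok hr h1 (s := v.1) (K := |v.1| + 2 * (2 * ρ * w.length))
    (by have := le_abs_self v.1; omega) y
  have e2 := ind_right_left hρ hok hr h1 (s := 0) (K := |v.1| + 2 * (2 * ρ * w.length))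
    (by have := abs_nonneg v.1; omega) y
  rw [flux_vadd_eq hρ hok hr h1, flux, hp_eq']
  omega

theorem loc_cyc_res {τ : Tri X ι} (h : τ.Gd) (S : Set V) (g : Pt ι) :
    ∃ k : X → Pt ι, LocF k ∧ ∀ x, cyc (τ.res (OS S x)) (x ⋆ g) = x ⋆ k x := by
  classical
  obtain ⟨k, hk, e⟩ := (locP_cyc h).rel g
  have := τ.finite_pts.to_subtype
  let A : Set X := ⋃ f : τ.pts, {x | f.1.2 = g.2 ∧ g.1 - f.1.1 ∈ S} ∩ sh (g.1 - f.1.1) τ.U
  have hA : Loc A := Loc.iUnion (fun f => Loc.inter ⟨0, fun _ _ _ h => h⟩ (h.2.sh _))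
  refine ⟨fun x => if x ∈ A then k x else g, hA.ite hk (LocF.const _), fun x => ?_⟩
  by_cases hx : x ∈ A
  · obtain ⟨f, ⟨h1, h2⟩, h3⟩ := Set.mem_iUnion.1 hx
    have e1 : x ⋆ g = ((g.1 - f.1.1) +ᵥ x) ⋆ f.1 :=
      Prod.ext (by simp only [star_fst, ← add_vadd, add_sub_cancel]) h1.symm
    simp only [if_pos hx]
    rw [← e, e1, (cyc_acts (h.1.res (OS S x))).app _ ⟨h3, mem_OS.2 h2⟩ f.1 f.2,
      (cyc_acts h.1).app _ h3 f.1 f.2]
    rfl
  · simp only [if_neg hx]
    refine cyc_fix _ ?_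
    rintro ⟨_, ⟨h1, z, hz, rfl⟩, f, hf, e1⟩
    have e2 : g.1 = f.1 + z := vadd_inj ((star_eq_fst e1).trans (add_vadd _ _ _).symm)
    have e3 : g.1 - f.1 = z := by rw [e2, add_sub_cancel_left]
    refine hx (Set.mem_iUnion.2 ⟨⟨f, hf⟩, ⟨(star_eq_snd e1).symm, ?_⟩, ?_⟩)
    · rw [e3]; exact hz
    · rw [mem_sh, e3]; exact h1

theorem loc_evp_res (hw : ∀ τ ∈ w, τ.Gd) (S : Set V) (g : Pt ι) :
    ∃ k : X → Pt ι, LocF k ∧ ∀ x, evp (resw w (OS S x)) (x ⋆ g) = x ⋆ k x := by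
  induction w with
  | nil => exact ⟨fun _ => g, LocF.const _, fun _ => rfl⟩
  | cons τ w ih =>
    obtain ⟨k, hk, e⟩ := ih (fun τ' h' => hw τ' (by simp [h']))
    choose k' hk' e' using loc_cyc_res (hw τ (by simp)) S
    exact ⟨fun x => k' (k x) x, hk.bind hk', fun x => by
      rw [resw_cons, evp_cons, Perm.mul_apply, e, e']⟩

theorem locF_flux (hρ : 0 ≤ ρ) (hw : ∀ τ ∈ w, τ.Gd) (hr : ∀ τ ∈ w, τ.Rad ρ) (h1 : evp w = 1) :
    LocF (flux w) := by
  have hok : ∀ τ ∈ w, τ.Ok := fun τ h => (hw τ h).1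
  choose k hk e using loc_evp_res hw {z | 0 ≤ z.1}
  obtain ⟨r, hr'⟩ := LocF.uniform (I := box (2 * ρ * w.length) × ι)
    (f := fun p => k (p.1.1, p.2)) (fun p => hk _)
  have hsub : ∀ x : X, Cross (Lo x) (evp (resw w (OS {z | 0 ≤ z.1} x))) ⊆
      {ω | ∃ z, Bd (2 * ρ * w.length) z ∧ ω.1 = z +ᵥ x} := fun x =>
    cross_sub (disp_resw hρ hr _) (by simpa using col_right hρ hok hr h1 0 x)
  have hsum : ∀ x : X, flux w x =
      ∑ᶠ f : Pt ι, indF (Lo x) (evp (resw w (OS {z | 0 ≤ z.1} x))) (x ⋆ f) := by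
    intro x
    rw [flux, hp_eq', ind_eq_indF, ← finsum_mem_range (g := fun f : Pt ι => x ⋆ f)
      (fun _ _ h => star_inj h), ← finsum_mem_univ]
    refine finsum_mem_inter_support_eq' _ _ _ (fun ω hω => iff_of_true trivial ?_)
    obtain ⟨z, _, e1⟩ := hsub x (by_contra (fun h => hω (indF_eq_zero h)))
    exact ⟨(z, ω.2), Prod.ext e1.symm rfl⟩
  have hzero : ∀ (x : X) (f : Pt ι), ¬ Bd (2 * ρ * w.length) f.1 →
      indF (Lo x) (evp (resw w (OS {z | 0 ≤ z.1} x))) (x ⋆ f) = 0 := by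
    intro x f hf
    refine indF_eq_zero (fun h => hf ?_)
    obtain ⟨z, h2, e1⟩ := hsub x h
    rw [vadd_inj (x := x) (z := f.1) (w := z) e1]
    exact h2
  refine ⟨r, fun x y hxy => ?_⟩
  rw [hsum, hsum]
  refine finsum_congr (fun f => ?_)
  by_cases hf : Bd (2 * ρ * w.length) f.1
  · have e1 : k f x = k f y := hr' (⟨f.1, mem_box.2 hf⟩, f.2) x y hxy
    simp only [indF, e, e1, mem_lo (star_fst _ _)]
  · rw [hzero x f hf, hzero y f hf]

end

end Flx
open Flx

theorem flux_cross {w : List (Tri X ι)} (hw : ∀ τ ∈ w, τ.Ok) (h1 : evp w = 1) (x0 : X) :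
    (Cross (Lo x0) (evp (resw w (Hp x0)))).Finite := by
  obtain ⟨ρ, hr⟩ := Tri.exists_rad_list w
  exact cross_fin (disp_resw (Int.natCast_nonneg ρ) hr _)
    (col_right (Int.natCast_nonneg ρ) hw hr h1 0 x0)

theorem flux_append {w w' : List (Tri X ι)} (hw : ∀ τ ∈ w, τ.Ok) (h1 : evp w = 1)
    (hw' : ∀ τ ∈ w', τ.Ok) (h1' : evp w' = 1) (x0 : X) :
    flux (w ++ w') x0 = flux w x0 + flux w' x0 := by
  rw [flux, resw_append, evp_append, ind_mul (flux_cross hw h1 x0) (flux_cross hw' h1' x0)]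
  rfl

theorem flux_rev {w : List (Tri X ι)} (hw : ∀ τ ∈ w, τ.Ok) (h1 : evp w = 1) (x0 : X) :
    flux (w.reverse.map Tri.rev) x0 = - flux w x0 := by
  rw [flux, evp_resw_rev hw, ind_inv (flux_cross hw h1 x0)]
  rfl

theorem flux_const {w : List (Tri X ι)} (hw : ∀ τ ∈ w, τ.Gd) (h1 : evp w = 1) (x y : X) :
    flux w x = flux w y := by
  obtain ⟨ρ, hr⟩ := Tri.exists_rad_list w
  have hρ := Int.natCast_nonneg ρ
  obtain ⟨r, hl⟩ := locF_flux hρ hw hr h1
  obtain ⟨s, hs⟩ := Good.minimal x r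
  obtain ⟨z, _, hz⟩ := hs y
  rw [hl _ _ hz, flux_vadd hρ (fun τ h => (hw τ h).1) hr h1]

theorem edge_flux {w : List (Tri X ι)} {ρ Δ : ℤ} (hρ : 0 ≤ ρ) (hw : ∀ τ ∈ w, τ.Ok ∧ τ.Rad ρ)
    (h1 : evp w = 1) (h0 : ∀ x, flux w x = 0) (hΔ : 2 * ρ * (w.length + 1) < Δ) {L : ℕ}
    (c : Crd X true L) {a b : ι} {p : ℤ} {u : Perm (X × ι)} (hu : c.Edge a b w ∅ Δ p u) :
    Disp Δ u ∧ ∀ y, c.rep y p → ind (LoS Δ y) u = 0 := by
  have hok : ∀ τ ∈ w, τ.Ok := fun τ h => (hw τ h).1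
  have hr : ∀ τ ∈ w, τ.Rad ρ := fun τ h => (hw τ h).2
  have hD0 : 0 ≤ 2 * ρ * w.length := by positivity
  have hD : 2 * ρ * w.length < Δ := by nlinarith
  obtain ⟨p', q', hpq, h2, h3, h4⟩ := hu.ex
  have hg : c.gI a b w ∅ p' q' = evp (resw w (c.base p' q')) := by
    rw [Crd.gI, Set.empty_inter, TT_empty, mul_one]
  rw [hg] at h4
  refine ⟨fun ω => ?_, fun y hy => ?_⟩
  · by_cases hω : ω ∈ c.strip (p - Δ) (p + Δ)
    · rw [h4 ω hω]
      exact (disp_resw hρ hr _).mono hD.le ω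
    · exact ⟨0, Bd.zero (by omega), by rw [hu.supp ω hω, zero_vadd]⟩
  · let R : Set (X × ι) := {ω | ∃ z : V, -Δ ≤ z.1 ∧ z.1 ≤ Δ ∧ ω.1 = z +ᵥ y}
    have hR : LoS Δ y = Lo y ∩ R := by
      ext ω
      constructor
      · rintro ⟨z, a1, a2, a3, a4⟩
        exact ⟨⟨z, a3, a4⟩, ⟨z, a1, a2, a4⟩⟩
      · rintro ⟨a0, z, a1, a2, a4⟩
        exact ⟨z, a1, a2, (mem_lo a4).1 a0, a4⟩
    have main : ∀ S : Set V, ColS Δ y (evp (resw w (OS S y))) →
        (∀ z : V, -(2 * Δ) < z.1 → z.1 < 2 * Δ → (z +ᵥ y ∈ c.base p' q' ↔ z ∈ S)) →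
        ind (LoS Δ y) u = ind (Lo y) (evp (resw w (OS S y))) := by
      intro S hc hS
      rw [hR]
      refine ind_restrict hc ?_
      rintro ω ⟨z, a1, a2, e⟩
      have hω : ω ∈ c.strip (p - Δ) (p + Δ) :=
        ⟨p + z.1, by rw [e]; exact c.shift z hy, by omega, by omega⟩
      rw [h4 ω hω]
      refine evp_resw_congr hρ hok hr ω (fun v hv => ?_)
      rw [e, ← add_vadd, mem_OS]
      unfold Bd at hv
      refine hS _ ?_ ?_ <;> simp only [Prod.fst_add] <;> omega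
    rcases hpq with rfl | rfl
    · rw [main {z | 0 ≤ z.1} ((col_right hρ hok hr h1 0 y).mono (by simpa using hD.le)) ?_]
      · exact h0 y
      · intro z a1 a2
        have hz : c.rep (z +ᵥ y) (p' + z.1) := c.shift z hy
        constructor
        · rintro ⟨s, b1, b2, b3⟩
          by_contra b4
          simp only [Set.mem_ofPred_eq] at b4
          have := c.eq hz b1 (by omega) (by omega)
          omega
        · intro b1
          simp only [Set.mem_ofPred_eq] at b1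
          exact ⟨_, hz, by omega, by omega⟩
    · rw [main {z | z.1 < 0} ((col_left hρ hok hr h1 0 y).mono (by simpa using hD.le)) ?_]
      · have e1 := ind_right_left hρ hok hr h1 (s := -(2 * (2 * ρ * w.length))) (K := 0)
          (by omega) y
        have e2 := flux_vadd_eq hρ hok hr h1 (-(2 * (2 * ρ * w.length)), 0) y
        rw [h0] at e2
        simp only at e2
        omega
      · intro z a1 a2
        have hz : c.rep (z +ᵥ y) (q' + z.1) := c.shift z hy
        constructor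
        · rintro ⟨s, b1, b2, b3⟩
          by_contra b4
          simp only [Set.mem_ofPred_eq] at b4
          have := c.eq hz b1 (by omega) (by omega)
          omega
        · intro b1
          simp only [Set.mem_ofPred_eq] at b1
          exact ⟨_, hz, by omega, by omega⟩

end Crest.Agent.R189
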