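import Mathlib

/-! # Row 189: an abstract "quantum logic" with a forcing calculus -/

set_option autoImplicit false
set_option linter.unusedSectionVars false

namespace Crest.Agent.R189

/-- An orthomodular-type structure with a compatibility relation `C`. -/
class QL (Q : Type) extends PartialOrder Q, BoundedOrder Q where
  neg : Q → Q
  C : Q → Q → Prop
  meet : Q → Q → Q
  negneg : ∀ a, neg (neg a) = a
  neg_anti : ∀ {a b}, a ≤ b → neg b ≤ neg a
  C_symm : ∀ {a b}, C a b → C b a
  C_neg : ∀ {a b}, C a b → C a (neg b)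
  C_of_le : ∀ {a b}, a ≤ b → C a b
  meet_le_left : ∀ {a b}, C a b → meet a b ≤ a
  meet_le_right : ∀ {a b}, C a b → meet a b ≤ b
  le_meet : ∀ {a b c}, C a b → c ≤ a → c ≤ b → c ≤ meet a b
  C_meet : ∀ {a b c}, C a b → C a c → C b c → C (meet a b) c
  le_bot_of : ∀ {a b}, a ≤ b → a ≤ neg b → a ≤ ⊥
  split : ∀ {a b g}, C a b → meet a b ≤ g → meet a (neg b) ≤ g → a ≤ g

namespace QL
variable {Q : Type} [QL Q]

theorem le_neg_comm {a b : Q} (h : a ≤ neg b) : b ≤ neg a := by
  have := neg_anti h; rwa [negneg] at this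

theorem neg_le_comm {a b : Q} (h : neg a ≤ b) : neg b ≤ a := by
  have := neg_anti h; rwa [negneg] at this

theorem C_refl (a : Q) : C a a := C_of_le le_rfl
theorem C_neg_left {a b : Q} (h : C a b) : C (neg a) b := C_symm (C_neg (C_symm h))
theorem C_of_neg {a b : Q} (h : C a (neg b)) : C a b := by
  have := C_neg h; rwa [negneg] at this
theorem C_of_neg_left {a b : Q} (h : C (neg a) b) : C a b := C_symm (C_of_neg (C_symm h))
theorem C_of_ge {a b : Q} (h : b ≤ a) : C a b := C_symm (C_of_le h)
theorem C_of_orth {a b : Q} (h : a ≤ neg b) : C a b := C_of_neg (C_of_le h)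
theorem C_top (a : Q) : C a ⊤ := C_of_le le_top
theorem C_top_left (a : Q) : C ⊤ a := C_symm (C_top a)
theorem C_bot_left (a : Q) : C ⊥ a := C_of_le bot_le
theorem C_meet_right {a b c : Q} (h1 : C a b) (h2 : C c a) (h3 : C c b) : C c (meet a b) :=
  C_symm (C_meet h1 (C_symm h2) (C_symm h3))
theorem C_of_decide {z a : Q} (h : z ≤ a ∨ z ≤ neg a) : C z a :=
  h.elim C_of_le C_of_orth

theorem neg_top : neg (⊤ : Q) = ⊥ :=
  le_antisymm (le_bot_of le_top le_rfl) bot_le
theorem neg_bot : neg (⊥ : Q) = ⊤ := by rw [← neg_top, negneg]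

theorem le_meet_iff {a b c : Q} (h : C a b) : c ≤ meet a b ↔ c ≤ a ∧ c ≤ b :=
  ⟨fun hc => ⟨hc.trans (meet_le_left h), hc.trans (meet_le_right h)⟩,
    fun hc => le_meet h hc.1 hc.2⟩

theorem meet_comm {a b : Q} (h : C a b) : meet a b = meet b a :=
  le_antisymm (le_meet (C_symm h) (meet_le_right h) (meet_le_left h))
    (le_meet h (meet_le_right (C_symm h)) (meet_le_left (C_symm h)))

theorem meet_eq_left {a b : Q} (h : a ≤ b) : meet a b = a :=
  le_antisymm (meet_le_left (C_of_le h)) (le_meet (C_of_le h) le_rfl h)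

theorem meet_eq_right {a b : Q} (h : b ≤ a) : meet a b = b :=
  le_antisymm (meet_le_right (C_of_ge h)) (le_meet (C_of_ge h) h le_rfl)

theorem top_meet (a : Q) : meet ⊤ a = a := meet_eq_right le_top

/-- If `z` is compatible with `a` and `z ∧ a` vanishes then `z ≤ ¬ a`. -/
theorem le_neg_of_meet {z a : Q} (h : C z a) (h0 : meet z a ≤ ⊥) : z ≤ neg a :=
  split h (h0.trans bot_le) (meet_le_right (C_neg h))

/-- below `κ`, being under `κ ∧ ¬(κ ∧ a)` is being under `¬ a`. -/
theorem le_neg_of_le_neg_meet {κ z a : Q} (h : C κ a) (hz : z ≤ κ) (h1 : z ≤ neg (meet κ a)) :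
    z ≤ neg a := by
  have hc : C κ (neg (meet κ a)) := C_neg (C_of_ge (meet_le_left h))
  have hw : meet κ (neg (meet κ a)) ≤ neg a := by
    have hca : C (meet κ (neg (meet κ a))) a :=
      C_meet hc h (C_neg_left (C_of_le (meet_le_right h)))
    refine le_neg_of_meet hca ?_
    refine le_bot_of (b := meet κ a) (le_meet h ((meet_le_left hca).trans (meet_le_left hc))
      (meet_le_right hca)) ((meet_le_left hca).trans (meet_le_right hc))
  exact (le_meet hc hz h1).trans hw

/-- joins of finitely many pairwise compatible elements -/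
theorem exists_join {I : Type} (s : Finset I) (f : I → Q)
    (h : ∀ i ∈ s, ∀ j ∈ s, C (f i) (f j)) :
    ∃ v : Q, (∀ i ∈ s, f i ≤ v) ∧ (∀ g, (∀ i ∈ s, f i ≤ g) → v ≤ g) ∧
      (∀ b, (∀ i ∈ s, C b (f i)) → C b v) := by
  classical
  induction s using Finset.induction_on with
  | empty => exact ⟨⊥, by simp, fun g _ => bot_le, fun b _ => C_symm (C_bot_left b)⟩
  | insert a s ha ih =>
    obtain ⟨v, h1, h2, h3⟩ := ih (fun i hi j hj =>
      h i (Finset.mem_insert_of_mem hi) j (Finset.mem_insert_of_mem hj))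
    have hc : C (f a) v := h3 _ (fun i hi =>
      h a (Finset.mem_insert_self _ _) i (Finset.mem_insert_of_mem hi))
    have hc' : C (neg (f a)) (neg v) := C_neg (C_neg_left hc)
    refine ⟨neg (meet (neg (f a)) (neg v)), ?_, ?_, ?_⟩
    · intro i hi
      rcases Finset.mem_insert.1 hi with rfl | hi
      · exact le_neg_comm (meet_le_left hc')
      · exact (h1 i hi).trans (le_neg_comm (meet_le_right hc'))
    · intro g hg
      refine neg_le_comm (le_meet hc' (neg_anti (hg a (Finset.mem_insert_self _ _))) (neg_anti ?_))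
      exact h2 g (fun i hi => hg i (Finset.mem_insert_of_mem hi))
    · intro b hb
      refine C_neg (C_meet_right hc' (C_neg (hb a (Finset.mem_insert_self _ _))) (C_neg ?_))
      exact h3 b (fun i hi => hb i (Finset.mem_insert_of_mem hi))

/-- `κ` is the join of the finite pairwise compatible family `k`. -/
structure Cover {I : Type} (κ : Q) (k : I → Q) : Prop where
  fin : Finite I
  le : ∀ i, k i ≤ κ
  comm : ∀ i j, C (k i) (k j)
  lub : ∀ g, (∀ i, k i ≤ g) → κ ≤ g

theorem Cover.C_of {I : Type} {κ : Q} {k : I → Q} (h : Cover κ k) {b : Q}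
    (hb : ∀ i, C b (k i)) : C b κ := by
  have := h.fin
  have := Fintype.ofFinite I
  obtain ⟨v, h1, h2, h3⟩ := exists_join Finset.univ k (fun i _ j _ => h.comm i j)
  have : v = κ := le_antisymm (h2 κ (fun i _ => h.le i)) (h.lub v (fun i => h1 i (by simp)))
  rw [← this]; exact h3 b (fun i _ => hb i)

/-- Splitting an element along a cover. -/
theorem Cover.le_of {I : Type} {κ : Q} {k : I → Q} (h : Cover κ k) {z g : Q} (hz : z ≤ κ)
    (hc : ∀ i, C z (k i)) (hg : ∀ i, meet z (k i) ≤ g) : z ≤ g := by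
  classical
  have := h.fin
  have := Fintype.ofFinite I
  have key : ∀ s : Finset I, ∀ w : Q, w ≤ z → (∀ i, C w (k i)) →
      (∀ i, i ∉ s → w ≤ neg (k i)) → w ≤ g := by
    intro s
    induction s using Finset.induction_on with
    | empty =>
      intro w hw _ hn
      have h1 : κ ≤ neg w := h.lub _ (fun i => le_neg_comm (hn i (by simp)))
      exact (le_bot_of le_rfl ((hw.trans hz).trans h1)).trans bot_le
    | insert a s ha ih =>
      intro w hw hcw hn
      refine split (hcw a) ?_ ?_
      · refine le_trans (le_meet (hc a) ((meet_le_left (hcw a)).trans hw) (meet_le_right (hcw a))) (hg a)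
      · have hc1 : C w (neg (k a)) := C_neg (hcw a)
        refine ih _ ((meet_le_left hc1).trans hw) (fun i => ?_) (fun i hi => ?_)
        · exact C_meet hc1 (hcw i) (C_neg_left (h.comm a i))
        · by_cases hia : i = a
          · subst hia; exact meet_le_right hc1
          · exact (meet_le_left hc1).trans (hn i (by simp [hia, hi]))
  exact key Finset.univ z le_rfl hc (by simp)

/-- Restricting a cover to a compatible element below. -/
theorem Cover.restrict {I : Type} {κ : Q} {k : I → Q} (h : Cover κ k) {z : Q} (hz : z ≤ κ)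
    (hc : ∀ i, C z (k i)) : Cover z (fun i => meet z (k i)) where
  fin := h.fin
  le i := meet_le_left (hc i)
  comm i j := C_meet (hc i) (C_of_ge (meet_le_left (hc j)))
    (C_meet_right (hc j) (C_symm (hc i)) (h.comm i j))
  lub _ hg := h.le_of hz hc hg

/-- If every member of a cover of `κ` decides `a`, then `κ` is compatible with `a`, and
anything compatible with all members is compatible with `κ ∧ a`. -/
theorem Cover.C_of_decide {I : Type} {κ : Q} {k : I → Q} (h : Cover κ k) {a : Q}
    (ha : ∀ i, k i ≤ a ∨ k i ≤ neg a) :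
    C κ a ∧ ∀ y, (∀ i, C y (k i)) → C y (meet κ a) := by
  have h0 : C κ a := C_symm (h.C_of (fun i => C_symm (QL.C_of_decide (ha i))))
  refine ⟨h0, fun y hy => ?_⟩
  have hca : ∀ i, C (meet κ a) (k i) := fun i =>
    C_meet h0 (C_of_ge (h.le i)) (C_symm (QL.C_of_decide (ha i)))
  have h1 := h.restrict (meet_le_left h0) hca
  refine h1.C_of (fun i => ?_)
  rcases ha i with h2 | h2
  · rw [meet_eq_right (le_meet h0 (h.le i) h2)]; exact hy i
  · have : meet (meet κ a) (k i) ≤ ⊥ :=
      le_bot_of (b := a) ((meet_le_left (hca i)).trans (meet_le_right h0))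
        ((meet_le_right (hca i)).trans h2)
    rw [le_bot_iff.1 this]; exact C_symm (C_bot_left y)

end QL

open QL

/-- A finite partition of unity indexed by `α`. -/
structure Obs (Q : Type) [QL Q] (α : Type) where
  e : α → Q
  fin : Finite α
  orth : ∀ {a b}, a ≠ b → e a ≤ neg (e b)
  full : ∀ g, (∀ a, e a ≤ g) → ⊤ ≤ g

namespace Obs
variable {Q : Type} [QL Q] {α β : Type}

theorem comm (o : Obs Q α) (a b : α) : C (o.e a) (o.e b) := by
  by_cases h : a = b
  · subst h; exact C_refl _
  · exact C_of_orth (o.orth h)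

theorem cover (o : Obs Q α) : Cover ⊤ o.e := ⟨o.fin, fun _ => le_top, o.comm, o.full⟩

theorem exists_ev (o : Obs Q α) (p : α → Prop) :
    ∃ v : Q, (∀ a, p a → o.e a ≤ v) ∧ (∀ g, (∀ a, p a → o.e a ≤ g) → v ≤ g) ∧
      (∀ b, (∀ a, p a → C b (o.e a)) → C b v) := by
  classical
  have := o.fin
  have := Fintype.ofFinite α
  obtain ⟨v, h1, h2, h3⟩ := exists_join (Finset.univ.filter p) o.e (fun i _ j _ => o.comm i j)
  exact ⟨v, fun a ha => h1 a (by simp [ha]), fun g hg => h2 g (fun a ha => hg a (by simpa using ha)),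
    fun b hb => h3 b (fun a ha => hb a (by simpa using ha))⟩

/-- The event "the observable satisfies `p`". -/
noncomputable def ev (o : Obs Q α) (p : α → Prop) : Q := (o.exists_ev p).choose

theorem le_ev (o : Obs Q α) {p : α → Prop} {a : α} (h : p a) : o.e a ≤ o.ev p :=
  (o.exists_ev p).choose_spec.1 a h
theorem ev_le (o : Obs Q α) {p : α → Prop} {g : Q} (h : ∀ a, p a → o.e a ≤ g) : o.ev p ≤ g :=
  (o.exists_ev p).choose_spec.2.1 g h
theorem C_ev (o : Obs Q α) {p : α → Prop} {b : Q} (h : ∀ a, p a → C b (o.e a)) : C b (o.ev p) :=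
  (o.exists_ev p).choose_spec.2.2 b h

theorem ev_le_neg (o : Obs Q α) {p : α → Prop} {a : α} (h : ¬ p a) : o.ev p ≤ neg (o.e a) :=
  o.ev_le (fun _ hb => o.orth (fun hab => h (hab ▸ hb)))

theorem C_ev_e (o : Obs Q α) (p : α → Prop) (a : α) : C (o.ev p) (o.e a) :=
  C_symm (o.C_ev (fun b _ => o.comm a b))

theorem C_ev_ev (o : Obs Q α) (p q : α → Prop) : C (o.ev p) (o.ev q) :=
  o.C_ev (fun a _ => o.C_ev_e p a)

theorem ev_eq (o : Obs Q α) (a : α) : o.ev (fun b => b = a) = o.e a :=
  le_antisymm (o.ev_le (fun _ hb => hb ▸ le_rfl)) (o.le_ev rfl)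

/-- Splitting an element along an observable. -/
theorem split (o : Obs Q α) {z g : Q} (hc : ∀ a, C z (o.e a)) (hg : ∀ a, meet z (o.e a) ≤ g) :
    z ≤ g := o.cover.le_of le_top hc hg

theorem neg_ev (o : Obs Q α) (p : α → Prop) : neg (o.ev p) = o.ev (fun a => ¬ p a) := by
  refine le_antisymm ?_ (o.ev_le (fun a ha => le_neg_comm (o.ev_le_neg ha)))
  refine o.split (fun a => C_neg_left (o.C_ev_e p a)) (fun a => ?_)
  have hc := C_neg_left (o.C_ev_e p a)
  by_cases ha : p a
  · exact (le_bot_of (b := o.ev p) ((meet_le_right hc).trans (o.le_ev ha))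
      (meet_le_left hc)).trans bot_le
  · exact (meet_le_right hc).trans (o.le_ev (p := fun a => ¬ p a) ha)

end Obs

/-- `z` forces the observable `o` to satisfy `p`. -/
def Frc {Q : Type} [QL Q] {α : Type} (z : Q) (o : Obs Q α) (p : α → Prop) : Prop :=
  ∀ a, ¬ p a → z ≤ neg (o.e a)

namespace Frc
variable {Q : Type} [QL Q] {α β : Type} {z w : Q} {o : Obs Q α} {p q r : α → Prop}

theorem iff_le_ev : Frc z o p ↔ z ≤ o.ev p := by
  constructor
  · intro h
    have h1 : o.ev (fun a => ¬ p a) ≤ neg z := o.ev_le (fun a ha => le_neg_comm (h a ha))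
    rw [← o.neg_ev] at h1
    have := neg_anti h1
    rwa [negneg, negneg] at this
  · intro h a ha
    exact h.trans (o.ev_le_neg ha)

theorem iff_le_e {a : α} : Frc z o (fun b => b = a) ↔ z ≤ o.e a := by
  rw [iff_le_ev, o.ev_eq]

theorem not_iff_le : Frc z o (fun a => ¬ p a) ↔ z ≤ neg (o.ev p) := by
  rw [iff_le_ev, o.neg_ev]

theorem of_le (h : Frc z o p) (hw : w ≤ z) : Frc w o p := fun a ha => hw.trans (h a ha)
theorem top (h : Frc ⊤ o p) : Frc z o p := h.of_le le_top
theorem mono (h : Frc z o p) (hpq : ∀ a, p a → q a) : Frc z o q :=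
  fun a ha => h a (fun hp => ha (hpq a hp))
theorem and (h1 : Frc z o p) (h2 : Frc z o q) : Frc z o (fun a => p a ∧ q a) := by
  intro a ha
  by_cases hp : p a
  · exact h2 a (fun hq => ha ⟨hp, hq⟩)
  · exact h1 a hp
theorem mono₂ (h1 : Frc z o p) (h2 : Frc z o q) (h : ∀ a, p a → q a → r a) : Frc z o r :=
  (h1.and h2).mono (fun a ha => h a ha.1 ha.2)
theorem of_forall (h : ∀ a, p a) : Frc z o p := fun a ha => absurd (h a) ha
theorem le_bot (h : Frc z o (fun _ => False)) : z ≤ ⊥ := by
  have h1 : (⊤ : Q) ≤ neg z := o.full _ (fun a => le_neg_comm (h a id))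
  have := le_neg_comm h1
  rwa [neg_top] at this
theorem of_le_bot (h : z ≤ ⊥) : Frc z o p := fun _ _ => h.trans bot_le
theorem forall_finite {I : Type} {P : I → α → Prop} (h : ∀ i, Frc z o (P i)) :
    Frc z o (fun a => ∀ i, P i a) := by
  intro a ha
  obtain ⟨i, hi⟩ := not_forall.1 ha
  exact h i a hi
theorem self (o : Obs Q α) (a : α) : Frc (o.e a) o (fun b => b = a) := iff_le_e.2 le_rfl
theorem decide {a : α} (h : Frc z o (fun b => b = a)) (b : α) :
    z ≤ o.e b ∨ z ≤ neg (o.e b) := by
  by_cases hb : b = a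
  · subst hb; exact Or.inl (iff_le_e.1 h)
  · exact Or.inr (h b hb)
theorem C_of_eq {a : α} (h : Frc z o (fun b => b = a)) (b : α) : C z (o.e b) :=
  C_of_decide (h.decide b)

/-- transfer of forcing along a relation whose violations are orthogonal -/
theorem transfer {o' : Obs Q β} {R : α → β → Prop} {p' : β → Prop}
    (hR : ∀ a b, ¬ R a b → o.e a ≤ neg (o'.e b)) (h : Frc z o p)
    (hp : ∀ a b, R a b → p a → p' b) : Frc z o' p' := by
  intro b hb
  refine (iff_le_ev.1 h).trans (o.ev_le (fun a ha => hR a b (fun hr => hb (hp a b hr ha))))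

/-- case split along an observable `o'` compatible with `z` -/
theorem cases {o' : Obs Q β} (hc : ∀ b, C z (o'.e b))
    (h : ∀ b w, w ≤ z → Frc w o' (fun c => c = b) → w = meet z (o'.e b) → Frc w o p) :
    Frc z o p := by
  intro a ha
  exact o'.split hc (fun b => h b _ (meet_le_left (hc b)) (iff_le_e.2 (meet_le_right (hc b))) rfl a ha)

theorem of_cover {I : Type} {k : I → Q} (hk : Cover z k) (h : ∀ i, Frc (k i) o p) : Frc z o p :=
  fun a ha => hk.lub _ (fun i => h i a ha)

end Frc

namespace Obs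
variable {Q : Type} [QL Q] {α β : Type}

/-- push-forward of an observable -/
noncomputable def map (o : Obs Q α) [Finite β] (f : α → β) : Obs Q β where
  e b := o.ev (fun a => f a = b)
  fin := inferInstance
  orth := by
    intro b c h
    rw [o.neg_ev]
    exact o.ev_le (fun a ha => o.le_ev (p := fun a => ¬ f a = c) (fun hc => h (ha.symm.trans hc)))
  full g hg := o.full g (fun a => (o.le_ev (p := fun a' => f a' = f a) rfl).trans (hg (f a)))

theorem map_e (o : Obs Q α) [Finite β] (f : α → β) (b : β) :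
    (o.map f).e b = o.ev (fun a => f a = b) := rfl

theorem frc_map (o : Obs Q α) [Finite β] (f : α → β) {z : Q} {p : β → Prop} :
    Frc z (o.map f) p ↔ Frc z o (fun a => p (f a)) := by
  constructor
  · intro h a ha
    exact (h _ ha).trans (neg_anti (o.le_ev (p := fun a' => f a' = f a) rfl))
  · intro h b hb
    rw [map_e, ← Frc.not_iff_le]
    exact h.mono (fun a ha hab => hb (hab ▸ ha))

theorem ev_congr {o : Obs Q α} {o' : Obs Q β} {p : α → Prop} {p' : β → Prop}
    (h : ∀ z, Frc z o p ↔ Frc z o' p') : o.ev p = o'.ev p' :=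
  le_antisymm (Frc.iff_le_ev.1 ((h _).1 (Frc.iff_le_ev.2 le_rfl)))
    (Frc.iff_le_ev.1 ((h _).2 (Frc.iff_le_ev.2 le_rfl)))

theorem ev_map (o : Obs Q α) [Finite β] (f : α → β) (p : β → Prop) :
    (o.map f).ev p = o.ev (fun a => p (f a)) := ev_congr (fun _ => o.frc_map f)

/-- transport of compatibility with `κ` along an equivalence of events below `κ` -/
theorem C_transport {κ : Q} {o : Obs Q α} {o' : Obs Q β} {p : α → Prop} {p' : β → Prop}
    (hc : C κ (o.ev p)) (h1 : ∀ z, z ≤ κ → Frc z o p → Frc z o' p')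
    (h2 : ∀ z, z ≤ κ → Frc z o (fun a => ¬ p a) → Frc z o' (fun b => ¬ p' b)) :
    C κ (o'.ev p') := by
  have hcov : Cover κ (fun b : Bool => if b then meet κ (o.ev p) else meet κ (neg (o.ev p))) := by
    have horth : meet κ (o.ev p) ≤ neg (meet κ (neg (o.ev p))) :=
      (meet_le_right hc).trans (le_neg_comm (meet_le_right (C_neg hc)))
    refine ⟨inferInstance, ?_, ?_, ?_⟩
    · rintro (_ | _)
      · exact meet_le_left (C_neg hc)
      · exact meet_le_left hc
    · rintro (_ | _) (_ | _)
      · exact C_refl _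
      · exact C_symm (C_of_orth horth)
      · exact C_of_orth horth
      · exact C_refl _
    · intro g hg
      exact QL.split hc (hg true) (hg false)
  refine (hcov.C_of_decide ?_).1
  rintro (_ | _)
  · right
    exact Frc.not_iff_le.1 (h2 _ (meet_le_left (C_neg hc))
      (Frc.not_iff_le.2 (meet_le_right (C_neg hc))))
  · left
    exact Frc.iff_le_ev.1 (h1 _ (meet_le_left hc) (Frc.iff_le_ev.2 (meet_le_right hc)))

/-- gluing compatibility along a partition of unity -/
theorem C_glue {I : Type} (k : Obs Q I) {a b : Q} (ha : ∀ i, C (k.e i) a) (hb : ∀ i, C (k.e i) b)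
    (hab : ∀ i, C (meet (k.e i) a) (meet (k.e i) b)) : C a b := by
  have ca := k.cover.restrict (z := a) le_top (fun i => C_symm (ha i))
  have cb := k.cover.restrict (z := b) le_top (fun i => C_symm (hb i))
  refine cb.C_of (fun j => C_symm (ca.C_of (fun i => ?_)))
  by_cases hij : j = i
  · subst hij
    rw [meet_comm (C_symm (ha j)), meet_comm (C_symm (hb j))]; exact C_symm (hab j)
  · refine C_of_orth ((meet_le_right (C_symm (hb j))).trans ((k.orth hij).trans (neg_anti ?_)))
    exact meet_le_right (C_symm (ha i))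

end Obs

/-- The part of `Q` below `κ`. -/
def Below {Q : Type} [QL Q] (κ : Q) : Type := {a : Q // a ≤ κ}

namespace Below
variable {Q : Type} [QL Q] {κ : Q}

theorem C_neg_val (a : Below κ) : C κ (neg a.1) := C_neg (C_of_ge a.2)

open Classical in
noncomputable instance : QL (Below κ) where
  toPartialOrder := inferInstanceAs (PartialOrder {a : Q // a ≤ κ})
  top := ⟨κ, le_rfl⟩
  bot := ⟨⊥, bot_le⟩
  le_top a := a.2
  bot_le a := (bot_le : ⊥ ≤ a.1)
  neg a := ⟨meet κ (neg a.1), meet_le_left a.C_neg_val⟩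
  C a b := C a.1 b.1
  meet a b := if h : C a.1 b.1 then ⟨meet a.1 b.1, (meet_le_left h).trans a.2⟩ else a
  negneg a := by
    apply Subtype.ext
    have hc : C κ (neg (meet κ (neg a.1))) := C_neg (C_of_ge (meet_le_left a.C_neg_val))
    refine le_antisymm ?_ (le_meet hc a.2 (le_neg_comm (meet_le_right a.C_neg_val)))
    have := le_neg_of_le_neg_meet a.C_neg_val (meet_le_left hc) (meet_le_right hc)
    rwa [negneg] at this
  neg_anti {a b} h := le_meet a.C_neg_val (meet_le_left b.C_neg_val)
    ((meet_le_right b.C_neg_val).trans (neg_anti h))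
  C_symm h := C_symm h
  C_neg {a b} h := C_meet_right b.C_neg_val (C_of_le a.2) (C_neg h)
  C_of_le h := C_of_le h
  meet_le_left {a b} h := by
    change (dite _ _ _ : Below κ).1 ≤ a.1
    rw [dif_pos h]; exact meet_le_left h
  meet_le_right {a b} h := by
    change (dite _ _ _ : Below κ).1 ≤ b.1
    rw [dif_pos h]; exact meet_le_right h
  le_meet {a b c} h h1 h2 := by
    change c.1 ≤ (dite _ _ _ : Below κ).1
    rw [dif_pos h]; exact le_meet h h1 h2
  C_meet {a b c} h h1 h2 := by
    rw [dif_pos h]; exact C_meet h h1 h2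
  le_bot_of {a b} h1 h2 := le_bot_of (b := b.1) h1 (le_trans h2 (meet_le_right b.C_neg_val))
  split {a b g} h h1 h2 := by
    have h' : C a.1 (meet κ (neg b.1)) := C_meet_right b.C_neg_val (C_of_le a.2) (C_neg h)
    change (dite _ _ _ : Below κ).1 ≤ g.1 at h1 h2
    rw [dif_pos h] at h1
    rw [dif_pos h'] at h2
    refine QL.split h h1 (le_trans ?_ h2)
    exact le_meet h' (meet_le_left (C_neg h))
      (le_meet b.C_neg_val ((meet_le_left (C_neg h)).trans a.2) (meet_le_right (C_neg h)))

theorem le_def {a b : Below κ} : a ≤ b ↔ a.1 ≤ b.1 := Iff.rfl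
theorem C_def {a b : Below κ} : C a b ↔ C a.1 b.1 := Iff.rfl
theorem top_val : (⊤ : Below κ).1 = κ := rfl
theorem bot_val : (⊥ : Below κ).1 = ⊥ := rfl
theorem neg_val (a : Below κ) : (neg a).1 = meet κ (neg a.1) := rfl
theorem meet_val {a b : Below κ} (h : C a b) : (meet a b).1 = meet a.1 b.1 :=
  le_antisymm (le_meet (C_def.1 h) (meet_le_left h) (meet_le_right h))
    (le_meet (c := ⟨meet a.1 b.1, (meet_le_left (C_def.1 h)).trans a.2⟩) h
      (meet_le_left (C_def.1 h)) (meet_le_right (C_def.1 h)))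
theorem le_neg_iff {a b : Below κ} : a ≤ neg b ↔ a.1 ≤ neg b.1 :=
  ⟨fun h => le_trans h (meet_le_right b.C_neg_val), fun h => le_meet b.C_neg_val a.2 h⟩

/-- A cover of `⊤` in the sub-logic is a cover of `κ`. -/
theorem cover_val {I : Type} {k : I → Below κ} (h : Cover ⊤ k) : Cover κ (fun i => (k i).1) := by
  have := h.fin
  have := Fintype.ofFinite I
  obtain ⟨v, h1, h2, _⟩ := exists_join Finset.univ (fun i => (k i).1) (fun i _ j _ => h.comm i j)
  refine ⟨h.fin, fun i => (k i).2, h.comm, fun g hg => ?_⟩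
  have hv : v ≤ κ := h2 κ (fun i _ => (k i).2)
  have : (⊤ : Below κ) ≤ (⟨v, hv⟩ : Below κ) := h.lub _ (fun i => h1 i (by simp))
  exact le_trans this (h2 g (fun i _ => hg i))

end Below

namespace Obs
variable {Q : Type} [QL Q] {α : Type} {κ : Q}

/-- restriction of an observable to the sub-logic below a compatible element -/
noncomputable def res (o : Obs Q α) (κ : Q) (h : ∀ a, C κ (o.e a)) : Obs (Below κ) α where
  e a := ⟨meet κ (o.e a), meet_le_left (h a)⟩
  fin := o.fin
  orth {a b} hab := Below.le_neg_iff.2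
    ((meet_le_right (h a)).trans ((o.orth hab).trans (neg_anti (meet_le_right (h b)))))
  full g hg := o.split (z := κ) (g := g.1) h hg

theorem res_e (o : Obs Q α) (h : ∀ a, C κ (o.e a)) (a : α) :
    ((o.res κ h).e a).1 = meet κ (o.e a) := rfl

theorem frc_res (o : Obs Q α) (h : ∀ a, C κ (o.e a)) {z : Below κ} {p : α → Prop} :
    Frc z (o.res κ h) p ↔ Frc z.1 o p := by
  constructor
  · intro hz a ha
    exact le_neg_of_le_neg_meet (h a) z.2 (Below.le_neg_iff.1 (hz a ha))
  · intro hz a ha
    exact Below.le_neg_iff.2 ((hz a ha).trans (neg_anti (meet_le_right (h a))))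

end Obs

/-- Classical logic. -/
instance : QL Prop where
  neg a := ¬ a
  C _ _ := True
  meet a b := a ∧ b
  negneg a := by simp
  neg_anti h hb ha := hb (h ha)
  C_symm _ := trivial
  C_neg _ := trivial
  C_of_le _ := trivial
  meet_le_left _ h := h.1
  meet_le_right _ h := h.2
  le_meet _ h1 h2 h := ⟨h1 h, h2 h⟩
  C_meet _ _ _ := trivial
  le_bot_of h1 h2 h := h2 h (h1 h)
  split {a b g} _ h1 h2 h := by
    by_cases hb : b
    · exact h1 ⟨h, hb⟩
    · exact h2 ⟨h, hb⟩

/-- a classical value as an observable -/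
def Obs.const {α : Type} [Finite α] (x : α) : Obs Prop α where
  e a := x = a
  fin := inferInstance
  orth h h1 h2 := h (h1.symm.trans h2)
  full _ hg _ := hg x rfl

theorem frc_const {α : Type} [Finite α] (x : α) {z : Prop} {p : α → Prop} :
    Frc z (Obs.const x) p ↔ (z → p x) := by
  constructor
  · intro h hz
    by_contra hp
    exact h x hp hz rfl
  · intro h a ha hz (hx : x = a)
    exact ha (hx ▸ h hz)

end Crest.Agent.R189
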