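import Crest.Agent.R189.Sys
import Crest.Agent.R189.QL

/-! # Row 189: the quantum logic of local idempotent systems in a group -/

set_option autoImplicit false
set_option linter.unusedSectionVars false

namespace Crest.Agent.R189
open Equiv QL
open scoped commutatorElement

/-- a global system `one` and commuting "local" subgroups -/
structure Env (ι Γ : Type) [DecidableEq ι] [Fintype ι] [Group Γ] where
  one : AA ι →* Γ
  H : Finset ι → Subgroup Γ
  card : 40 ≤ Fintype.card ι
  comm : ∀ {S T : Finset ι} {g h : Γ}, Disjoint S T → g ∈ H S → h ∈ H T → Commute g h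
  one_mem : ∀ {S : Finset ι} {i j k : ι}, i ∈ S → j ∈ S → k ∈ S → 5 ≤ S.card →
    one (AA.x i j k) ∈ H S

variable {ι Γ : Type} [DecidableEq ι] [Fintype ι] [Group Γ]

/-- a local system which commutes with its complement -/
@[ext] structure Idem (E : Env ι Γ) where
  φ : AA ι →* Γ
  comm : ∀ s t, Commute (φ s) ((φ t)⁻¹ * E.one t)
  loc : ∀ {S : Finset ι} {i j k : ι}, i ∈ S → j ∈ S → k ∈ S → 5 ≤ S.card → φ (AA.x i j k) ∈ E.H S

namespace Idem
variable {E : Env ι Γ}

def le (a b : Idem E) : Prop := ∀ s t, Commute (a.φ s) ((b.φ t)⁻¹ * E.one t)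

def top : Idem E where
  φ := E.one
  comm s t := by simp
  loc := E.one_mem

def bot : Idem E where
  φ := 1
  comm s t := by simp
  loc _ _ _ _ := by simp

theorem quo_mul {f g : AA ι →* Γ} (h : ∀ s t, Commute (f s) ((f t)⁻¹ * g t)) (s t : AA ι) :
    (f (s * t))⁻¹ * g (s * t) = ((f s)⁻¹ * g s) * ((f t)⁻¹ * g t) := by
  have := (h t s).inv_left.eq
  rw [map_mul, map_mul]
  calc (f s * f t)⁻¹ * (g s * g t) = ((f t)⁻¹ * ((f s)⁻¹ * g s)) * g t := by group
    _ = _ := by rw [this]; group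

/-- the quotient of two homomorphisms -/
def quo {f g : AA ι →* Γ} (h : ∀ s t, Commute (f s) ((f t)⁻¹ * g t)) : AA ι →* Γ :=
  MonoidHom.mk' (fun s => (f s)⁻¹ * g s) (quo_mul h)

theorem negneg_raw (a : Idem E) (t : AA ι) : ((a.φ t)⁻¹ * E.one t)⁻¹ * E.one t = a.φ t := by
  have := (a.comm t t).inv_right.eq
  calc ((a.φ t)⁻¹ * E.one t)⁻¹ * E.one t
      = (((a.φ t)⁻¹ * E.one t)⁻¹ * a.φ t) * ((a.φ t)⁻¹ * E.one t) := by group
    _ = _ := by rw [← this]; group

/-- the complement -/
def neg (a : Idem E) : Idem E where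
  φ := MonoidHom.mk' (fun s => (a.φ s)⁻¹ * E.one s) (by
    intro s t
    exact quo_mul a.comm s t)
  comm := by
    intro s t
    change Commute ((a.φ s)⁻¹ * E.one s) (((a.φ t)⁻¹ * E.one t)⁻¹ * E.one t)
    rw [negneg_raw]
    exact (a.comm t s).symm
  loc := by
    intro S i j k hi hj hk hS
    exact (E.H S).mul_mem ((E.H S).inv_mem (a.loc hi hj hk hS)) (E.one_mem hi hj hk hS)

def C (a b : Idem E) : Prop :=
  ∀ s t r, Commute ⁅a.φ s, b.φ t⁆ ((neg a).φ r) ∧ Commute ⁅a.φ s, b.φ t⁆ ((neg b).φ r)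

theorem neg_apply (a : Idem E) (s : AA ι) : (neg a).φ s = (a.φ s)⁻¹ * E.one s := rfl

theorem neg_neg' (a : Idem E) : neg (neg a) = a :=
  Idem.ext (MonoidHom.ext fun t => negneg_raw a t)

theorem le_def {a b : Idem E} : le a b ↔ ∀ s t, Commute (a.φ s) ((neg b).φ t) := Iff.rfl

theorem le_neg_def {a b : Idem E} : le a (neg b) ↔ ∀ s t, Commute (a.φ s) (b.φ t) := by
  rw [le_def, neg_neg']

theorem comm_neg (a : Idem E) (s t : AA ι) : Commute (a.φ s) ((neg a).φ t) := a.comm s t

theorem one_eq (a : Idem E) (s : AA ι) : E.one s = a.φ s * (neg a).φ s := by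
  rw [neg_apply]; group

theorem conj_one (a : Idem E) {g : Γ} {r : AA ι} (h : Commute g ((neg a).φ r)) :
    E.one r * g * (E.one r)⁻¹ = a.φ r * g * (a.φ r)⁻¹ := by
  rw [one_eq a r]
  calc a.φ r * (neg a).φ r * g * (a.φ r * (neg a).φ r)⁻¹
      = a.φ r * ((neg a).φ r * g) * ((neg a).φ r)⁻¹ * (a.φ r)⁻¹ := by group
    _ = _ := by rw [← h.eq]; group

theorem one_conj (a : Idem E) (r s : AA ι) :
    E.one r * a.φ s * (E.one r)⁻¹ = a.φ (r * s * r⁻¹) := by
  rw [conj_one a (comm_neg a s r), map_mul, map_mul, map_inv]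

theorem commute_of_conj {g x y : Γ} (h : Commute (g * x * g⁻¹) (g * y * g⁻¹)) : Commute x y := by
  have := h.eq
  have e : g * (x * y) * g⁻¹ = g * (y * x) * g⁻¹ := by
    calc g * (x * y) * g⁻¹ = (g * x * g⁻¹) * (g * y * g⁻¹) := by group
      _ = _ := by rw [this]; group
  exact mul_left_cancel (mul_right_cancel e)

theorem commute_commutator {g x y : Γ} (hx : Commute g x) (hy : Commute g y) :
    Commute g ⁅x, y⁆ := by
  rw [commutatorElement_def]
  exact ((hx.mul_right hy).mul_right hx.inv_right).mul_right hy.inv_right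

theorem commutator_mul_left {x y z : Γ} (h : Commute y z) : ⁅x * y, z⁆ = ⁅x, z⁆ := by
  simp only [commutatorElement_def]
  calc x * y * z * (x * y)⁻¹ * z⁻¹ = x * (y * z) * y⁻¹ * x⁻¹ * z⁻¹ := by group
    _ = _ := by rw [h.eq]; group

theorem commutator_mul_right {x y z : Γ} (h : Commute x z) : ⁅x, y * z⁆ = ⁅x, y⁆ := by
  rw [← commutatorElement_inv, commutator_mul_left h.symm, commutatorElement_inv]

theorem commutator_mul_mul {x y u v : Γ} (h1 : Commute x u) (h2 : Commute x v) (h3 : Commute y u)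
    (h4 : Commute y v) : ⁅x * u, y * v⁆ = ⁅x, y⁆ * ⁅u, v⁆ := by
  simp only [commutatorElement_def, mul_inv_rev]
  have e1 : u * (y * v) = y * (u * v) := by rw [← mul_assoc, ← h3.eq, mul_assoc]
  have c1 : Commute x⁻¹ (u * v * u⁻¹ * v⁻¹) :=
    (((h1.mul_right h2).mul_right h1.inv_right).mul_right h2.inv_right).inv_left
  have c2 : Commute y⁻¹ (u * v * u⁻¹ * v⁻¹) :=
    (((h3.mul_right h4).mul_right h3.inv_right).mul_right h4.inv_right).inv_left
  have e2 : x⁻¹ * v⁻¹ = v⁻¹ * x⁻¹ := h2.inv_inv.eq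
  calc x * u * (y * v) * (u⁻¹ * x⁻¹) * (v⁻¹ * y⁻¹)
      = x * (u * (y * v)) * u⁻¹ * (x⁻¹ * v⁻¹) * y⁻¹ := by group
    _ = x * y * ((u * v * u⁻¹ * v⁻¹) * x⁻¹) * y⁻¹ := by rw [e1, e2]; group
    _ = x * y * x⁻¹ * ((u * v * u⁻¹ * v⁻¹) * y⁻¹) := by rw [← c1.eq]; group
    _ = _ := by rw [← c2.eq]; group

theorem inj3 {i j k : ι} (h : D3 i j k) : Function.Injective ![i, j, k] := by
  obtain ⟨h1, h2, h3⟩ := h
  intro a b hab
  fin_cases a <;> fin_cases b <;> simp_all [eq_comm]

/-- induction over the perfect group `AA ι` -/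
theorem comm_induction (E : Env ι Γ) {P : AA ι → Prop} (hc : ∀ s t : AA ι, P ⁅s, t⁆)
    (hm : ∀ s t, P s → P t → P (s * t)) (s : AA ι) : P s := by
  induction s using AA.induction with
  | h1 => simpa using hc 1 1
  | hx i j k hd =>
    obtain ⟨u, hu⟩ := fresh E.card [i, j, k] (by simp)
    obtain ⟨v, hv⟩ := fresh E.card [i, j, k, u] (by simp)
    simp only [List.mem_cons, List.not_mem_nil, or_false, not_or] at hu hv
    rw [AA.isSys.comm hd hu ⟨hv.1, hv.2.1, hv.2.2.1⟩ (Ne.symm hv.2.2.2)]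
    exact hc _ _
  | hm s t hs ht => exact hm s t hs ht

/-- key lemma (uses locality: conjugate the support away) -/
theorem orth {a b c : Idem E} (h1 : le a c) (h2 : le b (neg c)) (s t : AA ι) :
    Commute (a.φ s) (b.φ t) := by
  refine AA.commute_of_gen (fun i j k hd p q r hd' => ?_) s t
  obtain ⟨T, hT1, -, hT⟩ := Finset.exists_subsuperset_card_eq (n := 5)
    (Finset.subset_univ ({p, q, r} : Finset ι)) (Finset.card_le_three.trans (by norm_num))
    (by rw [Finset.card_univ]; have := E.card; omega)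
  obtain ⟨S, hS1, hS⟩ := Finset.exists_subset_card_eq (s := Tᶜ) (n := 5)
    (by rw [Finset.card_compl]; have := E.card; omega)
  obtain ⟨i', hi', j', hj', k', hk', hd''⟩ := Finset.two_lt_card.1 (show 2 < S.card by omega)
  obtain ⟨g, -, hg⟩ := AA.exists_move ![i, j, k] ![i', j', k'] (inj3 hd) (inj3 hd'') Finset.univ
    (by simp) (by simp) (by rw [Finset.card_univ]; have := E.card; omega)
  have e0 : AA.perm g i = i' := hg 0
  have e1 : AA.perm g j = j' := hg 1
  have e2 : AA.perm g k = k' := hg 2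
  refine commute_of_conj (g := c.φ g) ?_
  rw [← conj_one c (le_def.1 h1 _ g), one_conj, AA.conj_x, e0, e1, e2,
    ← (le_neg_def.1 h2 (AA.x p q r) g).eq, mul_inv_cancel_right]
  refine E.comm (S := S) (T := T) ?_ (a.loc hi' hj' hk' hS.ge)
    (b.loc (hT1 (by simp)) (hT1 (by simp)) (hT1 (by simp)) hT.ge)
  exact Finset.disjoint_left.2 fun x hx => Finset.mem_compl.1 (hS1 hx)

theorem neg_anti' {a b : Idem E} (h : le a b) : le (neg b) (neg a) :=
  le_neg_def.2 fun s t => (h t s).symm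

theorem le_trans' {a b c : Idem E} (h1 : le a b) (h2 : le b c) : le a c :=
  fun s t => orth h1 (neg_anti' h2) s t

theorem le_antisymm' {a b : Idem E} (h1 : le a b) (h2 : le b a) : a = b := by
  have e : ∀ t, (a.φ t)⁻¹ * b.φ t = (neg a).φ t * ((neg b).φ t)⁻¹ := fun t => by
    simp only [neg_apply]; group
  have ha : ∀ s t, Commute (a.φ s) ((a.φ t)⁻¹ * b.φ t) := fun s t => by
    rw [e]; exact (comm_neg a s t).mul_right (le_def.1 h1 s t).inv_right
  have hb : ∀ s t, Commute (b.φ s) ((a.φ t)⁻¹ * b.φ t) := fun s t => by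
    rw [e]; exact (le_def.1 h2 s t).mul_right (comm_neg b s t).inv_right
  refine Idem.ext (MonoidHom.ext fun s => ?_)
  have := AA.hom_trivial E.card (quo ha) (fun s t => (ha s t).inv_left.mul_left (hb s t)) s
  exact inv_mul_eq_one.1 this

theorem comm_of_le {n b : Idem E} (h : le n b) (s t : AA ι) : ⁅n.φ s, b.φ t⁆ = n.φ ⁅s, t⁆ := by
  have e := conj_one b (le_def.1 h s⁻¹ t)
  rw [one_conj] at e
  calc ⁅n.φ s, b.φ t⁆ = n.φ s * (b.φ t * n.φ s⁻¹ * (b.φ t)⁻¹) := by
        rw [commutatorElement_def, map_inv]; group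
    _ = _ := by rw [← e, ← map_mul, commutatorElement_def]; congr 1; group

theorem neg_left_of_decomp {a m n : Idem E} (h : ∀ s, a.φ s = m.φ s * n.φ s) (t : AA ι) :
    (neg m).φ t = n.φ t * (neg a).φ t := by
  rw [neg_apply, one_eq a t, h]; group

theorem C_of_decomp {a b m n : Idem E} (hm : le m b) (hn : le n (neg b))
    (h : ∀ s, a.φ s = m.φ s * n.φ s) : C a b := by
  intro s t r
  rw [h s, commutator_mul_left (le_neg_def.1 hn s t), comm_of_le hm]
  refine ⟨?_, le_def.1 hm _ _⟩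
  have : (neg a).φ r = (n.φ r)⁻¹ * (neg m).φ r := by rw [neg_left_of_decomp h]; group
  rw [this]
  exact (orth hm hn _ _).inv_right.mul_right (comm_neg m _ _)

/-- existence of the meet of compatible idempotents, with the full decomposition -/
theorem exists_meet {a b : Idem E} (h : C a b) : ∃ m n : Idem E, le m a ∧ le m b ∧ le n a ∧
    le n (neg b) ∧ (∀ s, a.φ s = m.φ s * n.φ s) ∧ ∀ s t, m.φ ⁅s, t⁆ = ⁅a.φ s, b.φ t⁆ := by
  let W : Subgroup Γ := Subgroup.closure {w | ∃ s t, w = ⁅a.φ s, b.φ t⁆}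
  have hW : ∀ w ∈ W, ∀ r, Commute w ((neg a).φ r) ∧ Commute w ((neg b).φ r) := by
    intro w hw r
    induction hw using Subgroup.closure_induction with
    | mem w hw => obtain ⟨s, t, rfl⟩ := hw; exact h s t r
    | one => exact ⟨Commute.one_left _, Commute.one_left _⟩
    | mul x y _ _ hx hy => exact ⟨hx.1.mul_left hy.1, hx.2.mul_left hy.2⟩
    | inv x _ hx => exact ⟨hx.1.inv_left, hx.2.inv_left⟩
  have hgen : ∀ s t, ⁅a.φ s, b.φ t⁆ ∈ W := fun s t => Subgroup.subset_closure ⟨s, t, rfl⟩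
  have hN : ∀ r, ∀ w ∈ W, E.one r * w * (E.one r)⁻¹ ∈ W := by
    intro r w hw
    induction hw using Subgroup.closure_induction with
    | mem w hw =>
      obtain ⟨s, t, rfl⟩ := hw
      rw [conjugate_commutatorElement, one_conj, one_conj]
      exact hgen _ _
    | one => simp
    | mul x y _ _ hx hy =>
      rw [show E.one r * (x * y) * (E.one r)⁻¹ =
        (E.one r * x * (E.one r)⁻¹) * (E.one r * y * (E.one r)⁻¹) by group]
      exact W.mul_mem hx hy
    | inv x _ hx =>
      rw [show E.one r * x⁻¹ * (E.one r)⁻¹ = (E.one r * x * (E.one r)⁻¹)⁻¹ by group]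
      exact W.inv_mem hx
  let Act : Γ → AA ι → Prop := fun g s => ∀ w ∈ W, g * w * g⁻¹ = E.one s * w * (E.one s)⁻¹
  have Amul : ∀ {g g' s s'}, Act g s → Act g' s' → Act (g * g') (s * s') := by
    intro g g' s s' h1 h2 w hw
    calc g * g' * w * (g * g')⁻¹ = g * (g' * w * g'⁻¹) * g⁻¹ := by group
      _ = _ := by rw [h2 w hw, h1 _ (hN _ w hw), map_mul]; group
  have Aa : ∀ s, Act (a.φ s) s := fun s w hw => (conj_one a (hW w hw s).1).symm
  have Ab : ∀ s, Act (b.φ s) s := fun s w hw => (conj_one b (hW w hw s).2).symm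
  obtain ⟨m, hmW, hm⟩ := AA.exists_inner_lift E.card E.one W (fun s => by
    induction s using comm_induction E with
    | hc s t =>
      refine ⟨_, hgen s t, ?_⟩
      have := Amul (Amul (Amul (Aa s) (Ab t)) (Aa s⁻¹)) (Ab t⁻¹)
      rw [map_inv, map_inv] at this
      exact this
    | hm s t hs ht =>
      obtain ⟨p, hp, h1⟩ := hs
      obtain ⟨q, hq, h2⟩ := ht
      exact ⟨p * q, W.mul_mem hp hq, Amul h1 h2⟩)
  have hcent : ∀ {g s}, Act g s → ∀ w ∈ W, Commute w ((m s)⁻¹ * g) := by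
    intro g s hg w hw
    have := Amul (hm s⁻¹) hg w hw
    rw [inv_mul_cancel, map_one, one_mul, inv_one, mul_one, map_inv, mul_inv_eq_iff_eq_mul] at this
    exact this.symm
  have hn : ∀ s t, Commute (m s) ((m t)⁻¹ * a.φ t) := fun s t => hcent (Aa t) _ (hmW s)
  have hc : ∀ s t, Commute (m s) ((m t)⁻¹ * b.φ t) := fun s t => hcent (Ab t) _ (hmW s)
  have ea : ∀ s, a.φ s = m s * quo hn s := fun s => (mul_inv_cancel_left _ _).symm
  have eb : ∀ s, b.φ s = m s * quo hc s := fun s => (mul_inv_cancel_left _ _).symm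
  have e1 : ∀ s t, ⁅a.φ s, b.φ t⁆ = m ⁅s, t⁆ * ⁅quo hn s, quo hc t⁆ := fun s t => by
    rw [ea, eb, map_commutatorElement]
    exact commutator_mul_mul (hn _ _) (hc _ _) (hn _ _) (hc _ _)
  have e2 : ∀ s t, ⁅quo hn s, quo hc t⁆ ∈ W := fun s t => by
    have := W.mul_mem (W.inv_mem (hmW ⁅s, t⁆)) (hgen s t)
    rwa [e1, inv_mul_cancel_left] at this
  have hnc : ∀ s t, Commute (quo hn s) (quo hc t) :=
    AA.commute_of_bilin E.card _ _ (fun s t r => hcent (Aa r) _ (e2 s t))
      (fun s t r => hcent (Ab r) _ (e2 s t))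
  have e3 : ∀ s t, m ⁅s, t⁆ = ⁅a.φ s, b.φ t⁆ := fun s t => by
    rw [e1, (hnc s t).commutator_eq, mul_one]
  have hna : ∀ s t, Commute (quo hn s) ((neg a).φ t) := fun s t =>
    (hW _ (hmW s) t).1.inv_left.mul_left (comm_neg a s t)
  have mloc : ∀ {S : Finset ι} {i j k : ι}, i ∈ S → j ∈ S → k ∈ S → 5 ≤ S.card →
      m (AA.x i j k) ∈ E.H S := by
    intro S i j k hi hj hk hS
    by_cases hd : D3 i j k
    · have h1 : 1 < (S \ {i, j, k}).card := by
        have h2 := Finset.le_card_sdiff ({i, j, k} : Finset ι) S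
        have h3 : ({i, j, k} : Finset ι).card ≤ 3 := Finset.card_le_three
        omega
      obtain ⟨u, hu, v, hv, huv⟩ := Finset.one_lt_card.1 h1
      simp only [Finset.mem_sdiff, Finset.mem_insert, Finset.mem_singleton, not_or] at hu hv
      rw [AA.isSys.comm hd hu.2 hv.2 huv, e3, commutatorElement_def]
      have h4 := a.loc hk hi hv.1 hS
      have h5 := b.loc hu.1 hk hj hS
      exact (E.H S).mul_mem ((E.H S).mul_mem ((E.H S).mul_mem h4 h5) ((E.H S).inv_mem h4))
        ((E.H S).inv_mem h5)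
    · rw [AA.isSys.junk hd, map_one]; exact (E.H S).one_mem
  refine ⟨⟨m, fun s t => ?_, mloc⟩, ⟨quo hn, fun s t => ?_, fun hi hj hk hS => ?_⟩,
    fun s t => (hW _ (hmW s) t).1, fun s t => (hW _ (hmW s) t).2, hna,
    le_neg_def.2 fun s t => ?_, ea, e3⟩
  · rw [one_eq a t, ← mul_assoc]
    exact (hn s t).mul_right (hW _ (hmW s) t).1
  · have : (quo hn t)⁻¹ * E.one t = m t * (neg a).φ t := by
      rw [one_eq a t]
      nth_rewrite 1 [ea t]
      rw [show m t * quo hn t = quo hn t * m t from (hn t t).eq]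
      group
    rw [this]
    exact (hn t s).symm.mul_right (hna s t)
  · exact (E.H _).mul_mem ((E.H _).inv_mem (mloc hi hj hk hS)) (a.loc hi hj hk hS)
  · change Commute (quo hn s) (b.φ t)
    rw [eb]
    exact (hn t s).symm.mul_right (hnc s t)

open Classical in
noncomputable def meet (a b : Idem E) : Idem E :=
  if h : C a b then (exists_meet h).choose else a

theorem meet_spec {a b : Idem E} (h : C a b) : ∃ n : Idem E, le (meet a b) a ∧ le (meet a b) b ∧
    le n a ∧ le n (neg b) ∧ (∀ s, a.φ s = (meet a b).φ s * n.φ s) ∧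
      ∀ s t, (meet a b).φ ⁅s, t⁆ = ⁅a.φ s, b.φ t⁆ := by
  rw [meet, dif_pos h]
  exact (exists_meet h).choose_spec

theorem C_symm' {a b : Idem E} (h : C a b) : C b a := fun s t r => by
  rw [← commutatorElement_inv]
  exact ⟨(h t s r).2.inv_left, (h t s r).1.inv_left⟩

theorem C_neg' {a b : Idem E} (h : C a b) : C a (neg b) := by
  obtain ⟨m, n, -, hm, -, hn, e, -⟩ := exists_meet h
  refine C_of_decomp (m := n) (n := m) hn (by rwa [neg_neg']) fun s => ?_
  rw [e, (orth hm hn s s).eq]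

theorem le_meet' {a b c : Idem E} (h : C a b) (h1 : le c a) (h2 : le c b) : le c (meet a b) := by
  obtain ⟨n, -, -, -, hn, e, -⟩ := meet_spec h
  refine le_def.2 fun s t => ?_
  rw [neg_left_of_decomp e]
  exact (orth h2 hn s t).mul_right (le_def.1 h1 s t)

theorem comm_neg_of_le {p a c : Idem E} (hp : le p a) (h : C a c) (s t r : AA ι) :
    Commute ⁅p.φ s, c.φ t⁆ ((neg a).φ r) := by
  obtain ⟨m, n, -, hm, -, hn, e, -⟩ := exists_meet (C_symm' h)
  rw [e t, commutator_mul_right (orth hp hn s t)]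
  exact (commute_commutator (le_def.1 hp s r).symm (le_def.1 hm t r).symm).symm

theorem C_meet' {a b c : Idem E} (hab : C a b) (hac : C a c) (hbc : C b c) : C (meet a b) c := by
  obtain ⟨n, hpa, hpb, hna, hnb, e, hp⟩ := meet_spec hab
  intro s t r
  constructor
  · have h1 := comm_neg_of_le hpa hac s t
    have h2 := comm_neg_of_le hpb hbc s t
    generalize ⁅(meet a b).φ s, c.φ t⁆ = g at h1 h2
    rw [neg_left_of_decomp e]
    refine Commute.mul_right ?_ (h1 r)
    induction r using comm_induction E with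
    | hm r r' hr hr' => rw [map_mul]; exact hr.mul_right hr'
    | hc α β =>
      have e1 : n.φ ⁅α, β⁆ = ⁅a.φ α, (neg b).φ β⁆ := by
        rw [e α, (orth hpb hnb α α).eq, commutator_mul_left (le_def.1 hpb α β), comm_of_le hnb]
      rw [e1, commutatorElement_def]
      refine Commute.mul_right ?_ (h2 β).inv_right
      refine commute_of_conj (g := (a.φ α)⁻¹) ?_
      have e2 := conj_one a (h1 α⁻¹)
      rw [map_inv a.φ] at e2
      rw [← e2, show (a.φ α)⁻¹ * (a.φ α * (neg b).φ β * (a.φ α)⁻¹) * (a.φ α)⁻¹⁻¹ = (neg b).φ β by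
        group]
      refine commute_of_conj (g := E.one α) ?_
      rw [one_conj, map_inv, show E.one α * ((E.one α)⁻¹ * g * (E.one α)⁻¹⁻¹) * (E.one α)⁻¹ = g by
        group]
      exact h2 _
  · obtain ⟨q₁, a₁, -, hq₁, -, ha₁, ea, -⟩ := exists_meet hac
    obtain ⟨q₂, b₁, -, hq₂, -, hb₁, eb, -⟩ := exists_meet hbc
    let U : Set Γ := {u | ∀ r, Commute u ((neg c).φ r) ∧ Commute u (a₁.φ r) ∧ Commute u (b₁.φ r)}
    let V : Set Γ := {v | (∀ r, Commute v (c.φ r)) ∧ ∀ u ∈ U, Commute u v}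
    have key : ∀ s, ∃ u ∈ U, ∃ v ∈ V, (meet a b).φ s = u * v := by
      intro s
      induction s using comm_induction E with
      | hc α β =>
        refine ⟨⁅q₁.φ α, q₂.φ β⁆, fun r => ⟨?_, ?_, ?_⟩, ⁅a₁.φ α, b₁.φ β⁆, ⟨fun r => ?_, ?_⟩, ?_⟩
        · exact (commute_commutator (le_def.1 hq₁ α r).symm (le_def.1 hq₂ β r).symm).symm
        · exact (commute_commutator (orth hq₁ ha₁ α r).symm (orth hq₂ ha₁ β r).symm).symm
        · exact (commute_commutator (orth hq₁ hb₁ α r).symm (orth hq₂ hb₁ β r).symm).symm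
        · exact (commute_commutator (le_neg_def.1 ha₁ α r).symm (le_neg_def.1 hb₁ β r).symm).symm
        · exact fun u hu => commute_commutator (hu α).2.1 (hu β).2.2
        · rw [hp, ea, eb]
          exact commutator_mul_mul (orth hq₁ ha₁ _ _) (orth hq₁ hb₁ _ _) (orth hq₂ ha₁ _ _)
            (orth hq₂ hb₁ _ _)
      | hm s s' hs hs' =>
        obtain ⟨u, hu, v, hv, e1⟩ := hs
        obtain ⟨u', hu', v', hv', e2⟩ := hs'
        refine ⟨u * u', fun r => ⟨(hu r).1.mul_left (hu' r).1, (hu r).2.1.mul_left (hu' r).2.1,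
          (hu r).2.2.mul_left (hu' r).2.2⟩, v * v', ⟨fun r => (hv.1 r).mul_left (hv'.1 r),
          fun w hw => (hv.2 w hw).mul_right (hv'.2 w hw)⟩, ?_⟩
        rw [map_mul, e1, e2]
        calc u * v * (u' * v') = u * (v * u') * v' := by group
          _ = _ := by rw [← (hv.2 u' hu').eq]; group
    obtain ⟨u, hu, v, hv, e1⟩ := key s
    rw [e1, commutator_mul_left (hv.1 t)]
    exact (commute_commutator (hu r).1.symm (comm_neg c t r).symm).symm

noncomputable instance : QL (Idem E) where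
  le := le
  le_refl a := a.comm
  le_trans := fun _ _ _ h1 h2 => le_trans' h1 h2
  le_antisymm := fun _ _ h1 h2 => le_antisymm' h1 h2
  top := top
  bot := bot
  le_top := fun a s t => by simp [top]
  bot_le := fun a s t => by simp [bot]
  neg := neg
  C := C
  meet := meet
  negneg := neg_neg'
  neg_anti := neg_anti'
  C_symm := C_symm'
  C_neg := C_neg'
  C_of_le := fun {a b} h => C_of_decomp (m := a) (n := bot) h (fun s t => by simp [bot])
    (fun s => by simp [bot])
  meet_le_left := fun h => (meet_spec h).choose_spec.1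
  meet_le_right := fun h => (meet_spec h).choose_spec.2.1
  le_meet := le_meet'
  C_meet := C_meet'
  le_bot_of := fun {a b} h1 h2 s t => by
    have : ((bot : Idem E).φ t)⁻¹ * E.one t = b.φ t * (neg b).φ t := by
      rw [← one_eq]; simp [bot]
    rw [this]
    exact (le_neg_def.1 h2 s t).mul_right (le_def.1 h1 s t)
  split := fun {a b g} h h1 h2 s t => by
    obtain ⟨n, -, -, hna, hnb, e, -⟩ := meet_spec h
    rw [e s]
    exact (h1 s t).mul_left (le_trans' (le_meet' (C_neg' h) hna hnb) h2 s t)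

theorem le_iff {a b : Idem E} : a ≤ b ↔ ∀ s t, Commute (a.φ s) ((b.φ t)⁻¹ * E.one t) := Iff.rfl
theorem top_φ : (⊤ : Idem E).φ = E.one := rfl
theorem bot_φ : (⊥ : Idem E).φ = 1 := rfl
theorem neg_φ (a : Idem E) (s : AA ι) : (QL.neg a).φ s = (a.φ s)⁻¹ * E.one s := rfl

theorem le_neg_iff {a b : Idem E} : a ≤ QL.neg b ↔ ∀ s t, Commute (a.φ s) (b.φ t) := by
  exact le_neg_def

theorem meet_comm_apply {a b : Idem E} (h : QL.C a b) (s t : AA ι) :
    (QL.meet a b).φ ⁅s, t⁆ = ⁅a.φ s, b.φ t⁆ := by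
  exact (meet_spec h).choose_spec.2.2.2.2.2 s t

theorem eq_meet_mul {a b : Idem E} (h : QL.C a b) (s : AA ι) :
    a.φ s = (QL.meet a b).φ s * (QL.meet a (QL.neg b)).φ s := by
  obtain ⟨n, -, hmb, hna, hnb, e, -⟩ := meet_spec h
  have h' := C_neg' h
  obtain ⟨_, h1, h2, -⟩ := meet_spec h'
  have : meet a (neg b) = n := by
    refine le_antisymm' (le_def.2 fun s t => ?_) (le_meet' h' hna hnb)
    rw [neg_left_of_decomp (a := a) (m := n) (n := meet a b)
      (fun s => by rw [e s, (orth hmb hnb s s).eq])]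
    exact (orth hmb h2 t s).symm.mul_right (le_def.1 h1 s t)
  change a.φ s = (meet a b).φ s * (meet a (neg b)).φ s
  rw [this]
  exact e s

theorem C_iff {a b : Idem E} : QL.C a b ↔
    ∃ m n : Idem E, m ≤ b ∧ n ≤ QL.neg b ∧ ∀ s, a.φ s = m.φ s * n.φ s := by
  constructor
  · intro h
    obtain ⟨m, n, -, hm, -, hn, e, -⟩ := exists_meet h
    exact ⟨m, n, hm, hn, e⟩
  · rintro ⟨m, n, hm, hn, e⟩
    exact C_of_decomp hm hn e

/-- a finite family of pairwise commuting local systems with product `one` is an observable -/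
theorem exists_obs {α : Type} (L : List α) (hL : L.Nodup) (hL' : ∀ a, a ∈ L)
    (f : α → AA ι →* Γ) (hf : ∀ a b, a ≠ b → ∀ s t, Commute (f a s) (f b t))
    (hone : ∀ i j k, E.one (AA.x i j k) = (L.map (fun a => f a (AA.x i j k))).prod)
    (hloc : ∀ a {S : Finset ι} {i j k : ι}, i ∈ S → j ∈ S → k ∈ S → 5 ≤ S.card →
      f a (AA.x i j k) ∈ E.H S) :
    ∃ o : Obs (Idem E) α, ∀ a, (o.e a).φ = f a := by
  have hcomm : ∀ (a : α) (l : List α), a ∉ l → ∀ s t,
      Commute (f a s) (l.map (fun b => f b t)).prod := by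
    intro a l ha s t
    refine Commute.list_prod_right _ _ fun x hx => ?_
    obtain ⟨b, hb, rfl⟩ := List.mem_map.1 hx
    exact hf a b (fun e => ha (e ▸ hb)) s t
  have hmul : ∀ l : List α, l.Nodup → ∀ s t, (l.map (fun b => f b (s * t))).prod =
      (l.map (fun b => f b s)).prod * (l.map (fun b => f b t)).prod := by
    intro l hl s t
    induction l with
    | nil => simp
    | cons a l ih =>
      rw [List.nodup_cons] at hl
      simp only [List.map_cons, List.prod_cons]
      rw [ih hl.2, map_mul]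
      calc f a s * f a t * ((l.map (fun b => f b s)).prod * (l.map (fun b => f b t)).prod)
          = f a s * (f a t * (l.map (fun b => f b s)).prod) * (l.map (fun b => f b t)).prod := by
            group
        _ = _ := by rw [(hcomm a l hl.1 t s).eq]; group
  have hone' : ∀ s, E.one s = (L.map (fun a => f a s)).prod := by
    intro s
    induction s using AA.induction with
    | h1 => simp
    | hx i j k _ => exact hone i j k
    | hm s t hs ht => rw [map_mul, hmul L hL, hs, ht]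
  have hc : ∀ a s t, Commute (f a s) ((f a t)⁻¹ * E.one t) := by
    intro a s t
    obtain ⟨l₁, l₂, e⟩ := List.append_of_mem (hL' a)
    have hnd := hL
    rw [e, List.nodup_middle, List.nodup_cons, List.mem_append, not_or] at hnd
    rw [hone', e, List.map_append, List.prod_append, List.map_cons, List.prod_cons, ← mul_assoc _ (f a t),
      ← (hcomm a l₁ hnd.1.1 t t).eq, mul_assoc, inv_mul_cancel_left]
    exact (hcomm a l₁ hnd.1.1 s t).mul_right (hcomm a l₂ hnd.1.2 s t)
  refine ⟨⟨fun a => ⟨f a, hc a, hloc a⟩,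
    Set.finite_univ_iff.1 (L.finite_toSet.subset fun a _ => hL' a),
    fun {a b} hab => le_neg_iff.2 (hf a b hab), fun g hg s t => ?_⟩, fun a => rfl⟩
  change Commute (E.one s) _
  rw [hone' s]
  refine Commute.list_prod_left _ _ fun x hx => ?_
  obtain ⟨b, -, rfl⟩ := List.mem_map.1 hx
  exact hg b s t

end Idem

end Crest.Agent.R189
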