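import Crest.Agent.R189.Cut
import Crest.Agent.R189.Dgrp

/-! # Row 189: words supported in vertical strips -/

set_option autoImplicit false
set_option linter.unusedSectionVars false

namespace Crest.Agent.R189
open Equiv

variable {X ι Γ : Type} [Shift X] [Good X] [DecidableEq ι] [Fintype ι] [Group Γ]

/-- base of the rectangular block structure -/
def rectB {L L' : ℕ} (c : Crd X true L) (c' : Crd X false L') : Set X :=
  {x | c.rep x 0 ∧ c'.rep x 0}
/-- fibre of the rectangular block structure -/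
noncomputable def rectF (ι : Type) [Fintype ι] (lo hi lo' hi' : ℤ) : Finset (Pt ι) :=
  (Finset.Icc lo hi ×ˢ Finset.Icc lo' hi') ×ˢ Finset.univ

section
variable {L L' : ℕ} (c : Crd X true L) (c' : Crd X false L') {lo hi lo' hi' : ℤ}

theorem loc_rectB : Loc (rectB c c') := (c.loc_rep 0).inter (c'.loc_rep 0)

theorem mem_rectF {f : Pt ι} : f ∈ rectF ι lo hi lo' hi' ↔
    (lo ≤ f.1.1 ∧ f.1.1 ≤ hi) ∧ lo' ≤ f.1.2 ∧ f.1.2 ≤ hi' := by
  simp [rectF]

theorem inj_rect (h : hi - lo < L) (h' : hi' - lo' < L') :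
    Inj (rectB c c') (rectF ι lo hi lo' hi' : Set (Pt ι)) := by
  intro x hx y hy f hf g hg e
  have hf' := mem_rectF.1 hf
  have hg' := mem_rectF.1 hg
  have e1 := star_eq_fst e
  have h1 := c.shift f.1 hx.1
  have h2 := c.shift g.1 hy.1
  have h3 := c'.shift f.1 hx.2
  have h4 := c'.shift g.1 hy.2
  rw [e1] at h1 h3
  simp only [pr_true, pr_false, zero_add] at h1 h2 h3 h4
  have h5 : f.1 = g.1 := Prod.ext (c.eq h1 h2 (by omega) (by omega))
    (c'.eq h3 h4 (by omega) (by omega))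
  rw [h5] at e1
  exact ⟨AddAction.injective g.1 e1, Prod.ext h5 (star_eq_snd e)⟩

theorem mem_sup_rect {ω : X × ι} :
    ω ∈ Sup (rectB c c') (rectF ι lo hi lo' hi' : Set (Pt ι)) ↔
      ω ∈ c.strip lo hi ∧ ω ∈ c'.strip lo' hi' := by
  constructor
  · rintro ⟨x, hx, f, hf, rfl⟩
    have hf' := mem_rectF.1 hf
    exact ⟨⟨_, c.shift f.1 hx.1, by simpa using hf'.1⟩, _, c'.shift f.1 hx.2, by simpa using hf'.2⟩
  · rintro ⟨⟨s, hs, h1⟩, s', hs', h2⟩
    refine ⟨-((s, s') : V) +ᵥ ω.1, ⟨?_, ?_⟩, ((s, s'), ω.2), mem_rectF.2 ⟨h1, h2⟩, ?_⟩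
    · simpa using c.shift (-((s, s') : V)) hs
    · simpa using c'.shift (-((s, s') : V)) hs'
    · exact Prod.ext (by rw [star_fst, ← add_vadd, add_neg_cancel, zero_vadd]) rfl

theorem GS_rect (C : PreCan X ι Γ) :
    C.GS (fun τ => c.In lo hi τ ∧ c'.In lo' hi' τ) = C.GS (InB (rectB c c') (rectF ι lo hi lo' hi')) := by
  refine le_antisymm ?_ (C.GS_mono fun τ _ h => ⟨fun x hx => ⟨0, (h.1 hx).1, fun f hf => ?_⟩,
    fun x hx => ⟨0, (h.1 hx).2, fun f hf => ?_⟩⟩)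
  · rw [PreCan.GS, Subgroup.closure_le]
    rintro _ ⟨⟨U, p, q, r⟩, hτ, ⟨h1, h2⟩, rfl⟩
    refine loc_induction ((c.locF_win 0).prod (c'.locF_win 0)) hτ.2
      (fun W => C.xh ⟨W, p, q, r⟩ ∈ C.GS (InB (rectB c c') (rectF ι lo hi lo' hi'))) ?_ ?_ ?_
    · rw [C.xh_empty hτ.1.1]; exact one_mem _
    · rintro W hW hWU ⟨x0, hx0⟩ hc
      obtain ⟨s, hs, hsf⟩ := h1 x0 (hWU hx0)
      obtain ⟨s', hs', hsf'⟩ := h2 x0 (hWU hx0)
      have hG : (⟨W, p, q, r⟩ : Tri X ι).Gd := ⟨hτ.1.sub hWU, hW⟩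
      rw [← C.reb hG (s, s')]
      refine C.xh_mem_GS (hG.reb _) ⟨fun x hx => ?_, fun f hf => ?_⟩
      · have e := hc _ hx x0 hx0
        simp only [Prod.mk.injEq] at e
        have a1 := c.of_dvd (c.win_rep 0 (((s, s') : V) +ᵥ x))
          (s' := s) (by rw [e.1]; exact c.dvd (c.win_rep 0 x0) hs)
        have a2 := c'.of_dvd (c'.win_rep 0 (((s, s') : V) +ᵥ x))
          (s' := s') (by rw [e.2]; exact c'.dvd (c'.win_rep 0 x0) hs')
        exact ⟨(c.shift_iff (s, s')).1 (by simpa using a1), (c'.shift_iff (s, s')).1 (by simpa using a2)⟩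
      · obtain ⟨g, hg, rfl⟩ := Tri.mem_reb_pts.1 hf
        have a1 := hsf g hg
        have a2 := hsf' g hg
        simp only [pr_true, pr_false] at a1 a2
        refine mem_rectF.2 ?_
        simp only [Pt.add_fst, Prod.fst_add, Prod.snd_add]
        omega
    · intro W W' hW hW' hWU hWU' hd a1 a2
      rw [C.add (hτ.1.sub (Set.union_subset hWU hWU')) hW hW' hd]
      exact mul_mem a1 a2
  · simpa using (mem_rectF.1 (h.2 hf)).1
  · simpa using (mem_rectF.1 (h.2 hf)).2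

end

/-- `g` keeps the points of the strip `[lo, hi]` inside one and the same component -/
def InnerMv {d : Bool} {L : ℕ} (c : Crd X d L) (lo hi : ℤ) (g : Perm (X × ι)) : Prop :=
  ∀ (ω : X × ι) (s : ℤ), c.rep ω.1 s → lo ≤ s → s ≤ hi →
    ∃ z : V, (g ω).1 = z +ᵥ ω.1 ∧ lo ≤ s + pr d z ∧ s + pr d z ≤ hi

theorem innerMv_cyc {d : Bool} {L : ℕ} {c : Crd X d L} {lo hi : ℤ} (hL : hi - lo < L)
    {τ : Tri X ι} (hok : τ.Ok) (h : c.In lo hi τ) : InnerMv c lo hi (cyc τ) := by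
  intro ω s hs h1 h2
  by_cases hω : ω ∈ τ.supp
  · obtain ⟨x, hx, f, hf, rfl⟩ := hω
    obtain ⟨s0, hs0, hp⟩ := h x hx
    have hf' : c3 τ.a τ.b τ.c f ∈ τ.pts := (c3_mem τ.a_mem τ.b_mem τ.c_mem).2 hf
    have a1 := hp f hf
    have a2 := hp _ hf'
    have e := c.eq hs (c.shift f.1 hs0) (by omega) (by omega)
    refine ⟨(c3 τ.a τ.b τ.c f).1 - f.1, ?_, by rw [pr_sub]; omega, by rw [pr_sub]; omega⟩
    rw [(cyc_acts hok).app x hx f hf]
    simp [← add_vadd]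
  · exact ⟨0, by rw [cyc_fix τ hω, zero_vadd], by simpa using h1, by simpa using h2⟩

theorem innerMv_evp {d : Bool} {L : ℕ} {c : Crd X d L} {lo hi : ℤ} (hL : hi - lo < L)
    {w : List (Tri X ι)} (hw : ∀ τ ∈ w, τ.Ok ∧ c.In lo hi τ) :
    InnerMv c lo hi (evp w) ∧ evp w ∈ SuppOn (c.strip lo hi) := by
  induction w with
  | nil => exact ⟨fun ω s _ h1 h2 => ⟨0, by simp, by simpa using h1, by simpa using h2⟩, one_mem _⟩
  | cons τ w ih =>
    obtain ⟨i1, i2⟩ := ih fun τ' h' => hw τ' (by simp [h'])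
    have h0 := hw τ (by simp)
    rw [evp_cons]
    refine ⟨fun ω s hs h1 h2 => ?_,
      mul_mem (fun ω hω => cyc_fix τ fun h' => hω (h0.2.supp h')) i2⟩
    obtain ⟨z, e, a1, a2⟩ := i1 ω s hs h1 h2
    obtain ⟨z', e', a3, a4⟩ := innerMv_cyc hL h0.1 h0.2 (evp w ω) _ (e ▸ c.shift z hs) a1 a2
    exact ⟨z' + z, by rw [Perm.mul_apply, e', e, add_vadd], by rw [pr_add]; omega,
      by rw [pr_add]; omega⟩

theorem inner (C : PreCan X ι Γ) {a b : ι} (hab : a ≠ b) {D : Subgroup Γ} (hD : BlockInj C a b D)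
    {L : ℕ} (c : Crd X true L) {lo hi : ℤ} (hL : hi - lo < L) {h : Γ} (hh : h ∈ C.GS (c.In lo hi))
    {E : Set X} (hE : Loc E) (hπ : C.π h = TT a b E) : h ∈ D := by
  rcases lt_or_ge hi lo with hlt | hle
  · refine (show C.GS (c.In lo hi) ≤ D from ?_) hh
    rw [PreCan.GS, Subgroup.closure_le]
    rintro _ ⟨⟨U, p, q, r⟩, hτ, h1, rfl⟩
    have hU : U = ∅ := Set.eq_empty_of_forall_notMem fun x hx => by
      obtain ⟨s, -, hs⟩ := h1 x hx
      have := hs _ (Tri.a_mem _)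
      omega
    subst hU
    rw [C.xh_empty hτ.1.1]
    exact one_mem D
  obtain ⟨w, hw, rfl⟩ := C.exists_word (fun τ h => Crd.In.rev h) hh
  obtain ⟨ρ, hρ⟩ := Tri.exists_rad_list w
  have hρ0 : (0 : ℤ) ≤ ρ := Int.natCast_nonneg _
  obtain ⟨Δ, hΔ⟩ : ∃ Δ : ℕ, 2 * (ρ : ℤ) * (w.length + 1) < Δ :=
    ⟨2 * ρ * (w.length + 1) + 1, by push_cast; omega⟩
  obtain ⟨L', hL', ⟨c'⟩⟩ := exists_crd (X := X) false (20 * Δ)
  have hL2 : 20 * (Δ : ℤ) ≤ L' := by exact_mod_cast hL'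
  have hΔ2 : 2 * (ρ : ℤ) * w.length < Δ := by nlinarith
  have hΔ0 : (0 : ℤ) ≤ 2 * ρ * w.length := by positivity
  have hwE : evp w = TT a b E := by rw [← C.π_ev fun τ h => (hw τ h).1, hπ]
  have hEb : ∀ x ∈ E, x ∈ c.band lo hi := fun x hx => by
    by_contra hx'
    have := (innerMv_evp hL fun τ h => ⟨(hw τ h).1.1, (hw τ h).2⟩).2 (x, a) hx'
    rw [hwE, TT_mem a b hx] at this
    simp [hab.symm] at this
  refine four_cut C a b D c' (c.In lo hi) (fun τ W h => h.res W) w ρ Δ hρ0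
    (fun τ h => ⟨(hw τ h).1, (hw τ h).2, hρ τ h⟩) hΔ hL2 E hE hwE ?_ ?_
  · intro lo' hi' h' k hk E' hE' hπ'
    rw [GS_rect] at hk
    exact hD _ _ (loc_rectB c c') (inj_rect c c' hL h') k hk E' hE' hπ'
  · intro p u hu
    obtain ⟨p', q', -, -, -, hug⟩ := hu.ex
    have hres : ∀ τ ∈ resw w (c'.base p' q'), (τ.Ok ∧ c.In lo hi τ) ∧ τ.Rad ρ := fun τ hτ => by
      obtain ⟨τ', h', rfl⟩ := List.mem_map.1 hτ
      exact ⟨⟨(hw τ' h').1.1.res _, (hw τ' h').2.res _⟩, hρ τ' h'⟩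
    obtain ⟨hmv, hsp⟩ := innerMv_evp hL fun τ h => (hres τ h).1
    have hdisp := disp_evp hρ0 fun τ h => (hres τ h).2
    rw [resw, List.length_map, ← resw] at hdisp
    have hfix : u ∈ SuppOn (Sup (rectB c c') (rectF ι lo hi (p - Δ) (p + Δ) : Set (Pt ι))) := by
      intro ω hω
      by_cases h2 : ω ∈ c'.strip (p - Δ) (p + Δ)
      · have h1 : ω ∉ c.strip lo hi := fun h1 => hω ((mem_sup_rect c c').2 ⟨h1, h2⟩)
        rw [hug ω h2, Crd.gI, Perm.mul_apply,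
          show TT a b (E ∩ c'.base p' q') ω = ω from TT_not_mem a b (fun h => h1 (hEb _ h.1)) _]
        exact hsp ω h1
      · exact hu.supp ω h2
    have hpres : ∀ x ∈ rectB c c', ∀ f ∈ rectF ι lo hi (p - Δ) (p + Δ),
        ∃ f' ∈ rectF ι lo hi (p - Δ) (p + Δ), u (x ⋆ f) = x ⋆ f' := by
      intro x hx f hf
      have hf' := mem_rectF.1 hf
      have h2 := ((mem_sup_rect c c').1 (star_mem_sup hx hf)).2
      obtain ⟨t, ht, ht1, ht2⟩ := (SuppOn.mem_iff hu.supp _).2 h2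
      have eg := hug _ h2
      rw [Crd.gI, Perm.mul_apply] at eg
      obtain ⟨z, ez, a1, a2⟩ := hmv (TT a b (E ∩ c'.base p' q') (x ⋆ f)) _ (c.shift f.1 hx.1)
        (by simpa using hf'.1.1) (by simpa using hf'.1.2)
      obtain ⟨z', bz, ez'⟩ := hdisp (TT a b (E ∩ c'.base p' q') (x ⋆ f))
      obtain rfl : z = z' := vadd_inj (ez.symm.trans ez')
      rw [← eg, TT_fst, star_fst] at ez
      have a3 := c'.shift z (c'.shift f.1 hx.2)
      rw [← ez] at a3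
      unfold Bd at bz
      simp only [pr_true, pr_false, zero_add] at a1 a2 a3
      have a4 := c'.eq ht a3 (by omega) (by omega)
      refine ⟨(z + f.1, (u (x ⋆ f)).2), mem_rectF.2 ?_, Prod.ext ?_ rfl⟩
      · simp only [Prod.fst_add, Prod.snd_add]
        omega
      · rw [ez, star_fst, add_vadd]
    obtain ⟨k, hk, E', hE', hE'B, e⟩ := C.block_lift hu.locP (loc_rectB c c')
      (inj_rect c c' (lo' := p - Δ) (hi' := p + Δ) hL (by omega)) hfix hpres hab (z := (lo, p))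
      (mem_rectF.2 (by simp only; omega)) (mem_rectF.2 (by simp only; omega))
    refine ⟨k, by rwa [GS_rect], E', hE', fun y hy => ⟨p, ?_, by omega, by omega⟩, e⟩
    have := c'.shift ((lo, p) : V) (hE'B hy).2
    rw [← add_vadd, add_neg_cancel, zero_vadd] at this
    simpa using this

end Crest.Agent.R189
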