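import Crest.Agent.R189.Defs

/-! # Row 189: a finitely presented model exists -/

set_option autoImplicit false
set_option linter.unusedSectionVars false

namespace Crest.Agent.R189
open Equiv Filter

variable {X ι : Type} [Shift X] [DecidableEq ι] [Fintype ι]
  {ok : Bool → Shift.A X → Shift.A X → Prop}

namespace MEx

/-- the equations required from a model -/
structure Rels {Γ : Type} [Group Γ] (ok : Bool → Shift.A X → Shift.A X → Prop)
    (v : ι → ι → Bool → Γ) (φ : Shift.A X → ι → ι → ι → Γ) (one : ι → ι → ι → Γ) : Prop where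
  sys : ∀ t, IsSys (φ t)
  sys_one : IsSys one
  orth : ∀ t t', t ≠ t' → ∀ i j k a b c, Commute (φ t i j k) (φ t' a b c)
  v_comm : ∀ i j d k l d', Commute (v i j d) (v k l d')
  v_mul : ∀ i j k d, v i j d * v j k d = v i k d
  φ_v : ∀ t i j k l m d, (l ≠ i ∧ l ≠ j ∧ l ≠ k) → (m ≠ i ∧ m ≠ j ∧ m ≠ k) →
    Commute (φ t i j k) (v l m d)
  one_v : ∀ i j k l d, D3 i j k → (l ≠ i ∧ l ≠ j ∧ l ≠ k) →
    Commute (one i j k) (v i l d * v j l d * v k l d)
  edge : ∀ d t t', ¬ ok d t t' → ∀ a b c i j k l, D3 i j k → (l ≠ i ∧ l ≠ j ∧ l ≠ k) →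
    Commute (φ t a b c) ((v i l d * v j l d * v k l d)⁻¹ * φ t' i j k * (v i l d * v j l d * v k l d))
  v_eq : ∀ i j k l d, D3 i j l → (k ≠ i ∧ k ≠ j ∧ k ≠ l) →
    v i j d = v i k d * one i j l * (v i k d)⁻¹ * (one i j l)⁻¹

section Approx
variable {α P : Type} [Group P] (p : FreeGroup α →* P)

/-- the relators given by a finite subset of the kernel -/
def rel (R : Finset p.ker) : Set (FreeGroup α) := Subtype.val '' (R : Set p.ker)

instance (R : Finset p.ker) : Finite (rel p R) := (R.finite_toSet.image _).to_subtype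

/-- the quotient map -/
def mkR (R : Finset p.ker) : FreeGroup α →* PresentedGroup (rel p R) := PresentedGroup.mk _

theorem ev_eq {w w' : FreeGroup α} (h : p w = p w') :
    ∀ᶠ R : Finset p.ker in atTop, mkR p R w = mkR p R w' := by
  classical
  have hm : w * w'⁻¹ ∈ p.ker := by simp [MonoidHom.mem_ker, h]
  filter_upwards [eventually_ge_atTop ({⟨_, hm⟩} : Finset p.ker)] with R hR
  have h1 : mkR p R (w * w'⁻¹) = 1 :=
    PresentedGroup.one_of_mem ⟨⟨_, hm⟩, hR (Finset.mem_singleton_self _), rfl⟩
  rwa [map_mul, map_inv, mul_inv_eq_one] at h1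

theorem ev_imp {I : Type*} {l : Filter I} {c : Prop} {q : I → Prop} (h : c → ∀ᶠ R in l, q R) :
    ∀ᶠ R in l, c → q R := by
  by_cases hc : c
  · filter_upwards [h hc] with R hR _ using hR
  · exact Eventually.of_forall (fun _ h' => absurd h' hc)

theorem ev_comm {w w' : FreeGroup α} (h : Commute (p w) (p w')) :
    ∀ᶠ R : Finset p.ker in atTop, Commute (mkR p R w) (mkR p R w') := by
  filter_upwards [ev_eq p (w := w * w') (w' := w' * w) (by rw [map_mul, map_mul]; exact h)]
    with R hR
  rw [map_mul, map_mul] at hR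
  exact hR

theorem ev_sys {x : ι → ι → ι → FreeGroup α} (h : IsSys (fun i j k => p (x i j k))) :
    ∀ᶠ R : Finset p.ker in atTop, IsSys (fun i j k => mkR p R (x i j k)) := by
  have h1 : ∀ᶠ R : Finset p.ker in atTop, ∀ i j k, ¬ D3 i j k → mkR p R (x i j k) = mkR p R 1 := by
    simp only [eventually_all]
    intro i j k hh
    exact ev_eq p (by rw [map_one]; exact h.junk hh)
  have h2 : ∀ᶠ R : Finset p.ker in atTop, ∀ i j k, mkR p R (x i j k) = mkR p R (x j k i) := by
    simp only [eventually_all]
    intro i j k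
    exact ev_eq p (h.rot i j k)
  have h3 : ∀ᶠ R : Finset p.ker in atTop, ∀ i j k,
      mkR p R (x i j k * x i k j) = mkR p R 1 := by
    simp only [eventually_all]
    intro i j k
    exact ev_eq p (by rw [map_one, map_mul]; exact h.inv i j k)
  have h4 : ∀ᶠ R : Finset p.ker in atTop, ∀ a b d e, D3 a b d → e ≠ a → e ≠ b → e ≠ d →
      mkR p R (x a b d * x a d e) = mkR p R (x b d e) := by
    simp only [eventually_all]
    intro a b d e h0 h1 h2 h3
    exact ev_eq p (by rw [map_mul]; exact h.mul h0 h1 h2 h3)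
  have h5 : ∀ᶠ R : Finset p.ker in atTop, ∀ a b c i j k,
      mkR p R (x a b c * x i j k * (x a b c)⁻¹) =
        mkR p R (x (c3 a b c i) (c3 a b c j) (c3 a b c k)) := by
    simp only [eventually_all]
    intro a b c i j k
    exact ev_eq p (by rw [map_mul, map_mul, map_inv]; exact h.conj a b c i j k)
  filter_upwards [h1, h2, h3, h4, h5] with R h1 h2 h3 h4 h5
  exact
    { junk := fun hh => by rw [h1 _ _ _ hh, map_one]
      rot := h2
      inv := fun i j k => by rw [← map_mul, h3, map_one]
      mul := fun g0 g1 g2 g3 => by rw [← map_mul, h4 _ _ _ _ g0 g1 g2 g3]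
      conj := fun a b c i j k => by rw [← map_inv, ← map_mul, ← map_mul, h5] }

theorem ev_rels {v : ι → ι → Bool → FreeGroup α} {φ : Shift.A X → ι → ι → ι → FreeGroup α}
    {one : ι → ι → ι → FreeGroup α}
    (h : Rels ok (fun i j d => p (v i j d)) (fun t i j k => p (φ t i j k))
      (fun i j k => p (one i j k))) :
    ∀ᶠ R : Finset p.ker in atTop, Rels ok (fun i j d => mkR p R (v i j d))
      (fun t i j k => mkR p R (φ t i j k)) (fun i j k => mkR p R (one i j k)) := by
  have h1 : ∀ᶠ R : Finset p.ker in atTop, ∀ t, IsSys (fun i j k => mkR p R (φ t i j k)) := by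
    simp only [eventually_all]
    intro t
    exact ev_sys p (h.sys t)
  have h2 := ev_sys p h.sys_one
  have h3 : ∀ᶠ R : Finset p.ker in atTop, ∀ t t', t ≠ t' → ∀ i j k a b c,
      Commute (mkR p R (φ t i j k)) (mkR p R (φ t' a b c)) := by
    simp only [eventually_all]
    intro t t' ht i j k a b c
    exact ev_comm p (h.orth t t' ht i j k a b c)
  have h4 : ∀ᶠ R : Finset p.ker in atTop, ∀ i j d k l d',
      Commute (mkR p R (v i j d)) (mkR p R (v k l d')) := by
    simp only [eventually_all]
    intro i j d k l d'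
    exact ev_comm p (h.v_comm i j d k l d')
  have h5 : ∀ᶠ R : Finset p.ker in atTop, ∀ i j k d,
      mkR p R (v i j d * v j k d) = mkR p R (v i k d) := by
    simp only [eventually_all]
    intro i j k d
    exact ev_eq p (by rw [map_mul]; exact h.v_mul i j k d)
  have h6 : ∀ᶠ R : Finset p.ker in atTop, ∀ t i j k l m d, (l ≠ i ∧ l ≠ j ∧ l ≠ k) →
      (m ≠ i ∧ m ≠ j ∧ m ≠ k) → Commute (mkR p R (φ t i j k)) (mkR p R (v l m d)) := by
    simp only [eventually_all]
    intro t i j k l m d g1 g2
    exact ev_comm p (h.φ_v t i j k l m d g1 g2)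
  have h7 : ∀ᶠ R : Finset p.ker in atTop, ∀ i j k l d, D3 i j k → (l ≠ i ∧ l ≠ j ∧ l ≠ k) →
      Commute (mkR p R (one i j k)) (mkR p R (v i l d * v j l d * v k l d)) := by
    simp only [eventually_all]
    intro i j k l d g1 g2
    exact ev_comm p (by rw [map_mul, map_mul]; exact h.one_v i j k l d g1 g2)
  have h8 : ∀ᶠ R : Finset p.ker in atTop, ∀ d t t', ¬ ok d t t' → ∀ a b c i j k l, D3 i j k →
      (l ≠ i ∧ l ≠ j ∧ l ≠ k) → Commute (mkR p R (φ t a b c))
        (mkR p R ((v i l d * v j l d * v k l d)⁻¹ * φ t' i j k * (v i l d * v j l d * v k l d))) := by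
    simp only [eventually_all]
    intro d t t' g0 a b c i j k l g1 g2
    exact ev_comm p (by
      simp only [map_mul, map_inv]; exact h.edge d t t' g0 a b c i j k l g1 g2)
  have h9 : ∀ᶠ R : Finset p.ker in atTop, ∀ i j k l d, D3 i j l → (k ≠ i ∧ k ≠ j ∧ k ≠ l) →
      mkR p R (v i j d) = mkR p R (v i k d * one i j l * (v i k d)⁻¹ * (one i j l)⁻¹) := by
    simp only [eventually_all]
    intro i j k l d g1 g2
    exact ev_eq p (by simp only [map_mul, map_inv]; exact h.v_eq i j k l d g1 g2)
  filter_upwards [h1, h2, h3, h4, h5, h6, h7, h8, h9] with R h1 h2 h3 h4 h5 h6 h7 h8 h9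
  exact
    { sys := h1
      sys_one := h2
      orth := h3
      v_comm := h4
      v_mul := fun i j k d => by rw [← map_mul, h5]
      φ_v := h6
      one_v := fun i j k l d g1 g2 => by
        have := h7 i j k l d g1 g2
        simpa only [map_mul] using this
      edge := fun d t t' g0 a b c i j k l g1 g2 => by
        have := h8 d t t' g0 a b c i j k l g1 g2
        simpa only [map_mul, map_inv] using this
      v_eq := fun i j k l d g1 g2 => by
        have := h9 i j k l d g1 g2
        simpa only [map_mul, map_inv] using this }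

end Approx

/-! ### the concrete permutations -/

/-- translation of two copies -/
def pv (i j : ι) (d : Bool) : Perm (X × ι) :=
  trl (Pi.single i (vec d 1 0) - Pi.single j (vec d 1 0))

open Classical in
/-- a label permutation at the sites where `t` is observed -/
noncomputable def atH (t : Shift.A X) : Perm ι →* (X → Perm ι) where
  toFun σ x := if obs x = t then σ else 1
  map_one' := by funext x; simp
  map_mul' σ τ := by
    funext x
    by_cases h : obs x = t <;> simp [h]

/-- a label permutation everywhere -/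
def cstH : Perm ι →* (X → Perm ι) where
  toFun σ _ := σ
  map_one' := rfl
  map_mul' _ _ := rfl

noncomputable def pφ (t : Shift.A X) (i j k : ι) : Perm (X × ι) := lab (atH t (c3 i j k))

def pone (i j k : ι) : Perm (X × ι) := lab (cstH (c3 i j k))

theorem conj_lab {S : Set ι} {f : X → Perm ι} (hf : ∀ x, f x ∈ SuppOn S) {a : ι → V} {w : V}
    (ha : ∀ n ∈ S, a n = w) :
    (trl a)⁻¹ * lab f * trl a = (lab (fun x => f (w +ᵥ x)) : Perm (X × ι)) := by
  rw [mul_assoc, inv_mul_eq_iff_eq_mul]
  refine Equiv.ext (fun ⟨x, n⟩ => ?_)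
  simp only [Perm.mul_apply, trl_apply, lab_apply]
  by_cases hn : n ∈ S
  · rw [ha n hn, ha _ ((SuppOn.mem_iff (hf _) n).2 hn)]
  · rw [hf _ n hn, hf _ n hn]

theorem commute_lab_trl {S : Set ι} {f : X → Perm ι} (hf : ∀ x, f x ∈ SuppOn S) {a : ι → V}
    {w : V} (ha : ∀ n ∈ S, a n = w) (hw : ∀ x, f (w +ᵥ x) = f x) :
    Commute (lab f : Perm (X × ι)) (trl a) := by
  have h := conj_lab hf ha
  simp only [hw] at h
  rw [mul_assoc, inv_mul_eq_iff_eq_mul] at h
  exact h

theorem atH_supp (t : Shift.A X) (i j k : ι) (x : X) :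
    atH t (c3 i j k) x ∈ SuppOn ({i, j, k} : Set ι) := by
  classical
  change (if obs x = t then c3 i j k else 1) ∈ _
  split_ifs
  · exact c3_mem_suppOn (by simp) (by simp) (by simp)
  · exact one_mem _

theorem three_eq (i j k l : ι) (d : Bool) :
    (pv i l d * pv j l d * pv k l d : Perm (X × ι)) =
      trl ((Pi.single i (vec d 1 0) - Pi.single l (vec d 1 0)) +
        (Pi.single j (vec d 1 0) - Pi.single l (vec d 1 0)) +
        (Pi.single k (vec d 1 0) - Pi.single l (vec d 1 0))) := by
  rw [trl_add, trl_add]; rfl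

theorem three_val {i j k l : ι} (e : V) (h : D3 i j k) (hl : l ≠ i ∧ l ≠ j ∧ l ≠ k) :
    ∀ n ∈ ({i, j, k} : Set ι), (((Pi.single i e - Pi.single l e) +
        (Pi.single j e - Pi.single l e) + (Pi.single k e - Pi.single l e) : ι → V)) n = e := by
  obtain ⟨h1, h2, h3⟩ := h
  obtain ⟨g1, g2, g3⟩ := hl
  intro n hn
  simp only [Set.mem_insert_iff, Set.mem_singleton_iff] at hn
  rcases hn with rfl | rfl | rfl
  · simp [h1, h2, g1.symm]
  · simp [h1.symm, h3, g2.symm]
  · simp [h2.symm, h3.symm, g3.symm]

theorem rels_perm (hR : Rules X ok) : Rels ok (pv (X := X) (ι := ι)) pφ pone where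
  sys t := isSys_c3.map (lab.comp (atH t))
  sys_one := isSys_c3.map (lab.comp cstH)
  orth t t' ht i j k a b c := by
    classical
    refine Commute.map ?_ lab
    funext x
    change (if obs x = t then c3 i j k else 1) * (if obs x = t' then c3 a b c else 1) =
      (if obs x = t' then c3 a b c else 1) * (if obs x = t then c3 i j k else 1)
    by_cases h : obs x = t
    · have h' : obs x ≠ t' := fun e => ht (h.symm.trans e)
      simp [h']
    · simp [h]
  v_comm i j d k l d' := by
    change pv i j d * pv k l d' = pv k l d' * pv i j d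
    unfold pv
    rw [← trl_add, ← trl_add, add_comm]
  v_mul i j k d := by
    unfold pv
    rw [← trl_add, sub_add_sub_cancel]
  φ_v t i j k l m d hl hm := by
    refine commute_lab_trl (w := 0) (atH_supp t i j k) ?_ (fun x => by rw [zero_vadd])
    intro n hn
    simp only [Set.mem_insert_iff, Set.mem_singleton_iff] at hn
    have h1 : n ≠ l := by rintro rfl; tauto
    have h2 : n ≠ m := by rintro rfl; tauto
    simp [h1, h2]
  one_v i j k l d h hl := by
    rw [three_eq]
    exact commute_lab_trl (S := {i, j, k})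
      (fun _ => c3_mem_suppOn (by simp) (by simp) (by simp)) (three_val _ h hl) (fun _ => rfl)
  edge d t t' hok a b c i j k l h hl := by
    classical
    rw [three_eq, pφ, pφ, conj_lab (atH_supp t' i j k) (three_val _ h hl)]
    refine Commute.map ?_ lab
    funext x
    change (if obs x = t then c3 a b c else 1) *
        (if obs (vec d 1 0 +ᵥ x) = t' then c3 i j k else 1) =
      (if obs (vec d 1 0 +ᵥ x) = t' then c3 i j k else 1) * (if obs x = t then c3 a b c else 1)
    by_cases h1 : obs x = t
    · have h2 : obs (vec d 1 0 +ᵥ x) ≠ t' := fun e => hok (by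
        rw [← h1, ← e]; exact hR.obs_ok d x)
      simp [h2]
    · simp [h1]
  v_eq i j k l d h hk := by
    rw [eq_mul_inv_iff_mul_eq, eq_mul_inv_iff_mul_eq]
    refine Equiv.ext (fun ⟨x, n⟩ => ?_)
    simp only [pv, pone, cstH, MonoidHom.coe_mk, OneHom.coe_mk, Perm.mul_apply, trl_apply,
      lab_apply, ← add_vadd, Prod.mk.injEq, and_true]
    congr 1
    obtain ⟨g1, g2, g3⟩ := hk
    by_cases h1 : n = i
    · subst h1
      rw [c3_fst h]
      simp [h.1.symm, g1.symm, g2.symm]
    by_cases h2 : n = j
    · subst h2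
      rw [c3_snd h]
      simp [h.2.1.symm, h.2.2.symm, h1, g2.symm, g3.symm]
    by_cases h3 : n = l
    · subst h3
      rw [c3_thd h]
      simp [h.1, h1, g1.symm, g3.symm]
    rw [c3_other h1 h2 h3]
    simp [h1, h2]

theorem prod_atH {L : List (Shift.A X)} (hL : L.Nodup) (σ : Perm ι) (x : X) :
    (L.map (fun t => atH t σ)).prod x = open Classical in if obs x ∈ L then σ else 1 := by
  classical
  induction L with
  | nil => simp
  | cons t L ih =>
    rw [List.nodup_cons] at hL
    rw [List.map_cons, List.prod_cons, Pi.mul_apply, ih hL.2]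
    change (if obs x = t then σ else 1) * _ = _
    by_cases h : obs x = t
    · have h' : obs x ∉ L := by rw [h]; exact hL.1
      simp [h, hL.1]
    · simp [h]

theorem pone_eq {L : List (Shift.A X)} (hL : L.Nodup) (hL' : ∀ t, t ∈ L) (i j k : ι) :
    (L.map (fun t => pφ t i j k)).prod = (pone i j k : Perm (X × ι)) := by
  have h : (L.map (fun t => atH t (c3 i j k))).prod = (cstH (c3 i j k) : X → Perm ι) := by
    funext x
    rw [prod_atH hL, if_pos (hL' _)]
    rfl
  rw [pone, ← h, map_list_prod, List.map_map]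
  rfl

end MEx

open MEx in
theorem exists_model (hR : Rules X ok) : ∃ (Γ : Type) (_ : Group Γ),
    Group.IsFinitelyPresented Γ ∧ Nonempty (Model X ι Γ ok) := by
  classical
  have := Fintype.ofFinite (Shift.A X)
  let L : List (Shift.A X) := Finset.univ.toList
  have hL : L.Nodup := Finset.nodup_toList _
  have hL' : ∀ t, t ∈ L := fun t => by simp [L]
  let α := (ι × ι × Bool) ⊕ (Shift.A X × ι × ι × ι)
  let g : α → Perm (X × ι) := Sum.elim (fun q => pv q.1 q.2.1 q.2.2)
    (fun q => pφ q.1 q.2.1 q.2.2.1 q.2.2.2)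
  let p : FreeGroup α →* Perm (X × ι) := FreeGroup.lift g
  let v : ι → ι → Bool → FreeGroup α := fun i j d => .of (Sum.inl (i, j, d))
  let φ : Shift.A X → ι → ι → ι → FreeGroup α := fun t i j k => .of (Sum.inr (t, i, j, k))
  let one : ι → ι → ι → FreeGroup α := fun i j k => (L.map (fun t => φ t i j k)).prod
  have hv : ∀ i j d, p (v i j d) = pv i j d := fun i j d => FreeGroup.lift_apply_of
  have hφ : ∀ t i j k, p (φ t i j k) = pφ t i j k := fun t i j k => FreeGroup.lift_apply_of
  have hone : ∀ i j k, p (one i j k) = pone i j k := fun i j k => by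
    rw [← pone_eq hL hL', map_list_prod, List.map_map]
    exact congrArg List.prod (List.map_congr_left (fun t _ => hφ t i j k))
  have hrel : Rels ok (fun i j d => p (v i j d)) (fun t i j k => p (φ t i j k))
      (fun i j k => p (one i j k)) := by
    simp only [hv, hφ, hone]
    exact rels_perm hR
  obtain ⟨R, hRR⟩ := (ev_rels p hrel).exists
  let π : PresentedGroup (rel p R) →* Perm (X × ι) :=
    PresentedGroup.toGroup (f := g) (by
      rintro _ ⟨r, -, rfl⟩
      exact r.2)
  refine ⟨PresentedGroup (rel p R), inferInstance, inferInstance, ⟨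
    { v := fun i j d => mkR p R (v i j d)
      φ := fun t i j k => mkR p R (φ t i j k)
      one := fun i j k => mkR p R (one i j k)
      π := π
      L := L
      L_nodup := hL
      L_all := hL'
      sys := hRR.sys
      sys_one := hRR.sys_one
      orth := hRR.orth
      one_eq := fun i j k => by
        rw [map_list_prod, List.map_map]; rfl
      v_comm := hRR.v_comm
      v_mul := hRR.v_mul
      φ_v := hRR.φ_v
      one_v := hRR.one_v
      edge := hRR.edge
      v_eq := hRR.v_eq
      gen := ?_
      π_v := fun i j d => PresentedGroup.toGroup.of _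
      π_φ := fun t i j k x l => ?_ }⟩⟩
  · have := PresentedGroup.closure_range_of (rel p R)
    rw [eq_top_iff]
    refine le_trans (le_of_eq this.symm) (Subgroup.closure_mono ?_)
    rintro _ ⟨q | q, rfl⟩
    · exact Or.inl ⟨q.1, q.2.1, q.2.2, rfl⟩
    · exact Or.inr ⟨q.1, q.2.1, q.2.2.1, q.2.2.2, rfl⟩
  · have h1 : π (mkR p R (φ t i j k)) = pφ t i j k := PresentedGroup.toGroup.of _
    rw [h1, pφ, lab_apply]
    congr 1
    change (if obs x = t then c3 i j k else 1) l = _
    split_ifs <;> rfl

end Crest.Agent.R189
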