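import Crest.Agent.R189.Inner
import Crest.Agent.R189.Flux

/-! # Row 189: the kernel is finitely generated -/

set_option autoImplicit false
set_option linter.unusedSectionVars false

namespace Crest.Agent.R189
open Equiv

variable {X ι Γ : Type} [Shift X] [Good X] [DecidableEq ι] [Fintype ι] [Group Γ]

namespace OuterAux

/-- an involution exchanging two disjoint finite sets of the same size -/
theorem exists_exchange {α : Type} (A B : Finset α) :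
    ∃ σ : Perm α, Disjoint A B → A.card = B.card →
      (∀ x ∈ A, σ x ∈ B) ∧ (∀ x ∈ B, σ x ∈ A) ∧ ∀ x, x ∉ A → x ∉ B → σ x = x := by
  classical
  by_cases h : Disjoint A B ∧ A.card = B.card
  swap
  · exact ⟨1, fun h1 h2 => (h ⟨h1, h2⟩).elim⟩
  obtain ⟨hd, hc⟩ := h
  let e : A ≃ B := Finset.equivOfCardEq hc
  let φ : α → α := fun x => if h : x ∈ A then (e ⟨x, h⟩ : α) else
    if h : x ∈ B then (e.symm ⟨x, h⟩ : α) else x
  have hA : ∀ x (h : x ∈ A), φ x = e ⟨x, h⟩ := fun x h => by simp only [φ, dif_pos h]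
  have hB : ∀ x (h : x ∈ B), φ x = e.symm ⟨x, h⟩ := fun x h => by
    have h' : x ∉ A := fun h' => Finset.disjoint_left.1 hd h' h
    simp only [φ, dif_neg h', dif_pos h]
  have hC : ∀ x, x ∉ A → x ∉ B → φ x = x := fun x h h' => by
    simp only [φ, dif_neg h, dif_neg h']
  have hinv : Function.Involutive φ := by
    intro x
    by_cases h : x ∈ A
    · rw [hA x h, hB _ (e ⟨x, h⟩).2]
      simp
    by_cases h' : x ∈ B
    · rw [hB x h', hA _ (e.symm ⟨x, h'⟩).2]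
      simp
    · rw [hC x h h', hC x h h']
  refine ⟨hinv.toPerm φ, fun _ _ => ⟨fun x h => ?_, fun x h => ?_, fun x h h' => hC x h h'⟩⟩
  · change φ x ∈ B
    rw [hA x h]; exact (e ⟨x, h⟩).2
  · change φ x ∈ A
    rw [hB x h]; exact (e.symm ⟨x, h⟩).2

theorem mem_rectO {lo hi lo' hi' : ℤ} {f : Pt ι} :
    f ∈ rectF ι lo hi lo' hi' ↔ lo ≤ f.1.1 ∧ f.1.1 ≤ hi ∧ lo' ≤ f.1.2 ∧ f.1.2 ≤ hi' := by
  simp [rectF, and_assoc]

/-- a permutation of bounded displacement supported in thin strips preserves their components -/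
theorem comp_pres {L : ℕ} (c : Crd X true L) {p Δ : ℤ} (hΔ : 0 ≤ Δ) (hL : 4 * Δ < L)
    {u : Perm (X × ι)} (h2 : u ∈ SuppOn (c.strip (p - Δ) (p + Δ))) (h3 : Disp Δ u)
    {x : X} (hx : c.rep x 0) {f g : Pt ι} (hf1 : p - Δ ≤ f.1.1) (hf2 : f.1.1 ≤ p + Δ)
    (e : u (x ⋆ f) = x ⋆ g) :
    p - Δ ≤ g.1.1 ∧ g.1.1 ≤ p + Δ ∧ f.1.2 - Δ ≤ g.1.2 ∧ g.1.2 ≤ f.1.2 + Δ := by
  obtain ⟨z, hz, ez⟩ := h3 (x ⋆ f)
  rw [e, star_fst, star_fst, ← add_vadd] at ez
  have eg : g.1 = z + f.1 := vadd_inj ez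
  have hm : x ⋆ f ∈ c.strip (p - Δ) (p + Δ) :=
    ⟨_, c.shift f.1 hx, by simpa using hf1, by simpa using hf2⟩
  have hm' := (SuppOn.mem_iff h2 _).2 hm
  rw [e] at hm'
  obtain ⟨s, hs, hs1, hs2⟩ := hm'
  have hr := c.shift g.1 hx
  have e1 : g.1.1 = z.1 + f.1.1 := by rw [eg]; rfl
  have e2 : g.1.2 = z.2 + f.1.2 := by rw [eg]; rfl
  unfold Bd at hz
  have := c.eq hs hr (by simp only [pr_true]; omega) (by simp only [pr_true]; omega)
  simp only [pr_true] at this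
  omega

theorem evp_append (w w' : List (Tri X ι)) : evp (w ++ w') = evp w * evp w' := by
  simp [evp]

theorem ev_rev (C : PreCan X ι Γ) {w : List (Tri X ι)} (hw : ∀ τ ∈ w, τ.Gd) :
    C.ev (w.reverse.map Tri.rev) = (C.ev w)⁻¹ := by
  induction w with
  | nil => simp
  | cons τ w ih =>
    rw [List.reverse_cons, List.map_append, C.ev_append, ih (fun τ' h => hw τ' (by simp [h])),
      PreCan.ev_cons, mul_inv_rev]
    simp [C.inv (hw τ (by simp))]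

theorem gd_rev {w : List (Tri X ι)} (hw : ∀ τ ∈ w, τ.Gd) :
    ∀ τ ∈ w.reverse.map Tri.rev, τ.Gd := by
  intro τ h
  obtain ⟨τ', h', rfl⟩ := List.mem_map.1 h
  exact (hw τ' (List.mem_reverse.1 h')).rev

theorem gd_append {w w' : List (Tri X ι)} (hw : ∀ τ ∈ w, τ.Gd) (hw' : ∀ τ ∈ w', τ.Gd) :
    ∀ τ ∈ w ++ w', τ.Gd := fun τ h => (List.mem_append.1 h).elim (hw τ) (hw' τ)

theorem evp_rev (C : PreCan X ι Γ) {w : List (Tri X ι)} (hw : ∀ τ ∈ w, τ.Gd) (h1 : evp w = 1) :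
    evp (w.reverse.map Tri.rev) = 1 := by
  rw [← C.π_ev (gd_rev hw), ev_rev C hw, map_inv, C.π_ev hw, h1, inv_one]

theorem flux_nil (x : X) : flux ([] : List (Tri X ι)) x = 0 := ind_one

theorem exists_pow (C : PreCan X ι Γ) {w : List (Tri X ι)} (hw : ∀ τ ∈ w, τ.Gd) (h1 : evp w = 1)
    (x0 : X) (n : ℤ) : ∃ w' : List (Tri X ι), (∀ τ ∈ w', τ.Gd) ∧ evp w' = 1 ∧
      C.ev w' = C.ev w ^ n ∧ flux w' x0 = n * flux w x0 := by
  induction n using Int.induction_on with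
  | zero => exact ⟨[], by simp, rfl, by simp, by simp [flux_nil]⟩
  | succ n ih =>
    obtain ⟨w', g1, g2, g3, g4⟩ := ih
    refine ⟨w' ++ w, gd_append g1 hw, by rw [evp_append, g2, h1, one_mul], ?_, ?_⟩
    · rw [C.ev_append, g3, zpow_add_one]
    · rw [flux_append (fun τ h => (g1 τ h).1) g2 (fun τ h => (hw τ h).1) h1, g4]; ring
  | pred n ih =>
    obtain ⟨w', g1, g2, g3, g4⟩ := ih
    refine ⟨w' ++ w.reverse.map Tri.rev, gd_append g1 (gd_rev hw),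
      by rw [evp_append, g2, evp_rev C hw h1, one_mul], ?_, ?_⟩
    · rw [C.ev_append, g3, ev_rev C hw, zpow_sub_one]
    · rw [flux_append (fun τ h => (g1 τ h).1) g2 (fun τ h => (gd_rev hw τ h).1) (evp_rev C hw h1),
        g4, flux_rev (fun τ h => (hw τ h).1) h1]; ring

/-- zero flux: as many points cross upwards as downwards -/
theorem card_up_down {L : ℕ} (c : Crd X true L) {p Δ : ℤ} (hΔ : 0 ≤ Δ) (hL : 4 * Δ < L)
    {u : Perm (X × ι)} (h2 : u ∈ SuppOn (c.strip (p - Δ) (p + Δ))) (h3 : Disp Δ u)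
    (h4 : ∀ y, c.rep y p → ind (LoS Δ y) u = 0) {x : X} (hx : c.rep x 0) {k : Pt ι → Pt ι}
    (hk : ∀ f, u (x ⋆ f) = x ⋆ k f) :
    ((rectF ι (p - Δ) (p + Δ) (-Δ) Δ).filter (fun f => f.1.2 < 0 ∧ 0 ≤ (k f).1.2)).card =
    ((rectF ι (p - Δ) (p + Δ) (-Δ) Δ).filter (fun f => 0 ≤ f.1.2 ∧ (k f).1.2 < 0)).card := by
  set y : X := ((p, 0) : V) +ᵥ x with hy
  have hyp : c.rep y p := by simpa using c.shift ((p, 0) : V) hx
  have hmem : ∀ f : Pt ι, x ⋆ f ∈ LoS (ι := ι) Δ y ↔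
      p - Δ ≤ f.1.1 ∧ f.1.1 ≤ p + Δ ∧ f.1.2 < 0 := by
    intro f
    constructor
    · rintro ⟨z, a1, a2, a3, a4⟩
      rw [star_fst, hy, ← add_vadd] at a4
      have := vadd_inj a4
      have e1 : f.1.1 = z.1 + p := by rw [this]; rfl
      have e2 : f.1.2 = z.2 + 0 := by rw [this]; rfl
      omega
    · rintro ⟨a1, a2, a3⟩
      refine ⟨f.1 - (p, 0), ?_, ?_, ?_, ?_⟩
      · simp only [Prod.fst_sub]; omega
      · simp only [Prod.fst_sub]; omega
      · simp only [Prod.snd_sub]; omega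
      · rw [star_fst, hy, ← add_vadd, sub_add_cancel]
  have hex : ∀ ω ∈ LoS (ι := ι) Δ y, ∃ f : Pt ι, ω = x ⋆ f := by
    rintro ω ⟨z, -, -, -, a4⟩
    exact ⟨(z + (p, 0), ω.2), Prod.ext (by rw [a4, star_fst, add_vadd]) rfl⟩
  have hinj : Function.Injective (fun f : Pt ι => x ⋆ f) := fun _ _ h => star_inj h
  have eU : {ω | ω ∈ LoS (ι := ι) Δ y ∧ u ω ∉ LoS (ι := ι) Δ y} = (fun f : Pt ι => x ⋆ f) ''
      ((rectF ι (p - Δ) (p + Δ) (-Δ) Δ).filter (fun f => f.1.2 < 0 ∧ 0 ≤ (k f).1.2) :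
        Finset (Pt ι)) := by
    ext ω
    simp only [Set.mem_ofPred_eq, Set.mem_image, Finset.mem_coe, Finset.mem_filter, mem_rectO]
    constructor
    · rintro ⟨a1, a2⟩
      obtain ⟨f, rfl⟩ := hex ω a1
      rw [hk, hmem] at a2
      rw [hmem] at a1
      have := comp_pres c hΔ hL h2 h3 hx a1.1 a1.2.1 (hk f)
      exact ⟨f, by omega, rfl⟩
    · rintro ⟨f, a, rfl⟩
      rw [hk, hmem, hmem]
      omega
  have eD : {ω | ω ∉ LoS (ι := ι) Δ y ∧ u ω ∈ LoS (ι := ι) Δ y} = (fun f : Pt ι => x ⋆ f) ''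
      ((rectF ι (p - Δ) (p + Δ) (-Δ) Δ).filter (fun f => 0 ≤ f.1.2 ∧ (k f).1.2 < 0) :
        Finset (Pt ι)) := by
    ext ω
    simp only [Set.mem_ofPred_eq, Set.mem_image, Finset.mem_coe, Finset.mem_filter, mem_rectO]
    constructor
    · rintro ⟨a1, a2⟩
      obtain ⟨g, eg⟩ := hex _ a2
      obtain ⟨z, -, ez⟩ := h3.inv (x ⋆ g)
      have e0 : u⁻¹ (x ⋆ g) = ω := by rw [← eg]; simp
      have e1 : ω = x ⋆ (z + g.1, ω.2) := Prod.ext (by rw [← e0, ez, star_fst, star_fst, add_vadd]) rfl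
      generalize (z + g.1, ω.2) = f at e1
      subst e1
      have e2 : k f = g := star_inj (by rw [← hk, eg])
      rw [eg, hmem] at a2
      rw [hmem] at a1
      have := comp_pres c hΔ hL (inv_mem h2) h3.inv hx a2.1 a2.2.1 e0
      exact ⟨f, by rw [e2]; omega, rfl⟩
    · rintro ⟨f, a, rfl⟩
      have := comp_pres c hΔ hL h2 h3 hx a.1.1 a.1.2.1 (hk f)
      rw [hk, hmem, hmem]
      omega
  have hfin : (Cross (LoS (ι := ι) Δ y) u).Finite := by
    refine Set.Finite.subset (Set.Finite.union (eU ▸ (Finset.finite_toSet _).image _)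
      (eD ▸ (Finset.finite_toSet _).image _)) ?_
    intro ω hω
    simp only [Cross, Set.mem_ofPred_eq, Set.mem_union] at hω ⊢
    tauto
  have := h4 y hyp
  rw [ind_eq_ncard hfin, eU, eD, Set.ncard_image_of_injective _ hinj,
    Set.ncard_image_of_injective _ hinj, Set.ncard_coe_finset, Set.ncard_coe_finset] at this
  omega

end OuterAux
open OuterAux

/-- a local permutation supported in thin vertical strips with zero flux lifts -/
theorem lift_of_flux (C : PreCan X ι Γ) {a b : ι} (hab : a ≠ b) {L : ℕ} (c : Crd X true L)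
    {p Δ : ℤ} (hΔ : 0 ≤ Δ) (hL : 4 * Δ < L) {u : Perm (X × ι)} (h1 : LocP u)
    (h2 : u ∈ SuppOn (c.strip (p - Δ) (p + Δ))) (h3 : Disp Δ u)
    (h4 : ∀ y, c.rep y p → ind (LoS Δ y) u = 0) :
    ∃ h ∈ C.GS (c.In (p - Δ) (p + Δ)), ∃ E', Loc E' ∧ E' ⊆ c.band (p - Δ) (p + Δ) ∧
      u = C.π h * TT a b E' := by
  classical
  obtain ⟨L', hL', ⟨c'⟩⟩ := exists_crd (X := X) false (4 * Δ + 4).toNat
  have hL'' : 4 * Δ + 4 ≤ L' := by omega
  set B := rectB c c' with hBdef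
  set FP := rectF ι (p - Δ) (p + Δ) (-Δ) Δ with hFP
  set FC := rectF ι (p - Δ) (p + Δ) 0 (L' - 1) with hFC
  have hB : Loc B := loc_rectB c c'
  have hIP : Inj B (FP : Set (Pt ι)) := inj_rect c c' (by omega) (by omega)
  have hIC : Inj B (FC : Set (Pt ι)) := inj_rect c c' (by omega) (by omega)
  choose k hk1 hk2 using h1.rel
  choose σ hσ using exists_exchange (α := Pt ι)
  let Up : X → Finset (Pt ι) := fun x => FP.filter (fun f => f.1.2 < 0 ∧ 0 ≤ (k f x).1.2)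
  let Dn : X → Finset (Pt ι) := fun x => FP.filter (fun f => 0 ≤ f.1.2 ∧ (k f x).1.2 < 0)
  let s : X → Perm (Pt ι) := fun x => σ (Up x) (Dn x)
  have hsl : LocF s := by
    refine (LocF.pi (I := FP) (f := fun x f => k f.1 x) (fun f => hk1 f.1)).of_det ?_
    intro x y hxy
    have e : ∀ f ∈ FP, k f x = k f y := fun f hf => congrFun hxy ⟨f, hf⟩
    have eU : Up x = Up y := Finset.filter_congr (fun f hf => by rw [e f hf])
    have eD : Dn x = Dn y := Finset.filter_congr (fun f hf => by rw [e f hf])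
    simp only [s, eU, eD]
  have hs : ∀ x ∈ B, (∀ f ∈ Up x, s x f ∈ Dn x) ∧ (∀ f ∈ Dn x, s x f ∈ Up x) ∧
      ∀ f, f ∉ Up x → f ∉ Dn x → s x f = f := by
    intro x hx
    refine hσ (Up x) (Dn x) ?_ (card_up_down c hΔ hL h2 h3 h4 hx.1 (k := fun f => k f x)
      (fun f => hk2 f x))
    rw [Finset.disjoint_left]
    intro f a1 a2
    have := (Finset.mem_filter.1 a1).2.1
    have := (Finset.mem_filter.1 a2).2.1
    omega
  have hsupp : ∀ x ∈ B, s x ∈ SuppOn (FP : Set (Pt ι)) := fun x hx f hf =>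
    (hs x hx).2.2 f (fun h => hf (Finset.mem_filter.1 h).1) (fun h => hf (Finset.mem_filter.1 h).1)
  obtain ⟨Pm, hPm⟩ := exists_acts hIP (s := s) (fun x hx f => SuppOn.mem_iff (hsupp x hx) f)
  have hPl : LocP Pm := hPm.locP hB FP.finite_toSet hsl
  -- the behaviour near the cuts
  have hnear : ∀ x ∈ B, ∀ f ∈ FP, ∃ g : Pt ι, (u * Pm) (x ⋆ f) = x ⋆ g ∧ p - Δ ≤ g.1.1 ∧
      g.1.1 ≤ p + Δ ∧ -(2 * Δ) ≤ g.1.2 ∧ g.1.2 ≤ 2 * Δ ∧ (f.1.2 < 0 ↔ g.1.2 < 0) := by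
    intro x hx f hf
    have hf' : s x f ∈ FP := (SuppOn.mem_iff (hsupp x hx) f).2 hf
    have hf'' := mem_rectO.1 hf'
    have := comp_pres c hΔ hL h2 h3 hx.1 hf''.1 hf''.2.1 (hk2 (s x f) x)
    refine ⟨k (s x f) x, by rw [Perm.mul_apply, hPm.app x hx f hf, hk2], this.1, this.2.1,
      by omega, by omega, ?_⟩
    by_cases a1 : f ∈ Up x
    · have b1 := (Finset.mem_filter.1 a1).2
      have b2 := (Finset.mem_filter.1 ((hs x hx).1 f a1)).2
      omega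
    by_cases a2 : f ∈ Dn x
    · have b1 := (Finset.mem_filter.1 a2).2
      have b2 := (Finset.mem_filter.1 ((hs x hx).2.1 f a2)).2
      omega
    · rw [(hs x hx).2.2 f a1 a2]
      have b1 : ¬ (f.1.2 < 0 ∧ 0 ≤ (k f x).1.2) := fun h => a1 (Finset.mem_filter.2 ⟨hf, h⟩)
      have b2 : ¬ (0 ≤ f.1.2 ∧ (k f x).1.2 < 0) := fun h => a2 (Finset.mem_filter.2 ⟨hf, h⟩)
      omega
  have hfixC : u * Pm ∈ SuppOn (Sup B (FC : Set (Pt ι))) := by
    intro ω hω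
    have hω' : ω ∉ c.strip (p - Δ) (p + Δ) := by
      intro h
      refine hω ((mem_sup_rect c c').2 ⟨h, ?_⟩)
      obtain ⟨t, t1, t2, t3⟩ := c'.ex_window ω.1 0
      exact ⟨t, t1, t2, by omega⟩
    rw [Perm.mul_apply, hPm.fix ω (fun h => hω' ((mem_sup_rect c c').1 h).1), h2 ω hω']
  have hpresC : ∀ x ∈ B, ∀ f ∈ FC, ∃ f' ∈ FC, (u * Pm) (x ⋆ f) = x ⋆ f' := by
    intro x hx f hf
    have hf' := mem_rectO.1 hf
    by_cases a1 : f.1.2 ≤ Δ
    · obtain ⟨g, e, b⟩ := hnear x hx f (mem_rectO.2 (by omega))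
      exact ⟨g, mem_rectO.2 (by omega), e⟩
    by_cases a2 : (L' : ℤ) - Δ ≤ f.1.2
    · have hx' : ((0, (L' : ℤ)) : V) +ᵥ x ∈ B := by
        refine ⟨by simpa using c.shift ((0, (L' : ℤ)) : V) hx.1, ?_⟩
        have := c'.sub_L (c'.shift ((0, (L' : ℤ)) : V) hx.2)
        simpa using this
      obtain ⟨g, e, b⟩ := hnear _ hx' (f.add (-(0, (L' : ℤ)))) (mem_rectO.2 (by
        simp only [Pt.add_fst, Prod.fst_add, Prod.snd_add, Prod.fst_neg, Prod.snd_neg]; omega))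
      simp only [Pt.add_fst, Prod.snd_add, Prod.snd_neg] at b
      rw [star_add, ← add_vadd, neg_add_cancel, zero_vadd, ← star_add] at e
      refine ⟨_, mem_rectO.2 ?_, e⟩
      simp only [Pt.add_fst, Prod.fst_add, Prod.snd_add]; omega
    · have hn : x ⋆ f ∉ Sup B (FP : Set (Pt ι)) := by
        intro h
        obtain ⟨t, t1, t2, t3⟩ := ((mem_sup_rect c c').1 h).2
        have t4 := c'.shift f.1 hx.2
        have := c'.eq t1 t4 (by simp only [pr_false]; omega) (by simp only [pr_false]; omega)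
        simp only [pr_false] at this
        omega
      have := comp_pres c hΔ hL h2 h3 hx.1 hf'.1 hf'.2.1 (hk2 f x)
      exact ⟨k f x, mem_rectO.2 (by omega), by rw [Perm.mul_apply, hPm.fix _ hn, hk2]⟩
  have hzC : ∀ i : ι, (((p, 0) : V), i) ∈ FC := fun i => mem_rectO.2 (by simp only; omega)
  have hzP : ∀ i : ι, (((p, 0) : V), i) ∈ FP := fun i => mem_rectO.2 (by simp only; omega)
  obtain ⟨k1, hk1m, E1, hE1, hE1s, e1⟩ := C.block_lift (h1.mul hPl) hB hIC hfixC hpresC hab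
    (hzC a) (hzC b)
  have hPi := hPm.inv (fun x hx f hf => (SuppOn.mem_iff (inv_mem (hsupp x hx)) f).2 hf)
  have hfixP : TT a b E1 * Pm⁻¹ ∈ SuppOn (Sup B (FP : Set (Pt ι))) := by
    refine mul_mem ?_ hPi.mem_suppOn
    rintro ⟨y, i⟩ hω
    refine TT_not_mem a b (fun hy => hω ⟨_, hE1s hy, _, hzP i, ?_⟩) i
    exact Prod.ext (by rw [star_fst, ← add_vadd, add_neg_cancel, zero_vadd]) rfl
  have hpresP : ∀ x ∈ B, ∀ f ∈ FP, ∃ f' ∈ FP, (TT a b E1 * Pm⁻¹) (x ⋆ f) = x ⋆ f' := by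
    intro x hx f hf
    have hf' : (s x)⁻¹ f ∈ FP := (SuppOn.mem_iff (inv_mem (hsupp x hx)) f).2 hf
    rw [Perm.mul_apply, hPi.app x hx f hf]
    exact ⟨(((s x)⁻¹ f).1, (TT a b E1 (x ⋆ (s x)⁻¹ f)).2), 
      mem_rectO.2 (mem_rectO (f := (s x)⁻¹ f) |>.1 hf'),
      Prod.ext (TT_fst _ _ _ _) rfl⟩
  obtain ⟨k2, hk2m, E2, hE2, hE2s, e2⟩ := C.block_lift ((locP_TT a b hE1).mul hPl.inv) hB hIP hfixP
    hpresP hab (hzP a) (hzP b)
  rw [hFC, hBdef, ← GS_rect] at hk1m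
  rw [hFP, hBdef, ← GS_rect] at hk2m
  refine ⟨k1 * k2, mul_mem (C.GS_mono (fun _ _ h => h.1) hk1m) (C.GS_mono (fun _ _ h => h.1) hk2m),
    E2, hE2, fun y hy => ?_, ?_⟩
  · have := c.shift ((p, 0) : V) (hE2s hy).1
    rw [← add_vadd, add_neg_cancel, zero_vadd] at this
    exact ⟨_, this, by simp only [pr_true]; omega, by simp only [pr_true]; omega⟩
  · rw [map_mul, mul_assoc, ← e2, ← mul_assoc, ← e1, mul_inv_cancel_right]

theorem outer (C : PreCan X ι Γ) {a b : ι} (hab : a ≠ b) {D : Subgroup Γ} (hD : BlockInj C a b D)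
    {w : List (Tri X ι)} (hw : ∀ τ ∈ w, τ.Gd) (h1 : evp w = 1) (h0 : ∀ x, flux w x = 0) :
    C.ev w ∈ D := by
  obtain ⟨ρ, hρ⟩ := Tri.exists_rad_list w
  have hρ0 : (0 : ℤ) ≤ ρ := Int.natCast_nonneg _
  set Δ : ℤ := 2 * ρ * (w.length + 1) + 1 with hΔ
  have hΔ0 : 0 < Δ := by positivity
  obtain ⟨L, hL, ⟨c⟩⟩ := exists_crd (X := X) true (20 * Δ).toNat
  have hL' : 20 * Δ ≤ L := by omega
  refine four_cut C a b D c (fun _ => True) (fun _ _ _ => trivial) w ρ Δ hρ0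
    (fun τ h => ⟨hw τ h, trivial, hρ τ h⟩) (by omega) hL' ∅ Loc.empty (by rw [h1, TT_empty]) ?_ ?_
  · intro lo hi hl h hh E' hE' e
    exact inner C hab hD c hl (C.GS_mono (fun _ _ h => h.2) hh) hE' e
  · intro p u hu
    obtain ⟨a1, a2⟩ := edge_flux hρ0 (fun τ h => ⟨(hw τ h).1, hρ τ h⟩) h1 h0 (by omega) c hu
    obtain ⟨h, hh, E', b⟩ := lift_of_flux C hab c hΔ0.le (by omega) hu.locP hu.supp a1 a2
    exact ⟨h, C.GS_mono (fun _ _ h => ⟨trivial, h⟩) hh, E', b⟩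

theorem ker_fg (hι : 40 ≤ Fintype.card ι) (C : Can X ι Γ) : C.π.ker.FG := by
  obtain ⟨a, -⟩ := fresh hι [] (by simp)
  obtain ⟨b, hb⟩ := fresh hι [a] (by simp)
  have hab : a ≠ b := fun e => hb (by simp [e])
  obtain ⟨D, hfin, hD⟩ := exists_D hι C hab
  obtain ⟨x0⟩ := Good.nonempty (X := X)
  let S : AddSubgroup ℤ :=
    { carrier := {n | ∃ w : List (Tri X ι), (∀ τ ∈ w, τ.Gd) ∧ evp w = 1 ∧ flux w x0 = n}
      zero_mem' := ⟨[], by simp, rfl, flux_nil x0⟩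
      add_mem' := by
        rintro _ _ ⟨w, a1, a2, rfl⟩ ⟨w', b1, b2, rfl⟩
        exact ⟨w ++ w', gd_append a1 b1, by rw [evp_append, a2, b2, one_mul],
          flux_append (fun τ h => (a1 τ h).1) a2 (fun τ h => (b1 τ h).1) b2 x0⟩
      neg_mem' := by
        rintro _ ⟨w, a1, a2, rfl⟩
        exact ⟨_, gd_rev a1, evp_rev C.toPreCan a1 a2, flux_rev (fun τ h => (a1 τ h).1) a2 x0⟩ }
  obtain ⟨m, hm⟩ := Int.subgroup_cyclic S
  have hmS : m ∈ S := by rw [hm]; exact AddSubgroup.subset_closure rfl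
  obtain ⟨w0, g1, g2, g3⟩ := hmS
  rw [Subgroup.fg_iff]
  refine ⟨((D ⊓ C.π.ker : Subgroup Γ) : Set Γ) ∪ {C.ev w0}, le_antisymm ?_ ?_,
    Set.Finite.union (Set.toFinite _) (Set.finite_singleton _)⟩
  · rw [Subgroup.closure_le]
    rintro g (hg | rfl)
    · exact hg.2
    · change C.π (C.ev w0) = 1
      rw [C.π_ev g1, g2]
  · intro g hg
    obtain ⟨w, hw, rfl⟩ := C.exists_word (Q := fun _ => True) (fun _ _ => trivial)
      (g := g) (by rw [C.GS_true]; trivial)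
    have hw' : ∀ τ ∈ w, τ.Gd := fun τ h => (hw τ h).1
    have hw1 : evp w = 1 := by rw [← C.π_ev hw']; exact hg
    have hS : flux w x0 ∈ S := ⟨w, hw', hw1, rfl⟩
    rw [hm, AddSubgroup.mem_closure_singleton] at hS
    obtain ⟨n, hn⟩ := hS
    obtain ⟨w', b1, b2, b3, b4⟩ := exists_pow C.toPreCan g1 g2 x0 (-n)
    have c1 := gd_append hw' b1
    have c2 : evp (w ++ w') = 1 := by rw [evp_append, hw1, b2, one_mul]
    have c3 : flux (w ++ w') x0 = 0 := by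
      rw [flux_append (fun τ h => (hw' τ h).1) hw1 (fun τ h => (b1 τ h).1) b2, b4, g3, ← hn]
      simp
    have c4 : C.ev (w ++ w') ∈ D :=
      outer C.toPreCan hab hD c1 c2 (fun x => by rw [flux_const c1 c2 x x0, c3])
    have c5 : C.ev (w ++ w') ∈ C.π.ker := by
      change C.π (C.ev (w ++ w')) = 1
      rw [C.π_ev c1, c2]
    have e : C.ev w = C.ev (w ++ w') * C.ev w0 ^ n := by
      rw [C.ev_append, b3, mul_assoc, ← zpow_add, neg_add_cancel, zpow_zero, mul_one]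
    rw [e]
    refine mul_mem (Subgroup.subset_closure (Or.inl ⟨c4, c5⟩)) (zpow_mem ?_ n)
    exact Subgroup.subset_closure (Or.inr rfl)

end Crest.Agent.R189
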