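import Crest.Agent.R189.Theta
import Crest.Agent.R189.BoolHom

/-! # Row 189: from a model to systems over all local sets -/

set_option autoImplicit false
set_option linter.unusedSectionVars false

namespace Crest.Agent.R189
open Equiv QL

variable {X ι Γ : Type} [Shift X] [DecidableEq ι] [Fintype ι] [Group Γ]
  {ok : Bool → Shift.A X → Shift.A X → Prop}

theorem Phi_hom_ext {G : Type} [Group G] {f g : AA ι →* G}
    (h : ∀ i j k, D3 i j k → f (AA.x i j k) = g (AA.x i j k)) : f = g := by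
  refine AA.hom_ext (fun i j k => ?_)
  by_cases hd : D3 i j k
  · exact h i j k hd
  · rw [AA.isSys.junk hd, map_one, map_one]

open Classical in
/-- the label permutation over the sites of `U` -/
noncomputable def Phi_lab (U : Set X) : AA ι →* Perm (X × ι) :=
  lab.comp (MonoidHom.pi (fun x : X => if x ∈ U then (AA.perm : AA ι →* Perm ι) else 1))

open Classical in
theorem Phi_lab_apply (U : Set X) (s : AA ι) (x : X) (l : ι) :
    Phi_lab U s (x, l) = (x, if x ∈ U then AA.perm s l else l) := by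
  unfold Phi_lab
  by_cases h : x ∈ U <;> simp [h]

theorem Phi_lab_compl (U : Set X) (s : AA ι) :
    Phi_lab Uᶜ s = (Phi_lab U s)⁻¹ * Phi_lab (Set.univ : Set X) s := by
  rw [eq_inv_mul_iff_mul_eq]
  refine Equiv.ext (fun ⟨x, l⟩ => ?_)
  rw [Perm.mul_apply, Phi_lab_apply, Phi_lab_apply, Phi_lab_apply]
  by_cases h : x ∈ U <;> simp [h]

open scoped commutatorElement in
theorem Phi_lab_inter (U U' : Set X) (s t : AA ι) :
    Phi_lab (U ∩ U') ⁅s, t⁆ = ⁅Phi_lab U s, Phi_lab U' t⁆ := by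
  rw [commutatorElement_def (Phi_lab U s), ← map_inv, ← map_inv]
  refine Equiv.ext (fun ⟨x, l⟩ => ?_)
  rw [Perm.mul_apply, Perm.mul_apply, Perm.mul_apply, Phi_lab_apply, Phi_lab_apply, Phi_lab_apply,
    Phi_lab_apply, Phi_lab_apply]
  by_cases h : x ∈ U <;> by_cases h' : x ∈ U' <;> simp [h, h', commutatorElement_def]

/-- a translation which is `w` on all copies but one -/
theorem Phi_exists_lam (w : V) (l : ι) : ∃ a : Lam ι, ∀ m, m ≠ l → a.1 m = w := by
  refine ⟨⟨fun m => w - (if m = l then Fintype.card ι • w else 0), ?_⟩, fun m hm => by simp [hm]⟩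
  change ∑ m, (w - (if m = l then Fintype.card ι • w else 0)) = 0
  rw [Finset.sum_sub_distrib]
  simp

theorem Phi_single_mem (i j : ι) (w : V) : Pi.single i w - Pi.single j w ∈ Lam ι := by
  change ∑ m, (Pi.single i w - Pi.single j w : ι → V) m = 0
  simp [Finset.sum_sub_distrib]

theorem Phi_π_prod (M : Model X ι Γ ok) (i j k : ι) (x : X) (l : ι) (L : List (Shift.A X))
    (hL : L.Nodup) : M.π (L.map (fun t => M.φ t i j k)).prod (x, l) =
      (x, (open Classical in if obs x ∈ L then c3 i j k l else l)) := by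
  classical
  induction L with
  | nil => simp
  | cons t L ih =>
    rw [List.nodup_cons] at hL
    rw [List.map_cons, List.prod_cons, map_mul, Perm.mul_apply, ih hL.2, M.π_φ]
    by_cases h1 : obs x = t
    · have h2 : obs x ∉ L := h1 ▸ hL.1
      simp [h1, hL.1]
    · by_cases h2 : obs x ∈ L <;> simp [h1, h2]

theorem exists_phi (hι : 40 ≤ Fintype.card ι) (hR : Rules X ok) (M : Model X ι Γ ok) :
    ∃ P : Phi X ι Γ, P.π = M.π := by
  classical
  obtain ⟨u, hu1, hu2, hu3, hu4, hu5⟩ := M.exists_u hι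
  obtain ⟨θ, hθ1, hθ2, hθ3, hθ4, hθ5, hθ6, -, hθ8⟩ := M.exists_theta hι u hu1 hu4 hu5
  have hu0 : u 0 = 1 := by
    have := hu1 0 0
    rw [add_zero] at this
    exact left_eq_mul.1 this
  have hun : ∀ a, u (-a) = (u a)⁻¹ := fun a =>
    eq_inv_of_mul_eq_one_left (by rw [← hu1, neg_add_cancel, hu0])
  obtain ⟨o0, ho0⟩ := Idem.exists_obs (E := M.env hι) M.L M.L_nodup M.L_all
    (fun t => AA.lift (M.sys t))
    (fun a b hab => AA.commute_of_gen (fun i j k _ a' b' c' _ => by
      rw [AA.lift_x, AA.lift_x]; exact M.orth a b hab _ _ _ _ _ _))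
    (fun i j k => by
      change AA.lift M.sys_one _ = _
      simp only [AA.lift_x]; exact M.one_eq i j k)
    (fun a S i j k hi hj hk _ => by
      rw [AA.lift_x]
      exact Subgroup.subset_closure (Or.inr ⟨a, i, hi, j, hj, k, hk, rfl⟩))
  have ho0x : ∀ t i j k, (o0.e t).φ (AA.x i j k) = M.φ t i j k := fun t i j k => by
    rw [ho0, AA.lift_x]
  let o : V → Obs (Idem (M.env hι)) (Shift.A X) := fun w =>
    { e := fun t => θ (-w) (o0.e t)
      fin := inferInstance
      orth := fun hab => by rw [← hθ5]; exact hθ4 _ _ _ (o0.orth hab)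
      full := fun g hg => by
        have h1 : (⊤ : Idem (M.env hι)) ≤ θ w g := o0.full _ (fun a => by
          have := hθ4 w _ _ (hg a)
          rwa [hθ2, add_neg_cancel, hθ3] at this)
        have := hθ4 (-w) _ _ h1
        rwa [hθ6, hθ2, neg_add_cancel, hθ3] at this }
  have hoe : ∀ w t, (o w).e t = θ (-w) (o0.e t) := fun _ _ => rfl
  have ho : ∀ d w a b, ¬ ok d a b → (o w).e a ≤ neg ((o (w + vec d 1 0)).e b) := by
    intro d w a b hab
    rw [hoe, hoe, neg_add, ← hθ2, ← hθ5]
    refine hθ4 _ _ _ (Idem.le_neg_iff.2 (AA.commute_of_gen (fun a' b' c' _ i j k hd => ?_)))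
    obtain ⟨l, hl⟩ := fresh hι [i, j, k] (by simp)
    simp only [List.mem_cons, List.not_mem_nil, or_false, not_or] at hl
    let s : ι → Lam ι := fun m => ⟨_, Phi_single_mem m l (vec d 1 0)⟩
    have hs : ∀ m, u (s m) = M.v m l d := fun m => hu3 _ _ _ _ rfl
    have e1 := hθ1 (-vec d 1 0) (o0.e b) (-(s i + s j + s k)) i j k
      (by simp [s, hd.1, hd.2.1, Ne.symm hl.1])
      (by simp [s, hd.1.symm, hd.2.2, Ne.symm hl.2.1])
      (by simp [s, hd.2.1.symm, hd.2.2.symm, Ne.symm hl.2.2])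
    rw [e1, hun, inv_inv, hu1, hu1, hs, hs, hs, ho0x, ho0x]
    exact M.edge d a b hab _ _ _ _ _ _ _ hd hl
  obtain ⟨Φ, hΦ1, hΦ2, hΦ3, hΦ4, hΦ5⟩ := exists_bool_hom hR o ho
  have hcyl : ∀ (w : V) (t : Shift.A X), Loc {x : X | obs (w +ᵥ x) = t} := fun w t =>
    (LocF.obs_at w).loc (fun a => a = t)
  have hmono : ∀ U U', Loc U → Loc U' → U ⊆ U' → Φ U ≤ Φ U' := by
    intro U U' hU hU' h
    have := meet_le_right (hΦ1 U U' hU hU')
    rwa [← hΦ4 U U' hU hU', Set.inter_eq_left.2 h] at this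
  have hcov : ∀ (w : V) (U : Set X), Loc U → θ w (Φ (sh w U)) = Φ U := by
    intro w U hU
    refine loc_bool_induction (fun U => θ w (Φ (sh w U)) = Φ U) ?_ ?_ ?_ ?_ hU
    · change θ w (Φ Set.univ) = Φ Set.univ
      rw [hΦ2, hθ6]
    · intro z a
      have e : sh w {x : X | obs (z +ᵥ x) = a} = {x : X | obs ((z + w) +ᵥ x) = a} := by
        ext x; simp [add_vadd]
      rw [e, hΦ5, hΦ5, hoe, hoe, hθ2]
      congr 1
      abel
    · intro U hU h
      rw [sh_compl, hΦ3 _ (hU.sh w), hθ5, h, hΦ3 _ hU]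
    · intro U U' hU hU' h h'
      rw [sh_inter, hΦ4 _ _ (hU.sh w) (hU'.sh w), hθ8 _ _ _ (hΦ1 _ _ (hU.sh w) (hU'.sh w)), h, h',
        hΦ4 _ _ hU hU']
  have hone : M.π.comp (M.env hι).one = Phi_lab (Set.univ : Set X) := by
    refine AA.hom_ext (fun i j k => Equiv.ext (fun ⟨x, l⟩ => ?_))
    change M.π (AA.lift M.sys_one _) _ = _
    rw [AA.lift_x, M.one_eq, Phi_π_prod M i j k x l M.L M.L_nodup, Phi_lab_apply]
    simp [M.L_all]
  have hπ : ∀ U, Loc U → M.π.comp (Φ U).φ = Phi_lab U := by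
    intro U hU
    refine loc_bool_induction (fun U => M.π.comp (Φ U).φ = Phi_lab U) ?_ ?_ ?_ ?_ hU
    · rw [hΦ2]; exact hone
    · intro z t
      refine Phi_hom_ext (fun i j k hd => Equiv.ext (fun ⟨x, m⟩ => ?_))
      obtain ⟨l, hl⟩ := fresh hι [i, j, k] (by simp)
      simp only [List.mem_cons, List.not_mem_nil, or_false, not_or] at hl
      obtain ⟨a, ha⟩ := Phi_exists_lam (-z) l
      rw [MonoidHom.comp_apply, hΦ5, hoe, hθ1 (-z) _ a i j k (ha _ (Ne.symm hl.1))
        (ha _ (Ne.symm hl.2.1)) (ha _ (Ne.symm hl.2.2)), ho0x, map_mul, map_mul, map_inv, hu2,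
        ← trl_neg, Perm.mul_apply, Perm.mul_apply, trl_apply, M.π_φ, trl_apply, Phi_lab_apply,
        AA.perm_x]
      by_cases hm : m = l
      · have e : c3 i j k m = m := by rw [hm]; exact c3_other hl.1 hl.2.1 hl.2.2
        simp [e, ← add_vadd]
      · have e : c3 i j k m ≠ l := fun e =>
          hm ((c3 i j k).injective (e.trans (c3_other hl.1 hl.2.1 hl.2.2).symm))
        by_cases hx : obs (z +ᵥ x) = t
        · simp [hx, ha m hm, ha _ e, ← add_vadd]
        · simp [hx, ha m hm, ← add_vadd]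
    · intro U hU h
      refine MonoidHom.ext (fun s => ?_)
      rw [MonoidHom.comp_apply, hΦ3 _ hU, Idem.neg_φ, map_mul, map_inv, Phi_lab_compl, ← h, ← hone]
      rfl
    · intro U U' hU hU' h h'
      refine Phi_hom_ext (fun b d e hd => ?_)
      obtain ⟨a, ha⟩ := fresh hι [b, d, e] (by simp)
      obtain ⟨m, hm⟩ := fresh hι [b, d, e, a] (by simp)
      simp only [List.mem_cons, List.not_mem_nil, or_false, not_or] at ha hm
      rw [AA.isSys.comm hd ha ⟨hm.1, hm.2.1, hm.2.2.1⟩ (Ne.symm hm.2.2.2), MonoidHom.comp_apply,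
        hΦ4 _ _ hU hU', Idem.meet_comm_apply (hΦ1 _ _ hU hU'), Phi_lab_inter, ← h, ← h',
        map_commutatorElement]
      rfl
  refine ⟨{ π := M.π
            u := u
            Φ := fun U => (Φ U).φ
            u_add := hu1
            add := ?_
            orth := ?_
            cov := ?_
            π_u := hu2
            π_Φ := ?_
            gen := ?_ }, rfl⟩
  · intro U U' hU hU' hd s
    have e := Idem.eq_meet_mul (hΦ1 _ _ (hU.union hU') hU) s
    have e1 : (U ∪ U') ∩ Uᶜ = U' := by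
      ext x
      have : x ∈ U → x ∉ U' := fun h => Set.disjoint_left.1 hd h
      simp only [Set.mem_inter_iff, Set.mem_union, Set.mem_compl_iff]
      tauto
    rwa [← hΦ3 _ hU, ← hΦ4 _ _ (hU.union hU') hU, ← hΦ4 _ _ (hU.union hU') hU.compl, e1,
      Set.union_inter_cancel_left] at e
  · intro U U' hU hU' hd
    refine Idem.le_neg_iff.1 ?_
    rw [← hΦ3 _ hU']
    exact hmono _ _ hU hU'.compl hd.subset_compl_right
  · intro U hU a w i j k hi hj hk
    rw [← hθ1 w _ a i j k hi hj hk, hcov w U hU]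
  · intro U hU s x l
    have := congrArg (fun f : AA ι →* Perm (X × ι) => f s (x, l)) (hπ U hU)
    simp only [MonoidHom.comp_apply] at this
    rw [this, Phi_lab_apply]
  · rw [eq_top_iff, ← M.gen, Subgroup.closure_le]
    have hone' : ∀ i j k, (Φ Set.univ).φ (AA.x i j k) = M.one i j k := fun i j k => by
      rw [hΦ2]; exact AA.lift_x M.sys_one i j k
    rintro _ (⟨i, j, d, rfl⟩ | ⟨t, i, j, k, rfl⟩)
    · by_cases hij : i = j
      · subst hij
        rw [left_eq_mul.1 (M.v_mul i i i d).symm]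
        exact one_mem _
      · obtain ⟨l, hl⟩ := fresh hι [i, j] (by simp)
        obtain ⟨k, hk⟩ := fresh hι [i, j, l] (by simp)
        simp only [List.mem_cons, List.not_mem_nil, or_false, not_or] at hl hk
        have hd : D3 i j l := ⟨hij, Ne.symm hl.1, Ne.symm hl.2⟩
        rw [M.v_eq i j k l d hd hk]
        refine mul_mem (Subgroup.subset_closure
          ⟨⟨_, Phi_single_mem i k (vec d 1 0)⟩, Set.univ, i, j, l, Loc.univ, hd, ?_⟩)
          (inv_mem (Subgroup.subset_closure ⟨0, Set.univ, i, j, l, Loc.univ, hd, ?_⟩))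
        · rw [hu3 _ i k d rfl, hone']
        · rw [hu0, hone']; simp
    · by_cases hd : D3 i j k
      · refine Subgroup.subset_closure ⟨0, _, i, j, k, hcyl 0 t, hd, ?_⟩
        rw [hu0, hΦ5, hoe, neg_zero, hθ3, ho0x]; simp
      · rw [(M.sys t).junk hd]; exact one_mem _

end Crest.Agent.R189
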