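import Crest.Agent.R189.Rain

/-! # Row 189: canonical lifts of all three-cycles -/

set_option autoImplicit false
set_option linter.unusedSectionVars false

namespace Crest.Agent.R189
open Equiv

variable {X ι Γ : Type} [Shift X] [Good X] [DecidableEq ι] [Fintype ι] [Group Γ]

/-- a family of six auxiliary points -/
structure Mv (ι : Type) where
  m1 : Pt ι
  n1 : Pt ι
  m2 : Pt ι
  n2 : Pt ι
  m3 : Pt ι
  n3 : Pt ι

namespace Mv

def lab (M : Mv ι) : List ι := [M.m1.2, M.n1.2, M.m2.2, M.n2.2, M.m3.2, M.n3.2]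

/-- the labels are distinct and avoid `L` -/
def Fr (M : Mv ι) (L : List ι) : Prop := M.lab.Nodup ∧ ∀ i ∈ M.lab, i ∉ L

def rot (M : Mv ι) : Mv ι := ⟨M.m2, M.n2, M.m3, M.n3, M.m1, M.n1⟩
def rev (M : Mv ι) : Mv ι := ⟨M.m1, M.n1, M.m3, M.n3, M.m2, M.n2⟩
def add (M : Mv ι) (z : V) : Mv ι :=
  ⟨M.m1.add z, M.n1.add z, M.m2.add z, M.n2.add z, M.m3.add z, M.n3.add z⟩

/-- the whole block -/
def blk (M : Mv ι) (a b c : Pt ι) : Set (Pt ι) := {a, b, c, M.m1, M.n1, M.m2, M.n2, M.m3, M.n3}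

theorem Fr.mono {M : Mv ι} {L L' : List ι} (h : M.Fr L) (hL : ∀ i ∈ L', i ∈ L) : M.Fr L' :=
  ⟨h.1, fun i hi hi' => h.2 i hi (hL i hi')⟩

theorem exists_fr (hι : 40 ≤ Fintype.card ι) (L : List ι) (hL : L.length ≤ 30) :
    ∃ M : Mv ι, M.Fr L := by
  obtain ⟨a1, h1⟩ := fresh hι L (by omega)
  obtain ⟨a2, h2⟩ := fresh hι (a1 :: L) (by simp; omega)
  obtain ⟨a3, h3⟩ := fresh hι (a2 :: a1 :: L) (by simp; omega)
  obtain ⟨a4, h4⟩ := fresh hι (a3 :: a2 :: a1 :: L) (by simp; omega)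
  obtain ⟨a5, h5⟩ := fresh hι (a4 :: a3 :: a2 :: a1 :: L) (by simp; omega)
  obtain ⟨a6, h6⟩ := fresh hι (a5 :: a4 :: a3 :: a2 :: a1 :: L) (by simp; omega)
  refine ⟨⟨(0, a1), (0, a2), (0, a3), (0, a4), (0, a5), (0, a6)⟩, ?_⟩
  simp only [List.mem_cons, not_or] at h2 h3 h4 h5 h6
  simp only [Fr, lab, List.nodup_cons, List.mem_cons, List.not_mem_nil, List.nodup_nil]
  grind

/-- the unfolded form of freshness for three points -/
structure Fr3 (M : Mv ι) (a b c : Pt ι) : Prop where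
  r1 : Rb M.m1 a M.n1
  r2 : Rb M.m2 b M.n2
  r3 : Rb M.m3 c M.n3
  rm : Rb M.m1 M.m2 M.m3
  all : M.Fr [a.2, b.2, c.2]

theorem Fr.fr3 {M : Mv ι} {a b c : Pt ι} (h : M.Fr [a.2, b.2, c.2]) : M.Fr3 a b c := by
  have h' := h
  simp only [Fr, lab, List.nodup_cons, List.mem_cons, List.not_mem_nil, List.nodup_nil] at h'
  refine ⟨?_, ?_, ?_, ?_, h⟩ <;> unfold Rb D3 <;> grind

theorem Fr.rot {M : Mv ι} {a b c : ι} (h : M.Fr [a, b, c]) : M.rot.Fr [b, c, a] := by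
  simp only [Fr, lab, Mv.rot, List.nodup_cons, List.mem_cons, List.not_mem_nil,
    List.nodup_nil] at h ⊢
  grind

theorem Fr.rev {M : Mv ι} {a b c : ι} (h : M.Fr [a, b, c]) : M.rev.Fr [a, c, b] := by
  simp only [Fr, lab, Mv.rev, List.nodup_cons, List.mem_cons, List.not_mem_nil,
    List.nodup_nil] at h ⊢
  grind

theorem Fr.add {M : Mv ι} {L : List ι} (h : M.Fr L) (z : V) : (M.add z).Fr L := h

theorem Fr.inj {M : Mv ι} {U : Set X} {a b c : Pt ι} (h : M.Fr [a.2, b.2, c.2])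
    (hok : (⟨U, a, b, c⟩ : Tri X ι).Ok) : Inj U (M.blk a b c) := by
  intro x hx y hy f hf g hg e
  by_cases hfg : f ∈ (⟨U, a, b, c⟩ : Tri X ι).pts ∧ g ∈ (⟨U, a, b, c⟩ : Tri X ι).pts
  · exact hok.2 x hx y hy f hfg.1 g hfg.2 e
  · have e2 := star_eq_snd e
    have h1 : f = g := by
      simp only [Fr, lab, List.nodup_cons, List.mem_cons, List.not_mem_nil, List.nodup_nil] at h
      simp only [Tri.mem_pts] at hfg
      simp only [blk, Set.mem_insert_iff, Set.mem_singleton_iff] at hf hg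
      clear e hok hx hy
      grind (splits := 40)
    subst h1
    exact ⟨AddAction.injective f.1 (star_eq_fst e), rfl⟩

end Mv

namespace Phi
variable (P : Phi X ι Γ)

/-- the mover -/
noncomputable def mvr (U : Set X) (a b c : Pt ι) (M : Mv ι) : Γ :=
  P.r U M.m1 a M.n1 * P.r U M.m2 b M.n2 * P.r U M.m3 c M.n3

/-- the lift defined with the auxiliary family `M` -/
noncomputable def xx (U : Set X) (a b c : Pt ι) (M : Mv ι) : Γ :=
  P.mvr U a b c M * P.r U M.m1 M.m2 M.m3 * (P.mvr U a b c M)⁻¹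

variable (hι : 40 ≤ Fintype.card ι)
include hι

theorem comm_blk {W U U' : Set X} {F : Set (Pt ι)} (hI : Inj W F) (hU : Loc U) (hU' : Loc U')
    (hUW : U ⊆ W) (hUW' : U' ⊆ W) {a b c a' b' c' : Pt ι} (h : Rb a b c) (h' : Rb a' b' c')
    (hF : a ∈ F ∧ b ∈ F ∧ c ∈ F) (hF' : a' ∈ F ∧ b' ∈ F ∧ c' ∈ F)
    (hd : Disjoint U U' ∨ ∀ f ∈ [a, b, c], f ∉ [a', b', c']) :
    Commute (P.r U a b c) (P.r U' a' b' c') := by
  refine P.r_comm hι hU hU' h h' (Set.disjoint_left.2 ?_)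
  rintro _ ⟨x, hx, f, hf, rfl⟩ ⟨y, hy, g, hg, e⟩
  have hf1 : f ∈ F := by rcases Tri.mem_pts.1 hf with rfl | rfl | rfl <;> tauto
  have hg1 : g ∈ F := by rcases Tri.mem_pts.1 hg with rfl | rfl | rfl <;> tauto
  obtain ⟨rfl, rfl⟩ := hI x (hUW hx) y (hUW' hy) f hf1 g hg1 e
  rcases hd with hd | hd
  · exact Set.disjoint_left.1 hd hx hy
  · exact hd f (by simpa [Tri.mem_pts] using hf) (by simpa [Tri.mem_pts] using hg)

theorem comm12 {U : Set X} (hU : Loc U) {a b c : Pt ι} (hok : (⟨U, a, b, c⟩ : Tri X ι).Ok)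
    {M : Mv ι} (h : M.Fr [a.2, b.2, c.2]) : Commute (P.r U M.m1 a M.n1) (P.r U M.m2 b M.n2) := by
  refine P.comm_blk hι (h.inj hok) hU hU le_rfl le_rfl h.fr3.r1 h.fr3.r2 (by simp [Mv.blk])
    (by simp [Mv.blk]) (Or.inr ?_)
  have h1 := hok.1.1
  simp only [Mv.Fr, Mv.lab, List.nodup_cons, List.mem_cons, List.not_mem_nil,
    List.nodup_nil] at h h1 ⊢
  grind

omit hι in
theorem ok_rot {U : Set X} {a b c : Pt ι} (hok : (⟨U, a, b, c⟩ : Tri X ι).Ok) :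
    (⟨U, b, c, a⟩ : Tri X ι).Ok :=
  ⟨hok.1.rot, hok.2.mono le_rfl (fun f hf => by simp only [Tri.mem_pts] at hf ⊢; tauto)⟩

theorem comm23 {U : Set X} (hU : Loc U) {a b c : Pt ι} (hok : (⟨U, a, b, c⟩ : Tri X ι).Ok)
    {M : Mv ι} (h : M.Fr [a.2, b.2, c.2]) : Commute (P.r U M.m2 b M.n2) (P.r U M.m3 c M.n3) :=
  P.comm12 hι hU (ok_rot hok) h.rot

theorem comm31 {U : Set X} (hU : Loc U) {a b c : Pt ι} (hok : (⟨U, a, b, c⟩ : Tri X ι).Ok)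
    {M : Mv ι} (h : M.Fr [a.2, b.2, c.2]) : Commute (P.r U M.m3 c M.n3) (P.r U M.m1 a M.n1) :=
  P.comm12 hι hU (ok_rot (ok_rot hok)) h.rot.rot

theorem mvr_rot {U : Set X} (hU : Loc U) {a b c : Pt ι} (hok : (⟨U, a, b, c⟩ : Tri X ι).Ok)
    {M : Mv ι} (h : M.Fr [a.2, b.2, c.2]) : P.mvr U b c a M.rot = P.mvr U a b c M := by
  have h1 := ((P.comm12 hι hU hok h).mul_right (P.comm31 hι hU hok h).symm).eq
  simp only [mvr, Mv.rot]
  rw [← h1, mul_assoc]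

theorem xx_rot {U : Set X} (hU : Loc U) {a b c : Pt ι} (hok : (⟨U, a, b, c⟩ : Tri X ι).Ok)
    {M : Mv ι} (h : M.Fr [a.2, b.2, c.2]) : P.xx U b c a M.rot = P.xx U a b c M := by
  rw [xx, xx, P.mvr_rot hι hU hok h, P.r_rot hι hU h.fr3.rm]
  rfl

theorem xx_rev {U : Set X} (hU : Loc U) {a b c : Pt ι} (hok : (⟨U, a, b, c⟩ : Tri X ι).Ok)
    {M : Mv ι} (h : M.Fr [a.2, b.2, c.2]) : P.xx U a c b M.rev = (P.xx U a b c M)⁻¹ := by
  have h1 : P.mvr U a c b M.rev = P.mvr U a b c M := by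
    simp only [mvr, Mv.rev]
    rw [mul_assoc, mul_assoc, (P.comm23 hι hU hok h).eq]
  have h2 : P.r U M.rev.m1 M.rev.m2 M.rev.m3 = (P.r U M.m1 M.m2 M.m3)⁻¹ :=
    P.r_inv hι hU h.fr3.rm
  rw [xx, xx, h1, h2]
  group

/-- moving the first point of a rainbow triple -/
theorem conj_fst {U : Set X} (hU : Loc U) {m f n p q : Pt ι} (h : Rb m f n) (h' : Rb m p q)
    (hf : f.2 ≠ p.2 ∧ f.2 ≠ q.2) (hn : n.2 ≠ p.2 ∧ n.2 ≠ q.2) :
    P.r U m f n * P.r U m p q * (P.r U m f n)⁻¹ = P.r U f p q := by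
  have hd : D3 m f n := D3.of_map (f := Prod.snd) h
  rw [P.r_conj hι hU hU le_rfl h h', c3_fst hd, c3_other, c3_other]
  all_goals
    unfold Rb D3 at h h'
    try simp only [List.mem_cons, List.not_mem_nil]
    grind

theorem xx_eq {U : Set X} (hU : Loc U) {a b c : Pt ι} (hok : (⟨U, a, b, c⟩ : Tri X ι).Ok)
    {M : Mv ι} (h : M.Fr [a.2, b.2, c.2]) :
    P.xx U a b c M = (P.r U M.m2 b M.n2 * P.r U M.m3 c M.n3) * P.r U a M.m2 M.m3 *
      (P.r U M.m2 b M.n2 * P.r U M.m3 c M.n3)⁻¹ := by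
  have h1 := P.conj_fst hι hU h.fr3.r1 h.fr3.rm (by
    simp only [Mv.Fr, Mv.lab, List.nodup_cons, List.mem_cons, List.not_mem_nil,
      List.nodup_nil] at h
    grind) (by
    simp only [Mv.Fr, Mv.lab, List.nodup_cons, List.mem_cons, List.not_mem_nil,
      List.nodup_nil] at h
    grind)
  rw [xx, ← P.mvr_rot hι hU hok h, ← h1]
  simp only [mvr, Mv.rot]
  group

/-- independence of the first pair of auxiliary points -/
theorem xx_indep1 {U : Set X} (hU : Loc U) {a b c : Pt ι} (hok : (⟨U, a, b, c⟩ : Tri X ι).Ok)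
    {m n m' n' m2 n2 m3 n3 : Pt ι} (h : Mv.Fr ⟨m, n, m2, n2, m3, n3⟩ [a.2, b.2, c.2])
    (h' : Mv.Fr ⟨m', n', m2, n2, m3, n3⟩ [a.2, b.2, c.2]) :
    P.xx U a b c ⟨m, n, m2, n2, m3, n3⟩ = P.xx U a b c ⟨m', n', m2, n2, m3, n3⟩ := by
  rw [P.xx_eq hι hU hok h, P.xx_eq hι hU hok h']

theorem xx_indep_disj {U : Set X} (hU : Loc U) {a b c : Pt ι} (hok : (⟨U, a, b, c⟩ : Tri X ι).Ok)
    {M M' : Mv ι} (h : M.Fr [a.2, b.2, c.2]) (h' : M'.Fr (M.lab ++ [a.2, b.2, c.2])) :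
    P.xx U a b c M = P.xx U a b c M' := by
  obtain ⟨m1, n1, m2, n2, m3, n3⟩ := M
  obtain ⟨m1', n1', m2', n2', m3', n3'⟩ := M'
  have k1 : Mv.Fr ⟨m1', n1', m2, n2, m3, n3⟩ [a.2, b.2, c.2] := by
    simp only [Mv.Fr, Mv.lab, List.nodup_cons, List.mem_cons, List.not_mem_nil,
      List.nodup_nil, List.mem_append] at h h' ⊢
    grind
  have k2 : Mv.Fr ⟨m1', n1', m2', n2', m3, n3⟩ [a.2, b.2, c.2] := by
    simp only [Mv.Fr, Mv.lab, List.nodup_cons, List.mem_cons, List.not_mem_nil,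
      List.nodup_nil, List.mem_append] at h h' ⊢
    grind
  have k3 : Mv.Fr ⟨m1', n1', m2', n2', m3', n3'⟩ [a.2, b.2, c.2] :=
    h'.mono fun i hi => List.mem_append_right _ hi
  rw [P.xx_indep1 hι hU hok h k1, ← P.xx_rot hι hU hok k1]
  refine (P.xx_indep1 hι hU (ok_rot hok) k1.rot k2.rot).trans ?_
  refine (P.xx_rot hι hU (ok_rot hok) k2.rot).symm.trans ?_
  refine (P.xx_indep1 hι hU (ok_rot (ok_rot hok)) k2.rot.rot k3.rot.rot).trans ?_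
  exact (P.xx_rot hι hU (ok_rot hok) k3.rot).trans (P.xx_rot hι hU hok k3)

theorem xx_indep {U : Set X} (hU : Loc U) {a b c : Pt ι} (hok : (⟨U, a, b, c⟩ : Tri X ι).Ok)
    {M M' : Mv ι} (h : M.Fr [a.2, b.2, c.2]) (h' : M'.Fr [a.2, b.2, c.2]) :
    P.xx U a b c M = P.xx U a b c M' := by
  obtain ⟨N, hN⟩ := Mv.exists_fr hι (M.lab ++ M'.lab ++ [a.2, b.2, c.2]) (by simp [Mv.lab])
  rw [P.xx_indep_disj hι hU hok h (hN.mono fun i hi => by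
      simp only [List.mem_append] at hi ⊢; tauto),
    P.xx_indep_disj hι hU hok h' (hN.mono fun i hi => by
      simp only [List.mem_append] at hi ⊢; tauto)]

theorem xx_rb {U : Set X} (hU : Loc U) {a b c : Pt ι} (hr : Rb a b c)
    {M : Mv ι} (h : M.Fr [a.2, b.2, c.2]) : P.xx U a b c M = P.r U a b c := by
  have h0 := h
  have hr0 := hr
  simp only [Mv.Fr, Mv.lab, List.nodup_cons, List.mem_cons, List.not_mem_nil,
    List.nodup_nil] at h0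
  unfold Rb D3 at hr0
  have k1 : Rb M.m3 a M.m2 := by unfold Rb D3; grind
  have k2 : Rb M.m2 c a := by unfold Rb D3; grind
  have k3 : Rb c a M.m2 := k2.rot
  have k4 : Rb b c a := hr.rot
  have e1 := P.conj_fst hι hU h.fr3.r3 k1 (by grind) (by grind)
  have e2 := P.conj_fst hι hU h.fr3.r2 k2 (by grind) (by grind)
  rw [P.xx_eq hι hU (hr.ok U) h, P.r_rot hι hU hr, ← e2, P.r_rot hι hU k2, ← e1,
    ← P.r_rot hι hU k1]
  group

theorem xx_reb {U : Set X} (hU : Loc U) {a b c : Pt ι} {M : Mv ι} (h : M.Fr [a.2, b.2, c.2])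
    (z : V) : P.xx (sh z U) (a.add z) (b.add z) (c.add z) (M.add z) = P.xx U a b c M := by
  simp only [xx, mvr, Mv.add, P.r_reb hι hU h.fr3.r1, P.r_reb hι hU h.fr3.r2,
    P.r_reb hι hU h.fr3.r3, P.r_reb hι hU h.fr3.rm]

theorem π_xx {U : Set X} (hU : Loc U) {a b c : Pt ι} (hok : (⟨U, a, b, c⟩ : Tri X ι).Ok)
    {M : Mv ι} (h : M.Fr [a.2, b.2, c.2]) : P.π (P.xx U a b c M) = cyc ⟨U, a, b, c⟩ := by
  classical
  have key : ∀ {a b c : Pt ι} {M : Mv ι}, (⟨U, a, b, c⟩ : Tri X ι).Ok → M.Fr [a.2, b.2, c.2] →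
      ∀ x ∈ U, P.π (P.mvr U a b c M) (x ⋆ M.m1) = x ⋆ a := by
    intro a b c M hok h x hx
    have h0 := h
    simp only [Mv.Fr, Mv.lab, List.nodup_cons, List.mem_cons, List.not_mem_nil,
      List.nodup_nil] at h0
    have hfix : ∀ {p q s : Pt ι}, M.m1.2 ≠ p.2 → M.m1.2 ≠ q.2 → M.m1.2 ≠ s.2 →
        cyc (⟨U, p, q, s⟩ : Tri X ι) (x ⋆ M.m1) = x ⋆ M.m1 := by
      intro p q s h1 h2 h3
      refine cyc_fix _ ?_
      rintro ⟨y, _, f, hf, e⟩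
      have := star_eq_snd e
      rcases Tri.mem_pts.1 hf with rfl | rfl | rfl <;> contradiction
    rw [mvr, map_mul, map_mul, P.π_r hι hU h.fr3.r1, P.π_r hι hU h.fr3.r2, P.π_r hι hU h.fr3.r3,
      Perm.mul_apply, Perm.mul_apply, hfix (by grind) (by grind) (by grind),
      hfix (by grind) (by grind) (by grind)]
    exact cyc_a (h.fr3.r1.ok U) hx
  rw [xx, map_mul, map_mul, map_inv, P.π_r hι hU h.fr3.rm]
  refine cyc_conj (h.fr3.rm.ok U) hok fun x hx => ⟨key hok h x hx, ?_, ?_⟩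
  · rw [← P.mvr_rot hι hU hok h]
    exact key (ok_rot hok) h.rot x hx
  · rw [← P.mvr_rot hι hU hok h, ← P.mvr_rot hι hU (ok_rot hok) h.rot]
    exact key (ok_rot (ok_rot hok)) h.rot.rot x hx

theorem xx_add {U U' : Set X} (hU : Loc U) (hU' : Loc U') (hd : Disjoint U U') {a b c : Pt ι}
    (hok : (⟨U ∪ U', a, b, c⟩ : Tri X ι).Ok) {M : Mv ι} (h : M.Fr [a.2, b.2, c.2]) :
    P.xx (U ∪ U') a b c M = P.xx U a b c M * P.xx U' a b c M := by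
  have hc : ∀ {p q s p' q' s' : Pt ι}, Rb p q s → Rb p' q' s' →
      (p ∈ M.blk a b c ∧ q ∈ M.blk a b c ∧ s ∈ M.blk a b c) →
      (p' ∈ M.blk a b c ∧ q' ∈ M.blk a b c ∧ s' ∈ M.blk a b c) →
      Commute (P.r U p q s) (P.r U' p' q' s') := fun h1 h2 h3 h4 =>
    P.comm_blk hι (h.inj hok) hU hU' Set.subset_union_left Set.subset_union_right h1 h2 h3 h4
      (Or.inl hd)
  have b1 : M.m1 ∈ M.blk a b c ∧ a ∈ M.blk a b c ∧ M.n1 ∈ M.blk a b c := by simp [Mv.blk]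
  have b2 : M.m2 ∈ M.blk a b c ∧ b ∈ M.blk a b c ∧ M.n2 ∈ M.blk a b c := by simp [Mv.blk]
  have b3 : M.m3 ∈ M.blk a b c ∧ c ∈ M.blk a b c ∧ M.n3 ∈ M.blk a b c := by simp [Mv.blk]
  have bm : M.m1 ∈ M.blk a b c ∧ M.m2 ∈ M.blk a b c ∧ M.m3 ∈ M.blk a b c := by simp [Mv.blk]
  obtain ⟨r1, r2, r3, rm, -⟩ := h.fr3
  have hH : ∀ {p q s : Pt ι}, Rb p q s → (p ∈ M.blk a b c ∧ q ∈ M.blk a b c ∧ s ∈ M.blk a b c) →
      Commute (P.r U p q s) (P.mvr U' a b c M) := fun h1 h2 =>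
    ((hc h1 r1 h2 b1).mul_right (hc h1 r2 h2 b2)).mul_right (hc h1 r3 h2 b3)
  have hX : ∀ {p q s : Pt ι}, Rb p q s → (p ∈ M.blk a b c ∧ q ∈ M.blk a b c ∧ s ∈ M.blk a b c) →
      Commute (P.r U p q s) (P.xx U' a b c M) := fun h1 h2 =>
    ((hH h1 h2).mul_right (hc h1 rm h2 bm)).mul_right (hH h1 h2).inv_right
  have e1 : P.mvr (U ∪ U') a b c M = P.mvr U a b c M * P.mvr U' a b c M := by
    simp only [mvr]
    rw [P.r_add hι hU hU' hd r1, P.r_add hι hU hU' hd r2, P.r_add hι hU hU' hd r3,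
      (hc r2 r1 b2 b1).symm.mul_mul_mul_comm,
      ((hc r3 r1 b3 b1).mul_right (hc r3 r2 b3 b2)).symm.mul_mul_mul_comm]
  have e2 : Commute (P.mvr U a b c M) (P.xx U' a b c M) :=
    ((hX r1 b1).mul_left (hX r2 b2)).mul_left (hX r3 b3)
  have e3 := (hH rm bm).eq
  rw [xx, e1, P.r_add hι hU hU' hd rm]
  calc _ = P.mvr U a b c M * (P.mvr U' a b c M * P.r U M.m1 M.m2 M.m3) *
        P.r U' M.m1 M.m2 M.m3 * (P.mvr U' a b c M)⁻¹ * (P.mvr U a b c M)⁻¹ := by group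
    _ = P.mvr U a b c M * P.r U M.m1 M.m2 M.m3 * (P.xx U' a b c M * (P.mvr U a b c M)⁻¹) := by
      rw [← e3, xx]; group
    _ = _ := by rw [← e2.inv_left.eq, ← mul_assoc]; rfl

theorem xx_conj {U U' : Set X} (hU : Loc U) (hU' : Loc U') {p q s a b c a' b' c' : Pt ι}
    (hr : Rb p q s) {M : Mv ι} (h : M.Fr [a.2, b.2, c.2]) (h' : M.Fr [a'.2, b'.2, c'.2])
    (hp : M.Fr [p.2, q.2, s.2])
    (hg : ∀ x ∈ U, cyc ⟨U', p, q, s⟩ (x ⋆ a) = x ⋆ a' ∧ cyc ⟨U', p, q, s⟩ (x ⋆ b) = x ⋆ b' ∧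
      cyc ⟨U', p, q, s⟩ (x ⋆ c) = x ⋆ c') :
    P.r U' p q s * P.xx U a b c M * (P.r U' p q s)⁻¹ = P.xx U a' b' c' M := by
  simp only [Mv.Fr, Mv.lab, List.nodup_cons, List.mem_cons, List.not_mem_nil,
    List.nodup_nil] at hp
  have e1 := P.r_conj_one hι hU hU' hr h.fr3.r1 h'.fr3.r1 (by grind) (by grind)
    fun x hx => (hg x hx).1
  have e2 := P.r_conj_one hι hU hU' hr h.fr3.r2 h'.fr3.r2 (by grind) (by grind)
    fun x hx => (hg x hx).2.1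
  have e3 := P.r_conj_one hι hU hU' hr h.fr3.r3 h'.fr3.r3 (by grind) (by grind)
    fun x hx => (hg x hx).2.2
  have e4 : Commute (P.r U' p q s) (P.r U M.m1 M.m2 M.m3) := by
    refine P.r_comm hι hU' hU hr h.fr3.rm (Set.disjoint_left.2 ?_)
    rintro _ ⟨x, _, f, hf, rfl⟩ ⟨y, _, g, hg, e⟩
    have := star_eq_snd e
    simp only [Tri.mem_pts] at hf hg
    grind
  have e5 : P.r U M.m1 M.m2 M.m3 = P.r U' p q s * P.r U M.m1 M.m2 M.m3 * (P.r U' p q s)⁻¹ := by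
    rw [e4.eq, mul_inv_cancel_right]
  simp only [xx, mvr]
  rw [← e1, ← e2, ← e3]
  conv_rhs => rw [e5]
  group

/-- the canonical lift -/
noncomputable def xh (τ : Tri X ι) : Γ :=
  P.xx τ.U τ.a τ.b τ.c (Mv.exists_fr hι [τ.a.2, τ.b.2, τ.c.2] (by simp)).choose

theorem xh_eq {U : Set X} (hU : Loc U) {a b c : Pt ι} (hok : (⟨U, a, b, c⟩ : Tri X ι).Ok)
    {M : Mv ι} (h : M.Fr [a.2, b.2, c.2]) : P.xh hι ⟨U, a, b, c⟩ = P.xx U a b c M :=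
  P.xx_indep hι hU hok (Mv.exists_fr hι [a.2, b.2, c.2] (by simp)).choose_spec h

theorem xh_rb {U : Set X} (hU : Loc U) {a b c : Pt ι} (h : Rb a b c) :
    P.xh hι ⟨U, a, b, c⟩ = P.r U a b c :=
  P.xx_rb hι hU h (Mv.exists_fr hι [a.2, b.2, c.2] (by simp)).choose_spec

theorem xh_add {U U' : Set X} {a b c : Pt ι} (hok : (⟨U ∪ U', a, b, c⟩ : Tri X ι).Ok)
    (hU : Loc U) (hU' : Loc U') (hd : Disjoint U U') :
    P.xh hι ⟨U ∪ U', a, b, c⟩ = P.xh hι ⟨U, a, b, c⟩ * P.xh hι ⟨U', a, b, c⟩ :=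
  P.xx_add hι hU hU' hd hok (Mv.exists_fr hι [a.2, b.2, c.2] (by simp)).choose_spec

theorem xh_empty {a b c : Pt ι} (h : D3 a b c) : P.xh hι ⟨∅, a, b, c⟩ = 1 := by
  have := P.xh_add hι (U := ∅) (U' := ∅) (a := a) (b := b) (c := c)
    ⟨h, fun x hx => hx.elim False.elim False.elim⟩ Loc.empty Loc.empty (Set.disjoint_empty _)
  rw [Set.union_empty] at this
  exact left_eq_mul.1 this

theorem xh_equiv (g : Γ) : LocP (P.π g) ∧ ∀ {U : Set X} {a b c a' b' c' : Pt ι}, Loc U →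
    (⟨U, a, b, c⟩ : Tri X ι).Ok → (⟨U, a', b', c'⟩ : Tri X ι).Ok →
    (∀ x ∈ U, P.π g (x ⋆ a) = x ⋆ a' ∧ P.π g (x ⋆ b) = x ⋆ b' ∧ P.π g (x ⋆ c) = x ⋆ c') →
    g * P.xh hι ⟨U, a, b, c⟩ * g⁻¹ = P.xh hι ⟨U, a', b', c'⟩ := by
  have hgen : ∀ (U' : Set X) (p q s : Pt ι), Loc U' → Rb p q s →
      LocP (P.π (P.r U' p q s)) ∧ ∀ {U : Set X} {a b c a' b' c' : Pt ι}, Loc U →
      (⟨U, a, b, c⟩ : Tri X ι).Ok → (⟨U, a', b', c'⟩ : Tri X ι).Ok →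
      (∀ x ∈ U, P.π (P.r U' p q s) (x ⋆ a) = x ⋆ a' ∧ P.π (P.r U' p q s) (x ⋆ b) = x ⋆ b' ∧
        P.π (P.r U' p q s) (x ⋆ c) = x ⋆ c') →
      P.r U' p q s * P.xh hι ⟨U, a, b, c⟩ * (P.r U' p q s)⁻¹ = P.xh hι ⟨U, a', b', c'⟩ := by
    intro U' p q s hU' hr
    rw [P.π_r hι hU' hr]
    refine ⟨locP_cyc ⟨hr.ok U', hU'⟩, fun {U a b c a' b' c'} hU hok hok' hg => ?_⟩
    obtain ⟨M, hM⟩ := Mv.exists_fr hι ([a.2, b.2, c.2] ++ [a'.2, b'.2, c'.2] ++ [p.2, q.2, s.2])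
      (by simp)
    have h1 : M.Fr [a.2, b.2, c.2] := hM.mono fun i hi => by
      simp only [List.mem_append]; tauto
    have h2 : M.Fr [a'.2, b'.2, c'.2] := hM.mono fun i hi => by
      simp only [List.mem_append]; tauto
    have h3 : M.Fr [p.2, q.2, s.2] := hM.mono fun i hi => by
      simp only [List.mem_append]; tauto
    rw [P.xh_eq hι hU hok h1, P.xh_eq hι hU hok' h2]
    exact P.xx_conj hι hU hU' hr h1 h2 h3 hg
  have hg : g ∈ Subgroup.closure {g | ∃ (U : Set X) (a b c : Pt ι), Loc U ∧ Rb a b c ∧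
      g = P.r U a b c} := by rw [P.r_gen hι]; trivial
  induction hg using Subgroup.closure_induction'' with
  | mem g hg =>
    obtain ⟨U', p, q, s, hU', hr, rfl⟩ := hg
    exact hgen U' p q s hU' hr
  | inv_mem g hg =>
    obtain ⟨U', p, q, s, hU', hr, rfl⟩ := hg
    rw [← P.r_inv hι hU' hr]
    exact hgen U' p s q hU' hr.swap
  | one =>
    rw [map_one]
    refine ⟨LocP.one, fun {U a b c a' b' c'} hU hok hok' hg => ?_⟩
    rcases U.eq_empty_or_nonempty with rfl | ⟨x, hx⟩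
    · rw [P.xh_empty hι hok.1, P.xh_empty hι hok'.1]; simp
    · obtain ⟨h1, h2, h3⟩ := hg x hx
      obtain rfl := star_inj h1
      obtain rfl := star_inj h2
      obtain rfl := star_inj h3
      simp
  | mul g g' _ _ ih ih' =>
    rw [map_mul]
    refine ⟨ih.1.mul ih'.1, fun {U a b c a' b' c'} hU hok hok' hg => ?_⟩
    obtain ⟨ka, ha1, ha2⟩ := ih'.1.rel a
    obtain ⟨kb, hb1, hb2⟩ := ih'.1.rel b
    obtain ⟨kc, hc1, hc2⟩ := ih'.1.rel c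
    refine loc_induction (ha1.prod (hb1.prod hc1)) hU
      (fun W => g * g' * P.xh hι ⟨W, a, b, c⟩ * (g * g')⁻¹ = P.xh hι ⟨W, a', b', c'⟩) ?_ ?_ ?_
    · rw [P.xh_empty hι hok.1, P.xh_empty hι hok'.1]; simp
    · rintro W hW hWU ⟨x₀, hx₀⟩ hk
      have hk' : ∀ x ∈ W, P.π g' (x ⋆ a) = x ⋆ ka x₀ ∧ P.π g' (x ⋆ b) = x ⋆ kb x₀ ∧
          P.π g' (x ⋆ c) = x ⋆ kc x₀ := fun x hx => by
        have := hk x hx x₀ hx₀
        simp only [Prod.mk.injEq] at this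
        rw [ha2, hb2, hc2, this.1, this.2.1, this.2.2]
        exact ⟨rfl, rfl, rfl⟩
      have hokW := hok.sub hWU
      have hinj : ∀ x ∈ W, ∀ y ∈ W, ∀ f ∈ (⟨W, a, b, c⟩ : Tri X ι).pts,
          ∀ f' ∈ (⟨W, a, b, c⟩ : Tri X ι).pts, P.π g' (x ⋆ f) = P.π g' (y ⋆ f') → x = y ∧ f = f' :=
        fun x hx y hy f hf f' hf' e => hokW.2 x hx y hy f hf f' hf' ((P.π g').injective e)
      have ma := Tri.a_mem (⟨W, a, b, c⟩ : Tri X ι)
      have mb := Tri.b_mem (⟨W, a, b, c⟩ : Tri X ι)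
      have mc := Tri.c_mem (⟨W, a, b, c⟩ : Tri X ι)
      have hok'' : (⟨W, ka x₀, kb x₀, kc x₀⟩ : Tri X ι).Ok := by
        obtain ⟨e1, e2, e3⟩ := hk' x₀ hx₀
        refine ⟨⟨fun e => hok.1.1 (hinj x₀ hx₀ x₀ hx₀ _ ma _ mb ?_).2,
          fun e => hok.1.2.1 (hinj x₀ hx₀ x₀ hx₀ _ ma _ mc ?_).2,
          fun e => hok.1.2.2 (hinj x₀ hx₀ x₀ hx₀ _ mb _ mc ?_).2⟩, ?_⟩
        · exact e1.trans ((congrArg (x₀ ⋆ ·) e).trans e2.symm)
        · exact e1.trans ((congrArg (x₀ ⋆ ·) e).trans e3.symm)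
        · exact e2.trans ((congrArg (x₀ ⋆ ·) e).trans e3.symm)
        · have hpre : ∀ f ∈ (⟨W, ka x₀, kb x₀, kc x₀⟩ : Tri X ι).pts,
              ∃ f' ∈ (⟨W, a, b, c⟩ : Tri X ι).pts, ∀ x ∈ W, P.π g' (x ⋆ f') = x ⋆ f := by
            intro f hf
            rcases Tri.mem_pts.1 hf with rfl | rfl | rfl
            exacts [⟨a, ma, fun x hx => (hk' x hx).1⟩, ⟨b, mb, fun x hx => (hk' x hx).2.1⟩,
              ⟨c, mc, fun x hx => (hk' x hx).2.2⟩]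
          intro x hx y hy f hf f' hf' e
          obtain ⟨f1, hf1, k1⟩ := hpre f hf
          obtain ⟨f2, hf2, k2⟩ := hpre f' hf'
          obtain ⟨rfl, -⟩ := hinj x hx y hy f1 hf1 f2 hf2 (by rw [k1 x hx, k2 y hy, e])
          exact ⟨rfl, star_inj e⟩
      have e1 := ih'.2 hW hokW hok'' hk'
      have e2 := ih.2 hW hok'' (hok'.sub hWU) fun x hx => by
        obtain ⟨k1, k2, k3⟩ := hk' x hx
        rw [← k1, ← k2, ← k3]
        exact hg x (hWU hx)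
      rw [← e2, ← e1]
      group
    · intro W W' hW hW' hWU hWU' hd e1 e2
      rw [P.xh_add hι (hok.sub (Set.union_subset hWU hWU')) hW hW' hd,
        P.xh_add hι (hok'.sub (Set.union_subset hWU hWU')) hW hW' hd, ← e1, ← e2]
      group

end Phi

theorem exists_preCan (hι : 40 ≤ Fintype.card ι) (P : Phi X ι Γ) :
    ∃ C : PreCan X ι Γ, C.π = P.π ∧
      ∀ (U : Set X) (a b c : Pt ι), Loc U → Rb a b c → C.xh ⟨U, a, b, c⟩ = P.r U a b c := by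
  refine ⟨⟨P.π, P.xh hι, ?_, P.xh_add hι, ?_, fun g => (P.xh_equiv hι g).2, ?_, ?_⟩, rfl,
    fun U a b c hU h => P.xh_rb hι hU h⟩
  · rintro ⟨U, a, b, c⟩ ⟨hok, hU⟩
    exact P.π_xx hι hU hok (Mv.exists_fr hι [a.2, b.2, c.2] (by simp)).choose_spec
  · rintro ⟨U, a, b, c⟩ ⟨hok, hU⟩ z
    obtain ⟨M, hM⟩ := Mv.exists_fr hι [a.2, b.2, c.2] (by simp)
    exact (P.xh_eq hι (hU.sh z) (hok.reb z) (hM.add z)).trans
      ((P.xx_reb hι hU hM z).trans (P.xh_eq hι hU hok hM).symm)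
  · rintro ⟨U, a, b, c⟩ ⟨hok, hU⟩
    obtain ⟨M, hM⟩ := Mv.exists_fr hι [a.2, b.2, c.2] (by simp)
    rw [P.xh_eq hι hU hok hM, ← P.xx_rev hι hU hok hM]
    exact P.xh_eq hι hU hok.rev hM.rev
  · rw [eq_top_iff, ← P.r_gen hι]
    refine Subgroup.closure_mono ?_
    rintro _ ⟨U, a, b, c, hU, h, rfl⟩
    exact ⟨⟨U, a, b, c⟩, ⟨h.ok U, hU⟩, (P.xh_rb hι hU h).symm⟩

end Crest.Agent.R189
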