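import Crest.Agent.R189.Perm
import Crest.Agent.R189.Sys

/-! # Row 189: the group is infinite and simple -/

set_option autoImplicit false
set_option linter.unusedSectionVars false

namespace Crest.Agent.R189
open Equiv

variable {X ι : Type} [Shift X] [Good X] [DecidableEq ι] [Fintype ι]

theorem GG_infinite (hι : 40 ≤ Fintype.card ι) : Infinite (GG X ι) := by
  obtain ⟨i, -⟩ := fresh hι [] (by simp)
  obtain ⟨j, hj⟩ := fresh hι [i] (by simp)
  obtain ⟨k, hk⟩ := fresh hι [i, j] (by simp)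
  simp only [List.mem_cons, List.not_mem_nil, or_false, not_or] at hj hk
  have hok : ∀ z : V, (⟨Set.univ, (0, i), (z, j), (0, k)⟩ : Tri X ι).Ok := by
    intro z
    refine ⟨D3.of_map (f := Prod.snd) ⟨Ne.symm hj, Ne.symm hk.1, Ne.symm hk.2⟩, inj_of_snd _ ?_⟩
    intro f hf g hg e
    rcases Tri.mem_pts.1 hf with rfl | rfl | rfl <;> rcases Tri.mem_pts.1 hg with rfl | rfl | rfl <;>
      first | rfl | exact absurd e (by tauto)
  obtain ⟨x0⟩ := Good.nonempty (X := X)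
  refine Infinite.of_injective (fun z : V => (⟨cyc ⟨Set.univ, (0, i), (z, j), (0, k)⟩,
    cyc_mem_GG ⟨hok z, Loc.univ⟩⟩ : GG X ι)) (fun z w h => ?_)
  have h1 := cyc_a (hok z) (x := x0) (Set.mem_univ _)
  have h2 := cyc_a (hok w) (x := x0) (Set.mem_univ _)
  simp only [Subtype.mk.injEq] at h
  rw [h] at h1
  exact congrArg Prod.fst (star_inj (h1.symm.trans h2))

/-- the permutations of the fibre `F` realised over `U` by elements of `K` -/
def Simple.real (K : Subgroup (Perm (X × ι))) (U : Set X) (F : Set (Pt ι)) :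
    Subgroup (Perm (Pt ι)) where
  carrier := {σ | σ ∈ SuppOn F ∧ ∃ n ∈ K, Acts n U F (fun _ => σ)}
  one_mem' := ⟨(SuppOn F).one_mem, 1, K.one_mem, Acts.one⟩
  mul_mem' := by
    rintro σ τ ⟨h1, n, hn, h2⟩ ⟨h3, m, hm, h4⟩
    exact ⟨(SuppOn F).mul_mem h1 h3, n * m, K.mul_mem hn hm,
      h2.mul h4 (fun _ _ f hf => (SuppOn.mem_iff h3 f).2 hf)⟩
  inv_mem' := by
    rintro σ ⟨h1, n, hn, h2⟩
    exact ⟨(SuppOn F).inv_mem h1, n⁻¹, K.inv_mem hn,
      h2.inv (fun _ _ f hf => (SuppOn.mem_iff ((SuppOn F).inv_mem h1) f).2 hf)⟩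

theorem Simple.cyc_acts {U : Set X} {F : Set (Pt ι)} {a b c : Pt ι} (hI : Inj U F)
    (hd : D3 a b c) (ha : a ∈ F) (hb : b ∈ F) (hc : c ∈ F) :
    Acts (cyc ⟨U, a, b, c⟩) U F (fun _ => c3 a b c) := by
  classical
  exact (cyc_acts_big hI le_rfl hd ha hb hc).congr (fun x hx f _ => by rw [if_pos hx])

theorem Simple.ok {U : Set X} {F : Set (Pt ι)} {a b c : Pt ι} (hI : Inj U F)
    (hd : D3 a b c) (ha : a ∈ F) (hb : b ∈ F) (hc : c ∈ F) : (⟨U, a, b, c⟩ : Tri X ι).Ok := by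
  refine ⟨hd, hI.mono le_rfl (fun f hf => ?_)⟩
  rcases Tri.mem_pts.1 hf with rfl | rfl | rfl <;> assumption

theorem Simple.local (N : Subgroup (Perm (X × ι)))
    (hn : ∀ h ∈ GG X ι, ∀ n ∈ N, h * n * h⁻¹ ∈ N) {g : Perm (X × ι)} (hg : g ∈ N)
    {U : Set X} (hU : Loc U) (F : Finset (Pt ι)) (hF : 5 ≤ F.card) (hI : Inj U (F : Set (Pt ι)))
    {f1 f2 f3 f1' f2' f3' : Pt ι} (hd : D3 f1 f2 f3) (hd' : D3 f1' f2' f3')
    (h1 : f1 ∈ F) (h2 : f2 ∈ F) (h3 : f3 ∈ F) (h1' : f1' ∈ F) (h2' : f2' ∈ F) (h3' : f3' ∈ F)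
    (hne : f1' ≠ f1 ∧ f1' ≠ f2 ∧ f1' ≠ f3)
    (hact : ∀ x ∈ U, g (x ⋆ f1) = x ⋆ f1' ∧ g (x ⋆ f2) = x ⋆ f2' ∧ g (x ⋆ f3) = x ⋆ f3')
    {a b c : Pt ι} (habc : D3 a b c) (ha : a ∈ F) (hb : b ∈ F) (hc : c ∈ F) :
    cyc ⟨U, a, b, c⟩ ∈ N := by
  have hreal : AltOn (F : Set (Pt ι)) ≤ Simple.real (GG X ι) U F := by
    rw [AltOn, Subgroup.closure_le]
    rintro _ ⟨a, ha, b, hb, c, hc, rfl⟩
    by_cases hd : D3 a b c
    · exact ⟨c3_mem_suppOn ha hb hc, _, cyc_mem_GG ⟨Simple.ok hI hd ha hb hc, hU⟩,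
        Simple.cyc_acts hI hd ha hb hc⟩
    · rw [c3_junk hd]
      exact Subgroup.one_mem _
  have hok := Simple.ok hI hd h1 h2 h3
  have hok' := Simple.ok hI hd' h1' h2' h3'
  have hs := c3_mem_suppOn (S := (F : Set (Pt ι))) h1 h2 h3
  have hs' := c3_mem_suppOn (S := (F : Set (Pt ι))) h1' h2' h3'
  have hle : AltOn (F : Set (Pt ι)) ≤ Simple.real N U F := by
    refine altOn_simple F hF _ ?_ (σ := c3 f1' f2' f3' * (c3 f1 f2 f3)⁻¹)
      (Subgroup.mul_mem _ (c3_mem_altOn h1' h2' h3') (Subgroup.inv_mem _ (c3_mem_altOn h1 h2 h3)))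
      ?_ ?_
    · rintro σ hσ m ⟨m1, n, hnN, m2⟩
      obtain ⟨s1, h, hh, s2⟩ := hreal hσ
      have s1' := (SuppOn (F : Set (Pt ι))).inv_mem s1
      exact ⟨Subgroup.mul_mem _ (Subgroup.mul_mem _ s1 m1) s1', _, hn h hh n hnN,
        (s2.mul m2 (fun _ _ f hf => (SuppOn.mem_iff m1 f).2 hf)).mul
          (s2.inv (fun _ _ f hf => (SuppOn.mem_iff s1' f).2 hf))
          (fun _ _ f hf => (SuppOn.mem_iff s1' f).2 hf)⟩
    · have hs1 := (SuppOn (F : Set (Pt ι))).inv_mem hs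
      refine ⟨Subgroup.mul_mem _ hs' hs1, cyc ⟨U, f1', f2', f3'⟩ * (cyc ⟨U, f1, f2, f3⟩)⁻¹, ?_,
        (Simple.cyc_acts hI hd' h1' h2' h3').mul
          ((Simple.cyc_acts hI hd h1 h2 h3).inv (fun _ _ f hf => (SuppOn.mem_iff hs1 f).2 hf))
          (fun _ _ f hf => (SuppOn.mem_iff hs1 f).2 hf)⟩
      rw [← cyc_conj hok hok' hact]
      have := N.mul_mem hg (hn _ (cyc_mem_GG ⟨hok, hU⟩) _ (N.inv_mem hg))
      simpa only [mul_assoc] using this
    · intro h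
      rw [mul_inv_eq_one] at h
      have e1 := c3_fst hd'
      rw [h, c3_other hne.1 hne.2.1 hne.2.2] at e1
      exact hd'.1 e1
  obtain ⟨-, n, hnN, hna⟩ := hle (c3_mem_altOn (S := (F : Set (Pt ι))) ha hb hc)
  rw [(Simple.cyc_acts hI habc ha hb hc).ext hna (fun _ _ _ _ => rfl)]
  exact hnN

theorem Simple.main (hι : 40 ≤ Fintype.card ι) (N : Subgroup (Perm (X × ι))) (hle : N ≤ GG X ι)
    (hn : ∀ h ∈ GG X ι, ∀ n ∈ N, h * n * h⁻¹ ∈ N) {g : Perm (X × ι)} (hg : g ∈ N)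
    (hg1 : g ≠ 1) : GG X ι ≤ N := by
  have hex : ∃ ω, g ω ≠ ω := by
    by_contra hc
    exact hg1 (Equiv.ext fun ω => by
      by_contra h
      exact hc ⟨ω, h⟩)
  obtain ⟨⟨x0, i⟩, hω⟩ := hex
  choose kk hk1 hk2 using (locP_of_mem (hle hg)).rel
  obtain ⟨j, hj⟩ := fresh hι [i, (kk (0, i) x0).2] (by simp)
  obtain ⟨k, hk⟩ := fresh hι [i, (kk (0, i) x0).2, j] (by simp)
  simp only [List.mem_cons, List.not_mem_nil, or_false, not_or] at hj hk
  have hd : D3 ((0, i) : Pt ι) (0, j) (0, k) :=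
    D3.of_map (f := Prod.snd) ⟨Ne.symm hj.1, Ne.symm hk.1, Ne.symm hk.2.2⟩
  have hinj : Function.Injective (fun f : Pt ι => kk f x0) := by
    intro f f' h
    have e : g (x0 ⋆ f) = g (x0 ⋆ f') := by
      rw [hk2, hk2]
      exact congrArg _ h
    exact star_inj (g.injective e)
  have hd' : D3 (kk (0, i) x0) (kk (0, j) x0) (kk (0, k) x0) := hd.map hinj
  have hne : kk (0, i) x0 ≠ (0, i) ∧ kk (0, i) x0 ≠ (0, j) ∧ kk (0, i) x0 ≠ (0, k) := by
    refine ⟨fun h => hω ?_, fun h => hj.2 ?_, fun h => hk.2.1 ?_⟩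
    · rw [← star_zero, hk2, h]
    · rw [h]
    · rw [h]
  let U0 : Set X := {x | (kk (0, i) x, kk (0, j) x, kk (0, k) x) =
    (kk (0, i) x0, kk (0, j) x0, kk (0, k) x0)}
  have hU0 : Loc U0 := ((hk1 _).prod ((hk1 _).prod (hk1 _))).loc
    (fun p => p = (kk (0, i) x0, kk (0, j) x0, kk (0, k) x0))
  obtain ⟨r, hr⟩ := id hU0
  obtain ⟨s, hs⟩ := Good.minimal x0 r
  obtain ⟨r0, hr0⟩ := exists_bd_finset {(kk (0, i) x0).1, (kk (0, j) x0).1, (kk (0, k) x0).1}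
  obtain ⟨r2, hr2⟩ := exists_bd_finset s
  rw [GG, Subgroup.closure_le]
  rintro _ ⟨⟨U, a, b, c⟩, hτ, rfl⟩
  obtain ⟨r1, hr1⟩ := (⟨U, a, b, c⟩ : Tri X ι).exists_rad
  obtain ⟨κ, hκ1, hκ2⟩ := exists_sep (X := X) ((r0 + r1 + r2 : ℕ) + (r0 + r1 + r2 : ℕ))
  have hloc : LocF (fun x : X => ((fun z : s => z.1 +ᵥ x ∈ U0), κ x)) :=
    (LocF.pi (f := fun (x : X) (z : s) => z.1 +ᵥ x ∈ U0) (fun z => (hU0.sh z.1).locF)).prod hκ1
  refine loc_induction hloc hτ.2 (fun W => cyc ⟨W, a, b, c⟩ ∈ N) ?_ ?_ ?_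
  · rw [cyc_empty]
    exact N.one_mem
  · rintro W hW hWU ⟨y0, hy0⟩ hconst
    obtain ⟨z, hz, hz'⟩ := hs y0
    have hz0 : z +ᵥ y0 ∈ U0 := hr _ _ hz' rfl
    have hzW : ∀ y ∈ W, z +ᵥ y ∈ U0 := by
      intro y hy
      have e := congrFun (congrArg Prod.fst (hconst y0 hy0 y hy)) ⟨z, hz⟩
      exact e.mp hz0
    have hok : (⟨W, a, b, c⟩ : Tri X ι).Ok := hτ.1.sub hWU
    rw [← cyc_reb hok (-z)]
    let F : Finset (Pt ι) := (Finset.univ.image fun l : ι => ((0 : V), l)) ∪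
      {kk (0, i) x0, kk (0, j) x0, kk (0, k) x0, a.add (-z), b.add (-z), c.add (-z)}
    have hF : 5 ≤ F.card := by
      refine le_trans ?_ (Finset.card_le_card Finset.subset_union_left)
      rw [Finset.card_image_of_injective _ (fun l l' h => (Prod.mk.inj h).2), Finset.card_univ]
      omega
    have hI : Inj (sh (-z) W) (F : Set (Pt ι)) := by
      refine inj_of_sep (r := (r0 + r1 + r2 : ℕ)) (κ := fun x => κ (-z +ᵥ x)) ?_ ?_ ?_
      · intro x w hw h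
        refine hκ2 (-z +ᵥ x) w hw ?_
        rw [← h, ← add_vadd, ← add_vadd, add_comm]
      · intro x hx y hy
        exact congrArg Prod.snd (hconst _ hx _ hy)
      · intro f hf
        have hz2 := (hr2 z hz).neg
        simp only [F, Finset.coe_union, Finset.coe_image, Finset.coe_insert, Finset.coe_singleton,
          Set.mem_union, Set.mem_image, Set.mem_insert_iff, Set.mem_singleton_iff] at hf
        rcases hf with ⟨l, -, rfl⟩ | rfl | rfl | rfl | rfl | rfl | rfl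
        · exact Bd.zero (by omega)
        · exact (hr0 _ (by simp)).mono (by omega)
        · exact (hr0 _ (by simp)).mono (by omega)
        · exact (hr0 _ (by simp)).mono (by omega)
        · exact (hr1.1.add hz2).mono (by omega)
        · exact (hr1.2.1.add hz2).mono (by omega)
        · exact (hr1.2.2.add hz2).mono (by omega)
    refine Simple.local N hn hg (hW.sh (-z)) F hF hI hd hd' (by simp [F]) (by simp [F])
      (by simp [F]) (by simp [F]) (by simp [F]) (by simp [F]) hne (fun x hx => ?_)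
      (hok.reb (-z)).1 (by simp [F, Tri.reb]) (by simp [F, Tri.reb]) (by simp [F, Tri.reb])
    have e := hzW _ hx
    rw [← add_vadd, add_neg_cancel, zero_vadd] at e
    simp only [U0, Set.mem_ofPred_eq, Prod.mk.injEq] at e
    rw [hk2, hk2, hk2, e.1, e.2.1, e.2.2]
    exact ⟨rfl, rfl, rfl⟩
  · intro W W' _ _ hWU hW'U hdis h1 h2
    rw [cyc_union (hτ.1.sub (Set.union_subset hWU hW'U)) hdis]
    exact N.mul_mem h1 h2

theorem GG_simple (hι : 40 ≤ Fintype.card ι) : IsSimpleGroup (GG X ι) := by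
  have := GG_infinite (X := X) hι
  refine ⟨fun N hN => ?_⟩
  by_cases h : N = ⊥
  · exact Or.inl h
  · right
    obtain ⟨⟨g, hg⟩, hg1⟩ := Subgroup.ne_bot_iff_exists_ne_one.1 h
    have hmain := Simple.main hι (N.map (GG X ι).subtype) (Subgroup.map_subtype_le N)
      (by
        rintro h hh _ ⟨n, hn, rfl⟩
        exact ⟨⟨h, hh⟩ * n * ⟨h, hh⟩⁻¹, hN.conj_mem n hn _, rfl⟩)
      (g := g.1) ⟨g, hg, rfl⟩ (fun e => hg1 (Subtype.ext (Subtype.ext e)))
    rw [eq_top_iff]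
    rintro ⟨x, hx⟩ -
    obtain ⟨n, hn, e⟩ := hmain hx
    have : n = ⟨x, hx⟩ := Subtype.ext e
    rwa [← this]

end Crest.Agent.R189
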