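import Crest.Agent.R189.XDef

/-! # Row 189: sums along segments -/

set_option autoImplicit false
set_option linter.unusedSectionVars false

namespace Crest.Agent.R189

namespace XCoh
variable {n k : ℕ} {ω ω' : V → Tile}

theorem far (hn : 3 ≤ n) (hT : Tiling ω) (hT' : Tiling ω') (h : Chain n (k + 1) ω)
    (h' : Chain n (k + 1) ω') (d : Bool) {X Y : ℤ} (hX : ¬ (LL n k : ℤ) ∣ X)
    (hY : ¬ (LL n k : ℤ) ∣ Y) : ω (vec d Y X) = ω' (vec d Y X) := by
  cases d
  · exact tile_ext hT hT' (h.det_E hn hT hT' h' _ _ hY) (h.det_E hn hT hT' h' _ _ hY)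
      (h.det_N hn hT hT' h' _ _ hX) (h.det_N hn hT hT' h' _ _ hX)
  · exact tile_ext hT hT' (h.det_E hn hT hT' h' _ _ hX) (h.det_E hn hT hT' h' _ _ hX)
      (h.det_N hn hT hT' h' _ _ hY) (h.det_N hn hT hT' h' _ _ hY)

theorem not_dvd {L a : ℤ} (h0 : a ≠ 0) (h1 : -L < a) (h2 : a < L) : ¬ L ∣ a :=
  fun h => h0 (Int.eq_zero_of_abs_lt_dvd h (abs_lt.2 ⟨h1, h2⟩))

theorem LL_le (n k : ℕ) : LL n k ≤ LL n (k + 1) :=
  Nat.le_of_dvd (LL_pos _ _) (LL_dvd n (Nat.le_succ k))

theorem near_false (hn : 3 ≤ n) (hT : Tiling ω) (hT' : Tiling ω') (h : Chain n (k + 1) ω)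
    (h' : Chain n (k + 1) ω') (h0 : ω (0, 0) = ω' (0, 0)) {X Y : ℤ} (hX : 1 ≤ X)
    (hX' : X < LL n k) (hY : -(LL n k : ℤ) < Y) (hY' : Y < LL n k) : ω (X, Y) = ω' (X, Y) := by
  have hle : (LL n k : ℤ) ≤ LL n (k + 1) := by exact_mod_cast LL_le n k
  have hXd : ¬ (LL n k : ℤ) ∣ X := not_dvd (by omega) (by omega) hX'
  have hE : ∀ X' : ℤ, 0 ≤ X' → X' ≤ X → (ω (X', Y)).E = (ω' (X', Y)).E := by
    intro X' h1 h2
    by_cases hY0 : Y = 0
    · subst hY0
      have e1 := h.pass_E hT 0 X' 0 (dvd_zero _) h1 (by omega)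
      have e2 := h'.pass_E hT' 0 X' 0 (dvd_zero _) h1 (by omega)
      simp only [mul_zero, zero_add] at e1 e2
      rw [e1, e2, h0]
    · exact h.det_E hn hT hT' h' _ _ (not_dvd hY0 hY hY')
  exact tile_ext hT hT' (hE _ (by omega) le_rfl) (hE _ (by omega) (by omega))
    (h.det_N hn hT hT' h' _ _ hXd) (h.det_N hn hT hT' h' _ _ hXd)

theorem near (hn : 3 ≤ n) (hT : Tiling ω) (hT' : Tiling ω') (h : Chain n (k + 1) ω)
    (h' : Chain n (k + 1) ω') (h0 : ω 0 = ω' 0) (d : Bool) {X Y : ℤ} (hX : 1 ≤ X)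
    (hX' : X < LL n k) (hY : -(LL n k : ℤ) < Y) (hY' : Y < LL n k) :
    ω (vec d Y X) = ω' (vec d Y X) := by
  cases d
  · exact near_false hn hT hT' h h' h0 hX hX' hY hY'
  · exact Tile.tr_inj (near_false hn hT.trT hT'.trT h.trT h'.trT (congrArg Tile.tr h0)
      hX hX' hY hY')

theorem agree_of (hn : 3 ≤ n) {x y : XX n} {z w : V} (hx : Chain n (k + 1) (shT z x.1))
    (hy : Chain n (k + 1) (shT w y.1)) (p : V) {r : ℕ}
    (h : ∀ u, Bd r u → shT z x.1 (u + p) = shT w y.1 (u + p)) :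
    Agree r ((p + z) +ᵥ x) ((p + w) +ᵥ y) := by
  intro u hu
  rw [← add_vadd, ← add_vadd]
  have e : u + (p + z) - z = u + (p + w) - w := by abel
  refine XX.obs_eq hn hx.1 hy.1 (by rw [e]; simp) (by rw [e]; simp) ?_
  rw [← add_assoc, ← add_assoc]
  exact h u hu

theorem exists_factor {α β γ : Type} [Zero β] (P : α → Prop) (f : α → β) (g : α → γ)
    (h : ∀ x y, P x → P y → g x = g y → f x = f y) : ∃ e : γ → β, ∀ x, P x → f x = e (g x) := by
  classical
  refine ⟨fun c => if hc : ∃ x, P x ∧ g x = c then f hc.choose else 0, fun x hx => ?_⟩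
  have hc : ∃ y, P y ∧ g y = g x := ⟨x, hx, rfl⟩
  simp only [dif_pos hc]
  exact h _ _ hx hc.choose_spec.1 hc.choose_spec.2.symm

theorem sum_range_mul {M : Type} [AddCommMonoid M] (f : ℕ → M) (L m : ℕ) :
    ∑ t ∈ Finset.range (L * m), f t =
      ∑ a ∈ Finset.range m, ∑ j ∈ Finset.range L, f (L * a + j) := by
  induction m with
  | zero => simp
  | succ m ih => rw [Nat.mul_succ, Finset.sum_range_add, ih, Finset.sum_range_succ]

theorem add_vec (d : Bool) (u : V) (a b : ℤ) :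
    u + vec d a b = vec d (pr d u + a) (pr (!d) u + b) := by
  rw [← vec_add, vec_pr]

end XCoh

open XCoh in
theorem XX.coh {n : ℕ} (hn : 3 ≤ n) : FinCoh (XX n) := by
  classical
  have : Fintype Tile := Fintype.ofFinite Tile
  refine ⟨Option Tile, inferInstance, fun r => ?_⟩
  obtain ⟨k, hk⟩ : ∃ k, 2 * r + 3 < LL n k := ⟨_, lt_LL n _⟩
  have hk1 : (2 * r + 3 : ℤ) < LL n k := by exact_mod_cast hk
  have hle : (LL n k : ℤ) ≤ LL n (k + 1) := by exact_mod_cast LL_le n k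
  -- the anchors
  let anc : Bool → ℕ → V := fun d a =>
    vec d (LL n (k + 1) * (a + 1)) 0 + vec d (-(r + 2)) (-(r + 2))
  refine ⟨LL n (k + 2), fun d => XX.crd hn (k + 2) d, fun _ => r + 2,
    fun d b x => b.elim 1 fun τ =>
      ∑ a ∈ Finset.range (n + (k + 1) + 2), if x.1 (anc d a) = τ then 1 else 0, ?_⟩
  intro d ψ hψ
  let B : XX n → Prop := fun x => Chain n (k + 2) (shT (vec d (-(r + 2)) (-(r + 2))) x.1)
  have hB : ∀ x, B x → ∀ a, Chain n (k + 1) (shT (anc d a) x.1) := by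
    intro x hx a
    rw [← shT_shT]
    refine (Chain.mono hx (Nat.le_succ _)).shift ?_ ?_ <;> cases d <;> simp
  let P : ℕ → Prop := fun j => (LL n (k + 1) : ℤ) ≤ j + 2 * r + 2
  obtain ⟨e₁, he₁⟩ := exists_factor B (fun x => ∑ a ∈ Finset.range (n + (k + 1) + 2),
      ∑ j ∈ (Finset.range (LL n (k + 1))).filter (fun j => ¬ P j),
        ψ (vec d ((LL n (k + 1) * a + j : ℕ) : ℤ) 0 +ᵥ x)) (fun _ => ()) (by
    intro x y hx hy _
    refine Finset.sum_congr rfl fun a _ => Finset.sum_congr rfl fun j hj => hψ _ _ ?_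
    rw [Finset.mem_filter, Finset.mem_range] at hj
    obtain ⟨hj1, hj2⟩ := hj
    have hj1' : (j : ℤ) < LL n (k + 1) := by exact_mod_cast hj1
    have e : vec d ((LL n (k + 1) * a + j : ℕ) : ℤ) 0 =
        vec d (LL n (k + 1) * a + j + (r + 2)) (r + 2) + vec d (-(r + 2)) (-(r + 2)) := by
      rw [vec_add]
      congr 1
      · push_cast; ring
      · ring
    rw [e]
    refine agree_of hn hx hy _ fun u hu => ?_
    rw [bd_iff d] at hu
    rw [add_vec]
    refine far hn (x.tiling.shT _) (y.tiling.shT _) hx hy d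
      (not_dvd (by omega) (by omega) (by omega)) fun hd => ?_
    have hd' : (LL n (k + 1) : ℤ) ∣ pr d u + (j + (r + 2)) := by
      have := dvd_sub hd (Dvd.intro (a : ℤ) rfl)
      rwa [show pr d u + (LL n (k + 1) * a + j + (r + 2)) - LL n (k + 1) * a =
        pr d u + (j + (r + 2)) by ring] at this
    simp only [P, not_le] at hj2
    exact not_dvd (by omega) (by omega) (by omega) hd')
  obtain ⟨e₂, he₂⟩ := exists_factor (fun q : ℕ × XX n => B q.2)
    (fun q => ∑ j ∈ (Finset.range (LL n (k + 1))).filter P,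
        ψ (vec d ((LL n (k + 1) * q.1 + j : ℕ) : ℤ) 0 +ᵥ q.2)) (fun q => q.2.1 (anc d q.1)) (by
    rintro ⟨a, x⟩ ⟨b, y⟩ hx hy hab
    refine Finset.sum_congr rfl fun j hj => hψ _ _ ?_
    rw [Finset.mem_filter, Finset.mem_range] at hj
    obtain ⟨hj1, hj2⟩ := hj
    have hj1' : (j : ℤ) < LL n (k + 1) := by exact_mod_cast hj1
    have e : ∀ a : ℕ, vec d ((LL n (k + 1) * a + j : ℕ) : ℤ) 0 =
        vec d (j + (r + 2) - LL n (k + 1)) (r + 2) + anc d a := by
      intro a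
      simp only [anc, vec_add]
      congr 1
      · push_cast; ring
      · ring
    rw [e, e]
    refine agree_of hn (hB x hx a) (hB y hy b) _ fun u hu => ?_
    rw [bd_iff d] at hu
    rw [add_vec]
    simp only [P] at hj2
    refine near hn (x.tiling.shT _) (y.tiling.shT _) (hB x hx a) (hB y hy b) ?_ d
      (by omega) (by omega) (by omega) (by omega)
    simpa [shT] using hab)
  refine ⟨fun b => b.elim (e₁ ()) e₂, fun x hx => ?_⟩
  have hx' : B x := XX.chain_of_rep hn (hx d) (hx (!d))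
  rw [LL_succ n (k + 1), sum_range_mul, Fintype.sum_option]
  simp only [Option.elim, mul_one, Finset.mul_sum, mul_ite, mul_zero]
  rw [Finset.sum_comm (s := Finset.univ), ← he₁ x hx', ← Finset.sum_add_distrib]
  refine Finset.sum_congr rfl fun a _ => ?_
  rw [Finset.sum_ite_eq, if_pos (Finset.mem_univ _), ← he₂ (a, x) hx']
  exact ((add_comm _ _).trans (Finset.sum_filter_add_sum_filter_not _ P _)).symm

end Crest.Agent.R189
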