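import Crest.Agent.R189.XDef

/-! # Row 189: bounded rank -/

set_option autoImplicit false
set_option linter.unusedSectionVars false

namespace Crest.Agent.R189

section
variable {n k : ℕ} {ω ω' : V → Tile}

theorem XRank_axE (hT : Tiling ω) (h : Chain n k ω) {x : ℤ} (h1 : -(LL n k : ℤ) ≤ x)
    (h2 : x < LL n k) : (ω (x, 0)).E = if 0 ≤ x then (ω 0).E else (ω 0).W := by
  have hL : (0 : ℤ) < LL n k := by exact_mod_cast LL_pos n k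
  split_ifs with hx
  · have := h.pass_E hT 0 x 0 (dvd_zero _) hx h2
    rw [mul_zero, zero_add] at this
    exact this
  · have e1 := h.pass_E hT (-1) (LL n k + x) 0 (dvd_zero _) (by omega) (by omega)
    have e2 := h.pass_E hT (-1) (LL n k - 1) 0 (dvd_zero _) (by omega) (by omega)
    rw [show (LL n k : ℤ) * -1 + (LL n k + x) = x by ring] at e1
    rw [show (LL n k : ℤ) * -1 + (LL n k - 1) = -1 by ring] at e2
    rw [e1, ← e2, hT.mH]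
    rfl

theorem XRank_axN (hT : Tiling ω) (h : Chain n k ω) {y : ℤ} (h1 : -(LL n k : ℤ) ≤ y)
    (h2 : y < LL n k) : (ω (0, y)).N = if 0 ≤ y then (ω 0).N else (ω 0).S := by
  have hL : (0 : ℤ) < LL n k := by exact_mod_cast LL_pos n k
  split_ifs with hy
  · have := h.pass_N hT 0 0 y (dvd_zero _) hy h2
    rw [mul_zero, zero_add] at this
    exact this
  · have e1 := h.pass_N hT 0 (-1) (LL n k + y) (dvd_zero _) (by omega) (by omega)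
    have e2 := h.pass_N hT 0 (-1) (LL n k - 1) (dvd_zero _) (by omega) (by omega)
    rw [show (LL n k : ℤ) * -1 + (LL n k + y) = y by ring] at e1
    rw [show (LL n k : ℤ) * -1 + (LL n k - 1) = -1 by ring] at e2
    rw [e1, ← e2, hT.mV]
    rfl

theorem XRank_E (hn : 3 ≤ n) (hT : Tiling ω) (hT' : Tiling ω') (h : Chain n (k + 1) ω)
    (h' : Chain n (k + 1) ω') (h0 : ω 0 = ω' 0) {x y : ℤ}
    (hxy : ¬ (LL n k : ℤ) ∣ y ∨ (y = 0 ∧ -(LL n (k + 1) : ℤ) ≤ x ∧ x < LL n (k + 1))) :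
    (ω (x, y)).E = (ω' (x, y)).E := by
  rcases hxy with hy | ⟨rfl, h1, h2⟩
  · exact h.det_E hn hT hT' h' x y hy
  · rw [XRank_axE hT h h1 h2, XRank_axE hT' h' h1 h2, h0]

theorem XRank_N (hn : 3 ≤ n) (hT : Tiling ω) (hT' : Tiling ω') (h : Chain n (k + 1) ω)
    (h' : Chain n (k + 1) ω') (h0 : ω 0 = ω' 0) {x y : ℤ}
    (hxy : ¬ (LL n k : ℤ) ∣ x ∨ (x = 0 ∧ -(LL n (k + 1) : ℤ) ≤ y ∧ y < LL n (k + 1))) :
    (ω (x, y)).N = (ω' (x, y)).N := by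
  rcases hxy with hx | ⟨rfl, h1, h2⟩
  · exact h.det_N hn hT hT' h' x y hx
  · rw [XRank_axN hT h h1 h2, XRank_axN hT' h' h1 h2, h0]

theorem XRank_tile (hn : 3 ≤ n) (hT : Tiling ω) (hT' : Tiling ω') (h : Chain n (k + 1) ω)
    (h' : Chain n (k + 1) ω') (h0 : ω 0 = ω' 0) {x y : ℤ}
    (hx : ¬ (LL n k : ℤ) ∣ x ∨ (x = 0 ∧ -(LL n (k + 1) : ℤ) < y ∧ y < LL n (k + 1)))
    (hy : ¬ (LL n k : ℤ) ∣ y ∨ (y = 0 ∧ -(LL n (k + 1) : ℤ) < x ∧ x < LL n (k + 1))) :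
    ω (x, y) = ω' (x, y) := by
  refine tile_ext hT hT' (XRank_E hn hT hT' h h' h0 (hy.imp id fun h => ⟨h.1, ?_, ?_⟩))
    (XRank_E hn hT hT' h h' h0 (hy.imp id fun h => ⟨h.1, ?_, ?_⟩))
    (XRank_N hn hT hT' h h' h0 (hx.imp id fun h => ⟨h.1, ?_, ?_⟩))
    (XRank_N hn hT hT' h h' h0 (hx.imp id fun h => ⟨h.1, ?_, ?_⟩)) <;> omega

end

/-- `a` is within distance `R` of a multiple of `M` -/
def XRank_nr (R M a : ℤ) : Prop := ∃ e, -R ≤ e ∧ e ≤ R ∧ M ∣ a + e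

theorem XRank_nr.mono {R M M' a : ℤ} (h : XRank_nr R M' a) (hM : M ∣ M') : XRank_nr R M a :=
  let ⟨e, h1, h2, h3⟩ := h; ⟨e, h1, h2, hM.trans h3⟩

theorem XRank_nr_iff {R M a o : ℤ} (h : M ∣ a + o) : XRank_nr R M a ↔ XRank_nr R M (-o) := by
  refine exists_congr fun e => and_congr_right fun _ => and_congr_right fun _ => ?_
  rw [show a + e = (a + o) + (-o + e) by ring]
  exact Int.dvd_add_right h

/-- the anchors of the three kinds of towers -/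
def XRank_W (L L' L'' : ℤ) : Fin 3 → ℤ → ℤ → Prop
  | 0, a, b => L'' ∣ a ∧ L'' ∣ b
  | 1, a, b => L' ∣ a ∧ L' ∣ b
  | 2, a, b => L ∣ a ∧ L ∣ b ∧ (L' ∣ a ∨ L' ∣ b)

/-- the floors of the three kinds of towers -/
def XRank_S (R L L' L'' : ℤ) : Fin 3 → V → Prop
  | 0, o => -L'' < o.1 ∧ o.1 ≤ 0 ∧ -L'' < o.2 ∧ o.2 ≤ 0 ∧ ¬ XRank_nr R L' (-o.1) ∧
      ¬ XRank_nr R L' (-o.2)
  | 1, o => (-R ≤ o.1 ∧ o.1 ≤ R ∧ R - L' < o.2 ∧ o.2 ≤ R ∧ ¬ XRank_nr R L (-o.2)) ∨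
      (-R ≤ o.2 ∧ o.2 ≤ R ∧ R - L' < o.1 ∧ o.1 ≤ R ∧ ¬ XRank_nr R L (-o.1))
  | 2, o => -R ≤ o.1 ∧ o.1 ≤ R ∧ -R ≤ o.2 ∧ o.2 ≤ R

theorem XRank_win {M : ℤ} (hM : 0 < M) (a w : ℤ) : ∃ o, w - M < o ∧ o ≤ w ∧ M ∣ a + o := by
  refine ⟨w - (a + w) % M, ?_, ?_, (a + w) / M, ?_⟩
  · have := Int.emod_lt_of_pos (a + w) hM; omega
  · have := Int.emod_nonneg (a + w) hM.ne'; omega
  · have := Int.emod_add_mul_ediv (a + w) M
    linarith

theorem XRank_eq {M a o o' : ℤ} (h : M ∣ a + o) (h' : M ∣ a + o') (h1 : o - o' < M)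
    (h2 : o' - o < M) : o = o' := by
  have h3 : M ∣ o - o' := by
    have := dvd_sub h h'
    rwa [show a + o - (a + o') = o - o' by ring] at this
  have := Int.eq_zero_of_abs_lt_dvd h3 (abs_lt.2 ⟨by omega, h1⟩)
  omega

section arith
variable {R L L' L'' : ℤ}

theorem XRank_ex (hL' : 0 < L') (hL'' : 0 < L'') (h1 : L ∣ L') (h2 : L' ∣ L'') (s t : ℤ) :
    ∃ j o, XRank_S R L L' L'' j o ∧ XRank_W L L' L'' j (s + o.1) (t + o.2) := by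
  by_cases hs : XRank_nr R L' s
  · obtain ⟨e, he1, he2, he3⟩ := hs
    by_cases ht : XRank_nr R L t
    · obtain ⟨f, hf1, hf2, hf3⟩ := ht
      exact ⟨2, (e, f), ⟨he1, he2, hf1, hf2⟩, h1.trans he3, hf3, Or.inl he3⟩
    · obtain ⟨f, hf1, hf2, hf3⟩ := XRank_win hL' t R
      exact ⟨1, (e, f), Or.inl ⟨he1, he2, hf1, hf2, by rwa [← XRank_nr_iff (h1.trans hf3)]⟩,
        he3, hf3⟩
  by_cases ht : XRank_nr R L' t
  · obtain ⟨f, hf1, hf2, hf3⟩ := ht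
    by_cases hs' : XRank_nr R L s
    · obtain ⟨e, he1, he2, he3⟩ := hs'
      exact ⟨2, (e, f), ⟨he1, he2, hf1, hf2⟩, he3, h1.trans hf3, Or.inr hf3⟩
    · obtain ⟨e, he1, he2, he3⟩ := XRank_win hL' s R
      exact ⟨1, (e, f), Or.inr ⟨hf1, hf2, he1, he2, by rwa [← XRank_nr_iff (h1.trans he3)]⟩,
        he3, hf3⟩
  · obtain ⟨e, he1, he2, he3⟩ := XRank_win hL'' s 0
    obtain ⟨f, hf1, hf2, hf3⟩ := XRank_win hL'' t 0
    exact ⟨0, (e, f), ⟨by simpa using he1, he2, by simpa using hf1, hf2,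
      by rwa [← XRank_nr_iff (h2.trans he3)], by rwa [← XRank_nr_iff (h2.trans hf3)]⟩, he3, hf3⟩

theorem XRank_kind0 (h2 : L' ∣ L'') {s t : ℤ} {o : V} (hS : XRank_S R L L' L'' 0 o)
    (hW : XRank_W L L' L'' 0 (s + o.1) (t + o.2)) : ¬ XRank_nr R L' s ∧ ¬ XRank_nr R L' t :=
  ⟨by rw [XRank_nr_iff (h2.trans hW.1)]; exact hS.2.2.2.2.1,
    by rw [XRank_nr_iff (h2.trans hW.2)]; exact hS.2.2.2.2.2⟩

theorem XRank_kind1 (h1 : L ∣ L') {s t : ℤ} {o : V} (hS : XRank_S R L L' L'' 1 o)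
    (hW : XRank_W L L' L'' 1 (s + o.1) (t + o.2)) :
    (XRank_nr R L' s ∧ ¬ XRank_nr R L t) ∨ (XRank_nr R L' t ∧ ¬ XRank_nr R L s) := by
  rcases hS with hS | hS
  · exact Or.inl ⟨⟨_, hS.1, hS.2.1, hW.1⟩,
      by rw [XRank_nr_iff (h1.trans hW.2)]; exact hS.2.2.2.2⟩
  · exact Or.inr ⟨⟨_, hS.1, hS.2.1, hW.2⟩,
      by rw [XRank_nr_iff (h1.trans hW.1)]; exact hS.2.2.2.2⟩

theorem XRank_kind2 {s t : ℤ} {o : V} (hS : XRank_S R L L' L'' 2 o)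
    (hW : XRank_W L L' L'' 2 (s + o.1) (t + o.2)) :
    XRank_nr R L s ∧ XRank_nr R L t ∧ (XRank_nr R L' s ∨ XRank_nr R L' t) :=
  ⟨⟨_, hS.1, hS.2.1, hW.1⟩, ⟨_, hS.2.2.1, hS.2.2.2, hW.2.1⟩,
    hW.2.2.imp (fun h => ⟨_, hS.1, hS.2.1, h⟩) fun h => ⟨_, hS.2.2.1, hS.2.2.2, h⟩⟩

theorem XRank_uniq (hR : 2 * R < L) (hL : L ≤ L') (h1 : L ∣ L') (h2 : L' ∣ L'') {s t : ℤ}
    {j j' : Fin 3} {o o' : V} (hS : XRank_S R L L' L'' j o)
    (hW : XRank_W L L' L'' j (s + o.1) (t + o.2)) (hS' : XRank_S R L L' L'' j' o')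
    (hW' : XRank_W L L' L'' j' (s + o'.1) (t + o'.2)) : j = j' ∧ o = o' := by
  have c01 : ∀ {o o' : V}, XRank_S R L L' L'' 0 o → XRank_W L L' L'' 0 (s + o.1) (t + o.2) →
      XRank_S R L L' L'' 1 o' → XRank_W L L' L'' 1 (s + o'.1) (t + o'.2) → False := by
    intro o o' a b c d
    have e1 := XRank_kind0 h2 a b
    rcases XRank_kind1 h1 c d with e2 | e2
    exacts [e1.1 e2.1, e1.2 e2.1]
  have c02 : ∀ {o o' : V}, XRank_S R L L' L'' 0 o → XRank_W L L' L'' 0 (s + o.1) (t + o.2) →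
      XRank_S R L L' L'' 2 o' → XRank_W L L' L'' 2 (s + o'.1) (t + o'.2) → False := by
    intro o o' a b c d
    have e1 := XRank_kind0 h2 a b
    rcases (XRank_kind2 c d).2.2 with e2 | e2
    exacts [e1.1 e2, e1.2 e2]
  have c12 : ∀ {o o' : V}, XRank_S R L L' L'' 1 o → XRank_W L L' L'' 1 (s + o.1) (t + o.2) →
      XRank_S R L L' L'' 2 o' → XRank_W L L' L'' 2 (s + o'.1) (t + o'.2) → False := by
    intro o o' a b c d
    have e1 := XRank_kind2 c d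
    rcases XRank_kind1 h1 a b with e2 | e2
    exacts [e2.2 e1.2.1, e2.2 e1.1]
  match j, j', hS, hW, hS', hW' with
  | 0, 0, hS, hW, hS', hW' =>
    obtain ⟨a1, a2, a3, a4, -⟩ := hS
    obtain ⟨b1, b2, b3, b4, -⟩ := hS'
    exact ⟨rfl, Prod.ext (XRank_eq hW.1 hW'.1 (by omega) (by omega))
      (XRank_eq hW.2 hW'.2 (by omega) (by omega))⟩
  | 0, 1, hS, hW, hS', hW' => exact (c01 hS hW hS' hW').elim
  | 0, 2, hS, hW, hS', hW' => exact (c02 hS hW hS' hW').elim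
  | 1, 0, hS, hW, hS', hW' => exact (c01 hS' hW' hS hW).elim
  | 1, 1, hS, hW, hS', hW' =>
    refine ⟨rfl, ?_⟩
    rcases hS with ⟨a1, a2, a3, a4, -⟩ | ⟨a1, a2, a3, a4, -⟩ <;>
      rcases hS' with ⟨b1, b2, b3, b4, -⟩ | ⟨b1, b2, b3, b4, -⟩ <;>
      exact Prod.ext (XRank_eq hW.1 hW'.1 (by omega) (by omega))
        (XRank_eq hW.2 hW'.2 (by omega) (by omega))
  | 1, 2, hS, hW, hS', hW' => exact (c12 hS hW hS' hW').elim
  | 2, 0, hS, hW, hS', hW' => exact (c02 hS' hW' hS hW).elim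
  | 2, 1, hS, hW, hS', hW' => exact (c12 hS' hW' hS hW).elim
  | 2, 2, hS, hW, hS', hW' =>
    obtain ⟨a1, a2, a3, a4⟩ := hS
    obtain ⟨b1, b2, b3, b4⟩ := hS'
    exact ⟨rfl, Prod.ext (XRank_eq hW.1 hW'.1 (by omega) (by omega))
      (XRank_eq hW.2.1 hW'.2.1 (by omega) (by omega))⟩

theorem XRank_W_congr (h1 : L ∣ L') (h2 : L' ∣ L'') {j : Fin 3} {a b a' b' : ℤ}
    (ha : L'' ∣ a' - a) (hb : L'' ∣ b' - b) (h : XRank_W L L' L'' j a b) :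
    XRank_W L L' L'' j a' b' := by
  have key : ∀ {M c c' : ℤ}, M ∣ L'' → L'' ∣ c' - c → M ∣ c → M ∣ c' := by
    intro M c c' e1 e2 e3
    have := dvd_add (e1.trans e2) e3
    rwa [sub_add_cancel] at this
  match j, h with
  | 0, h => exact ⟨key dvd_rfl ha h.1, key dvd_rfl hb h.2⟩
  | 1, h => exact ⟨key h2 ha h.1, key h2 hb h.2⟩
  | 2, h => exact ⟨key (h1.trans h2) ha h.1, key (h1.trans h2) hb h.2.1,
      h.2.2.imp (key h2 ha) (key h2 hb)⟩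

theorem XRank_S_bd (hR : 0 ≤ R) (hL' : 0 ≤ L') (hL'' : 0 ≤ L'') {j : Fin 3} {o : V}
    (h : XRank_S R L L' L'' j o) : Bd (R + L' + L'') o := by
  unfold Bd
  match j, h with
  | 0, h =>
    obtain ⟨a1, a2, a3, a4, -⟩ := h
    omega
  | 1, h => rcases h with ⟨a1, a2, a3, a4, -⟩ | ⟨a1, a2, a3, a4, -⟩ <;> omega
  | 2, h =>
    obtain ⟨a1, a2, a3, a4⟩ := h
    omega

end arith

theorem XRank_ndvd {M a : ℤ} (h1 : -M < a) (h2 : a < M) : ¬ M ∣ a ∨ a = 0 := by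
  by_cases h : M ∣ a
  · exact Or.inr (Int.eq_zero_of_abs_lt_dvd h (abs_lt.2 ⟨h1, h2⟩))
  · exact Or.inl h

namespace XX
variable {n : ℕ}

theorem XRank_chain (hn : 3 ≤ n) {K k : ℕ} (hk : k ≤ K) {x : XX n} {s t : ℤ}
    (hs : (crd hn K true).rep x s) (ht : (crd hn K false).rep x t) (h1 : (LL n k : ℤ) ∣ s)
    (h2 : (LL n k : ℤ) ∣ t) : Chain n k x.1 := by
  have a1 : (crd hn k true).rep x 0 :=
    (crd hn k true).of_dvd (rep_mono hn hk hs) (by rw [zero_sub]; exact h1.neg_right)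
  have a2 : (crd hn k (!true)).rep x 0 :=
    (crd hn k false).of_dvd (rep_mono hn hk ht) (by rw [zero_sub]; exact h2.neg_right)
  have := chain_of_rep hn a1 a2
  rwa [neg_zero, vec_zero, shT_zero] at this

theorem XRank_agree (hn : 3 ≤ n) {k r : ℕ} {x y : XX n} {o : V}
    (hx : Chain n (k + 1) (o +ᵥ x).1) (hy : Chain n (k + 1) (o +ᵥ y).1)
    (h0 : (o +ᵥ x).1 0 = (o +ᵥ y).1 0)
    (h : ∀ u : V, Bd r u →
      (¬ (LL n k : ℤ) ∣ u.1 - o.1 ∨ (u.1 - o.1 = 0 ∧ -(LL n (k + 1) : ℤ) < u.2 - o.2 ∧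
        u.2 - o.2 < LL n (k + 1))) ∧
      (¬ (LL n k : ℤ) ∣ u.2 - o.2 ∨ (u.2 - o.2 = 0 ∧ -(LL n (k + 1) : ℤ) < u.1 - o.1 ∧
        u.1 - o.1 < LL n (k + 1)))) : Agree r x y := by
  intro u hu
  refine obs_eq hn (z := o) (w := o) hx.1 hy.1 (by simp) (by simp) ?_
  have := XRank_tile hn (o +ᵥ x).tiling (o +ᵥ y).tiling hx hy h0 (h u hu).1 (h u hu).2
  have e : ((u.1 - o.1, u.2 - o.2) : V) + o = u := Prod.ext (by simp) (by simp)
  simp only [vadd_val, shT, e] at this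
  exact this

end XX

theorem XX.rank {n : ℕ} (hn : 3 ≤ n) : FinRank (XX n) := by
  classical
  refine ⟨Fin 3 × Tile, Fintype.ofFinite _, fun r => ?_⟩
  set m : ℕ := 2 * r with hm
  set L0 : ℤ := (LL n m : ℤ) with hL0
  set L : ℤ := (LL n (m + 1) : ℤ) with hL
  set L' : ℤ := (LL n (m + 2) : ℤ) with hL'
  set L'' : ℤ := (LL n (m + 3) : ℤ) with hL''
  have p0 : 2 * (r : ℤ) < L0 := by rw [hL0]; exact_mod_cast lt_LL n m
  have d0 : L0 ∣ L := Int.natCast_dvd_natCast.2 (LL_dvd n (by omega))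
  have d1 : L ∣ L' := Int.natCast_dvd_natCast.2 (LL_dvd n (by omega))
  have d2 : L' ∣ L'' := Int.natCast_dvd_natCast.2 (LL_dvd n (by omega))
  have q1 : 0 < L := by rw [hL]; exact_mod_cast LL_pos n _
  have q2 : 0 < L' := by rw [hL']; exact_mod_cast LL_pos n _
  have q3 : 0 < L'' := by rw [hL'']; exact_mod_cast LL_pos n _
  have l0 : L0 ≤ L := Int.le_of_dvd q1 d0
  have l1 : L ≤ L' := Int.le_of_dvd q2 d1
  let c1 := XX.crd hn (m + 3) true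
  let c2 := XX.crd hn (m + 3) false
  let W : Fin 3 × Tile → Set (XX n) := fun b =>
    {x | XRank_W L L' L'' b.1 (c1.win 0 x) (c2.win 0 x) ∧ x.1 0 = b.2}
  have hW : ∀ (b : Fin 3 × Tile) (o : V) (x : XX n), o +ᵥ x ∈ W b ↔
      XRank_W L L' L'' b.1 (c1.win 0 x + o.1) (c2.win 0 x + o.2) ∧ (o +ᵥ x).1 0 = b.2 := by
    intro b o x
    have e1 := c1.shift o (c1.win_rep 0 x)
    have e2 := c2.shift o (c2.win_rep 0 x)
    have e3 := c1.win_rep 0 (o +ᵥ x)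
    have e4 := c2.win_rep 0 (o +ᵥ x)
    exact and_congr_left fun _ => ⟨XRank_W_congr d1 d2 (c1.dvd e3 e1) (c2.dvd e4 e2),
      XRank_W_congr d1 d2 (c1.dvd e1 e3) (c2.dvd e2 e4)⟩
  have hfin : {p : (Fin 3 × Tile) × V | XRank_S r L L' L'' p.1.1 p.2}.Finite :=
    (Set.finite_univ.prod (finite_bd (r + L' + L''))).subset fun p hp =>
      ⟨Set.mem_univ _, XRank_S_bd (by omega) q2.le q3.le hp⟩
  refine ⟨W, {p : (Fin 3 × Tile) × V | XRank_S r L L' L'' p.1.1 p.2}, hfin.to_subtype,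
    fun i => i.1.1, fun i => i.1.2, fun b => ?_, fun x => ?_, fun i x y hx hy => ?_⟩
  · have ht : LocF fun x : XX n => x.1 0 :=
      ⟨0, fun x y hxy => XX.agree_val hn hxy (Bd.zero (by simp))⟩
    exact (((c1.locF_win 0).prod (c2.locF_win 0)).prod ht).loc
      fun p => XRank_W L L' L'' b.1 p.1.1 p.1.2 ∧ p.2 = b.2
  · obtain ⟨j, o, h1, h2⟩ := XRank_ex (R := r) q2 q3 d1 d2 (c1.win 0 x) (c2.win 0 x)
    refine ⟨⟨((j, (o +ᵥ x).1 0), o), h1⟩, (hW _ _ _).2 ⟨h2, rfl⟩, ?_⟩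
    rintro ⟨⟨⟨j', τ⟩, o'⟩, h1'⟩ h2'
    obtain ⟨h3, h4⟩ := (hW _ _ _).1 h2'
    obtain ⟨rfl, rfl⟩ := XRank_uniq (by omega) l1 d1 d2 h1' h3 h1 h2
    dsimp only at h4
    subst h4
    rfl
  · obtain ⟨⟨⟨j, τ⟩, o⟩, hS⟩ := i
    have h0 : (o +ᵥ x).1 0 = (o +ᵥ y).1 0 := hx.2.trans hy.2.symm
    have hx1 := hx.1
    have hy1 := hy.1
    have ch : ∀ k ≤ m + 3, ∀ z : XX n, (LL n k : ℤ) ∣ c1.win 0 z → (LL n k : ℤ) ∣ c2.win 0 z →
        Chain n k z.1 := fun k hk z => XX.XRank_chain hn hk (c1.win_rep 0 z) (c2.win_rep 0 z)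
    have nd : ∀ {M a u : ℤ}, ¬ XRank_nr r M (-a) → -(r : ℤ) ≤ u → u ≤ r → ¬ M ∣ u - a :=
      fun {M a u} h h1 h2 h3 => h ⟨u, h1, h2, by rwa [neg_add_eq_sub]⟩
    match j, hS, hx1, hy1 with
    | 0, hS, hx1, hy1 =>
      refine XX.XRank_agree hn (k := m + 2) (o := o) (ch _ le_rfl _ hx1.1 hx1.2) (ch _ le_rfl _ hy1.1 hy1.2)
        h0 fun u hu => ?_
      exact ⟨Or.inl (nd hS.2.2.2.2.1 hu.1 hu.2.1), Or.inl (nd hS.2.2.2.2.2 hu.2.2.1 hu.2.2.2)⟩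
    | 1, hS, hx1, hy1 =>
      refine XX.XRank_agree hn (k := m + 1) (o := o) (ch _ (by omega) _ hx1.1 hx1.2)
        (ch _ (by omega) _ hy1.1 hy1.2) h0 fun u hu => ?_
      obtain ⟨u1, u2, u3, u4⟩ := hu
      rw [← hL, ← hL']
      rcases hS with ⟨a1, a2, a3, a4, a5⟩ | ⟨a1, a2, a3, a4, a5⟩ <;> dsimp only at a1 a2 a3 a4 a5
      · exact ⟨(XRank_ndvd (M := L) (by omega) (by omega)).imp id fun h => ⟨h, by omega, by omega⟩,
          Or.inl (nd a5 u3 u4)⟩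
      · exact ⟨Or.inl (nd a5 u1 u2),
          (XRank_ndvd (M := L) (by omega) (by omega)).imp id fun h => ⟨h, by omega, by omega⟩⟩
    | 2, hS, hx1, hy1 =>
      refine XX.XRank_agree hn (k := m) (o := o) (ch _ (by omega) _ hx1.1 hx1.2.1)
        (ch _ (by omega) _ hy1.1 hy1.2.1) h0 fun u hu => ?_
      obtain ⟨u1, u2, u3, u4⟩ := hu
      obtain ⟨a1, a2, a3, a4⟩ := hS
      dsimp only at a1 a2 a3 a4
      rw [← hL0, ← hL]
      exact ⟨(XRank_ndvd (M := L0) (by omega) (by omega)).imp id fun h => ⟨h, by omega, by omega⟩,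
        (XRank_ndvd (M := L0) (by omega) (by omega)).imp id fun h => ⟨h, by omega, by omega⟩⟩

end Crest.Agent.R189
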