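import Crest.Agent.R189.XDef

/-! # Row 189: the local rules of `XX n` -/

set_option autoImplicit false
set_option linter.unusedSectionVars false

namespace Crest.Agent.R189
open QL

namespace XRules

/-- reduction of a vector modulo `n + 2` -/
def cst (n : ℕ) (u : V) : ZMod (n + 2) × ZMod (n + 2) :=
  ((u.1 : ZMod (n + 2)), (u.2 : ZMod (n + 2)))

theorem cst_add (n : ℕ) (u v : V) : cst n (u + v) = cst n u + cst n v := by
  simp [cst]

theorem cst_zero (n : ℕ) : cst n 0 = 0 := by simp [cst]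

theorem cst_neg (n : ℕ) (u : V) : cst n (-u) = - cst n u := by simp [cst]

theorem cst_surj (n : ℕ) (p : ZMod (n + 2) × ZMod (n + 2)) : ∃ z, cst n z = p := by
  obtain ⟨a, ha⟩ := ZMod.intCast_surjective p.1
  obtain ⟨b, hb⟩ := ZMod.intCast_surjective p.2
  exact ⟨(a, b), Prod.ext ha hb⟩

theorem cast_site (n : ℕ) (x p : ℤ) : ((site n x p : ℤ) : ZMod (n + 2)) = (p : ZMod (n + 2)) := by
  have h : ((n : ZMod (n + 2)) + 2) = 0 := by
    have := ZMod.natCast_self (n + 2)
    push_cast at this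
    exact this
  simp only [site]
  push_cast
  rw [h]; ring

theorem cst_site (n : ℕ) (x y p q : ℤ) : cst n (site n x p, site n y q) = cst n (p, q) :=
  Prod.ext (cast_site n x p) (cast_site n y q)

theorem exists_site {n : ℕ} {a p : ℤ} (h : (a : ZMod (n + 2)) = (p : ZMod (n + 2))) :
    ∃ x, a = site n x p := by
  obtain ⟨c, hc⟩ := (ZMod.intCast_eq_intCast_iff_dvd_sub p a (n + 2)).1 h.symm
  refine ⟨c, ?_⟩
  simp only [site]
  push_cast at hc
  linarith

/-- rules for a single site -/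
def single (n : ℕ) (a : Tile × (ZMod (n + 2) × ZMod (n + 2))) : Prop :=
  a.1.ok ∧ TauInf a.1 ∧ ∀ i j : ℤ, 0 ≤ i → i ≤ n + 1 → 0 ≤ j → j ≤ n + 1 → a.2 = cst n (i, j) →
    (1 ≤ i → 1 ≤ j → a.1.IsJ ∧ a.1.E.a.own = role n i j) ∧ (i = 0 → 1 ≤ j → a.1.IsG) ∧
      (j = 0 → 1 ≤ i → a.1.IsL)

def edge : Bool → Tile → Tile → Prop
  | true, t, t' => t.E = t'.W
  | false, t, t' => t.N = t'.S

/-- nearest neighbour rules -/
def okr (n : ℕ) (d : Bool) (a b : Tile × (ZMod (n + 2) × ZMod (n + 2))) : Prop :=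
  single n a ∧ single n b ∧ edge d a.1 b.1 ∧ b.2 = a.2 + cst n (vec d 1 0)

theorem V_induction {P : V → Prop} (h0 : P 0) (h : ∀ d u, P u ↔ P (u + vec d 1 0)) (u : V) :
    P u := by
  obtain ⟨x, y⟩ := u
  have h1 : ∀ x y : ℤ, P (x, y) ↔ P (x + 1, y) := fun x y => by simpa using h true (x, y)
  have h2 : ∀ x y : ℤ, P (x, y) ↔ P (x, y + 1) := fun x y => by simpa using h false (x, y)
  have h3 : P (x, 0) := by
    induction x using Int.induction_on with
    | zero => exact h0
    | succ k ih => exact (h1 _ _).1 ih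
    | pred k ih => exact (h1 _ _).2 (by simpa using ih)
  induction y using Int.induction_on with
  | zero => exact h3
  | succ k ih => exact (h2 _ _).1 ih
  | pred k ih => exact (h2 _ _).2 (by simpa using ih)

variable {n : ℕ}

theorem single_obs (hn : 3 ≤ n) (x : XX n) : single n (obs x) := by
  obtain ⟨z, hz⟩ := x.2.2.1
  have hp := XX.pos_eq hn hz
  refine ⟨x.tiling.ok 0, x.2.2.2 0, ?_⟩
  intro i j hi hi' hj hj' hij
  change XX.pos x = _ at hij
  rw [hp] at hij
  obtain ⟨X, hX⟩ := exists_site (congrArg Prod.fst hij)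
  obtain ⟨Y, hY⟩ := exists_site (congrArg Prod.snd hij)
  have key : shT z x.1 (site n X i, site n Y j) = x.1 0 := by
    have h0 : ((site n X i, site n Y j) : V) + z = 0 := by
      simp only at hX hY
      rw [← hX, ← hY]
      exact neg_add_cancel z
    simp only [shT]
    rw [h0]
  change (1 ≤ i → 1 ≤ j → (x.1 0).IsJ ∧ (x.1 0).E.a.own = role n i j) ∧
    (i = 0 → 1 ≤ j → (x.1 0).IsG) ∧ (j = 0 → 1 ≤ i → (x.1 0).IsL)
  rw [← key]
  refine ⟨fun h1 h2 => hz.J X Y i j h1 hi' h2 hj', ?_, ?_⟩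
  · rintro rfl h2; exact hz.G X Y j h2 hj'
  · rintro rfl h2; exact hz.L X Y i h2 hi'

theorem obs_ok (hn : 3 ≤ n) (d : Bool) (x : XX n) :
    okr n d (obs x) (obs (vec d 1 0 +ᵥ x)) := by
  refine ⟨single_obs hn x, single_obs hn _, ?_, ?_⟩
  · rw [XX.obs_vadd hn]
    change edge d (x.1 0) (x.1 (vec d 1 0))
    cases d
    · exact x.tiling.mV 0 0
    · exact x.tiling.mH 0 0
  · rw [XX.obs_vadd hn]; rfl

theorem realize (hn : 3 ≤ n) (ξ : V → Tile × (ZMod (n + 2) × ZMod (n + 2)))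
    (h : ∀ d u, okr n d (ξ u) (ξ (u + vec d 1 0))) : ∃ x : XX n, ∀ u, obs (u +ᵥ x) = ξ u := by
  have hs : ∀ u, single n (ξ u) := fun u => (h true u).1
  have hpos : ∀ u, (ξ u).2 = (ξ 0).2 + cst n u := by
    intro u
    induction u using V_induction with
    | h0 => rw [cst_zero, add_zero]
    | h d u => rw [(h d u).2.2.2, cst_add, ← add_assoc, add_left_inj]
  obtain ⟨z, hz⟩ := cst_surj n (-(ξ 0).2)
  have hT : Tiling (fun u => (ξ u).1) := by
    refine ⟨fun u => (hs u).1, fun x y => ?_, fun x y => ?_⟩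
    · simpa [edge] using (h true (x, y)).2.2.1
    · simpa [edge] using (h false (x, y)).2.2.1
  have hp : ∀ x y p q : ℤ, (ξ ((site n x p, site n y q) + z)).2 = cst n (p, q) := by
    intro x y p q
    rw [hpos, cst_add, hz, cst_site]; abel
  have hL : CLev (shT z (fun u => (ξ u).1)) n := by
    refine ⟨fun x y p q h1 h2 h3 h4 => ?_, fun x y q h1 h2 => ?_, fun x y p h1 h2 => ?_⟩
    · exact ((hs _).2.2 p q (by omega) h2 (by omega) h4 (hp x y p q)).1 h1 h3
    · exact ((hs _).2.2 0 q le_rfl (by omega) (by omega) h2 (hp x y 0 q)).2.1 rfl h1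
    · exact ((hs _).2.2 p 0 (by omega) h2 le_rfl (by omega) (hp x y p 0)).2.2 rfl h1
  let x : XX n := ⟨fun u => (ξ u).1, hT, ⟨z, hL⟩, fun u => (hs u).2.1⟩
  refine ⟨x, fun u => ?_⟩
  rw [XX.obs_vadd hn, XX.pos_eq hn (x := x) hL]
  refine Prod.ext rfl ?_
  change cst n (-z) + cst n u = (ξ u).2
  rw [hpos u, cst_neg, hz, neg_neg]

section quantum
variable {Q : Type} [QL Q] {o : V → Obs Q (Tile × (ZMod (n + 2) × ZMod (n + 2)))}
  (h : ∀ d u a b, ¬ okr n d a b → (o u).e a ≤ neg ((o (u + vec d 1 0)).e b))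
include h

theorem frc_single (u : V) : Frc ⊤ (o u) (single n) := fun a ha =>
  (o (u + vec true 1 0)).full _ (fun b => le_neg_comm (h true u a b (fun hk => ha hk.1)))

theorem frc_pos_step (d : Bool) (u : V) (z : Q) (p : ZMod (n + 2) × ZMod (n + 2)) :
    Frc z (o u) (fun a => a.2 = p) ↔
      Frc z (o (u + vec d 1 0)) (fun a => a.2 = p + cst n (vec d 1 0)) := by
  constructor
  · intro hz
    exact Frc.transfer (R := okr n d) (h d u) hz (fun a b hr ha => by rw [hr.2.2.2, ha])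
  · intro hz
    refine Frc.transfer (R := fun b a => okr n d a b) (fun b a hr => le_neg_comm (h d u a b hr))
      hz (fun b a hr hb => ?_)
    rw [hr.2.2.2] at hb
    exact add_right_cancel hb

theorem frc_pos (u : V) (z : Q) (p : ZMod (n + 2) × ZMod (n + 2)) :
    Frc z (o 0) (fun a => a.2 = p) ↔ Frc z (o u) (fun a => a.2 = p + cst n u) := by
  induction u using V_induction with
  | h0 => rw [cst_zero, add_zero]
  | h d u => rw [frc_pos_step h d u, cst_add, add_assoc]

theorem kappa_eq (u : V) (p : ZMod (n + 2) × ZMod (n + 2)) :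
    ((o 0).map Prod.snd).e p = (o u).ev (fun a => a.2 = p + cst n u) :=
  Obs.ev_congr (fun z => frc_pos h u z p)

theorem kappa_C (p : ZMod (n + 2) × ZMod (n + 2)) (u : V)
    (a : Tile × (ZMod (n + 2) × ZMod (n + 2))) : C (((o 0).map Prod.snd).e p) ((o u).e a) := by
  rw [kappa_eq h u]; exact Obs.C_ev_e _ _ _

theorem kappa_frc (p : ZMod (n + 2) × ZMod (n + 2)) (u : V) :
    Frc (((o 0).map Prod.snd).e p) (o u) (fun a => a.2 = p + cst n u) := by
  rw [kappa_eq h u]; exact Frc.iff_le_ev.2 le_rfl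

theorem below_C (hn : 3 ≤ n) (p : ZMod (n + 2) × ZMod (n + 2)) (u v : V)
    (a b : Tile × (ZMod (n + 2) × ZMod (n + 2))) :
    C (meet (((o 0).map Prod.snd).e p) ((o u).e a))
      (meet (((o 0).map Prod.snd).e p) ((o v).e b)) := by
  obtain ⟨z, hz⟩ := cst_surj n (-p)
  set κ := ((o 0).map Prod.snd).e p with hκ
  have hC : ∀ u a, C κ ((o u).e a) := kappa_C h p
  have hF : ∀ u, Frc κ (o u) (fun a => a.2 = p + cst n u) := kappa_frc h p
  let o' : V → Obs (Below κ) Tile := fun u => ((o (u + z)).res κ (hC _)).map Prod.fst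
  have hfrc : ∀ (w : Below κ) u (P : Tile → Prop),
      Frc w (o' u) P ↔ Frc w.1 (o (u + z)) (fun a => P a.1) := by
    intro w u P
    simp only [o']
    rw [Obs.frc_map, Obs.frc_res]
  have hedge : ∀ d u t t', ¬ edge d t t' → (o' u).e t ≤ neg ((o' (u + vec d 1 0)).e t') := by
    intro d u t t' htt
    have h1 := (hfrc _ u _).1 (Frc.self (o' u) t)
    have h2 : Frc ((o' u).e t).1 (o (u + z + vec d 1 0)) (fun a => edge d t a.1) :=
      Frc.transfer (R := okr n d) (h d (u + z)) h1 (fun a b hr ha => ha ▸ hr.2.2.1)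
    rw [add_right_comm] at h2
    exact (hfrc _ (u + vec d 1 0) (fun s => edge d t s)).2 h2 t' htt
  have hT : TObs o' := by
    refine ⟨fun u => (hfrc _ _ _).2 ((frc_single h _).top.mono (fun a ha => ha.1)),
      fun x y t t' htt => ?_, fun x y t t' htt => ?_⟩
    · simpa using hedge true (x, y) t t' htt
    · simpa using hedge false (x, y) t t' htt
  have hp : ∀ x y i j : ℤ, Frc κ (o ((site n x i, site n y j) + z))
      (fun a => single n a ∧ a.2 = cst n (i, j)) := by
    intro x y i j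
    refine (frc_single h _).top.and ((hF _).mono (fun a ha => ?_))
    rw [ha, cst_add, hz, cst_site]; abel
  have hL : Lev ⊤ o' n := by
    refine ⟨fun x y i j h1 h2 h3 h4 => ?_, fun x y j h1 h2 => ?_, fun x y i h1 h2 => ?_⟩
    · exact (hfrc _ _ _).2 ((hp x y i j).mono
        (fun a ha => (ha.1.2.2 i j (by omega) h2 (by omega) h4 ha.2).1 h1 h3))
    · exact (hfrc _ _ _).2 ((hp x y 0 j).mono
        (fun a ha => (ha.1.2.2 0 j le_rfl (by omega) (by omega) h2 ha.2).2.1 rfl h1))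
    · exact (hfrc _ _ _).2 ((hp x y i 0).mono
        (fun a ha => (ha.1.2.2 i 0 (by omega) h2 le_rfl (by omega) ha.2).2.2 rfl h1))
  have hbot : ∀ u a, a.2 ≠ p + cst n u → meet κ ((o u).e a) = ⊥ := by
    intro u a ha
    exact le_bot_iff.1 (le_bot_of (meet_le_right (hC u a))
      ((meet_le_left (hC u a)).trans (hF u a ha)))
  have heq : ∀ u a, a.2 = p + cst n (u + z) →
      meet κ ((o (u + z)).e a) = ((o' u).e a.1).1 := by
    intro u a ha
    have : ((o (u + z)).res κ (hC _)).e a = (o' u).e a.1 := by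
      refine le_antisymm (Obs.le_ev ((o (u + z)).res κ (hC _)) (p := fun b => b.1 = a.1) rfl)
        (Obs.ev_le _ (fun b hb => ?_))
      by_cases hb2 : b.2 = p + cst n (u + z)
      · rw [show b = a from Prod.ext hb (hb2.trans ha.symm)]
      · refine Below.le_def.2 ?_
        rw [Obs.res_e, hbot _ _ hb2]
        exact bot_le
    rw [← this]; rfl
  obtain ⟨u, rfl⟩ : ∃ u', u = u' + z := ⟨u - z, by simp⟩
  obtain ⟨v, rfl⟩ : ∃ v', v = v' + z := ⟨v - z, by simp⟩
  by_cases ha : a.2 = p + cst n (u + z)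
  · by_cases hb : b.2 = p + cst n (v + z)
    · rw [heq u a ha, heq v b hb]
      exact Below.C_def.1 (quantum_tiles hT hn hL u v a.1 b.1)
    · rw [hbot _ b hb]; exact C_symm (C_bot_left _)
  · rw [hbot _ a ha]; exact C_bot_left _

theorem quantum (hn : 3 ≤ n) (u v : V) (a b : Tile × (ZMod (n + 2) × ZMod (n + 2))) :
    C ((o u).e a) ((o v).e b) :=
  Obs.C_glue ((o 0).map Prod.snd) (fun p => kappa_C h p u a) (fun p => kappa_C h p v b)
    (fun p => below_C h hn p u v a b)

end quantum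

end XRules

theorem XX.rules {n : ℕ} (hn : 3 ≤ n) : ∃ ok, Rules (XX n) ok :=
  ⟨XRules.okr n, XRules.obs_ok hn, XRules.realize hn,
    fun _ _ _ h u v a b => XRules.quantum h hn u v a b⟩

end Crest.Agent.R189
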