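import Crest.Agent.R189.XDef

/-! # Row 189: periodic strips -/

set_option autoImplicit false
set_option linter.unusedSectionVars false

namespace Crest.Agent.R189

/-- cyclic predecessor of a cell index -/
def xsPrv (N : ℕ) (j : ℤ) : ℤ := if j = 0 then N + 2 else j - 1

theorem xs_lt {P p r b : ℤ} (hP : 0 < P) (h0 : 0 ≤ r) (h : P * p + r < P * b) : p < b :=
  lt_of_mul_lt_mul_left (by linarith) hP.le

theorem xs_le {P p r a : ℤ} (hP : 0 < P) (h1 : r < P) (h : P * a ≤ P * p + r) : a ≤ p := by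
  have h2 : P * a < P * (p + 1) := by linarith
  have := lt_of_mul_lt_mul_left h2 hP.le
  omega

theorem xs_div {P : ℤ} (hP : 0 < P) (s : ℤ) : ∃ p r, s = P * p + r ∧ 0 ≤ r ∧ r < P :=
  ⟨s / P, s % P, by linarith [Int.emod_add_mul_ediv s P], Int.emod_nonneg _ hP.ne',
    Int.emod_lt_of_pos _ hP⟩

theorem xs_mlab_congr {N : ℕ} {p q i j p' q' i' j' : ℤ} (h1 : role N p q = role N p' q')
    (h2 : role (N + 1) i j = role (N + 1) i' j')
    (h3 : (role (N + 1) i' j').ty = .N ∨ ((role (N + 1) i' j').ty = .T ∧ q = q' ∧ i = i') ∨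
      ((role (N + 1) i' j').ty = .R ∧ p = p' ∧ j = j')) :
    mlab N p q i j = mlab N p' q' i' j' := by
  unfold mlab
  rw [h1, h2]
  rcases h3 with h | ⟨h, rfl, rfl⟩ | ⟨h, rfl, rfl⟩ <;> simp only [h]

theorem xs_cls_m {N : ℕ} {q : ℤ} (h1 : 2 ≤ q) (h2 : q + 1 ≤ N) : cls N q = .m := by
  unfold cls
  rw [if_neg (by omega), if_neg (by omega), if_neg (by omega), if_neg (by omega)]

theorem xs_role_up {N : ℕ} {p q q' : ℤ} (h1 : 2 ≤ q) (h2 : q + 1 ≤ N) (h1' : 2 ≤ q')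
    (h2' : q' + 1 ≤ N) (hp : (p < q ∧ p < q') ∨ p = N + 1) : role N p q = role N p q' := by
  unfold role
  rw [xs_cls_m h1 h2, xs_cls_m h1' h2']
  congr 1
  split_ifs <;> first | rfl | omega

theorem xs_role_up_ty {N : ℕ} {p q : ℤ} (hp : p < q ∨ p = N + 1) :
    (role N p q).ty = .N ∨ (role N p q).ty = .T := by
  simp only [role]
  split_ifs <;> first | exact Or.inl rfl | exact Or.inr rfl | omega

theorem xs_role_edge {N : ℕ} {i j j' : ℤ} (hi : i = 0 ∨ i = N + 1) (h : cls N j = cls N j') :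
    role N i j = role N i j' ∧ (role N i j').ty = .N := by
  unfold role
  rw [h, if_pos (by omega), if_pos (by omega)]
  exact ⟨rfl, rfl⟩

/-- cells next to a high column -/
theorem xs_mlab_edge {N : ℕ} {p q q' i j j' : ℤ} (h1 : role N p q = role N p q')
    (hi : i = 0 ∨ i = N + 2) (h : cls (N + 1) j = cls (N + 1) j') :
    mlab N p q i j = mlab N p q' i j' := by
  have := xs_role_edge (N := N + 1) (i := i) (by push_cast; omega) h
  exact xs_mlab_congr h1 this.1 (Or.inl this.2)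

theorem xs_mlab_edge' {N : ℕ} {p q q' i j j' : ℤ} (h1 : role N p q = role N p q')
    (hi : i = 0 ∨ i = N + 2) (h : cls (N + 1) j = cls (N + 1) j') :
    mlab N q p j i = mlab N q' p j' i := by
  rw [← mlab_tr, ← mlab_tr N p q', xs_mlab_edge h1 hi h]

/-- cells above the diagonal -/
theorem xs_mlab_up {N : ℕ} {p q i j j' : ℤ} (h1 : 2 ≤ j) (h2 : j ≤ N) (h1' : 2 ≤ j')
    (h2' : j' ≤ N) (hi : (i < j ∧ i < j') ∨ i = N + 2) :
    mlab N p q i j = mlab N p q i j' := by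
  refine xs_mlab_congr rfl (xs_role_up h1 (by push_cast; omega) h1' (by push_cast; omega)
    (by push_cast; omega)) ?_
  rcases xs_role_up_ty (N := N + 1) (p := i) (q := j') (by push_cast; omega) with h | h
  · exact Or.inl h
  · exact Or.inr (Or.inl ⟨h, rfl, rfl⟩)

theorem xs_mlab_up' {N : ℕ} {p q i j j' : ℤ} (h1 : 2 ≤ j) (h2 : j ≤ N) (h1' : 2 ≤ j')
    (h2' : j' ≤ N) (hi : (i < j ∧ i < j') ∨ i = N + 2) :
    mlab N q p j i = mlab N q p j' i := by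
  rw [← mlab_tr, ← mlab_tr N p q, xs_mlab_up h1 h2 h1' h2' hi]

variable {n k : ℕ} {ω ω' : V → Tile}

theorem xs_LL (n k : ℕ) : (LL n (k + 1) : ℤ) = LL n k * ((n + k : ℕ) + 2) := by
  rw [LL_succ]; push_cast; ring

theorem xs_site {N : ℕ} {j b js : ℤ} (hj : 0 ≤ j) (hj' : j ≤ N + 2)
    (hb : (b = 0 ∧ js = j) ∨ (b = -1 ∧ js = xsPrv N j)) :
    ∃ Y, site (N + 1) Y js = b + j ∧ 0 ≤ js ∧ js ≤ N + 2 := by
  unfold site xsPrv at *
  rcases hb with ⟨rfl, rfl⟩ | ⟨rfl, rfl⟩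
  · exact ⟨0, by simp, hj, hj'⟩
  · split_ifs with h
    · exact ⟨-1, by push_cast; omega, by omega, by omega⟩
    · exact ⟨0, by push_cast; omega, by omega, by omega⟩

theorem xs_site0 {N : ℕ} {a i : ℤ} (ha : (a = 0 ∧ i = 0) ∨ (a = -1 ∧ i = N + 2)) :
    ∃ X, site (N + 1) X i = a ∧ 0 ≤ i ∧ i ≤ N + 2 := by
  unfold site
  rcases ha with ⟨rfl, rfl⟩ | ⟨rfl, rfl⟩
  · exact ⟨0, by simp, le_rfl, by omega⟩
  · exact ⟨-1, by push_cast; omega, by omega, by omega⟩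

theorem xs_cellE (hn : 3 ≤ n) (hT : Tiling ω) {j : ℤ} (hj : 0 ≤ j) (hj' : j ≤ (n + k : ℕ) + 2)
    (h : Chain n (k + 2) (shT (0, -(LL n (k + 1) * j)) ω)) {a i b js p q r : ℤ}
    (ha : (a = 0 ∧ i = 0) ∨ (a = -1 ∧ i = (n + k : ℕ) + 2))
    (hb : (b = 0 ∧ js = j) ∨ (b = -1 ∧ js = xsPrv (n + k) j))
    (hp : 0 ≤ p) (hp' : p ≤ n + k + 1) (hq : 1 ≤ q) (hq' : q ≤ n + k + 1) (h0 : 0 ≤ r)
    (h1 : r < LL n k) :
    (ω (LL n k * (((n + k : ℕ) + 2) * a + p) + r, LL n k * (((n + k : ℕ) + 2) * b + q))).E =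
      mcolH (n + k) p q i js := by
  obtain ⟨X, hX, hi, hi'⟩ := xs_site0 ha
  obtain ⟨Y, hY, hjs, hjs'⟩ := xs_site hj hj' hb
  rw [← h.expl_E hn (hT.shT _) X Y i js p q r hi (by omega) hjs (by omega) hp hp' hq hq' h0 h1,
    hX, hY]
  simp only [shT, site, Prod.mk_add_mk, xs_LL]
  congr 3 <;> ring

theorem xs_cellN (hn : 3 ≤ n) (hT : Tiling ω) {j : ℤ} (hj : 0 ≤ j) (hj' : j ≤ (n + k : ℕ) + 2)
    (h : Chain n (k + 2) (shT (0, -(LL n (k + 1) * j)) ω)) {a i b js p q r : ℤ}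
    (ha : (a = 0 ∧ i = 0) ∨ (a = -1 ∧ i = (n + k : ℕ) + 2))
    (hb : (b = 0 ∧ js = j) ∨ (b = -1 ∧ js = xsPrv (n + k) j))
    (hp : 1 ≤ p) (hp' : p ≤ n + k + 1) (hq : 0 ≤ q) (hq' : q ≤ n + k + 1) (h0 : 0 ≤ r)
    (h1 : r < LL n k) :
    (ω (LL n k * (((n + k : ℕ) + 2) * a + p), LL n k * (((n + k : ℕ) + 2) * b + q) + r)).N =
      mcolV (n + k) p q i js := by
  obtain ⟨X, hX, hi, hi'⟩ := xs_site0 ha
  obtain ⟨Y, hY, hjs, hjs'⟩ := xs_site hj hj' hb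
  rw [← h.expl_N hn (hT.shT _) X Y i js p q r hi (by omega) hjs (by omega) hp hp' hq hq' h0 h1,
    hX, hY]
  simp only [shT, site, Prod.mk_add_mk, xs_LL]
  congr 3 <;> ring

theorem xs_chain {j : ℤ} (h : Chain n (k + 2) (shT (0, -(LL n (k + 1) * j)) ω)) :
    Chain n (k + 1) ω := by
  have := (h.mono (Nat.le_succ (k + 1))).shift (z := (0, LL n (k + 1) * j)) (dvd_zero _)
    (Dvd.intro _ rfl)
  rw [shT_shT, Prod.mk_add_mk, add_zero, add_neg_cancel] at this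
  exact shT_zero ω ▸ this

/-- decomposition of a coordinate in the box -/
theorem xs_box {P s : ℤ} {N : ℕ} (hN : 3 ≤ N) (hP : 0 < P) (h1 : -(P * (N + 2)) ≤ 2 * s + 2)
    (h2 : 2 * s ≤ P * (N + 2)) : ∃ a p r : ℤ, s = P * ((N + 2) * a + p) + r ∧ 0 ≤ r ∧ r < P ∧
      ((a = 0 ∧ 0 ≤ p ∧ p ≤ N) ∨ (a = -1 ∧ 1 ≤ p ∧ p ≤ N + 1)) := by
  have hN' : (3 : ℤ) ≤ N := by exact_mod_cast hN
  have hPN : P * 3 ≤ P * N := mul_le_mul_of_nonneg_left hN' hP.le
  by_cases hs : 0 ≤ s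
  · obtain ⟨p, r, rfl, hr0, hr1⟩ := xs_div hP s
    refine ⟨0, p, r, by ring, hr0, hr1, Or.inl ⟨rfl, xs_le hP hr1 (by linarith), ?_⟩⟩
    have := xs_lt (b := N + 1) hP hr0 (p := p) (by linarith)
    omega
  · obtain ⟨p, r, e, hr0, hr1⟩ := xs_div hP (s + P * (N + 2))
    refine ⟨-1, p, r, by linarith, hr0, hr1, Or.inr ⟨rfl, xs_le hP hr1 (by linarith), ?_⟩⟩
    have := xs_lt (b := N + 2) hP hr0 (p := p) (by linarith)
    omega

theorem xs_axisE (hT : Tiling ω) (h : Chain n k ω) {s : ℤ} (h1 : -(LL n k : ℤ) ≤ s)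
    (h2 : s < LL n k) : (ω (s, 0)).E = if 0 ≤ s then (ω 0).E else (ω 0).W := by
  split_ifs with hs
  · have := h.pass_E hT 0 s 0 (dvd_zero _) hs h2
    rw [mul_zero, zero_add] at this
    exact this
  · have e1 := h.pass_E hT (-1) (s + LL n k) 0 (dvd_zero _) (by omega) (by omega)
    have e2 := h.pass_E hT (-1) (-1 + LL n k) 0 (dvd_zero _) (by omega) (by omega)
    rw [show (LL n k : ℤ) * -1 + (s + LL n k) = s by ring] at e1
    rw [show (LL n k : ℤ) * -1 + (-1 + LL n k) = -1 by ring, hT.mH] at e2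
    rw [e1, ← e2]
    rfl

theorem xs_axisN (hT : Tiling ω) (h : Chain n k ω) {s : ℤ} (h1 : -(LL n k : ℤ) ≤ s)
    (h2 : s < LL n k) : (ω (0, s)).N = if 0 ≤ s then (ω 0).N else (ω 0).S := by
  split_ifs with hs
  · have := h.pass_N hT 0 0 s (dvd_zero _) hs h2
    rw [mul_zero, zero_add] at this
    exact this
  · have e1 := h.pass_N hT 0 (-1) (s + LL n k) (dvd_zero _) (by omega) (by omega)
    have e2 := h.pass_N hT 0 (-1) (-1 + LL n k) (dvd_zero _) (by omega) (by omega)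
    rw [show (LL n k : ℤ) * -1 + (s + LL n k) = s by ring] at e1
    rw [show (LL n k : ℤ) * -1 + (-1 + LL n k) = -1 by ring, hT.mV] at e2
    rw [e1, ← e2]
    rfl

theorem xs_eq_zero_of_dvd {P r m : ℤ} (h0 : 0 ≤ r) (h1 : r < P) (h : P ∣ P * m + r) : r = 0 :=
  Int.eq_zero_of_dvd_of_nonneg_of_lt h0 h1 ((dvd_add_right (Dvd.intro _ rfl)).1 h)

section Box

variable (hn : 3 ≤ n) (hT : Tiling ω) (hT' : Tiling ω') {j j' : ℤ} (hj : 0 ≤ j)
  (hj1 : j ≤ (n + k : ℕ) + 2) (hj' : 0 ≤ j') (hj1' : j' ≤ (n + k : ℕ) + 2)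
  (h : Chain n (k + 2) (shT (0, -(LL n (k + 1) * j)) ω))
  (h' : Chain n (k + 2) (shT (0, -(LL n (k + 1) * j')) ω'))
  (hc : cls (n + k + 1) j = cls (n + k + 1) j')
include hn hT hT' hj hj1 hj' hj1' h h' hc

theorem xs_boxE (h0 : ω 0 = ω' 0)
    (hc2 : cls (n + k + 1) (xsPrv (n + k) j) = cls (n + k + 1) (xsPrv (n + k) j')) {s t : ℤ}
    (hs1 : -(LL n (k + 1) : ℤ) ≤ 2 * s + 2) (hs2 : 2 * s ≤ LL n (k + 1))
    (ht1 : -(LL n (k + 1) : ℤ) ≤ 2 * t + 2) (ht2 : 2 * t ≤ LL n (k + 1)) :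
    (ω (s, t)).E = (ω' (s, t)).E := by
  have hP : (0 : ℤ) < LL n k := by exact_mod_cast LL_pos n k
  by_cases hdiv : (LL n k : ℤ) ∣ t
  swap
  · exact (xs_chain h).det_E hn hT hT' (xs_chain h') s t hdiv
  by_cases ht0 : t = 0
  · have hQ : (2 : ℤ) ≤ LL n (k + 1) := by
      have := lt_LL n (k + 1)
      omega
    rw [ht0, xs_axisE hT (xs_chain h) (by omega) (by omega),
      xs_axisE hT' (xs_chain h') (by omega) (by omega), h0]
  rw [xs_LL] at hs1 hs2 ht1 ht2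
  obtain ⟨a, p, r, rfl, hr0, hr1, hap⟩ := xs_box (N := n + k) (by omega) hP hs1 hs2
  obtain ⟨b, q, r', rfl, hr0', hr1', hbq⟩ := xs_box (N := n + k) (by omega) hP ht1 ht2
  obtain rfl := xs_eq_zero_of_dvd hr0' hr1' hdiv
  have hq : 1 ≤ q := by
    rcases hbq with ⟨rfl, hq, -⟩ | ⟨-, hq, -⟩
    · rcases hq.eq_or_lt with rfl | hq
      · exact absurd (by ring) ht0
      · exact hq
    · exact hq
  obtain ⟨i, ha⟩ : ∃ i : ℤ, (a = 0 ∧ i = 0) ∨ (a = -1 ∧ i = (n + k : ℕ) + 2) := by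
    rcases hap with ⟨rfl, -⟩ | ⟨rfl, -⟩
    exacts [⟨_, Or.inl ⟨rfl, rfl⟩⟩, ⟨_, Or.inr ⟨rfl, rfl⟩⟩]
  obtain ⟨js, js', hb, hb', hcs⟩ : ∃ js js' : ℤ,
      ((b = 0 ∧ js = j) ∨ (b = -1 ∧ js = xsPrv (n + k) j)) ∧
      ((b = 0 ∧ js' = j') ∨ (b = -1 ∧ js' = xsPrv (n + k) j')) ∧
      cls (n + k + 1) js = cls (n + k + 1) js' := by
    rcases hbq with ⟨rfl, -⟩ | ⟨rfl, -⟩
    exacts [⟨_, _, Or.inl ⟨rfl, rfl⟩, Or.inl ⟨rfl, rfl⟩, hc⟩,
      ⟨_, _, Or.inr ⟨rfl, rfl⟩, Or.inr ⟨rfl, rfl⟩, hc2⟩]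
  rw [add_zero, xs_cellE hn hT hj hj1 h ha hb (by omega) (by omega) hq (by omega) hr0 hr1,
    xs_cellE hn hT' hj' hj1' h' ha hb' (by omega) (by omega) hq (by omega) hr0 hr1]
  unfold mcolH
  split_ifs <;> congr 1 <;> exact xs_mlab_edge rfl (by omega) hcs

theorem xs_boxN (h0 : ω 0 = ω' 0)
    (hc2 : cls (n + k + 1) (xsPrv (n + k) j) = cls (n + k + 1) (xsPrv (n + k) j')) {s t : ℤ}
    (hs1 : -(LL n (k + 1) : ℤ) ≤ 2 * s + 2) (hs2 : 2 * s ≤ LL n (k + 1))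
    (ht1 : -(LL n (k + 1) : ℤ) ≤ 2 * t + 2) (ht2 : 2 * t ≤ LL n (k + 1)) :
    (ω (s, t)).N = (ω' (s, t)).N := by
  have hP : (0 : ℤ) < LL n k := by exact_mod_cast LL_pos n k
  by_cases hdiv : (LL n k : ℤ) ∣ s
  swap
  · exact (xs_chain h).det_N hn hT hT' (xs_chain h') s t hdiv
  by_cases hs0 : s = 0
  · have hQ : (2 : ℤ) ≤ LL n (k + 1) := by
      have := lt_LL n (k + 1)
      omega
    rw [hs0, xs_axisN hT (xs_chain h) (by omega) (by omega),
      xs_axisN hT' (xs_chain h') (by omega) (by omega), h0]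
  rw [xs_LL] at hs1 hs2 ht1 ht2
  obtain ⟨a, p, r, rfl, hr0, hr1, hap⟩ := xs_box (N := n + k) (by omega) hP hs1 hs2
  obtain ⟨b, q, r', rfl, hr0', hr1', hbq⟩ := xs_box (N := n + k) (by omega) hP ht1 ht2
  obtain rfl := xs_eq_zero_of_dvd hr0 hr1 hdiv
  have hp : 1 ≤ p := by
    rcases hap with ⟨rfl, hp, -⟩ | ⟨-, hp, -⟩
    · rcases hp.eq_or_lt with rfl | hp
      · exact absurd (by ring) hs0
      · exact hp
    · exact hp
  obtain ⟨i, ha⟩ : ∃ i : ℤ, (a = 0 ∧ i = 0) ∨ (a = -1 ∧ i = (n + k : ℕ) + 2) := by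
    rcases hap with ⟨rfl, -⟩ | ⟨rfl, -⟩
    exacts [⟨_, Or.inl ⟨rfl, rfl⟩⟩, ⟨_, Or.inr ⟨rfl, rfl⟩⟩]
  have hi : i = 0 ∨ i = (n + k : ℕ) + 2 := by omega
  rcases hbq with ⟨rfl, hq, hq'⟩ | ⟨rfl, hq, hq'⟩
  · rw [add_zero,
      xs_cellN hn hT hj hj1 h ha (Or.inl ⟨rfl, rfl⟩) hp (by omega) hq (by omega) hr0' hr1',
      xs_cellN hn hT' hj' hj1' h' ha (Or.inl ⟨rfl, rfl⟩) hp (by omega) hq (by omega) hr0' hr1']
    unfold mcolV mcolH
    congr 1
    by_cases hq0 : q = 0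
    · rw [if_pos hq0, if_pos hq0]
      congr 1
      · exact xs_mlab_edge' rfl hi hc2
      · exact xs_mlab_edge' rfl hi hc
    · rw [if_neg hq0, if_neg hq0, if_neg (by omega), if_neg (by omega)]
      congr 1 <;> exact xs_mlab_edge' rfl hi hc
  · rw [add_zero,
      xs_cellN hn hT hj hj1 h ha (Or.inr ⟨rfl, rfl⟩) hp (by omega) (by omega) (by omega) hr0' hr1',
      xs_cellN hn hT' hj' hj1' h' ha (Or.inr ⟨rfl, rfl⟩) hp (by omega) (by omega) (by omega)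
        hr0' hr1']
    have hnext : ∀ j : ℤ, j ≤ (n + k : ℕ) + 2 →
        (if xsPrv (n + k) j = (n + k : ℕ) + 2 then 0 else xsPrv (n + k) j + 1) = j := by
      intro j hj
      unfold xsPrv
      split_ifs <;> omega
    unfold mcolV mcolH
    congr 1
    rw [if_neg (by omega : ¬ q = 0), if_neg (by omega : ¬ q = 0), hnext j hj1, hnext j' hj1']
    split_ifs
    · congr 1
      · exact xs_mlab_edge' rfl hi hc2
      · exact xs_mlab_edge' rfl hi hc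
    · congr 1 <;> exact xs_mlab_edge' rfl hi hc2

theorem xs_box_eq (h0 : ω 0 = ω' 0)
    (hc2 : cls (n + k + 1) (xsPrv (n + k) j) = cls (n + k + 1) (xsPrv (n + k) j')) {s t : ℤ}
    (hs : 2 * |s| ≤ LL n (k + 1)) (ht : 2 * |t| ≤ LL n (k + 1)) : ω (s, t) = ω' (s, t) := by
  have := le_abs_self s
  have := neg_abs_le s
  have := le_abs_self t
  have := neg_abs_le t
  have := abs_nonneg s
  have := abs_nonneg t
  refine tile_ext hT hT' ?_ ?_ ?_ ?_
  · exact xs_boxE hn hT hT' hj hj1 hj' hj1' h h' hc h0 hc2 (by omega) (by omega) (by omega)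
      (by omega)
  · exact xs_boxE hn hT hT' hj hj1 hj' hj1' h h' hc h0 hc2 (by omega) (by omega) (by omega)
      (by omega)
  · exact xs_boxN hn hT hT' hj hj1 hj' hj1' h h' hc h0 hc2 (by omega) (by omega) (by omega)
      (by omega)
  · exact xs_boxN hn hT hT' hj hj1 hj' hj1' h h' hc h0 hc2 (by omega) (by omega) (by omega)
      (by omega)

end Box

section Per

variable (hn : 3 ≤ n) (hT : Tiling ω) (hT' : Tiling ω') {j j' : ℤ} (hj : 0 ≤ j)
  (hj1 : j ≤ (n + (k + 1) : ℕ) + 2) (hj' : 0 ≤ j') (hj1' : j' ≤ (n + (k + 1) : ℕ) + 2)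
  (h : Chain n (k + 1 + 2) (shT (0, -(LL n (k + 1 + 1) * j)) ω))
  (h' : Chain n (k + 1 + 2) (shT (0, -(LL n (k + 1 + 1) * j')) ω'))
  (hc : cls (n + (k + 1) + 1) j = cls (n + (k + 1) + 1) j')
include hn hT hT' hj hj1 hj' hj1' h h' hc

theorem xs_perE {s t m : ℤ} (hs : 0 ≤ s) (h1 : s + 3 * LL n (k + 1) ≤ t)
    (h1' : s + 3 * LL n (k + 1) ≤ t + LL n (k + 1) * m)
    (h2 : t + 3 * LL n (k + 1) < LL n (k + 1 + 1))
    (h2' : t + LL n (k + 1) * m + 3 * LL n (k + 1) < LL n (k + 1 + 1)) :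
    (ω (s, t)).E = (ω' (s, t + LL n (k + 1) * m)).E := by
  have hP : (0 : ℤ) < LL n (k + 1) := by exact_mod_cast LL_pos n (k + 1)
  have hP0 : (0 : ℤ) < LL n k := by exact_mod_cast LL_pos n k
  by_cases hdiv : (LL n k : ℤ) ∣ t
  swap
  · have := ((xs_chain h).mono (Nat.le_succ _)).det_E hn hT (hT'.shT (0, LL n (k + 1) * m))
      (((xs_chain h').mono (Nat.le_succ _)).shift (dvd_zero _) (Dvd.intro _ rfl)) s t hdiv
    simpa [shT] using this
  rw [xs_LL n (k + 1)] at h2 h2'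
  obtain ⟨i, r, rfl, hr0, hr1⟩ := xs_div hP s
  obtain ⟨c, r', rfl, hr0', hr1'⟩ := xs_div hP t
  have hi : 0 ≤ i := xs_le hP hr1 (by linarith)
  have hic : i + 3 ≤ c := xs_le hP hr1' (by linarith)
  have hic' : i + 3 ≤ c + m := xs_le hP hr1' (by linarith)
  have hcN : c + 3 < (n + (k + 1) : ℕ) + 2 := xs_lt hP hr0' (by linarith)
  have hcN' : c + m + 3 < (n + (k + 1) : ℕ) + 2 := xs_lt hP hr0' (by linarith)
  by_cases hr : r' = 0
  · subst hr
    have e := xs_cellE hn hT hj hj1 h (p := i) (q := c) (Or.inl ⟨rfl, rfl⟩) (Or.inl ⟨rfl, rfl⟩) hi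
      (by omega) (by omega) (by omega) hr0 hr1
    have e' := xs_cellE hn hT' hj' hj1' h' (p := i) (q := c + m) (Or.inl ⟨rfl, rfl⟩)
      (Or.inl ⟨rfl, rfl⟩) hi (by omega) (by omega) (by omega) hr0 hr1
    rw [mul_zero, zero_add, zero_add] at e e'
    rw [add_zero, ← mul_add, e, e']
    unfold mcolH
    split_ifs <;> congr 1 <;>
      exact xs_mlab_edge (xs_role_up (by omega) (by omega) (by omega) (by omega) (by omega))
        (by omega) hc
  · rw [xs_LL] at hr1 hr1'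
    obtain ⟨p, r₁, rfl, hr₁0, hr₁1⟩ := xs_div hP0 r
    obtain ⟨q, r₂, rfl, hr₂0, hr₂1⟩ := xs_div hP0 r'
    have hr₂ : r₂ = 0 := by
      refine xs_eq_zero_of_dvd (m := ((n + k : ℕ) + 2) * c + q) hr₂0 hr₂1 ?_
      rw [xs_LL] at hdiv
      convert hdiv using 1
      ring
    subst hr₂
    have hp : 0 ≤ p := xs_le hP0 hr₁1 (by linarith)
    have hp' : p < (n + k : ℕ) + 2 := xs_lt hP0 hr₁0 hr1
    have hq : 0 ≤ q := xs_le hP0 hr₂1 (by linarith)
    have hq' : q < (n + k : ℕ) + 2 := xs_lt hP0 hr₂0 hr1'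
    have hq0 : q ≠ 0 := by
      rintro rfl
      exact hr (by ring)
    have e := (xs_chain h).expl_E hn hT 0 0 i c p q r₁ hi (by omega) (by omega) (by omega) hp
      (by omega) (by omega) (by omega) hr₁0 hr₁1
    have e' := (xs_chain h').expl_E hn hT' 0 0 i (c + m) p q r₁ hi (by omega) (by omega)
      (by omega) hp (by omega) (by omega) (by omega) hr₁0 hr₁1
    refine Eq.trans ?_ (Eq.trans e (Eq.trans ?_ (Eq.trans e'.symm ?_)))
    · simp only [site, xs_LL]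
      congr 3 <;> ring
    · unfold mcolH
      split_ifs <;> congr 1 <;>
        exact xs_mlab_up (by omega) (by omega) (by omega) (by omega) (by omega)
    · simp only [site, xs_LL]
      congr 3 <;> ring

theorem xs_perN {s t m : ℤ} (hs : 1 ≤ s) (h1 : s + 3 * LL n (k + 1) ≤ t)
    (h1' : s + 3 * LL n (k + 1) ≤ t + LL n (k + 1) * m)
    (h2 : t + 3 * LL n (k + 1) < LL n (k + 1 + 1))
    (h2' : t + LL n (k + 1) * m + 3 * LL n (k + 1) < LL n (k + 1 + 1)) :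
    (ω (s, t)).N = (ω' (s, t + LL n (k + 1) * m)).N := by
  have hP : (0 : ℤ) < LL n (k + 1) := by exact_mod_cast LL_pos n (k + 1)
  have hP0 : (0 : ℤ) < LL n k := by exact_mod_cast LL_pos n k
  by_cases hdiv : (LL n k : ℤ) ∣ s
  swap
  · have := ((xs_chain h).mono (Nat.le_succ _)).det_N hn hT (hT'.shT (0, LL n (k + 1) * m))
      (((xs_chain h').mono (Nat.le_succ _)).shift (dvd_zero _) (Dvd.intro _ rfl)) s t hdiv
    simpa [shT] using this
  rw [xs_LL n (k + 1)] at h2 h2'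
  obtain ⟨i, r, rfl, hr0, hr1⟩ := xs_div hP s
  obtain ⟨c, r', rfl, hr0', hr1'⟩ := xs_div hP t
  have hi : 0 ≤ i := xs_le hP hr1 (by linarith)
  have hic : i + 3 ≤ c := xs_le hP hr1' (by linarith)
  have hic' : i + 3 ≤ c + m := xs_le hP hr1' (by linarith)
  have hcN : c + 3 < (n + (k + 1) : ℕ) + 2 := xs_lt hP hr0' (by linarith)
  have hcN' : c + m + 3 < (n + (k + 1) : ℕ) + 2 := xs_lt hP hr0' (by linarith)
  by_cases hr : r = 0
  · subst hr
    have hi0 : i ≠ 0 := by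
      rintro rfl
      simp at hs
    have e := xs_cellN hn hT hj hj1 h (p := i) (q := c) (Or.inl ⟨rfl, rfl⟩) (Or.inl ⟨rfl, rfl⟩)
      (by omega) (by omega) (by omega) (by omega) hr0' hr1'
    have e' := xs_cellN hn hT' hj' hj1' h' (p := i) (q := c + m) (Or.inl ⟨rfl, rfl⟩)
      (Or.inl ⟨rfl, rfl⟩) (by omega) (by omega) (by omega) (by omega) hr0' hr1'
    rw [mul_zero, zero_add, zero_add] at e e'
    rw [add_zero, add_right_comm, ← mul_add, e, e']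
    unfold mcolV mcolH
    rw [if_neg (by omega), if_neg (by omega), if_neg (by omega), if_neg (by omega)]
    congr 2 <;>
      exact xs_mlab_edge' (xs_role_up (by omega) (by omega) (by omega) (by omega) (by omega))
        (by omega) hc
  · rw [xs_LL] at hr1 hr1'
    obtain ⟨p, r₁, rfl, hr₁0, hr₁1⟩ := xs_div hP0 r
    obtain ⟨q, r₂, rfl, hr₂0, hr₂1⟩ := xs_div hP0 r'
    have hr₁ : r₁ = 0 := by
      refine xs_eq_zero_of_dvd (m := ((n + k : ℕ) + 2) * i + p) hr₁0 hr₁1 ?_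
      rw [xs_LL] at hdiv
      convert hdiv using 1
      ring
    subst hr₁
    have hp : 0 ≤ p := xs_le hP0 hr₁1 (by linarith)
    have hp' : p < (n + k : ℕ) + 2 := xs_lt hP0 hr₁0 hr1
    have hq : 0 ≤ q := xs_le hP0 hr₂1 (by linarith)
    have hq' : q < (n + k : ℕ) + 2 := xs_lt hP0 hr₂0 hr1'
    have hp0 : p ≠ 0 := by
      rintro rfl
      exact hr (by ring)
    have e := (xs_chain h).expl_N hn hT 0 0 i c p q r₂ hi (by omega) (by omega) (by omega)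
      (by omega) (by omega) hq (by omega) hr₂0 hr₂1
    have e' := (xs_chain h').expl_N hn hT' 0 0 i (c + m) p q r₂ hi (by omega) (by omega)
      (by omega) (by omega) (by omega) hq (by omega) hr₂0 hr₂1
    refine Eq.trans ?_ (Eq.trans e (Eq.trans ?_ (Eq.trans e'.symm ?_)))
    · simp only [site, xs_LL]
      congr 3 <;> ring
    · unfold mcolV mcolH
      congr 1
      split_ifs <;> first
        | omega
        | (congr 1 <;> exact xs_mlab_up' (by omega) (by omega) (by omega) (by omega) (by omega))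
    · simp only [site, xs_LL]
      congr 3 <;> ring

theorem xs_per_eq {s t t' : ℤ} (hs : 1 ≤ s) (h1 : s + 3 * LL n (k + 1) < t)
    (h1' : s + 3 * LL n (k + 1) < t') (h2 : t + 3 * LL n (k + 1) < LL n (k + 1 + 1))
    (h2' : t' + 3 * LL n (k + 1) < LL n (k + 1 + 1)) (hd : (LL n (k + 1) : ℤ) ∣ t - t') :
    ω (s, t) = ω' (s, t') := by
  obtain ⟨m, rfl⟩ : ∃ m, t' = t + LL n (k + 1) * m := by
    obtain ⟨m, hm⟩ := hd
    exact ⟨-m, by linarith⟩
  refine tile_ext hT hT' ?_ ?_ ?_ ?_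
  · exact xs_perE hn hT hT' hj hj1 hj' hj1' h h' hc (by omega) (by omega) (by omega) h2 h2'
  · exact xs_perE hn hT hT' hj hj1 hj' hj1' h h' hc (by omega) (by omega) (by omega) h2 h2'
  · exact xs_perN hn hT hT' hj hj1 hj' hj1' h h' hc hs (by omega) (by omega) h2 h2'
  · rw [add_sub_right_comm]
    exact xs_perN hn hT hT' hj hj1 hj' hj1' h h' hc hs (by omega) (by omega) (by omega)
      (by omega)

end Per

/-- orientation of a tiling -/
def xsOr (d : Bool) (ω : V → Tile) : V → Tile := match d with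
  | true => ω
  | false => trT ω

theorem xsOr_tiling (d : Bool) (hT : Tiling ω) : Tiling (xsOr d ω) := by
  cases d
  exacts [hT.trT, hT]

theorem xsOr_chain (d : Bool) {t : ℤ} (h : Chain n k (shT (vec d (-0) (-t)) ω)) :
    Chain n k (shT (0, -t) (xsOr d ω)) := by
  rw [neg_zero] at h
  cases d
  exacts [h.trT, h]

theorem xsOr_zero (d : Bool) (h : ω 0 = ω' 0) : xsOr d ω 0 = xsOr d ω' 0 := by
  cases d
  exacts [congrArg Tile.tr h, h]

theorem xsOr_eq (d : Bool) {s t s' t' : ℤ} (h : xsOr d ω (s, t) = xsOr d ω' (s', t')) :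
    ω (vec d s t) = ω' (vec d s' t') := by
  cases d
  exacts [Tile.tr_inj h, h]

theorem xs_data (hn : 3 ≤ n) (d : Bool) {y : XX n} (h1 : (XX.crd hn (k + 2) d).rep y 0)
    (h2 : (XX.crd hn (k + 1) (!d)).rep y 0) {j : ℤ}
    (hj : j = (XX.crd hn (k + 2) (!d)).win 0 y / LL n (k + 1)) :
    0 ≤ j ∧ j ≤ (n + k : ℕ) + 2 ∧
      Chain n (k + 2) (shT (0, -(LL n (k + 1) * j)) (xsOr d y.1)) ∧ CLev (shT 0 y.1) n := by
  have hQ : (0 : ℤ) < LL n (k + 1) := by exact_mod_cast LL_pos n (k + 1)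
  have hw := (XX.crd hn (k + 2) (!d)).win_rep 0 y
  have hw0 := (XX.crd hn (k + 2) (!d)).le_win 0 y
  have hw1 := (XX.crd hn (k + 2) (!d)).win_lt 0 y
  have hd := (XX.crd hn (k + 1) (!d)).dvd h2 (XX.rep_mono hn (Nat.le_succ _) hw)
  rw [sub_zero] at hd
  have he : (XX.crd hn (k + 2) (!d)).win 0 y = LL n (k + 1) * j := by
    rw [hj, Int.mul_ediv_cancel' hd]
  rw [he] at hw hw0 hw1
  rw [zero_add, xs_LL n (k + 1)] at hw1
  have h3 : j < (n + (k + 1) : ℕ) + 2 := lt_of_mul_lt_mul_left hw1 hQ.le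
  refine ⟨nonneg_of_mul_nonneg_right hw0 hQ, by omega, xsOr_chain d (XX.chain_of_rep hn h1 hw), ?_⟩
  have h4 := XX.chain_of_rep hn (XX.rep_mono hn (Nat.le_succ _) h1) h2
  rw [neg_zero, vec_zero] at h4
  exact h4.1

theorem XX.strips {n : ℕ} (hn : 3 ≤ n) : Strips (XX n) := by
  refine ⟨Tile × Cl × Cl, Fintype.ofFinite _, fun d M => ?_⟩
  refine ⟨LL n (M + 1), LL n (M + 1 + 1), LL n (M + 1 + 2), XX.crd hn (M + 1 + 2) d,
    XX.crd hn (M + 1 + 1) (!d), fun y => (y.1 0,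
      cls (n + (M + 1) + 1) ((XX.crd hn (M + 1 + 2) (!d)).win 0 y / LL n (M + 1 + 1)),
      cls (n + (M + 1) + 1) (xsPrv (n + (M + 1))
        ((XX.crd hn (M + 1 + 2) (!d)).win 0 y / LL n (M + 1 + 1)))), ?_, ?_, ?_, ?_⟩
  · have := lt_LL n (M + 1)
    omega
  · rw [LL_succ n (M + 1), mul_comm]
    exact Nat.mul_le_mul_left _ (by omega)
  · exact Nat.le_of_dvd (LL_pos _ _) (LL_dvd n (by omega))
  intro y y' h1 h2 h1' h2' ht
  simp only [Prod.mk.injEq] at ht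
  obtain ⟨h0, hc, hc2⟩ := ht
  obtain ⟨hj, hj1, h, hL⟩ := xs_data hn d h1 h2 rfl
  obtain ⟨hj', hj1', h', hL'⟩ := xs_data hn d h1' h2' rfl
  have hT := xsOr_tiling d y.tiling
  have hT' := xsOr_tiling d y'.tiling
  refine ⟨fun s t hs ht => ?_, fun s t t' hs a1 a2 a3 a4 hd => ?_⟩
  · refine XX.obs_eq hn hL hL' (by simp) (by simp) (xsOr_eq d ?_)
    exact xs_box_eq hn hT hT' hj hj1 hj' hj1' h h' hc (xsOr_zero d h0) hc2 hs ht
  · have hd' : ((n + 2 : ℕ) : ℤ) ∣ t - t' := by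
      refine Dvd.dvd.trans ?_ hd
      exact_mod_cast Dvd.intro _ rfl
    refine XX.obs_eq hn hL hL' ?_ ?_ (xsOr_eq d ?_)
    · cases d
      · simpa using hd'
      · simp
    · cases d
      · simp
      · simpa using hd'
    · exact xs_per_eq hn hT hT' hj hj1 hj' hj1' h h' hc hs a1 a2 a3 a4 hd

end Crest.Agent.R189
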