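import Crest.Agent.R189.Defs

/-! # Row 189: support calculus for canonical lifts -/

set_option autoImplicit false
set_option linter.unusedSectionVars false

namespace Crest.Agent.R189
open Equiv

variable {X ι Γ : Type} [Shift X] [DecidableEq ι] [Fintype ι] [Group Γ]

/-- the permutation defined by a word -/
noncomputable def evp (w : List (Tri X ι)) : Perm (X × ι) := (w.map cyc).prod
/-- restriction of the base sets of a word -/
def resw (w : List (Tri X ι)) (W : Set X) : List (Tri X ι) := w.map (fun τ => τ.res W)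

omit [Fintype ι] in
@[simp] theorem evp_nil : evp ([] : List (Tri X ι)) = 1 := rfl
omit [Fintype ι] in
@[simp] theorem evp_cons (τ : Tri X ι) (w : List (Tri X ι)) : evp (τ :: w) = cyc τ * evp w := rfl
omit [Shift X] [DecidableEq ι] [Fintype ι] in
@[simp] theorem resw_nil (W : Set X) : resw ([] : List (Tri X ι)) W = [] := rfl
omit [Shift X] [DecidableEq ι] [Fintype ι] in
@[simp] theorem resw_cons (τ : Tri X ι) (w : List (Tri X ι)) (W : Set X) :
    resw (τ :: w) W = τ.res W :: resw w W := rfl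

omit [Fintype ι] in
theorem disp_evp {ρ : ℤ} (hρ : 0 ≤ ρ) {w : List (Tri X ι)} (h : ∀ τ ∈ w, τ.Rad ρ) :
    Disp (2 * ρ * w.length) (evp w) := by
  induction w with
  | nil => exact Disp.one (by simp)
  | cons τ w ih =>
    rw [evp_cons]
    refine ((disp_cyc (h τ (by simp))).mul (ih (fun τ' h' => h τ' (by simp [h'])))).mono ?_
    simp only [List.length_cons]; push_cast; linarith

omit [Fintype ι] in
theorem cyc_res_congr {ρ : ℤ} {τ : Tri X ι} (hok : τ.Ok) (h : τ.Rad ρ) {W W' : Set X} (ω : X × ι)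
    (hW : ∀ z, Bd ρ z → (z +ᵥ ω.1 ∈ W ↔ z +ᵥ ω.1 ∈ W')) :
    cyc (τ.res W) ω = cyc (τ.res W') ω := by
  have key : ∀ x, ∀ f ∈ τ.pts, ω = x ⋆ f → (x ∈ W ↔ x ∈ W') := by
    rintro x f hf rfl
    have := hW (-f.1) (h.mem hf).neg
    simpa [← add_vadd] using this
  by_cases hω : ω ∈ (τ.res W).supp
  · obtain ⟨x, hx, f, hf, e⟩ := hω
    have hx' : x ∈ (τ.res W').U := ⟨hx.1, (key x f hf e).1 hx.2⟩
    rw [e, (cyc_acts (hok.res W)).app x hx f hf, (cyc_acts (hok.res W')).app x hx' f hf]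
    rfl
  · rw [cyc_fix _ hω, cyc_fix]
    rintro ⟨x, hx, f, hf, e⟩
    exact hω ⟨x, ⟨hx.1, (key x f hf e).2 hx.2⟩, f, hf, e⟩

omit [Fintype ι] in
/-- finite propagation: two restrictions of a word act in the same way on a point near which
the restricting sets agree -/
theorem evp_resw_congr {ρ : ℤ} (hρ : 0 ≤ ρ) {w : List (Tri X ι)} (hok : ∀ τ ∈ w, τ.Ok)
    (h : ∀ τ ∈ w, τ.Rad ρ) {W W' : Set X} (ω : X × ι)
    (hW : ∀ z, Bd (2 * ρ * w.length) z → (z +ᵥ ω.1 ∈ W ↔ z +ᵥ ω.1 ∈ W')) :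
    evp (resw w W) ω = evp (resw w W') ω := by
  induction w with
  | nil => rfl
  | cons τ w ih =>
    have hlen : (0 : ℤ) ≤ w.length := Int.natCast_nonneg _
    have hr : 2 * ρ * (τ :: w).length = 2 * ρ * w.length + 2 * ρ := by
      simp only [List.length_cons]; push_cast; ring
    rw [hr] at hW
    have ih' := ih (fun τ' h' => hok τ' (by simp [h'])) (fun τ' h' => h τ' (by simp [h']))
      (fun z hz => hW z (hz.mono (by linarith)))
    rw [resw_cons, resw_cons, evp_cons, evp_cons, Perm.mul_apply, Perm.mul_apply, ← ih']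
    have hd : Disp (2 * ρ * (resw w W).length) (evp (resw w W)) := disp_evp hρ (fun τ' h' => by
      obtain ⟨τ'', h1, rfl⟩ := List.mem_map.1 h'
      exact h τ'' (by simp [h1]))
    obtain ⟨z0, hz0, e0⟩ := hd ω
    have hl : (resw w W).length = w.length := List.length_map _
    rw [hl] at hz0
    refine cyc_res_congr (hok τ (by simp)) (h τ (by simp)) _ (fun z hz => ?_)
    rw [e0, ← add_vadd]
    exact hW _ ((hz.add hz0).mono (by linarith))

namespace PreCan
variable (C : PreCan X ι Γ)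

/-- evaluation of a word -/
def ev (w : List (Tri X ι)) : Γ := (w.map C.xh).prod

@[simp] theorem ev_nil : C.ev [] = 1 := rfl
@[simp] theorem ev_cons (τ : Tri X ι) (w : List (Tri X ι)) : C.ev (τ :: w) = C.xh τ * C.ev w := rfl
theorem ev_append (w w' : List (Tri X ι)) : C.ev (w ++ w') = C.ev w * C.ev w' := by
  simp [ev]

theorem π_ev {w : List (Tri X ι)} (h : ∀ τ ∈ w, τ.Gd) : C.π (C.ev w) = evp w := by
  induction w with
  | nil => simp
  | cons τ w ih =>
    rw [ev_cons, evp_cons, map_mul, C.π_xh (h τ (by simp)), ih (fun τ' h' => h τ' (by simp [h']))]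

/-- the group generated by the lifts satisfying `Q` -/
def GS (Q : Tri X ι → Prop) : Subgroup Γ := Subgroup.closure {g | ∃ τ, τ.Gd ∧ Q τ ∧ g = C.xh τ}

theorem xh_mem_GS {Q : Tri X ι → Prop} {τ : Tri X ι} (h : τ.Gd) (hQ : Q τ) : C.xh τ ∈ C.GS Q :=
  Subgroup.subset_closure ⟨τ, h, hQ, rfl⟩

theorem GS_mono {Q Q' : Tri X ι → Prop} (h : ∀ τ, τ.Gd → Q τ → Q' τ) : C.GS Q ≤ C.GS Q' :=
  Subgroup.closure_mono (fun _ ⟨τ, h1, h2, e⟩ => ⟨τ, h1, h τ h1 h2, e⟩)

theorem ev_mem_GS {Q : Tri X ι → Prop} {w : List (Tri X ι)} (h : ∀ τ ∈ w, τ.Gd ∧ Q τ) :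
    C.ev w ∈ C.GS Q := by
  induction w with
  | nil => exact one_mem _
  | cons τ w ih =>
    exact mul_mem (C.xh_mem_GS (h τ (by simp)).1 (h τ (by simp)).2)
      (ih (fun τ' h' => h τ' (by simp [h'])))

theorem exists_word {Q : Tri X ι → Prop} (hQ : ∀ τ, Q τ → Q τ.rev) {g : Γ} (hg : g ∈ C.GS Q) :
    ∃ w : List (Tri X ι), (∀ τ ∈ w, τ.Gd ∧ Q τ) ∧ g = C.ev w := by
  refine Subgroup.closure_induction'' (p := fun g _ => ∃ w : List (Tri X ι),
    (∀ τ ∈ w, τ.Gd ∧ Q τ) ∧ g = C.ev w) ?_ ?_ ⟨[], by simp, rfl⟩ ?_ hg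
  · rintro _ ⟨τ, h1, h2, rfl⟩
    exact ⟨[τ], by simpa using ⟨h1, h2⟩, by simp⟩
  · rintro _ ⟨τ, h1, h2, rfl⟩
    exact ⟨[τ.rev], by simpa using ⟨h1.rev, hQ τ h2⟩, by simp [C.inv h1]⟩
  · rintro _ _ _ _ ⟨w, h1, rfl⟩ ⟨w', h2, rfl⟩
    refine ⟨w ++ w', fun τ hτ => ?_, (C.ev_append w w').symm⟩
    exact (List.mem_append.1 hτ).elim (h1 τ) (h2 τ)

theorem GS_true : C.GS (fun _ => True) = ⊤ := by
  rw [← C.gen, GS]; simp

theorem xh_empty {a b c : Pt ι} (h : D3 a b c) : C.xh ⟨∅, a, b, c⟩ = 1 := by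
  have := C.add (U := ∅) (U' := ∅) (a := a) (b := b) (c := c)
    ⟨h, by rintro x (hx | hx) <;> exact hx.elim⟩ Loc.empty Loc.empty (by simp)
  simpa using this

theorem π_mem_GG (g : Γ) : C.π g ∈ GG X ι := by
  obtain ⟨w, h, rfl⟩ := C.exists_word (Q := fun _ => True) (fun _ _ => trivial)
    (g := g) (by rw [C.GS_true]; trivial)
  rw [C.π_ev (fun τ hτ => (h τ hτ).1)]
  exact Subgroup.list_prod_mem _ (fun g hg => by
    obtain ⟨τ, hτ, rfl⟩ := List.mem_map.1 hg
    exact cyc_mem_GG (h τ hτ).1)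

theorem range_π : C.π.range = GG X ι := by
  refine le_antisymm (by rintro _ ⟨g, rfl⟩; exact C.π_mem_GG g) ?_
  rw [GG, Subgroup.closure_le]
  rintro _ ⟨τ, h, rfl⟩
  exact ⟨C.xh τ, C.π_xh h⟩

/-- the group generated by the lifts supported in `S` -/
def HS (S : Set (X × ι)) : Subgroup Γ := C.GS (fun τ => τ.supp ⊆ S)

theorem π_mem_suppOn {S : Set (X × ι)} {h : Γ} (hh : h ∈ C.HS S) : C.π h ∈ SuppOn S := by
  refine Subgroup.closure_induction (p := fun g _ => C.π g ∈ SuppOn S) ?_ ?_ ?_ ?_ hh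
  · rintro _ ⟨τ, h1, h2, rfl⟩ ω hω
    rw [C.π_xh h1]; exact cyc_fix τ (fun h3 => hω (h2 h3))
  · simp
  · intro a b _ _ ha hb; rw [map_mul]; exact mul_mem ha hb
  · intro a _ ha; rw [map_inv]; exact inv_mem ha

theorem commute_of_fix {S : Set (X × ι)} {h g : Γ} (hh : h ∈ C.HS S)
    (hg : ∀ ω ∈ S, C.π g ω = ω) : Commute g h := by
  refine Subgroup.closure_induction (p := fun h _ => Commute g h) ?_ ?_ ?_ ?_ hh
  · rintro _ ⟨τ, h1, h2, rfl⟩
    have := C.equiv g h1.2 h1.1 h1.1 (fun x hx => ⟨hg _ (h2 (star_mem_sup hx τ.a_mem)),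
      hg _ (h2 (star_mem_sup hx τ.b_mem)), hg _ (h2 (star_mem_sup hx τ.c_mem))⟩)
    rw [mul_inv_eq_iff_eq_mul] at this
    exact this
  · exact Commute.one_right _
  · intro a b _ _ ha hb; exact ha.mul_right hb
  · intro a _ ha; exact ha.inv_right

theorem HS_commute {S T : Set (X × ι)} {h g : Γ} (hh : h ∈ C.HS S) (hg : g ∈ C.HS T)
    (hd : Disjoint S T) : Commute g h :=
  C.commute_of_fix hh (fun ω hω => C.π_mem_suppOn hg ω (Set.disjoint_left.1 hd hω))

theorem HS_mono {S T : Set (X × ι)} (h : S ⊆ T) : C.HS S ≤ C.HS T :=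
  C.GS_mono (fun _ _ h1 => h1.trans h)

theorem HS_univ : C.HS Set.univ = ⊤ := by
  rw [← C.GS_true, HS]; simp

/-- the kernel is central -/
theorem central {k : Γ} (hk : C.π k = 1) (g : Γ) : Commute k g :=
  C.commute_of_fix (S := Set.univ) (by rw [C.HS_univ]; trivial) (fun ω _ => by rw [hk]; rfl)

theorem normal_of_le_ker {Z : Subgroup Γ} (h : Z ≤ C.π.ker) : Z.Normal :=
  ⟨fun z hz g => by
    rw [← (C.central (h hz) g).eq, mul_assoc, mul_inv_cancel, mul_one]; exact hz⟩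

theorem conj_mem_HS [Good X] {S T : Set (X × ι)} {h : Γ} (hh : h ∈ C.HS S) (g : Γ)
    (hg : ∀ ω ∈ S, C.π g ω ∈ T) : g * h * g⁻¹ ∈ C.HS T := by
  refine Subgroup.closure_induction (p := fun h _ => g * h * g⁻¹ ∈ C.HS T) ?_ ?_ ?_ ?_ hh
  · rintro _ ⟨⟨U, a, b, c⟩, h1, h2, rfl⟩
    have hl := locP_of_mem (C.π_mem_GG g)
    obtain ⟨ka, la, ea⟩ := hl.rel a
    obtain ⟨kb, lb, eb⟩ := hl.rel b
    obtain ⟨kc, lc, ec⟩ := hl.rel c
    refine loc_induction (la.prod (lb.prod lc)) h1.2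
      (fun W => g * C.xh ⟨W, a, b, c⟩ * g⁻¹ ∈ C.HS T) ?_ ?_ ?_
    · rw [C.xh_empty h1.1.1, mul_one, mul_inv_cancel]
      exact one_mem _
    · rintro W hW hWU ⟨x0, hx0⟩ hc
      have hok : (⟨W, a, b, c⟩ : Tri X ι).Ok := h1.1.sub hWU
      have hx : ∀ x ∈ W, C.π g (x ⋆ a) = x ⋆ ka x0 ∧ C.π g (x ⋆ b) = x ⋆ kb x0 ∧
          C.π g (x ⋆ c) = x ⋆ kc x0 := by
        intro x hx
        have := hc x hx x0 hx0
        simp only [Prod.mk.injEq] at this
        rw [ea, eb, ec, this.1, this.2.1, this.2.2]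
        exact ⟨rfl, rfl, rfl⟩
      -- every new point is the image of an old one
      let m : Pt ι → Pt ι := fun f => (open Classical in
        if f = a then ka x0 else if f = b then kb x0 else kc x0)
      have hd := hok.1
      have ma : m a = ka x0 := by simp [m]
      have mb : m b = kb x0 := by
        have : b ≠ a := fun e => hd.1 e.symm
        simp [m, this]
      have mc : m c = kc x0 := by
        have h3 : c ≠ a := fun e => hd.2.1 e.symm
        have h4 : c ≠ b := fun e => hd.2.2 e.symm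
        simp [m, h3, h4]
      have hm : ∀ x ∈ W, ∀ f ∈ (⟨W, a, b, c⟩ : Tri X ι).pts, C.π g (x ⋆ f) = x ⋆ m f := by
        intro x hxW f hf
        rcases Tri.mem_pts.1 hf with rfl | rfl | rfl
        · exact ((hx x hxW).1).trans (by rw [← ma])
        · exact ((hx x hxW).2.1).trans (by rw [← mb])
        · exact ((hx x hxW).2.2).trans (by rw [← mc])
      have hpre : ∀ f' ∈ (⟨W, ka x0, kb x0, kc x0⟩ : Tri X ι).pts,
          ∃ f ∈ (⟨W, a, b, c⟩ : Tri X ι).pts, f' = m f := by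
        intro f' hf'
        rcases Tri.mem_pts.1 hf' with rfl | rfl | rfl
        · exact ⟨a, Tri.a_mem _, ma.symm⟩
        · exact ⟨b, Tri.b_mem _, mb.symm⟩
        · exact ⟨c, Tri.c_mem _, mc.symm⟩
      have hinj : ∀ x ∈ W, ∀ y ∈ W, ∀ f ∈ (⟨W, a, b, c⟩ : Tri X ι).pts,
          ∀ f' ∈ (⟨W, a, b, c⟩ : Tri X ι).pts, x ⋆ m f = y ⋆ m f' → x = y ∧ f = f' := by
        intro x hxW y hyW f hf f' hf' e
        rw [← hm x hxW f hf, ← hm y hyW f' hf'] at e
        exact hok.2 x hxW y hyW f hf f' hf' ((C.π g).injective e)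
      have hok' : (⟨W, ka x0, kb x0, kc x0⟩ : Tri X ι).Ok := by
        refine ⟨⟨fun e => hd.1 ?_, fun e => hd.2.1 ?_, fun e => hd.2.2 ?_⟩, ?_⟩
        · exact (hinj x0 hx0 x0 hx0 a (Tri.a_mem _) b (Tri.b_mem _)
            (by rw [ma, mb]; exact congrArg _ e)).2
        · exact (hinj x0 hx0 x0 hx0 a (Tri.a_mem _) c (Tri.c_mem _)
            (by rw [ma, mc]; exact congrArg _ e)).2
        · exact (hinj x0 hx0 x0 hx0 b (Tri.b_mem _) c (Tri.c_mem _)
            (by rw [mb, mc]; exact congrArg _ e)).2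
        · intro x hxW y hyW f hf f' hf' e
          obtain ⟨f1, hf1, rfl⟩ := hpre f hf
          obtain ⟨f2, hf2, rfl⟩ := hpre f' hf'
          obtain ⟨e1, e2⟩ := hinj x hxW y hyW f1 hf1 f2 hf2 e
          exact ⟨e1, by rw [e2]⟩
      rw [C.equiv g hW hok hok' hx]
      refine C.xh_mem_GS ⟨hok', hW⟩ ?_
      rintro _ ⟨x, hxW, f, hf, rfl⟩
      obtain ⟨f1, hf1, rfl⟩ := hpre f hf
      rw [← hm x hxW f1 hf1]
      exact hg _ (h2 (star_mem_sup (hWU hxW) hf1))
    · intro W W' hW hW' hWU hWU' hd ih ih'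
      rw [C.add (h1.1.sub (Set.union_subset hWU hWU')) hW hW' hd, ← conj_mul]
      exact mul_mem ih ih'
  · rw [mul_one, mul_inv_cancel]
    exact one_mem _
  · intro a b _ _ ha hb
    rw [← conj_mul]
    exact mul_mem ha hb
  · intro a _ ha
    rw [← conj_inv]
    exact inv_mem ha

theorem xh_res_union {τ : Tri X ι} (h : τ.Gd) {W W' : Set X} (hW : Loc W) (hW' : Loc W')
    (hd : Disjoint W W') : C.xh (τ.res (W ∪ W')) = C.xh (τ.res W) * C.xh (τ.res W') := by
  have e : τ.res (W ∪ W') = ⟨τ.U ∩ W ∪ τ.U ∩ W', τ.a, τ.b, τ.c⟩ := by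
    rw [← Set.inter_union_distrib_left]; rfl
  rw [e]
  exact C.add (e ▸ h.1.res (W ∪ W')) (h.2.inter hW) (h.2.inter hW')
    (hd.mono Set.inter_subset_right Set.inter_subset_right)

/-- splitting a word along two sets whose pieces commute -/
theorem ev_resw_union {w : List (Tri X ι)} (h : ∀ τ ∈ w, τ.Gd) {W W' : Set X} (hW : Loc W)
    (hW' : Loc W') (hd : Disjoint W W') {S T : Set (X × ι)} (hST : Disjoint S T)
    (hS : ∀ τ ∈ w, (τ.res W).supp ⊆ S) (hT : ∀ τ ∈ w, (τ.res W').supp ⊆ T) :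
    C.ev (resw w (W ∪ W')) = C.ev (resw w W) * C.ev (resw w W') := by
  induction w with
  | nil => simp
  | cons τ w ih =>
    have ih' := ih (fun τ' h' => h τ' (by simp [h'])) (fun τ' h' => hS τ' (by simp [h']))
      (fun τ' h' => hT τ' (by simp [h']))
    have h1 : C.ev (resw w W) ∈ C.HS S := C.ev_mem_GS (fun τ' h' => by
      obtain ⟨τ'', h2, rfl⟩ := List.mem_map.1 h'
      exact ⟨(h τ'' (by simp [h2])).res hW, hS τ'' (by simp [h2])⟩)
    have h2 : C.xh (τ.res W') ∈ C.HS T :=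
      C.xh_mem_GS ((h τ (by simp)).res hW') (hT τ (by simp))
    have hc := C.HS_commute h1 h2 hST
    simp only [resw_cons, ev_cons]
    rw [ih', C.xh_res_union (h τ (by simp)) hW hW' hd, mul_assoc, mul_assoc,
      ← mul_assoc (C.xh (τ.res W')), hc.eq, mul_assoc]

end PreCan

end Crest.Agent.R189
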