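import Crest.Agent.R189.Rain
import Crest.Agent.R189.Supp

/-! # Row 189: the small relations generate a finite group -/

set_option autoImplicit false
set_option linter.unusedSectionVars false

namespace Crest.Agent.R189
open Equiv

variable {X ι Γ : Type} [Shift X] [Good X] [DecidableEq ι] [Fintype ι] [Group Γ]

theorem zfin_card_closure {J : Type} [Fintype J] (w : J → Γ) (q : ℕ) (hq : 0 < q)
    (hc : ∀ a b, Commute (w a) (w b)) (hp : ∀ a, w a ^ q = 1) :
    ∃ s : Finset Γ, s.card ≤ q ^ Fintype.card J ∧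
      ∀ g ∈ Subgroup.closure (Set.range w), g ∈ s := by
  classical
  letI : CommGroup (Subgroup.closure (Set.range w)) := Subgroup.closureCommGroupOfComm (by
    rintro _ ⟨a, rfl⟩ _ ⟨b, rfl⟩; exact (hc a b).eq)
  let w' : J → Subgroup.closure (Set.range w) := fun b => ⟨w b, Subgroup.subset_closure ⟨b, rfl⟩⟩
  have hp' : ∀ a, w' a ^ q = 1 := fun a => Subtype.ext (hp a)
  let f : (J → Fin q) → Γ := fun n => (∏ b, w' b ^ (n b : ℕ) : Subgroup.closure (Set.range w))
  refine ⟨Finset.univ.image f, Finset.card_image_le.trans (by simp), fun g hg => ?_⟩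
  have key : ∃ n : J → ℕ, (⟨g, hg⟩ : Subgroup.closure (Set.range w)) = ∏ b, w' b ^ n b := by
    induction hg using Subgroup.closure_induction with
    | mem x hx =>
      obtain ⟨a, rfl⟩ := hx
      refine ⟨Pi.single a 1, ?_⟩
      rw [Finset.prod_eq_single a (fun b _ hb => by simp [hb]) (by simp)]
      simp [w']
    | one => exact ⟨0, by simp⟩
    | mul x y hx hy ihx ihy =>
      obtain ⟨n, hn⟩ := ihx
      obtain ⟨m, hm⟩ := ihy
      refine ⟨n + m, ?_⟩
      simp only [Pi.add_apply, pow_add, Finset.prod_mul_distrib, ← hn, ← hm]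
      rfl
    | inv x hx ih =>
      obtain ⟨n, hn⟩ := ih
      refine ⟨fun b => n b * (q - 1), ?_⟩
      have : (⟨x⁻¹, inv_mem hx⟩ : Subgroup.closure (Set.range w)) = (⟨x, hx⟩)⁻¹ := rfl
      rw [this, hn, inv_eq_iff_mul_eq_one, ← Finset.prod_mul_distrib]
      refine Finset.prod_eq_one (fun b _ => ?_)
      rw [← pow_add, show n b + n b * (q - 1) = q * n b by
        obtain ⟨k, rfl⟩ : ∃ k, q = k + 1 := ⟨q - 1, by omega⟩
        simp; ring, pow_mul, hp', one_pow]
  obtain ⟨n, hn⟩ := key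
  refine Finset.mem_image.2 ⟨fun b => ⟨n b % q, Nat.mod_lt _ hq⟩, Finset.mem_univ _, ?_⟩
  have : ∏ b, w' b ^ (n b % q) = ∏ b, w' b ^ n b :=
    Finset.prod_congr rfl (fun b _ => (pow_eq_pow_mod _ (hp' b)).symm)
  simp only [f, this, ← hn]

omit [DecidableEq ι] [Fintype ι] in
/-- an additive invariant function on local sets with values in a commutative subgroup of
finite exponent generates a finite group -/
theorem finite_closure_of_rank (μ : Set X → Γ) (q : ℕ) (hq : 0 < q)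
    (hc : ∀ U U', Loc U → Loc U' → Commute (μ U) (μ U')) (hp : ∀ U, Loc U → μ U ^ q = 1)
    (hadd : ∀ U U', Loc U → Loc U' → Disjoint U U' → μ (U ∪ U') = μ U * μ U')
    (hinv : ∀ U z, Loc U → μ (sh z U) = μ U) :
    Finite (Subgroup.closure {g | ∃ U, Loc U ∧ g = μ U}) := by
  classical
  obtain ⟨J, hJ, hrank⟩ := Good.rank (X := X)
  choose W I hI base off hW hex hag using hrank
  have h0 : μ ∅ = 1 := by
    have := hadd ∅ ∅ Loc.empty Loc.empty (by simp)
    simpa using this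
  have hgen : ∀ U, Loc U → ∃ r0, ∀ r, r0 ≤ r →
      μ U ∈ Subgroup.closure (Set.range fun b => μ (W r b)) := by
    intro U hU
    obtain ⟨r0, hr0⟩ := id hU
    refine ⟨r0, fun r hr => ?_⟩
    have := hI r
    have := Fintype.ofFinite (I r)
    let At : I r → Set X := fun i => sh (off r i) (W r (base r i))
    have hAt : ∀ i, Loc (At i) := fun i => (hW r _).sh _
    have key : ∀ s : Finset (I r), Loc (U ∩ {x | ∃ i ∈ s, x ∈ At i}) ∧
        μ (U ∩ {x | ∃ i ∈ s, x ∈ At i}) ∈ Subgroup.closure (Set.range fun b => μ (W r b)) := by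
      intro s
      induction s using Finset.induction_on with
      | empty => simp [h0, Loc.empty]
      | insert i s hi ih =>
        have e : U ∩ {x | ∃ j ∈ insert i s, x ∈ At j} =
            (U ∩ At i) ∪ (U ∩ {x | ∃ j ∈ s, x ∈ At j}) := by
          ext x; simp [and_or_left]
        rw [e]
        refine ⟨(hU.inter (hAt i)).union ih.1, ?_⟩
        rw [hadd _ _ (hU.inter (hAt i)) ih.1]
        · refine mul_mem ?_ ih.2
          rcases (U ∩ At i).eq_empty_or_nonempty with h1 | ⟨x, hx⟩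
          · rw [h1, h0]; exact one_mem _
          · have : U ∩ At i = At i := Set.inter_eq_right.2 (fun y hy =>
              hr0 x y ((hag r i x y hx.2 hy).mono hr) hx.1)
            rw [this, hinv _ _ (hW r _)]
            exact Subgroup.subset_closure ⟨_, rfl⟩
        · rw [Set.disjoint_left]
          rintro x ⟨_, h1⟩ ⟨_, j, hj, h2⟩
          exact hi (((hex r x).unique h1 h2) ▸ hj)
    have := (key Finset.univ).2
    convert this using 2
    ext x
    simp only [Finset.mem_univ, true_and, Set.mem_inter_iff, Set.mem_ofPred_eq, iff_self_and]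
    exact fun _ => (hex r x).exists
  have hall : ∀ g ∈ Subgroup.closure {g | ∃ U, Loc U ∧ g = μ U}, ∃ r0, ∀ r, r0 ≤ r →
      g ∈ Subgroup.closure (Set.range fun b => μ (W r b)) := by
    intro g hg
    induction hg using Subgroup.closure_induction with
    | mem x hx => obtain ⟨U, hU, rfl⟩ := hx; exact hgen U hU
    | one => exact ⟨0, fun _ _ => one_mem _⟩
    | mul x y _ _ ihx ihy =>
      obtain ⟨a, ha⟩ := ihx
      obtain ⟨b, hb⟩ := ihy
      exact ⟨a + b, fun r hr => mul_mem (ha r (by omega)) (hb r (by omega))⟩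
    | inv x _ ih =>
      obtain ⟨a, ha⟩ := ih
      exact ⟨a, fun r hr => inv_mem (ha r hr)⟩
  by_contra hinf
  have hinf' : ((Subgroup.closure {g | ∃ U, Loc U ∧ g = μ U} : Subgroup Γ) : Set Γ).Infinite :=
    hinf
  obtain ⟨t, ht, hcard⟩ := hinf'.exists_subset_card_eq (q ^ Fintype.card J + 1)
  choose! r0 hr0 using hall
  obtain ⟨s, hs, hs'⟩ := zfin_card_closure (fun b => μ (W (t.sup r0) b)) q hq
    (fun a b => hc _ _ (hW _ _) (hW _ _)) (fun a => hp _ (hW _ _))
  have : t ⊆ s := fun g hg => hs' g (hr0 g (ht hg) _ (Finset.le_sup hg))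
  have := Finset.card_le_card this
  omega

omit [Good X] in
theorem zfin_cov (P : Phi X ι Γ) {U : Set X} (hU : Loc U) {S : Set ι} {l : ι} (hl : l ∉ S)
    (w : V) : ∃ g : Γ, ∀ s ∈ AA.AS S, P.Φ U s = g * P.Φ (sh w U) s * g⁻¹ := by
  let a : Lam ι := ⟨(fun _ => w) - Pi.single l (Fintype.card ι • w), by
    change ∑ i, _ = 0
    simp [Finset.sum_sub_distrib]⟩
  have ha : ∀ i ∈ S, a.1 i = w := fun i hi => by
    have : i ≠ l := fun e => hl (e ▸ hi)
    simp [a, this]
  refine ⟨P.u a, fun s hs => ?_⟩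
  induction hs using Subgroup.closure_induction with
  | mem x hx =>
    obtain ⟨i, hi, j, hj, k, hk, rfl⟩ := hx
    exact P.cov hU a w i j k (ha i hi) (ha j hj) (ha k hk)
  | one => simp
  | mul x y _ _ ihx ihy => rw [map_mul, map_mul, ihx, ihy]; group
  | inv x _ ih => rw [map_inv, map_inv, ih]; group

omit [Good X] in
theorem zfin_mover (C : PreCan X ι Γ) {U : Set X} (hU : Loc U) (T : Finset (Pt ι))
    (hT : Inj U (T : Set (Pt ι))) (μ : Pt ι → ι) (n : ι) (hμ : Set.InjOn μ T)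
    (h1 : ∀ f ∈ T, ∀ f' ∈ T, μ f ≠ f'.2) (h2 : ∀ f ∈ T, μ f ≠ n) (h3 : ∀ f ∈ T, f.2 ≠ n) :
    ∃ g : Γ, ∀ x ∈ U, ∀ f ∈ T, C.π g (x ⋆ ((0 : V), μ f)) = x ⋆ f := by
  classical
  have key : ∀ T' : Finset (Pt ι), T' ⊆ T → ∃ g : Γ, ∀ x ∈ U, ∀ f ∈ T,
      C.π g (x ⋆ ((0 : V), μ f)) = if f ∈ T' then x ⋆ f else x ⋆ ((0 : V), μ f) := by
    intro T'
    induction T' using Finset.induction_on with
    | empty => exact fun _ => ⟨1, by simp⟩
    | insert f T' hf ih =>
      intro hsub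
      obtain ⟨g, hg⟩ := ih ((Finset.subset_insert _ _).trans hsub)
      have hfT : f ∈ T := hsub (Finset.mem_insert_self _ _)
      have hrb : Rb ((0 : V), μ f) f ((0 : V), n) := ⟨h1 f hfT f hfT, h2 f hfT, h3 f hfT⟩
      have hok := hrb.ok U
      refine ⟨C.xh ⟨U, (0, μ f), f, (0, n)⟩ * g, fun x hx f' hf' => ?_⟩
      rw [map_mul, Perm.mul_apply, hg x hx f' hf', C.π_xh ⟨hok, hU⟩]
      by_cases e : f' = f
      · subst e
        rw [if_neg hf, if_pos (Finset.mem_insert_self _ _)]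
        exact cyc_a hok hx
      · have hm : f' ∈ insert f T' ↔ f' ∈ T' := by simp [e]
        simp only [hm]
        apply cyc_fix
        rintro ⟨y, hy, k, hk, e'⟩
        split_ifs at e' with hf''
        · rcases Tri.mem_pts.1 hk with rfl | rfl | rfl
          · exact h1 f hfT f' hf' (star_eq_snd e').symm
          · exact e (hT x hx y hy f' hf' _ hfT e').2
          · exact h3 f' hf' (star_eq_snd e')
        · rcases Tri.mem_pts.1 hk with rfl | rfl | rfl
          · exact e (hμ hf' hfT (star_eq_snd e'))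
          · exact h1 f' hf' _ hfT (star_eq_snd e')
          · exact h2 f' hf' (star_eq_snd e')
  obtain ⟨g, hg⟩ := key T le_rfl
  exact ⟨g, fun x hx f hf => by rw [hg x hx f hf, if_pos hf]⟩

theorem zfin_c3_map {α β : Type} [DecidableEq α] [DecidableEq β] {μ : α → β} {T : Set α}
    (hμ : Set.InjOn μ T) {a b c f : α} (ha : a ∈ T) (hb : b ∈ T) (hc : c ∈ T) (hf : f ∈ T)
    (h : D3 a b c) : D3 (μ a) (μ b) (μ c) ∧ c3 (μ a) (μ b) (μ c) (μ f) = μ (c3 a b c f) := by
  have h' : D3 (μ a) (μ b) (μ c) :=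
    ⟨fun e => h.1 (hμ ha hb e), fun e => h.2.1 (hμ ha hc e), fun e => h.2.2 (hμ hb hc e)⟩
  refine ⟨h', ?_⟩
  by_cases e1 : f = a
  · rw [e1, c3_fst h, c3_fst h']
  by_cases e2 : f = b
  · rw [e2, c3_snd h, c3_snd h']
  by_cases e3 : f = c
  · rw [e3, c3_thd h, c3_thd h']
  rw [c3_other e1 e2 e3, c3_other (fun e => e1 (hμ hf ha e)) (fun e => e2 (hμ hf hb e))
    (fun e => e3 (hμ hf hc e))]

theorem exists_can_of (hι : 40 ≤ Fintype.card ι) (P : Phi X ι Γ) (C : PreCan X ι Γ)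
    (hπ : C.π = P.π)
    (hr : ∀ (U : Set X) (a b c : Pt ι), Loc U → Rb a b c → C.xh ⟨U, a, b, c⟩ = P.r U a b c) :
    ∃ C' : Can X ι Γ, C'.toPreCan = C := by
  classical
  have hfin := AA.finite hι
  have hker : ∀ {U : Set X}, Loc U → ∀ {s : AA ι}, AA.perm s = 1 → C.π (P.Φ U s) = 1 := by
    intro U hU s hs
    refine Equiv.ext (fun ⟨x, l⟩ => ?_)
    rw [hπ, P.π_Φ hU, hs]
    simp
  let Sm : Set (AA ι) := {s | AA.perm s = 1 ∧ ∃ (l : ι) (S : Set ι), l ∉ S ∧ s ∈ AA.AS S}
  let G0 : Set Γ := {g | ∃ s ∈ Sm, ∃ U, Loc U ∧ g = P.Φ U s}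
  have hq : 0 < Nat.card (AA ι) := Nat.card_pos
  have hG0 : G0.Finite := by
    refine (Set.Finite.biUnion (Set.toFinite Sm) (t := fun s =>
      ((Subgroup.closure {g | ∃ U, Loc U ∧ g = P.Φ U s} : Subgroup Γ) : Set Γ)) ?_).subset ?_
    · rintro s ⟨hs, l, S, hl, hS⟩
      refine finite_closure_of_rank (fun U => P.Φ U s) _ hq
        (fun U U' hU _ => C.central (hker hU hs) _)
        (fun U _ => by rw [← map_pow, pow_card_eq_one', map_one])
        (fun U U' hU hU' hd => P.add hU hU' hd s) (fun U z hU => ?_)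
      obtain ⟨g, hg⟩ := zfin_cov P hU hl z
      rw [hg s hS, ← (C.central (hker (hU.sh z) hs) g).eq, mul_assoc, mul_inv_cancel, mul_one]
    · rintro _ ⟨s, hs, U, hU, rfl⟩
      exact Set.mem_biUnion hs (Subgroup.subset_closure ⟨U, hU, rfl⟩)
  have hZle : Subgroup.closure G0 ≤ C.π.ker := by
    rw [Subgroup.closure_le]
    rintro _ ⟨s, hs, U, hU, rfl⟩
    exact hker hU hs.1
  have hZfin : Finite (Subgroup.closure G0) := by
    have := hG0.fintype
    obtain ⟨s, -, hs⟩ := zfin_card_closure (J := G0) Subtype.val _ hq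
      (fun a b => C.central (hZle (Subgroup.subset_closure a.2)) _) (by
        rintro ⟨_, s, hs, U, hU, rfl⟩
        change P.Φ U s ^ _ = 1
        rw [← map_pow, pow_card_eq_one', map_one])
    rw [Subtype.range_coe] at hs
    exact s.finite_toSet.subset hs
  have hN := C.normal_of_le_ker hZle
  refine ⟨⟨C, Subgroup.closure G0, hZfin, hZle, fun {U} S hU hS => ?_⟩, rfl⟩
  refine stability _ _ S (fun T hTS hT g hg => ?_)
  have hIT : Inj U (T : Set (Pt ι)) := hS.mono le_rfl (by exact_mod_cast hTS)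
  obtain ⟨n, hn⟩ := fresh_finset hι (T.image Prod.snd) (Finset.card_image_le.trans_lt (by omega))
  have hB : T.card ≤ ((insert n (T.image Prod.snd))ᶜ).card := by
    rw [Finset.card_compl]
    have h1 := Finset.card_insert_le n (T.image Prod.snd)
    have h2 : (T.image Prod.snd).card ≤ T.card := Finset.card_image_le
    omega
  obtain ⟨e⟩ : Nonempty (T ↪ ((insert n (T.image Prod.snd))ᶜ : Finset ι)) :=
    Function.Embedding.nonempty_of_card_le (by simpa only [Fintype.card_coe] using hB)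
  let μ : Pt ι → ι := fun f => if h : f ∈ T then (e ⟨f, h⟩).1 else n
  have hμv : ∀ f (h : f ∈ T), μ f = (e ⟨f, h⟩).1 := fun f h => dif_pos h
  have hμ : Set.InjOn μ T := fun f hf f' hf' h => by
    rw [hμv f hf, hμv f' hf'] at h
    exact congrArg Subtype.val (e.injective (Subtype.ext h))
  have hμB : ∀ f ∈ T, μ f ∉ insert n (T.image Prod.snd) := fun f hf => by
    rw [hμv f hf]; exact Finset.mem_compl.1 (e ⟨f, hf⟩).2
  have h2 : ∀ f ∈ T, μ f ≠ n := fun f hf h => hμB f hf (h ▸ Finset.mem_insert_self _ _)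
  obtain ⟨g0, hg0⟩ := zfin_mover C hU T hIT μ n hμ
    (fun f hf f' hf' h => hμB f hf
      (h ▸ Finset.mem_insert_of_mem (Finset.mem_image_of_mem _ hf')))
    h2 (fun f hf h => hn (h ▸ Finset.mem_image_of_mem _ hf))
  have key : ∀ p ∈ PairGrp (fun a b c => C.xh ⟨U, a, b, c⟩) (T : Set (Pt ι)),
      p.2 ∈ SuppOn (T : Set (Pt ι)) ∧ ∃ s ∈ AA.AS (μ '' T), p.1 = g0 * P.Φ U s * g0⁻¹ ∧
        ∀ f ∈ T, AA.perm s (μ f) = μ (p.2 f) := by
    intro p hp
    induction hp using Subgroup.closure_induction with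
    | mem p hp =>
      obtain ⟨a, ha, b, hb, c, hc, h, rfl⟩ := hp
      have h' := (zfin_c3_map hμ ha hb hc ha h).1
      refine ⟨c3_mem_suppOn ha hb hc, AA.x (μ a) (μ b) (μ c),
        AA.x_mem_AS ⟨a, ha, rfl⟩ ⟨b, hb, rfl⟩ ⟨c, hc, rfl⟩, ?_, fun f hf => ?_⟩
      · have hrb : Rb ((0 : V), μ a) ((0 : V), μ b) ((0 : V), μ c) := h'
        rw [← P.r_zero hU, ← hr U _ _ _ hU hrb]
        refine (C.equiv g0 hU (hrb.ok U) ⟨h, hIT.mono le_rfl ?_⟩
          (fun x hx => ⟨hg0 x hx a ha, hg0 x hx b hb, hg0 x hx c hc⟩)).symm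
        intro f hf
        rcases Tri.mem_pts.1 hf with rfl | rfl | rfl <;> assumption
      · rw [AA.perm_x]; exact (zfin_c3_map hμ ha hb hc hf h).2
    | one => exact ⟨one_mem _, 1, one_mem _, by simp, by simp⟩
    | mul p p' _ _ ih ih' =>
      obtain ⟨k1, s, hs, e1, e2⟩ := ih
      obtain ⟨k2, s', hs', e1', e2'⟩ := ih'
      refine ⟨mul_mem k1 k2, s * s', mul_mem hs hs', ?_, fun f hf => ?_⟩
      · rw [Prod.fst_mul, e1, e1', map_mul]; group
      · rw [map_mul, Perm.mul_apply, e2' f hf, e2 _ ((SuppOn.mem_iff k2 f).2 hf)]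
        rfl
    | inv p _ ih =>
      obtain ⟨k1, s, hs, e1, e2⟩ := ih
      refine ⟨inv_mem k1, s⁻¹, inv_mem hs, ?_, fun f hf => ?_⟩
      · rw [Prod.fst_inv, e1, map_inv]; group
      · rw [map_inv, Perm.inv_eq_iff_eq, Prod.snd_inv,
          e2 _ ((SuppOn.mem_iff (inv_mem k1) f).2 hf)]
        simp
  obtain ⟨-, s, hs, e1, e2⟩ := key _ hg
  have hs1 : AA.perm s = 1 := by
    refine Equiv.ext (fun i => ?_)
    by_cases hi : i ∈ μ '' T
    · obtain ⟨f, hf, rfl⟩ := hi
      exact e2 f hf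
    · exact altOn_le_suppOn _ (AA.perm_mem_altOn hs) i hi
  change g = _ at e1
  rw [e1]
  refine hN.conj_mem _ (Subgroup.subset_closure ⟨s, ⟨hs1, n, _, ?_, hs⟩, U, hU, rfl⟩) g0
  rintro ⟨f, hf, h⟩
  exact h2 f hf h

end Crest.Agent.R189
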