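import Crest.Agent.R189.XMin
import Crest.Agent.R189.XRules
import Crest.Agent.R189.XRank
import Crest.Agent.R189.XCoh
import Crest.Agent.R189.XStrip
import Crest.Agent.R189.ModelEx
import Crest.Agent.R189.Phi
import Crest.Agent.R189.PreCan
import Crest.Agent.R189.Zfin
import Crest.Agent.R189.Outer
import Crest.Agent.R189.Simple
import Crest.Agent.R189.Amen4

/-! # Row 189: assembly -/

set_option autoImplicit false

namespace Crest.Agent.R189

theorem GG_fp {X ι : Type} [Shift X] [Good X] [DecidableEq ι] [Fintype ι]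
    (hι : 40 ≤ Fintype.card ι) : Group.IsFinitelyPresented (GG X ι) := by
  obtain ⟨ok, hR⟩ := Good.rules (X := X)
  obtain ⟨Γ, _, hfp, ⟨M⟩⟩ := exists_model (ι := ι) hR
  obtain ⟨P, -⟩ := exists_phi hι hR M
  obtain ⟨C, h1, h2⟩ := exists_preCan hι P
  obtain ⟨C', rfl⟩ := exists_can_of hι P C h1 h2
  have hk := ker_fg hι C'
  rw [← C'.toPreCan.range_π]
  refine Group.IsFinitelyPresented.of_surjective C'.π.rangeRestrict C'.π.rangeRestrict_surjective ?_
  rw [MonoidHom.ker_rangeRestrict]
  have := (Group.fg_iff_subgroup_fg _).2 hk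
  exact Subgroup.IsFinitelyNormallyGenerated.of_FG _

theorem main : ∃ (G : Type) (_ : Group G),
    Infinite G ∧ Group.IsFinitelyPresented G ∧ IsSimpleGroup G ∧ Crest.GroupTheory.Amenable G := by
  obtain ⟨n, hn, hne⟩ := exists_n0
  have : Good (XX n) := ⟨hne, XX.hasCrd hn, XX.minimal hn, XX.rules hn, XX.rank hn, XX.coh hn,
    XX.strips hn⟩
  have hι : 40 ≤ Fintype.card (Fin 40) := by simp
  exact ⟨GG (XX n) (Fin 40), inferInstance, GG_infinite hι, GG_fp hι, GG_simple hι,
    amenable_of_locP _ (fun _ => locP_of_mem)⟩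

end Crest.Agent.R189
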