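import Crest.Agent.R189.Tile

/-! # Row 189: the simultaneous induction for the column and row classes -/

set_option autoImplicit false
set_option linter.unusedSectionVars false
set_option linter.constructorNameAsVariable false

namespace Crest.Agent.R189
open QL

variable {Q : Type} [QL Q]

structure OneDHyp (n : ℕ) (h v : ℤ → Obs Q Cl) : Prop where
  hv : ∀ x y a b, C ((h x).e a) ((v y).e b)
  fwd : ∀ x z (P : Cl → Prop), Frc z (h x) P → Frc z (h (x + 1)) (fun c' => ∃ c, P c ∧ c.succ c')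
  bwd : ∀ x z (P : Cl → Prop), Frc z (h (x + 1)) P → Frc z (h x) (fun c => ∃ c', P c' ∧ c.succ c')
  key : ∀ (z : Q) (x y i : ℤ), 1 ≤ i → i ≤ n → Frc z (h x) (· = .f) →
    (∀ s, 1 ≤ s → s < i → Frc z (h (x + s)) (· = .m)) →
    (Frc z (v y) (· = .l) ∨ ∀ s, 0 ≤ s → s < i → Frc z (v (y - s)) (· = .m)) →
    Frc z (h (x + i)) (· = cls (n + 1) (i + 1))
  ovf : ∀ (z : Q) (x y : ℤ), (∀ s : ℤ, 0 ≤ s → s < n → Frc z (h (x - s)) (· = .m)) →
    (Frc z (v y) (· = .l) ∨ ∀ s : ℤ, 0 ≤ s → s < n → Frc z (v (y - s)) (· = .m)) → z ≤ ⊥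

namespace OneD

/-- Splitting along a window of pairwise compatible class observables. -/
theorem window (o : ℤ → Obs Q Cl) (y₀ : ℤ) (E : Q → Prop) (g : Q) (i : ℕ) :
    ∀ z : Q,
    (∀ s t : ℤ, 0 ≤ s → s < i → 0 ≤ t → t < i → ∀ a b, C ((o (y₀ + s)).e a) ((o (y₀ + t)).e b)) →
    (∀ s : ℤ, 0 ≤ s → s < i → ∀ a e, E e → C ((o (y₀ + s)).e a) e) →
    (∀ s : ℤ, 0 ≤ s → s < i → ∀ a, C z ((o (y₀ + s)).e a)) → (∀ e, E e → C z e) →
    (∀ w, w ≤ z → (∀ e, E e → C w e) →
      (∀ s : ℤ, 0 ≤ s → s < i → Frc w (o (y₀ + s)) (· = .m)) → w ≤ g) →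
    (∀ w, w ≤ z → ∀ s : ℤ, 0 ≤ s → s < i → ∀ a, a ≠ Cl.m → Frc w (o (y₀ + s)) (· = a) → w ≤ g) →
    z ≤ g := by
  induction i with
  | zero =>
    intro z _ _ _ hzE hm _
    exact hm z le_rfl hzE (fun s h1 h2 => by omega)
  | succ i ih =>
    intro z hoo hoE hz hzE hm ha
    have hi0 : (0 : ℤ) ≤ i := by omega
    have hi1 : (i : ℤ) < ((i + 1 : ℕ) : ℤ) := by omega
    refine (o (y₀ + i)).split (hz i hi0 hi1) (fun b => ?_)
    have hc := hz i hi0 hi1 b
    by_cases hb : b = .m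
    · subst hb
      refine ih _ (fun s t h1 h2 h3 h4 => hoo s t h1 (by omega) h3 (by omega))
        (fun s h1 h2 => hoE s h1 (by omega)) (fun s h1 h2 a => ?_) (fun e he => ?_)
        (fun w hw hwE hwm => ?_) (fun w hw s h1 h2 a ha' hwa => ?_)
      · exact C_meet hc (hz s h1 (by omega) a) (hoo i s hi0 hi1 h1 (by omega) _ _)
      · exact C_meet hc (hzE e he) (hoE i hi0 hi1 _ e he)
      · refine hm w (hw.trans (meet_le_left hc)) hwE (fun s h1 h2 => ?_)
        by_cases hs : s = i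
        · subst hs
          exact Frc.iff_le_e.2 (hw.trans (meet_le_right hc))
        · exact hwm s h1 (by omega)
      · exact ha w (hw.trans (meet_le_left hc)) s h1 (by omega) a ha' hwa
    · exact ha _ (meet_le_left hc) i hi0 hi1 b hb (Frc.iff_le_e.2 (meet_le_right hc))

variable {n : ℕ} {h v : ℤ → Obs Q Cl}

theorem fwd_le (H : OneDHyp n h v) (x : ℤ) {a b : Cl} (hab : ∀ c, a.succ c → c = b) :
    (h x).e a ≤ (h (x + 1)).e b :=
  Frc.iff_le_e.1 ((H.fwd x _ _ (Frc.self _ a)).mono (by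
    rintro c' ⟨c, rfl, hc⟩; exact hab _ hc))

theorem bwd_le (H : OneDHyp n h v) (x : ℤ) {a b : Cl} (hab : ∀ c, c.succ b → c = a) :
    (h x).e b ≤ (h (x - 1)).e a := by
  have := H.bwd (x - 1) ((h x).e b) (· = b) (by rw [sub_add_cancel]; exact Frc.self _ b)
  exact Frc.iff_le_e.1 (this.mono (by rintro c ⟨c', rfl, hc⟩; exact hab _ hc))

theorem zf (H : OneDHyp n h v) (x : ℤ) : (h x).e .z ≤ (h (x + 1)).e .f := fwd_le H x (by decide)
theorem lb (H : OneDHyp n h v) (x : ℤ) : (h x).e .l ≤ (h (x + 1)).e .b := fwd_le H x (by decide)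
theorem bz (H : OneDHyp n h v) (x : ℤ) : (h x).e .b ≤ (h (x + 1)).e .z := fwd_le H x (by decide)

/-- a value other than `m` forces `l` somewhere -/
theorem exists_l (H : OneDHyp n h v) {w : Q} {x : ℤ} {a : Cl} (ha : a ≠ .m)
    (hw : Frc w (h x) (· = a)) : ∃ y, Frc w (h y) (· = .l) := by
  have h1 : ∀ x, (h x).e .b ≤ (h (x - 1)).e .l := fun x => bwd_le H x (by decide)
  have h2 : ∀ x, (h x).e .z ≤ (h (x - 1)).e .b := fun x => bwd_le H x (by decide)
  have h3 : ∀ x, (h x).e .f ≤ (h (x - 1)).e .z := fun x => bwd_le H x (by decide)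
  rw [Frc.iff_le_e] at hw
  cases a with
  | z => exact ⟨_, Frc.iff_le_e.2 (hw.trans ((h2 _).trans (h1 _)))⟩
  | f => exact ⟨_, Frc.iff_le_e.2 (hw.trans ((h3 _).trans ((h2 _).trans (h1 _))))⟩
  | m => exact absurd rfl ha
  | l => exact ⟨_, Frc.iff_le_e.2 hw⟩
  | b => exact ⟨_, Frc.iff_le_e.2 (hw.trans (h1 _))⟩

/-- forward determinism of the value `a` up to distance `d` -/
def Det (h : ℤ → Obs Q Cl) (d : ℤ) (a : Cl) : Prop :=
  ∀ x s : ℤ, 0 ≤ s → s ≤ d → ∃ c, Frc ((h x).e a) (h (x + s)) (· = c)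

theorem Det.step {d : ℤ} {a b : Cl} (hb : Det h d b) (hab : ∀ x, (h x).e a ≤ (h (x + 1)).e b) :
    Det h d a := by
  intro x s h1 h2
  by_cases hs : s = 0
  · subst hs
    exact ⟨a, by rw [add_zero]; exact Frc.self _ a⟩
  · obtain ⟨c, hc⟩ := hb (x + 1) (s - 1) (by omega) (by omega)
    refine ⟨c, ?_⟩
    rw [show x + s = x + 1 + (s - 1) by ring]
    exact hc.of_le (hab x)

theorem comm_of_det (H : OneDHyp n h v) {d : ℤ} (hf : Det h d .f) (x s : ℤ) (h1 : 0 ≤ s)
    (h2 : s ≤ d) (a b : Cl) : C ((h x).e a) ((h (x + s)).e b) := by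
  have hz : Det h d .z := hf.step (zf H)
  have hb : Det h d .b := hz.step (bz H)
  have hl : Det h d .l := hb.step (lb H)
  have key : ∀ a, a ≠ Cl.m → C ((h x).e a) ((h (x + s)).e b) := by
    intro a ha
    have : Det h d a := by
      cases a with
      | z => exact hz
      | f => exact hf
      | m => exact absurd rfl ha
      | l => exact hl
      | b => exact hb
    obtain ⟨c, hc⟩ := this x s h1 h2
    exact hc.C_of_eq b
  by_cases ha : a = .m
  · subst ha
    have h3 : C ((h (x + s)).e b) ((h x).ev (fun a => ¬ a = Cl.m)) :=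
      (h x).C_ev (fun a ha => C_symm (key a ha))
    rw [← (h x).neg_ev, (h x).ev_eq] at h3
    exact C_symm (C_of_neg h3)
  · exact key a ha

theorem comm_window (H : OneDHyp n h v) {d : ℤ} (hf : Det h d .f) (y₀ s t : ℤ) (h1 : s - t ≤ d)
    (h2 : t - s ≤ d) (a b : Cl) : C ((h (y₀ + s)).e a) ((h (y₀ + t)).e b) := by
  rcases le_total s t with hst | hst
  · rw [show y₀ + t = y₀ + s + (t - s) by ring]
    exact comm_of_det H hf _ _ (by omega) h2 a b
  · rw [show y₀ + s = y₀ + t + (s - t) by ring]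
    exact C_symm (comm_of_det H hf _ _ (by omega) h1 b a)

/-- the inductive statement -/
def A (n : ℕ) (h : ℤ → Obs Q Cl) (i : ℤ) : Prop :=
  ∀ x s : ℤ, 0 ≤ s → s ≤ i → Frc ((h x).e .f) (h (x + s)) (· = cls (n + 1) (s + 1))

theorem A.det {i : ℤ} (hA : A n h i) : Det h i .f := fun x s h1 h2 => ⟨_, hA x s h1 h2⟩

theorem A_zero : A n h 0 := by
  intro x s h1 h2
  obtain rfl : s = 0 := by omega
  rw [add_zero]
  exact Frc.self _ _

theorem A_succ (H1 : OneDHyp n h v) (H2 : OneDHyp n v h) (i : ℕ) (hi : i + 1 ≤ n)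
    (hh : A n h i) (hv : A n v i) : A n h ((i + 1 : ℕ) : ℤ) := by
  intro x s h1 h2
  by_cases hs : s ≤ i
  · exact hh x s h1 hs
  obtain rfl : s = ((i + 1 : ℕ) : ℤ) := by omega
  have hkey : ∀ (w : Q) (y : ℤ), w ≤ (h x).e .f →
      (Frc w (v y) (· = .l) ∨ ∀ s : ℤ, 0 ≤ s → s < ((i + 1 : ℕ) : ℤ) → Frc w (v (y - s)) (· = .m)) →
      Frc w (h (x + ((i + 1 : ℕ) : ℤ))) (· = cls (n + 1) (((i + 1 : ℕ) : ℤ) + 1)) := by
    intro w y hw hy
    refine H1.key w x y _ (by omega) (by omega) (Frc.iff_le_e.2 hw) (fun s h3 h4 => ?_) hy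
    refine ((hh x s (by omega) (by omega)).of_le hw).mono (fun c hc => ?_)
    rw [hc, cls, if_neg (by omega), if_neg (by omega), if_neg (by omega), if_neg (by omega)]
  rw [Frc.iff_le_e]
  refine window v 0 (fun _ => False) _ (i + 1) _ (fun s t h1 h2 h3 h4 => ?_)
    (fun _ _ _ _ _ h => h.elim) (fun s _ _ a => H1.hv _ _ _ _) (fun _ h => h.elim)
    (fun w hw _ hm => ?_) (fun w hw s _ _ a ha hwa => ?_)
  · exact comm_window H2 hv.det 0 s t (by omega) (by omega)
  · refine Frc.iff_le_e.1 (hkey w i hw (Or.inr fun s h3 h4 => ?_))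
    have := hm (i - s) (by omega) (by omega)
    rwa [zero_add] at this
  · obtain ⟨y, hy⟩ := exists_l H2 ha hwa
    exact Frc.iff_le_e.1 (hkey w y hw (Or.inl hy))

theorem A_all (H1 : OneDHyp n h v) (H2 : OneDHyp n v h) (i : ℕ) (hi : i ≤ n) :
    A n h i ∧ A n v i := by
  induction i with
  | zero => exact ⟨A_zero, A_zero⟩
  | succ i ih =>
    obtain ⟨h1, h2⟩ := ih (by omega)
    exact ⟨A_succ H1 H2 i hi h1 h2, A_succ H2 H1 i hi h2 h1⟩

theorem z_period (hn : 3 ≤ n) (H : OneDHyp n h v) (hA : A n h n) (g i : ℤ) (h1 : 0 ≤ i)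
    (h2 : i ≤ n + 2) : Frc ((h g).e .z) (h (g + i)) (· = cls (n + 1) i) := by
  have key : ∀ i : ℤ, 1 ≤ i → i ≤ n + 1 → Frc ((h g).e .z) (h (g + i)) (· = cls (n + 1) i) := by
    intro i h1 h2
    have := (hA (g + 1) (i - 1) (by omega) (by omega)).of_le (zf H g)
    rwa [show g + 1 + (i - 1) = g + i by ring, sub_add_cancel] at this
  by_cases h0 : i = 0
  · subst h0
    rw [add_zero]
    exact Frc.self _ _
  by_cases h3 : i ≤ n + 1
  · exact key i (by omega) h3
  obtain rfl : i = n + 2 := by omega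
  have h4 := key (n + 1) (by omega) le_rfl
  rw [cls, if_neg (by omega), if_neg (by omega), if_pos (by push_cast; ring)] at h4
  rw [cls, if_neg (by omega), if_neg (by omega), if_neg (by omega),
    if_pos (by push_cast; ring), show g + (n + 2) = g + (n + 1) + 1 by ring]
  exact Frc.iff_le_e.2 ((Frc.iff_le_e.1 h4).trans (lb H _))

theorem z_next (hn : 3 ≤ n) (H : OneDHyp n h v) (hA : A n h n) (g : ℤ) :
    (h g).e .z ≤ (h (g + (n + 3))).e .z := by
  have h4 := z_period hn H hA g (n + 2) (by omega) le_rfl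
  rw [cls, if_neg (by omega), if_neg (by omega), if_neg (by omega),
    if_pos (by push_cast; ring)] at h4
  rw [show g + (n + 3) = g + (n + 2) + 1 by ring]
  exact (Frc.iff_le_e.1 h4).trans (bz H _)

theorem z_mul (hn : 3 ≤ n) (H : OneDHyp n h v) (hA : A n h n) (g : ℤ) (X : ℕ) :
    (h g).e .z ≤ (h (g + (n + 3) * X)).e .z := by
  induction X with
  | zero => simp
  | succ X ih =>
    rw [show g + (n + 3) * ((X + 1 : ℕ) : ℤ) = g + (n + 3) * X + (n + 3) by push_cast; ring]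
    exact ih.trans (z_next hn H hA _)

theorem f_z (hn : 3 ≤ n) (H : OneDHyp n h v) (hA : A n h n) (x : ℤ) :
    (h x).e .f ≤ (h (x + (n + 2))).e .z := by
  have h4 := hA x n (by omega) le_rfl
  rw [cls, if_neg (by omega), if_neg (by omega), if_pos (by push_cast; ring)] at h4
  rw [show x + (n + 2) = x + n + 1 + 1 by ring]
  exact (Frc.iff_le_e.1 h4).trans ((lb H _).trans (bz H _))

theorem det_all (hn : 3 ≤ n) (H : OneDHyp n h v) (hA : A n h n) (d : ℤ) : Det h d .f := by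
  intro x s h1 _
  by_cases h2 : s ≤ n
  · exact ⟨_, hA x s h1 h2⟩
  by_cases h3 : s = n + 1
  · subst h3
    have h4 := hA x n (by omega) le_rfl
    rw [cls, if_neg (by omega), if_neg (by omega), if_pos (by push_cast; ring)] at h4
    refine ⟨.b, Frc.iff_le_e.2 ?_⟩
    rw [← add_assoc]
    exact (Frc.iff_le_e.1 h4).trans (lb H _)
  have hpos : (0 : ℤ) < n + 3 := by omega
  obtain ⟨X, hX⟩ := Int.eq_ofNat_of_zero_le (Int.ediv_nonneg (a := s - (n + 2)) (by omega) hpos.le)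
  have h5 := Int.emod_nonneg (s - (n + 2)) hpos.ne'
  have h6 := Int.emod_lt_of_pos (s - (n + 2)) hpos
  have h7 := Int.mul_ediv_add_emod (s - (n + 2)) (n + 3)
  rw [hX] at h7
  have h8 := (z_period hn H hA (x + (n + 2) + (n + 3) * X) _ h5 (by omega)).of_le
    ((f_z hn H hA x).trans (z_mul hn H hA _ X))
  refine ⟨cls (n + 1) ((s - (n + 2)) % (n + 3)), ?_⟩
  rwa [show x + (n + 2) + (n + 3) * X + (s - (n + 2)) % (n + 3) = x + s by linarith] at h8

theorem comm_all (hn : 3 ≤ n) (H : OneDHyp n h v) (hA : A n h n) (x y : ℤ) (a b : Cl) :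
    C ((h x).e a) ((h y).e b) := by
  have := comm_window H (det_all hn H hA (|x - y|)) 0 x y (le_abs_self _)
    (by rw [abs_sub_comm]; exact le_abs_self _) a b
  rwa [zero_add, zero_add] at this

theorem cover_window (hn : 3 ≤ n) (H1 : OneDHyp n h v) (H2 : OneDHyp n v h) (w₀ : ℤ) (g : Q)
    (hg : ∀ s : ℤ, 0 ≤ s → s < n + 3 → (h (w₀ + s)).e .z ≤ g) : ⊤ ≤ g := by
  obtain ⟨hA, hB⟩ := A_all H1 H2 n le_rfl
  have hzg : ∀ p : ℤ, p ≤ w₀ + (n + 2) → (h p).e .z ≤ g := by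
    intro p hp
    have hpos : (0 : ℤ) < n + 3 := by omega
    obtain ⟨X, hX⟩ := Int.eq_ofNat_of_zero_le
      (Int.ediv_nonneg (a := w₀ + (n + 2) - p) (by omega) hpos.le)
    have h5 := Int.emod_nonneg (w₀ + (n + 2) - p) hpos.ne'
    have h6 := Int.emod_lt_of_pos (w₀ + (n + 2) - p) hpos
    have h7 := Int.mul_ediv_add_emod (w₀ + (n + 2) - p) (n + 3)
    rw [hX] at h7
    refine (z_mul hn H1 hA p X).trans ?_
    rw [show p + (n + 3) * X = w₀ + (n + 2 - (w₀ + (n + 2) - p) % (n + 3)) by linarith]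
    exact hg _ (by omega) (by omega)
  refine window h (w₀ - n) (fun e => ∃ y a, e = (v y).e a) g n ⊤
    (fun s t _ _ _ _ a b => comm_all hn H1 hA _ _ a b) ?_ (fun s _ _ a => C_top_left _)
    (fun e _ => C_top_left _) (fun w _ hwE hm => ?_) (fun w _ s h1 h2 a ha hwa => ?_)
  · rintro s _ _ a e ⟨y, b, rfl⟩
    exact H1.hv _ _ _ _
  · have hm' : ∀ s : ℤ, 0 ≤ s → s < n → Frc w (h (w₀ - 1 - s)) (· = .m) := by
      intro s h1 h2
      have := hm (n - 1 - s) (by omega) (by omega)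
      rwa [show w₀ - n + (n - 1 - s) = w₀ - 1 - s by ring] at this
    refine le_trans ?_ bot_le
    refine window v 0 (fun _ => False) ⊥ n w (fun s t _ _ _ _ a b => comm_all hn H2 hB _ _ a b)
      (fun _ _ _ _ _ h => h.elim) (fun s _ _ a => hwE _ ⟨_, _, rfl⟩) (fun _ h => h.elim)
      (fun w' hw' _ hm2 => ?_) (fun w' hw' s _ _ a ha hwa => ?_)
    · refine H1.ovf w' (w₀ - 1) (n - 1) (fun s h1 h2 => (hm' s h1 h2).of_le hw')
        (Or.inr fun s h1 h2 => ?_)
      have := hm2 (n - 1 - s) (by omega) (by omega)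
      rwa [zero_add] at this
    · obtain ⟨y, hy⟩ := exists_l H2 ha hwa
      exact H1.ovf w' (w₀ - 1) y (fun s h1 h2 => (hm' s h1 h2).of_le hw') (Or.inl hy)
  · rw [Frc.iff_le_e] at hwa
    refine hwa.trans ?_
    cases a with
    | z => exact hzg _ (by omega)
    | f => exact (f_z hn H1 hA _).trans (hzg _ (by omega))
    | m => exact absurd rfl ha
    | l => exact (lb H1 _).trans ((bz H1 _).trans (hzg _ (by omega)))
    | b => exact (bz H1 _).trans (hzg _ (by omega))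

theorem cover_at (hn : 3 ≤ n) (H1 : OneDHyp n h v) (H2 : OneDHyp n v h) (w₀ : ℤ) :
    Cover ⊤ (fun s : Fin (n + 3) => (h (w₀ + (s : ℕ))).e .z) := by
  obtain ⟨hA, -⟩ := A_all H1 H2 n le_rfl
  refine ⟨inferInstance, fun _ => le_top, fun i j => comm_all hn H1 hA _ _ _ _, fun g hg => ?_⟩
  refine cover_window hn H1 H2 w₀ g (fun s h1 h2 => ?_)
  have := hg ⟨s.toNat, by omega⟩
  simp only at this
  rwa [Int.toNat_of_nonneg h1] at this

theorem z_prev (hn : 3 ≤ n) (H1 : OneDHyp n h v) (H2 : OneDHyp n v h) (g : ℤ) :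
    (h g).e .z ≤ (h (g - (n + 3))).e .z := by
  obtain ⟨hA, -⟩ := A_all H1 H2 n le_rfl
  refine (cover_at hn H1 H2 (g - (n + 3))).le_of le_top (fun s => comm_all hn H1 hA _ _ _ _)
    (fun s => ?_)
  have hc : C ((h g).e .z) ((h (g - (n + 3) + (s : ℕ))).e .z) := comm_all hn H1 hA _ _ _ _
  by_cases hs : (s : ℕ) = 0
  · refine (meet_le_right hc).trans ?_
    rw [hs]; simp
  · have hs2 := s.2
    have h1 := z_period hn H1 hA (g - (n + 3) + (s : ℕ)) (n + 3 - (s : ℕ)) (by omega) (by omega)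
    rw [show g - (n + 3) + (s : ℕ) + (n + 3 - (s : ℕ)) = g by ring] at h1
    have h2 := h1 .z (by
      rw [cls, if_neg (by omega)]
      split_ifs <;> simp)
    exact (le_bot_of (meet_le_left hc) ((meet_le_right hc).trans h2)).trans bot_le

theorem z_int (hn : 3 ≤ n) (H1 : OneDHyp n h v) (H2 : OneDHyp n v h) (g X : ℤ) :
    (h g).e .z ≤ (h (g + (n + 3) * X)).e .z := by
  obtain ⟨hA, -⟩ := A_all H1 H2 n le_rfl
  induction X using Int.induction_on with
  | zero => simp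
  | succ X ih =>
    rw [show g + (n + 3) * ((X : ℤ) + 1) = g + (n + 3) * X + (n + 3) by ring]
    exact ih.trans (z_next hn H1 hA _)
  | pred X ih =>
    rw [show g + (n + 3) * (-(X : ℤ) - 1) = g + (n + 3) * (-X) - (n + 3) by ring]
    exact ih.trans (z_prev hn H1 H2 _)

end OneD

theorem oneD {n : ℕ} (hn : 3 ≤ n) {h v : ℤ → Obs Q Cl} (H1 : OneDHyp n h v) (H2 : OneDHyp n v h) :
    (∀ g X i : ℤ, 0 ≤ i → i ≤ n + 2 →
      Frc ((h g).e .z) (h (g + site (n + 1) X i)) (· = cls (n + 1) i)) ∧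
    Cover ⊤ (fun g : Fin (n + 3) => (h (g : ℕ)).e .z) := by
  obtain ⟨hA, -⟩ := OneD.A_all H1 H2 n le_rfl
  refine ⟨fun g X i h1 h2 => ?_, ?_⟩
  · have := (OneD.z_period hn H1 hA (g + (n + 3) * X) i h1 h2).of_le (OneD.z_int hn H1 H2 g X)
    rwa [show g + (n + 3) * X + i = g + site (n + 1) X i by simp only [site]; push_cast; ring]
      at this
  · have := OneD.cover_at hn H1 H2 0
    simpa only [zero_add] using this

end Crest.Agent.R189
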