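import Crest.Agent.R189.Base
import Crest.Agent.R189.C3

/-! # Row 189: permutations of `X × ι` -/

set_option autoImplicit false
set_option linter.unusedSectionVars false

namespace Crest.Agent.R189
open Equiv

/-- relative points: an offset and a label -/
abbrev Pt (ι : Type) := V × ι

variable {X ι : Type} [Shift X]

/-- the point of `X × ι` at relative position `f` from the base point `x` -/
def star (x : X) (f : Pt ι) : X × ι := (f.1 +ᵥ x, f.2)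

scoped infixl:70 " ⋆ " => star

@[simp] theorem star_fst (x : X) (f : Pt ι) : (x ⋆ f).1 = f.1 +ᵥ x := rfl
@[simp] theorem star_snd (x : X) (f : Pt ι) : (x ⋆ f).2 = f.2 := rfl
theorem star_zero (x : X) (i : ι) : x ⋆ ((0 : V), i) = (x, i) := by simp [star]

/-- translate a relative point -/
def Pt.add (f : Pt ι) (z : V) : Pt ι := (f.1 + z, f.2)
@[simp] theorem Pt.add_fst (f : Pt ι) (z : V) : (f.add z).1 = f.1 + z := rfl
@[simp] theorem Pt.add_snd (f : Pt ι) (z : V) : (f.add z).2 = f.2 := rfl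
theorem star_add (x : X) (f : Pt ι) (z : V) : x ⋆ f.add z = (z +ᵥ x) ⋆ f := by
  simp [star, add_vadd]
theorem Pt.add_injective (z : V) : Function.Injective (fun f : Pt ι => f.add z) := by
  intro f g h
  simp only [Pt.add, Prod.mk.injEq, add_left_inj] at h
  exact Prod.ext h.1 h.2

theorem star_eq_snd {x y : X} {f g : Pt ι} (h : x ⋆ f = y ⋆ g) : f.2 = g.2 :=
  (congrArg Prod.snd h : (x ⋆ f).2 = (y ⋆ g).2)
theorem star_eq_fst {x y : X} {f g : Pt ι} (h : x ⋆ f = y ⋆ g) : f.1 +ᵥ x = g.1 +ᵥ y :=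
  (congrArg Prod.fst h : (x ⋆ f).1 = (y ⋆ g).1)

theorem star_inj [Good X] {x : X} {f g : Pt ι} (h : x ⋆ f = x ⋆ g) : f = g :=
  Prod.ext (vadd_inj (star_eq_fst h)) (star_eq_snd h)

/-- the translates of `U` by the points of `F` are pairwise disjoint -/
def Inj (U : Set X) (F : Set (Pt ι)) : Prop :=
  ∀ x ∈ U, ∀ y ∈ U, ∀ f ∈ F, ∀ g ∈ F, x ⋆ f = y ⋆ g → x = y ∧ f = g

theorem Inj.mono {U U' : Set X} {F F' : Set (Pt ι)} (h : Inj U F) (hU : U' ⊆ U) (hF : F' ⊆ F) :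
    Inj U' F' := fun x hx y hy f hf g hg => h x (hU hx) y (hU hy) f (hF hf) g (hF hg)

/-- rainbow families are always injective -/
theorem inj_of_snd (U : Set X) {F : Set (Pt ι)} (h : ∀ f ∈ F, ∀ g ∈ F, f.2 = g.2 → f = g) :
    Inj U F := by
  intro x _ y _ f hf g hg e
  have h1 := h f hf g hg (star_eq_snd e)
  subst h1
  exact ⟨AddAction.injective f.1 (congrArg Prod.fst e), rfl⟩

/-- a set on which a separating function is constant is injective on small families -/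
theorem inj_of_sep {r : ℤ} {κ : X → V}
    (hκ : ∀ (x : X) (z : V), Bd (r + r) z → κ (z +ᵥ x) = κ x → z = 0) {U : Set X}
    (hU : ∀ x ∈ U, ∀ y ∈ U, κ x = κ y) {F : Set (Pt ι)} (hF : ∀ f ∈ F, Bd r f.1) : Inj U F := by
  intro x hx y hy f hf g hg e
  have e1 : f.1 +ᵥ x = g.1 +ᵥ y := congrArg Prod.fst e
  have e2 : y = (f.1 - g.1) +ᵥ x := by
    rw [sub_eq_neg_add, add_vadd, e1, ← add_vadd]; simp
  have e3 := hκ x _ ((hF f hf).sub (hF g hg)) (by rw [← e2]; exact hU y hy x hx)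
  refine ⟨by rw [e2, e3, zero_vadd], Prod.ext (sub_eq_zero.1 e3) (star_eq_snd e)⟩

/-- `U ⋆ F` -/
def Sup (U : Set X) (F : Set (Pt ι)) : Set (X × ι) := {ω | ∃ x ∈ U, ∃ f ∈ F, ω = x ⋆ f}

theorem star_mem_sup {U : Set X} {F : Set (Pt ι)} {x : X} {f : Pt ι} (hx : x ∈ U) (hf : f ∈ F) :
    x ⋆ f ∈ Sup U F := ⟨x, hx, f, hf, rfl⟩
theorem Sup.mono {U U' : Set X} {F F' : Set (Pt ι)} (hU : U ⊆ U') (hF : F ⊆ F') :
    Sup U F ⊆ Sup U' F' := fun _ ⟨x, hx, f, hf, e⟩ => ⟨x, hU hx, f, hF hf, e⟩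
theorem Inj.disjoint {U W W' : Set X} {F : Set (Pt ι)} (h : Inj U F) (hW : W ⊆ U) (hW' : W' ⊆ U)
    (hd : Disjoint W W') : Disjoint (Sup W F) (Sup W' F) := by
  rw [Set.disjoint_left]
  rintro _ ⟨x, hx, f, hf, rfl⟩ ⟨y, hy, g, hg, e⟩
  have := (h x (hW hx) y (hW' hy) f hf g hg e).1
  subst this
  exact Set.disjoint_left.1 hd hx hy

/-- `g` acts on the blocks `x ⋆ F` (`x ∈ U`) by `s x` and fixes everything else -/
structure Acts (g : Perm (X × ι)) (U : Set X) (F : Set (Pt ι)) (s : X → Perm (Pt ι)) : Prop where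
  app : ∀ x ∈ U, ∀ f ∈ F, g (x ⋆ f) = x ⋆ s x f
  fix : ∀ ω, ω ∉ Sup U F → g ω = ω

namespace Acts
variable {g g' : Perm (X × ι)} {U U' : Set X} {F F' : Set (Pt ι)} {s s' : X → Perm (Pt ι)}

theorem ext (h : Acts g U F s) (h' : Acts g' U F s') (hs : ∀ x ∈ U, ∀ f ∈ F, s x f = s' x f) :
    g = g' := by
  refine Equiv.ext (fun ω => ?_)
  by_cases hω : ω ∈ Sup U F
  · obtain ⟨x, hx, f, hf, rfl⟩ := hω
    rw [h.app x hx f hf, h'.app x hx f hf, hs x hx f hf]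
  · rw [h.fix ω hω, h'.fix ω hω]

theorem congr (h : Acts g U F s) (hs : ∀ x ∈ U, ∀ f ∈ F, s x f = s' x f) : Acts g U F s' :=
  ⟨fun x hx f hf => by rw [h.app x hx f hf, hs x hx f hf], h.fix⟩

theorem one : Acts (1 : Perm (X × ι)) U F (fun _ => 1) := ⟨fun _ _ _ _ => rfl, fun _ _ => rfl⟩

theorem mul (h : Acts g U F s) (h' : Acts g' U F s') (hs : ∀ x ∈ U, ∀ f ∈ F, s' x f ∈ F) :
    Acts (g * g') U F (fun x => s x * s' x) :=
  ⟨fun x hx f hf => by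
    rw [Perm.mul_apply, h'.app x hx f hf, h.app x hx _ (hs x hx f hf), Perm.mul_apply],
   fun ω hω => by rw [Perm.mul_apply, h'.fix ω hω, h.fix ω hω]⟩

theorem inv (h : Acts g U F s) (hs : ∀ x ∈ U, ∀ f ∈ F, (s x)⁻¹ f ∈ F) :
    Acts g⁻¹ U F (fun x => (s x)⁻¹) :=
  ⟨fun x hx f hf => by
    rw [Perm.inv_eq_iff_eq, h.app x hx _ (hs x hx f hf)]; simp,
   fun ω hω => by rw [Perm.inv_eq_iff_eq, h.fix ω hω]⟩

theorem mem_suppOn (h : Acts g U F s) : g ∈ SuppOn (Sup U F) := h.fix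

/-- enlarge the base and the fibre -/
theorem enlarge (h : Acts g U F s) (hI : Inj U' F') (hU : U ⊆ U') (hF : F ⊆ F')
    (h1 : ∀ x ∈ U, ∀ f ∈ F, s' x f = s x f) (h2 : ∀ x ∈ U', ∀ f ∈ F', (x ∉ U ∨ f ∉ F) → s' x f = f) :
    Acts g U' F' s' := by
  refine ⟨fun x hx f hf => ?_, fun ω hω => h.fix ω (fun h' => hω (Sup.mono hU hF h'))⟩
  by_cases hxf : x ∈ U ∧ f ∈ F
  · rw [h.app x hxf.1 f hxf.2, h1 x hxf.1 f hxf.2]
  · rw [h2 x hx f hf (by tauto), h.fix]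
    rintro ⟨y, hy, k, hk, e⟩
    obtain ⟨rfl, rfl⟩ := hI x hx y (hU hy) f hf k (hF hk) e
    exact hxf ⟨hy, hk⟩

theorem union (h : Acts g U F s) (h' : Acts g' U' F s) (hI : Inj (U ∪ U') F) (hd : Disjoint U U')
    (hs : ∀ x ∈ U', ∀ f ∈ F, s x f ∈ F) : Acts (g * g') (U ∪ U') F s := by
  have hd' := Set.disjoint_left.1 (hI.disjoint Set.subset_union_left Set.subset_union_right hd)
  refine ⟨fun x hx f hf => ?_, fun ω hω => ?_⟩
  · rw [Perm.mul_apply]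
    rcases hx with hx | hx
    · rw [h'.fix _ (hd' (star_mem_sup hx hf)), h.app x hx f hf]
    · rw [h'.app x hx f hf, h.fix _ (fun h1 => hd' h1 (star_mem_sup hx (hs x hx f hf)))]
  · rw [Perm.mul_apply, h'.fix ω (fun h1 => hω (Sup.mono Set.subset_union_right le_rfl h1)),
      h.fix ω (fun h1 => hω (Sup.mono Set.subset_union_left le_rfl h1))]

end Acts

theorem exists_acts {U : Set X} {F : Set (Pt ι)} (hI : Inj U F) {s : X → Perm (Pt ι)}
    (hs : ∀ x ∈ U, ∀ f, s x f ∈ F ↔ f ∈ F) : ∃ g, Acts g U F s := by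
  classical
  let e : U × F ↪ X × ι := ⟨fun p => p.1.1 ⋆ p.2.1, by
    rintro ⟨x, f⟩ ⟨y, g⟩ h
    obtain ⟨h1, h2⟩ := hI x.1 x.2 y.1 y.2 f.1 f.2 g.1 g.2 h
    exact Prod.ext (Subtype.ext h1) (Subtype.ext h2)⟩
  let p : Perm (U × F) := Equiv.prodCongrRight (fun x => (s x.1).subtypePerm (hs x.1 x.2))
  refine ⟨p.viaEmbedding e, fun x hx f hf => ?_, fun ω hω => ?_⟩
  · exact p.viaEmbedding_apply e (⟨x, hx⟩, ⟨f, hf⟩)
  · refine p.viaEmbedding_apply_of_notMem e ω ?_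
    rintro ⟨⟨x, f⟩, rfl⟩
    exact hω ⟨x.1, x.2, f.1, f.2, rfl⟩

/-- data of a three-cycle: a base set and three relative points -/
structure Tri (X ι : Type) where
  U : Set X
  a : Pt ι
  b : Pt ι
  c : Pt ι

namespace Tri
def pts (τ : Tri X ι) : Set (Pt ι) := {τ.a, τ.b, τ.c}
def Ok (τ : Tri X ι) : Prop := D3 τ.a τ.b τ.c ∧ Inj τ.U τ.pts
def Gd (τ : Tri X ι) : Prop := τ.Ok ∧ Loc τ.U
def res (τ : Tri X ι) (W : Set X) : Tri X ι := ⟨τ.U ∩ W, τ.a, τ.b, τ.c⟩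
def rev (τ : Tri X ι) : Tri X ι := ⟨τ.U, τ.a, τ.c, τ.b⟩
def reb (τ : Tri X ι) (z : V) : Tri X ι := ⟨sh z τ.U, τ.a.add z, τ.b.add z, τ.c.add z⟩
def supp (τ : Tri X ι) : Set (X × ι) := Sup τ.U τ.pts
def Rad (ρ : ℤ) (τ : Tri X ι) : Prop := Bd ρ τ.a.1 ∧ Bd ρ τ.b.1 ∧ Bd ρ τ.c.1

omit [Shift X] in
theorem a_mem (τ : Tri X ι) : τ.a ∈ τ.pts := by simp [pts]
omit [Shift X] in
theorem b_mem (τ : Tri X ι) : τ.b ∈ τ.pts := by simp [pts]
omit [Shift X] in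
theorem c_mem (τ : Tri X ι) : τ.c ∈ τ.pts := by simp [pts]
omit [Shift X] in
theorem mem_pts {τ : Tri X ι} {f : Pt ι} : f ∈ τ.pts ↔ f = τ.a ∨ f = τ.b ∨ f = τ.c := by simp [pts]
omit [Shift X] in
theorem finite_pts (τ : Tri X ι) : τ.pts.Finite := by unfold pts; exact Set.toFinite _
omit [Shift X] in
theorem rev_pts (τ : Tri X ι) : τ.rev.pts = τ.pts := by
  ext f; simp only [mem_pts, rev]; tauto
omit [Shift X] in
theorem Rad.mem {ρ : ℤ} {τ : Tri X ι} (h : τ.Rad ρ) {f : Pt ι} (hf : f ∈ τ.pts) : Bd ρ f.1 := by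
  rcases mem_pts.1 hf with rfl | rfl | rfl
  exacts [h.1, h.2.1, h.2.2]
omit [Shift X] in
theorem Rad.mono {ρ ρ' : ℤ} {τ : Tri X ι} (h : τ.Rad ρ) (h' : ρ ≤ ρ') : τ.Rad ρ' :=
  ⟨h.1.mono h', h.2.1.mono h', h.2.2.mono h'⟩
omit [Shift X] in
theorem exists_rad (τ : Tri X ι) : ∃ ρ : ℕ, τ.Rad ρ := by
  obtain ⟨r1, h1⟩ := exists_bd τ.a.1
  obtain ⟨r2, h2⟩ := exists_bd τ.b.1
  obtain ⟨r3, h3⟩ := exists_bd τ.c.1
  exact ⟨r1 + r2 + r3, h1.mono (by omega), h2.mono (by omega), h3.mono (by omega)⟩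
omit [Shift X] in
theorem exists_rad_list (w : List (Tri X ι)) : ∃ ρ : ℕ, ∀ τ ∈ w, τ.Rad ρ := by
  induction w with
  | nil => exact ⟨0, by simp⟩
  | cons τ w ih =>
    obtain ⟨r, hr⟩ := ih
    obtain ⟨s, hs⟩ := τ.exists_rad
    refine ⟨r + s, fun τ' h => ?_⟩
    rcases List.mem_cons.1 h with rfl | h
    · exact hs.mono (by omega)
    · exact (hr _ h).mono (by omega)

theorem Ok.res {τ : Tri X ι} (h : τ.Ok) (W : Set X) : (τ.res W).Ok :=
  ⟨h.1, h.2.mono Set.inter_subset_left le_rfl⟩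
theorem Gd.res {τ : Tri X ι} (h : τ.Gd) {W : Set X} (hW : Loc W) : (τ.res W).Gd :=
  ⟨h.1.res W, h.2.inter hW⟩
theorem Ok.rev {τ : Tri X ι} (h : τ.Ok) : τ.rev.Ok := ⟨h.1.swap, by rw [rev_pts]; exact h.2⟩
theorem Gd.rev {τ : Tri X ι} (h : τ.Gd) : τ.rev.Gd := ⟨h.1.rev, h.2⟩
theorem Ok.sub {U U' : Set X} {a b c : Pt ι} (h : (⟨U, a, b, c⟩ : Tri X ι).Ok) (hU : U' ⊆ U) :
    (⟨U', a, b, c⟩ : Tri X ι).Ok := ⟨h.1, h.2.mono hU le_rfl⟩
theorem mem_reb_pts {τ : Tri X ι} {z : V} {f : Pt ι} :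
    f ∈ (τ.reb z).pts ↔ ∃ g ∈ τ.pts, f = g.add z := by
  simp [mem_pts, reb]
theorem Ok.reb {τ : Tri X ι} (h : τ.Ok) (z : V) : (τ.reb z).Ok := by
  refine ⟨h.1.map (Pt.add_injective z), ?_⟩
  intro x hx y hy f hf g hg e
  obtain ⟨f', hf', rfl⟩ := mem_reb_pts.1 hf
  obtain ⟨g', hg', rfl⟩ := mem_reb_pts.1 hg
  rw [star_add, star_add] at e
  obtain ⟨h1, h2⟩ := h.2 _ hx _ hy f' hf' g' hg' e
  exact ⟨AddAction.injective z h1, by rw [h2]⟩
theorem Gd.reb {τ : Tri X ι} (h : τ.Gd) (z : V) : (τ.reb z).Gd := ⟨h.1.reb z, h.2.sh z⟩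
theorem supp_reb (τ : Tri X ι) (z : V) : (τ.reb z).supp = τ.supp := by
  ext ω
  constructor
  · rintro ⟨x, hx, f, hf, rfl⟩
    obtain ⟨f', hf', rfl⟩ := mem_reb_pts.1 hf
    exact ⟨_, hx, f', hf', star_add _ _ _⟩
  · rintro ⟨x, hx, f, hf, rfl⟩
    refine ⟨-z +ᵥ x, ?_, f.add z, mem_reb_pts.2 ⟨f, hf, rfl⟩, ?_⟩
    · change z +ᵥ (-z +ᵥ x) ∈ τ.U
      simpa [← add_vadd] using hx
    · rw [star_add]; simp [← add_vadd]
theorem supp_rev (τ : Tri X ι) : τ.rev.supp = τ.supp := by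
  unfold supp; rw [rev_pts]; rfl
theorem supp_res (τ : Tri X ι) (W : Set X) : (τ.res W).supp ⊆ τ.supp :=
  Sup.mono Set.inter_subset_left le_rfl
end Tri

variable [DecidableEq ι]

open Classical in
/-- the three-cycle defined by `τ` -/
noncomputable def cyc (τ : Tri X ι) : Perm (X × ι) :=
  if h : τ.Ok then (exists_acts (s := fun _ => c3 τ.a τ.b τ.c) h.2
    (fun _ _ _ => c3_mem τ.a_mem τ.b_mem τ.c_mem)).choose else 1

theorem cyc_acts {τ : Tri X ι} (h : τ.Ok) : Acts (cyc τ) τ.U τ.pts (fun _ => c3 τ.a τ.b τ.c) := by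
  rw [cyc, dif_pos h]
  exact (exists_acts (s := fun _ => c3 τ.a τ.b τ.c) h.2
    (fun _ _ _ => c3_mem τ.a_mem τ.b_mem τ.c_mem)).choose_spec

theorem cyc_a {τ : Tri X ι} (h : τ.Ok) {x : X} (hx : x ∈ τ.U) : cyc τ (x ⋆ τ.a) = x ⋆ τ.b := by
  rw [(cyc_acts h).app x hx _ τ.a_mem, c3_fst h.1]
theorem cyc_b {τ : Tri X ι} (h : τ.Ok) {x : X} (hx : x ∈ τ.U) : cyc τ (x ⋆ τ.b) = x ⋆ τ.c := by
  rw [(cyc_acts h).app x hx _ τ.b_mem, c3_snd h.1]
theorem cyc_c {τ : Tri X ι} (h : τ.Ok) {x : X} (hx : x ∈ τ.U) : cyc τ (x ⋆ τ.c) = x ⋆ τ.a := by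
  rw [(cyc_acts h).app x hx _ τ.c_mem, c3_thd h.1]
theorem cyc_fix (τ : Tri X ι) {ω : X × ι} (hω : ω ∉ τ.supp) : cyc τ ω = ω := by
  by_cases h : τ.Ok
  · exact (cyc_acts h).fix ω hω
  · rw [cyc, dif_neg h]; rfl
theorem cyc_mem_suppOn (τ : Tri X ι) : cyc τ ∈ SuppOn τ.supp := fun _ h => cyc_fix τ h

theorem cyc_ext {τ : Tri X ι} (h : τ.Ok) {g : Perm (X × ι)}
    (h1 : ∀ x ∈ τ.U, g (x ⋆ τ.a) = x ⋆ τ.b ∧ g (x ⋆ τ.b) = x ⋆ τ.c ∧ g (x ⋆ τ.c) = x ⋆ τ.a)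
    (h2 : ∀ ω, ω ∉ τ.supp → g ω = ω) : g = cyc τ := by
  refine Acts.ext (s := fun _ => c3 τ.a τ.b τ.c) ⟨fun x hx f hf => ?_, h2⟩ (cyc_acts h)
    (fun _ _ _ _ => rfl)
  rcases Tri.mem_pts.1 hf with rfl | rfl | rfl
  · rw [c3_fst h.1, (h1 x hx).1]
  · rw [c3_snd h.1, (h1 x hx).2.1]
  · rw [c3_thd h.1, (h1 x hx).2.2]

/-- a three-cycle seen inside a larger block structure -/
theorem cyc_acts_big {U U' : Set X} {F : Set (Pt ι)} {a b c : Pt ι} (hI : Inj U' F) (hU : U ⊆ U')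
    (hd : D3 a b c) (ha : a ∈ F) (hb : b ∈ F) (hc : c ∈ F) [DecidablePred (· ∈ U)] :
    Acts (cyc ⟨U, a, b, c⟩) U' F (fun x => if x ∈ U then c3 a b c else 1) := by
  have hF : (⟨U, a, b, c⟩ : Tri X ι).pts ⊆ F := by
    intro f hf
    rcases Tri.mem_pts.1 hf with rfl | rfl | rfl <;> assumption
  have hok : (⟨U, a, b, c⟩ : Tri X ι).Ok := ⟨hd, hI.mono hU hF⟩
  refine (cyc_acts hok).enlarge hI hU hF (fun x hx f _ => by rw [if_pos hx]) ?_
  intro x _ f _ h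
  split_ifs with hx
  · have h' := h.resolve_left (not_not.2 hx)
    rw [Tri.mem_pts] at h'
    push Not at h'
    exact c3_other h'.1 h'.2.1 h'.2.2
  · rfl

theorem cyc_empty (a b c : Pt ι) : cyc (⟨∅, a, b, c⟩ : Tri X ι) = 1 :=
  Equiv.ext (fun ω => cyc_fix _ (by rintro ⟨x, hx, _⟩; exact hx))

theorem cyc_rev {τ : Tri X ι} (h : τ.Ok) : cyc τ.rev = (cyc τ)⁻¹ := by
  refine (cyc_ext h.rev (fun x hx => ?_) (fun ω hω => ?_)).symm
  · simp only [Perm.inv_eq_iff_eq, Tri.rev]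
    exact ⟨(cyc_c h hx).symm, (cyc_b h hx).symm, (cyc_a h hx).symm⟩
  · rw [Perm.inv_eq_iff_eq, cyc_fix τ (by rwa [Tri.supp_rev] at hω)]

theorem cyc_reb {τ : Tri X ι} (h : τ.Ok) (z : V) : cyc (τ.reb z) = cyc τ := by
  refine (cyc_ext (h.reb z) (fun x hx => ?_) (fun ω hω => ?_)).symm
  · simp only [Tri.reb, star_add]
    exact ⟨cyc_a h hx, cyc_b h hx, cyc_c h hx⟩
  · exact cyc_fix τ (by rwa [Tri.supp_reb] at hω)

theorem cyc_union {U U' : Set X} {a b c : Pt ι} (h : (⟨U ∪ U', a, b, c⟩ : Tri X ι).Ok)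
    (hd : Disjoint U U') : cyc ⟨U ∪ U', a, b, c⟩ = cyc ⟨U, a, b, c⟩ * cyc ⟨U', a, b, c⟩ :=
  (cyc_acts h).ext ((cyc_acts (h.sub Set.subset_union_left)).union
    (cyc_acts (h.sub Set.subset_union_right)) h.2 hd
    (fun _ _ _ hf => (c3_mem (Tri.a_mem _) (Tri.b_mem _) (Tri.c_mem _)).2 hf)) (fun _ _ _ _ => rfl)

theorem cyc_conj {U : Set X} {a b c a' b' c' : Pt ι} (h : (⟨U, a, b, c⟩ : Tri X ι).Ok)
    (h' : (⟨U, a', b', c'⟩ : Tri X ι).Ok) {g : Perm (X × ι)}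
    (hg : ∀ x ∈ U, g (x ⋆ a) = x ⋆ a' ∧ g (x ⋆ b) = x ⋆ b' ∧ g (x ⋆ c) = x ⋆ c') :
    g * cyc ⟨U, a, b, c⟩ * g⁻¹ = cyc ⟨U, a', b', c'⟩ := by
  refine cyc_ext h' (fun x hx => ?_) (fun ω hω => ?_)
  · obtain ⟨h1, h2, h3⟩ := hg x hx
    simp only [Perm.mul_apply]
    rw [← h1, ← h2, ← h3]
    simp only [Perm.coe_inv, symm_apply_apply, EmbeddingLike.apply_eq_iff_eq]
    exact ⟨cyc_a h hx, cyc_b h hx, cyc_c h hx⟩
  · rw [Perm.mul_apply, Perm.mul_apply, cyc_fix]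
    · simp
    · rintro ⟨x, hx, f, hf, e⟩
      rw [Perm.inv_eq_iff_eq] at e
      obtain ⟨h1, h2, h3⟩ := hg x hx
      apply hω
      rcases Tri.mem_pts.1 hf with rfl | rfl | rfl
      · rw [e, h1]; exact star_mem_sup hx (Tri.a_mem _)
      · rw [e, h2]; exact star_mem_sup hx (Tri.b_mem _)
      · rw [e, h3]; exact star_mem_sup hx (Tri.c_mem _)

omit [DecidableEq ι] in
theorem commute_of_suppOn {α : Type} {S T : Set α} {g h : Perm α} (hg : g ∈ SuppOn S)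
    (hh : h ∈ SuppOn T) (hd : Disjoint S T) : Commute g h := by
  refine Perm.Disjoint.commute (fun a => ?_)
  by_cases ha : a ∈ S
  · exact Or.inr (hh a (Set.disjoint_left.1 hd ha))
  · exact Or.inl (hg a ha)

/-- bounded displacement -/
def Disp (ρ : ℤ) (g : Perm (X × ι)) : Prop := ∀ ω, ∃ z, Bd ρ z ∧ (g ω).1 = z +ᵥ ω.1

omit [DecidableEq ι] in
theorem Disp.one {ρ : ℤ} (h : 0 ≤ ρ) : Disp ρ (1 : Perm (X × ι)) :=
  fun _ => ⟨0, Bd.zero h, by simp⟩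
omit [DecidableEq ι] in
theorem Disp.mono {ρ ρ' : ℤ} {g : Perm (X × ι)} (h : Disp ρ g) (h' : ρ ≤ ρ') : Disp ρ' g :=
  fun ω => let ⟨z, h1, h2⟩ := h ω; ⟨z, h1.mono h', h2⟩
omit [DecidableEq ι] in
theorem Disp.mul {ρ ρ' : ℤ} {g g' : Perm (X × ι)} (h : Disp ρ g) (h' : Disp ρ' g') :
    Disp (ρ + ρ') (g * g') := by
  intro ω
  obtain ⟨z', h1, h2⟩ := h' ω
  obtain ⟨z, h3, h4⟩ := h (g' ω)
  exact ⟨z + z', h3.add h1, by rw [Perm.mul_apply, h4, h2, add_vadd]⟩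
omit [DecidableEq ι] in
theorem Disp.inv {ρ : ℤ} {g : Perm (X × ι)} (h : Disp ρ g) : Disp ρ g⁻¹ := by
  intro ω
  obtain ⟨z, h1, h2⟩ := h (g⁻¹ ω)
  refine ⟨-z, h1.neg, ?_⟩
  simp only [Perm.coe_inv, apply_symm_apply] at h2
  rw [h2]; simp [← add_vadd]

theorem disp_cyc {ρ : ℤ} {τ : Tri X ι} (h : τ.Rad ρ) : Disp (2 * ρ) (cyc τ) := by
  have h0 : 0 ≤ ρ := h.1.nonneg
  by_cases hok : τ.Ok
  · intro ω
    by_cases hω : ω ∈ τ.supp
    · obtain ⟨x, hx, f, hf, rfl⟩ := hω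
      have hf' : c3 τ.a τ.b τ.c f ∈ τ.pts := (c3_mem τ.a_mem τ.b_mem τ.c_mem).2 hf
      refine ⟨(c3 τ.a τ.b τ.c f).1 - f.1, ((h.mem hf').sub (h.mem hf)).mono (by omega), ?_⟩
      rw [(cyc_acts hok).app x hx f hf]
      simp [← add_vadd]
    · exact ⟨0, Bd.zero (by omega), by rw [cyc_fix τ hω, zero_vadd]⟩
  · rw [cyc, dif_neg hok]; exact Disp.one (by omega)

/-- permutations of the labels, depending on the site -/
def lab : (X → Perm ι) →* Perm (X × ι) where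
  toFun s := Equiv.prodCongrRight s
  map_one' := rfl
  map_mul' _ _ := rfl

omit [Shift X] [DecidableEq ι] in
@[simp] theorem lab_apply (s : X → Perm ι) (x : X) (i : ι) : lab s (x, i) = (x, s x i) := rfl

/-- translations of the labelled copies -/
def trl (a : ι → V) : Perm (X × ι) where
  toFun ω := (a ω.2 +ᵥ ω.1, ω.2)
  invFun ω := (-a ω.2 +ᵥ ω.1, ω.2)
  left_inv ω := by simp [← add_vadd]
  right_inv ω := by simp [← add_vadd]

omit [DecidableEq ι] in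
@[simp] theorem trl_apply (a : ι → V) (x : X) (i : ι) : trl a (x, i) = (a i +ᵥ x, i) := rfl
omit [DecidableEq ι] in
theorem trl_add (a b : ι → V) : (trl (a + b) : Perm (X × ι)) = trl a * trl b :=
  Equiv.ext (fun ⟨x, i⟩ => by simp [add_vadd])
omit [DecidableEq ι] in
theorem trl_zero : (trl 0 : Perm (X × ι)) = 1 := Equiv.ext (fun ⟨x, i⟩ => by simp)
omit [DecidableEq ι] in
theorem trl_neg (a : ι → V) : (trl (-a) : Perm (X × ι)) = (trl a)⁻¹ :=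
  eq_inv_of_mul_eq_one_left (by rw [← trl_add, neg_add_cancel, trl_zero])

open Classical in
/-- the transposition of the labels `a`, `b` at the sites of `E` -/
noncomputable def TT (a b : ι) (E : Set X) : Perm (X × ι) :=
  lab (fun x => if x ∈ E then swap a b else 1)

omit [Shift X] in
theorem TT_mem (a b : ι) {E : Set X} {x : X} (h : x ∈ E) (i : ι) :
    TT a b E (x, i) = (x, swap a b i) := by simp [TT, h]
omit [Shift X] in
theorem TT_not_mem (a b : ι) {E : Set X} {x : X} (h : x ∉ E) (i : ι) :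
    TT a b E (x, i) = (x, i) := by simp [TT, h]
omit [Shift X] in
theorem TT_fst (a b : ι) (E : Set X) (ω : X × ι) : (TT a b E ω).1 = ω.1 := rfl
omit [Shift X] in
theorem TT_empty (a b : ι) : TT a b (∅ : Set X) = 1 :=
  Equiv.ext (fun ⟨_, i⟩ => TT_not_mem a b (Set.notMem_empty _) i)
omit [Shift X] in
theorem TT_mul (a b : ι) (E E' : Set X) : TT a b E * TT a b E' = TT a b (symmDiff E E') := by
  refine Equiv.ext (fun ⟨x, i⟩ => ?_)
  by_cases h : x ∈ E <;> by_cases h' : x ∈ E' <;> simp [TT, h, h', Set.mem_symmDiff]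
omit [Shift X] in
theorem TT_mul_self (a b : ι) (E : Set X) : TT a b E * TT a b E = 1 := by
  rw [TT_mul, symmDiff_self]; exact TT_empty a b
omit [Shift X] in
theorem TT_inv (a b : ι) (E : Set X) : (TT a b E)⁻¹ = TT a b E :=
  inv_eq_of_mul_eq_one_right (TT_mul_self a b E)
omit [Shift X] in
theorem TT_inj {a b : ι} (hab : a ≠ b) {E E' : Set X} (h : TT a b E = TT a b E') : E = E' := by
  ext x
  have : TT a b E (x, a) = TT a b E' (x, a) := by rw [h]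
  by_cases h1 : x ∈ E <;> by_cases h2 : x ∈ E'
  · tauto
  · rw [TT_mem a b h1, TT_not_mem a b h2] at this
    simp [hab.symm] at this
  · rw [TT_mem a b h2, TT_not_mem a b h1] at this
    simp [hab] at this
  · tauto
theorem disp_TT (a b : ι) (E : Set X) : Disp 0 (TT a b E) :=
  fun ω => ⟨0, Bd.zero le_rfl, by rw [TT_fst, zero_vadd]⟩

/-- local permutations: the move is determined by a bounded pattern -/
def LocP (g : Perm (X × ι)) : Prop :=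
  ∃ d : X → ι → Pt ι, (∀ i, LocF (fun x => d x i)) ∧ ∀ x i, g (x, i) = x ⋆ d x i

omit [DecidableEq ι] in
theorem LocP.one : LocP (1 : Perm (X × ι)) :=
  ⟨fun _ i => (0, i), fun _ => LocF.const _, fun x i => (star_zero x i).symm⟩

omit [DecidableEq ι] in
/-- the relative image of a relative point is a local function -/
theorem LocP.rel {g : Perm (X × ι)} (h : LocP g) (f : Pt ι) :
    ∃ k : X → Pt ι, LocF k ∧ ∀ x, g (x ⋆ f) = x ⋆ k x := by
  obtain ⟨d, h1, h2⟩ := h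
  exact ⟨fun x => (d (f.1 +ᵥ x) f.2).add f.1, ((h1 f.2).shift f.1).comp (fun p => p.add f.1),
    fun x => by rw [star_add, ← h2]; rfl⟩

omit [DecidableEq ι] in
theorem LocP.mul {g g' : Perm (X × ι)} (h : LocP g) (h' : LocP g') : LocP (g * g') := by
  obtain ⟨d', h1, h2⟩ := h'
  choose k hk1 hk2 using h.rel
  exact ⟨fun x i => k (d' x i) x, fun i => (h1 i).bind hk1,
    fun x i => by rw [Perm.mul_apply, h2, hk2]⟩

omit [DecidableEq ι] in
theorem LocP.disp [Finite ι] {g : Perm (X × ι)} (h : LocP g) : ∃ ρ : ℕ, Disp ρ g := by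
  obtain ⟨d, h1, h2⟩ := h
  have hf := ((LocF.pi h1).finite_range.image2 (fun (k : ι → Pt ι) (i : ι) => (k i).1)
    (Set.toFinite Set.univ))
  obtain ⟨ρ, hρ⟩ := exists_bd_finset hf.toFinset
  refine ⟨ρ, fun ⟨x, i⟩ => ⟨(d x i).1, hρ _ ?_, by rw [h2]; rfl⟩⟩
  rw [Set.Finite.mem_toFinset]
  exact ⟨d x, ⟨x, rfl⟩, i, trivial, rfl⟩

omit [DecidableEq ι] in
theorem LocP.inv [Finite ι] [Good X] {g : Perm (X × ι)} (h : LocP g) : LocP g⁻¹ := by
  obtain ⟨ρ, hρ⟩ := h.disp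
  choose k hk1 hk2 using h.rel
  have hex : ∀ (x : X) (i : ι), ∃ f : Pt ι, Bd ρ f.1 ∧ g⁻¹ (x, i) = x ⋆ f := by
    intro x i
    obtain ⟨z, h1, h2⟩ := hρ.inv (x, i)
    exact ⟨(z, (g⁻¹ (x, i)).2), h1, Prod.ext h2 rfl⟩
  choose d hd1 hd2 using hex
  refine ⟨d, fun i => ?_, hd2⟩
  refine (LocF.pi (I := box ρ × ι) (f := fun x p => k (p.1.1, p.2) x) (fun p => hk1 _)).of_det ?_
  intro x y hxy
  have e1 : k (d x i) x = k (d x i) y := congrFun hxy (⟨_, mem_box.2 (hd1 x i)⟩, (d x i).2)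
  have e2 : x ⋆ k (d x i) x = x ⋆ ((0 : V), i) := by
    rw [← hk2, ← hd2, star_zero]; simp
  have e3 : g (y ⋆ d x i) = g (y ⋆ d y i) := by
    rw [hk2, ← e1, star_inj e2, ← hd2, star_zero]; simp
  exact star_inj (g.injective e3)

omit [DecidableEq ι] in
theorem locP_lab {s : X → Perm ι} (h : LocF s) : LocP (lab s) :=
  ⟨fun x i => (0, s x i), fun i => h.comp (fun p => ((0 : V), p i)),
    fun x i => by rw [star_zero]; rfl⟩
omit [DecidableEq ι] in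
theorem locP_trl (a : ι → V) : LocP (trl a : Perm (X × ι)) :=
  ⟨fun _ i => (a i, i), fun _ => LocF.const _, fun _ _ => rfl⟩
theorem locP_TT (a b : ι) {E : Set X} (h : Loc E) : LocP (TT a b E) := by
  classical
  exact locP_lab (h.ite (LocF.const _) (LocF.const _))

omit [DecidableEq ι] in
theorem Acts.locP {g : Perm (X × ι)} {U : Set X} {F : Set (Pt ι)} {s : X → Perm (Pt ι)}
    (h : Acts g U F s) (hU : Loc U) (hF : F.Finite) (hs : LocF s) : LocP g := by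
  classical
  have := hF.to_subtype
  let dat : X → (F → Prop × Perm (Pt ι)) := fun x f => (-f.1.1 +ᵥ x ∈ U, s (-f.1.1 +ᵥ x))
  have hdat : LocF dat := LocF.pi (fun f => ((hU.sh _).locF).prod (hs.shift _))
  let D : (F → Prop × Perm (Pt ι)) → ι → Pt ι := fun p i =>
    if hh : ∃ f : F, f.1.2 = i ∧ (p f).1 then ((p hh.choose).2 hh.choose.1).add (-hh.choose.1.1)
    else (0, i)
  refine ⟨fun x => D (dat x), fun i => hdat.comp (fun p => D p i), fun x i => ?_⟩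
  by_cases hh : ∃ f : F, f.1.2 = i ∧ (dat x f).1
  · simp only [D, dif_pos hh]
    obtain ⟨h1, h2⟩ := hh.choose_spec
    rw [star_add, ← h.app _ h2 _ hh.choose.2]
    congr 1
    exact Prod.ext (by simp [← add_vadd]) h1.symm
  · simp only [D, dif_neg hh]
    rw [star_zero, h.fix]
    rintro ⟨y, hy, f, hf, e⟩
    refine hh ⟨⟨f, hf⟩, (congrArg Prod.snd e).symm, ?_⟩
    have : x = f.1 +ᵥ y := congrArg Prod.fst e
    simpa [dat, this, ← add_vadd] using hy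

theorem locP_cyc {τ : Tri X ι} (h : τ.Gd) : LocP (cyc τ) :=
  (cyc_acts h.1).locP h.2 τ.finite_pts (LocF.const _)

variable (X ι) in
/-- the group: generated by all local three-cycles -/
def GG : Subgroup (Perm (X × ι)) := Subgroup.closure {g | ∃ τ : Tri X ι, τ.Gd ∧ g = cyc τ}

theorem cyc_mem_GG {τ : Tri X ι} (h : τ.Gd) : cyc τ ∈ GG X ι := Subgroup.subset_closure ⟨τ, h, rfl⟩

theorem GG_induction {P : Perm (X × ι) → Prop} (h1 : P 1) (hc : ∀ τ : Tri X ι, τ.Gd → P (cyc τ))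
    (hm : ∀ g h, P g → P h → P (g * h)) {g : Perm (X × ι)} (hg : g ∈ GG X ι) : P g := by
  refine Subgroup.closure_induction'' (p := fun s _ => P s) ?_ ?_ h1 (fun s t _ _ => hm s t) hg
  · rintro _ ⟨τ, h, rfl⟩; exact hc τ h
  · rintro _ ⟨τ, h, rfl⟩; rw [← cyc_rev h.1]; exact hc _ h.rev

theorem locP_of_mem {g : Perm (X × ι)} (hg : g ∈ GG X ι) : LocP g :=
  GG_induction LocP.one (fun _ => locP_cyc) (fun _ _ => LocP.mul) hg

end Crest.Agent.R189
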