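import Crest.Agent.R189.Defs
import Crest.Agent.R189.Sys

/-! # Row 189: lifts of rainbow three-cycles -/

set_option autoImplicit false
set_option linter.unusedSectionVars false

namespace Crest.Agent.R189
open Equiv

variable {X ι Γ : Type} [Shift X] [DecidableEq ι] [Fintype ι] [Group Γ]

/-- three points with distinct labels -/
def Rb (a b c : Pt ι) : Prop := D3 a.2 b.2 c.2

omit [DecidableEq ι] [Fintype ι] in
theorem Rb.ok {a b c : Pt ι} (h : Rb a b c) (U : Set X) : (⟨U, a, b, c⟩ : Tri X ι).Ok := by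
  refine ⟨D3.of_map (f := Prod.snd) h, inj_of_snd U ?_⟩
  intro f hf g hg e
  obtain ⟨h1, h2, h3⟩ := h
  rcases Tri.mem_pts.1 hf with rfl | rfl | rfl <;> rcases Tri.mem_pts.1 hg with rfl | rfl | rfl <;>
    first | rfl | exact absurd e (by assumption) | exact absurd e.symm (by assumption)

/-- a translation with prescribed values on a small rainbow family -/
theorem exists_lam (hι : 40 ≤ Fintype.card ι) (F : List (Pt ι)) (hF : F.length < 40)
    (h : ∀ f ∈ F, ∀ g ∈ F, f.2 = g.2 → f = g) : ∃ l : Lam ι, ∀ f ∈ F, l.1 f.2 = f.1 := by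
  classical
  obtain ⟨m, hm⟩ := fresh hι (F.map Prod.snd) (by simpa using hF)
  let l₀ : ι → V := fun i => if hi : ∃ f ∈ F, f.2 = i then hi.choose.1 else 0
  refine ⟨⟨l₀ + Pi.single m (-∑ i, l₀ i), ?_⟩, fun f hf => ?_⟩
  · change ∑ i, (l₀ + Pi.single m (-∑ i, l₀ i) : ι → V) i = 0
    simp [Finset.sum_add_distrib]
  · have h1 : f.2 ≠ m := fun e => hm (List.mem_map.2 ⟨f, hf, e⟩)
    have h2 : ∃ g ∈ F, g.2 = f.2 := ⟨f, hf, rfl⟩
    change l₀ f.2 + (Pi.single m (-∑ i, l₀ i) : ι → V) f.2 = f.1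
    rw [Pi.single_eq_of_ne h1, add_zero]
    simp only [l₀, dif_pos h2]
    rw [h _ h2.choose_spec.1 f hf h2.choose_spec.2]

omit [DecidableEq ι] [Fintype ι] in
theorem Rb.inj {a b c : Pt ι} (h : Rb a b c) :
    ∀ f ∈ [a, b, c], ∀ g ∈ [a, b, c], f.2 = g.2 → f = g := by
  intro f hf g hg e
  obtain ⟨h1, h2, h3⟩ := h
  simp only [List.mem_cons, List.not_mem_nil, or_false] at hf hg
  rcases hf with rfl | rfl | rfl <;> rcases hg with rfl | rfl | rfl <;>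
    first | rfl | exact absurd e (by assumption) | exact absurd e.symm (by assumption)

omit [DecidableEq ι] [Fintype ι] in
theorem Rb.add {a b c : Pt ι} (h : Rb a b c) (z : V) : Rb (a.add z) (b.add z) (c.add z) := h

theorem Rb.exists_lam (hι : 40 ≤ Fintype.card ι) {a b c : Pt ι} (h : Rb a b c) :
    ∃ l : Lam ι, l.1 a.2 = a.1 ∧ l.1 b.2 = b.1 ∧ l.1 c.2 = c.1 := by
  obtain ⟨l, hl⟩ := Crest.Agent.R189.exists_lam hι [a, b, c] (by simp) h.inj
  exact ⟨l, hl a (by simp), hl b (by simp), hl c (by simp)⟩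

theorem Rb.exists_lam₂ (hι : 40 ≤ Fintype.card ι) {a b c a' b' c' : Pt ι} (h : Rb a b c)
    (h' : Rb a' b' c') (hj : ∀ f ∈ [a, b, c], ∀ g ∈ [a', b', c'], f.2 = g.2 → f = g) :
    ∃ l : Lam ι, (∀ f ∈ [a, b, c], l.1 f.2 = f.1) ∧ ∀ f ∈ [a', b', c'], l.1 f.2 = f.1 := by
  obtain ⟨l, hl⟩ := Crest.Agent.R189.exists_lam hι ([a, b, c] ++ [a', b', c']) (by simp) (by
    intro f hf g hg e
    rcases List.mem_append.1 hf with hf | hf <;> rcases List.mem_append.1 hg with hg | hg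
    · exact h.inj f hf g hg e
    · exact hj f hf g hg e
    · exact (hj g hg f hf e.symm).symm
    · exact h'.inj f hf g hg e)
  exact ⟨l, fun f hf => hl f (List.mem_append_left _ hf),
    fun f hf => hl f (List.mem_append_right _ hf)⟩

omit [Fintype ι] in
theorem Rb.c3_snd {a b c g : Pt ι} (h : Rb a b c) (hg : ∀ f ∈ [a, b, c], f.2 = g.2 → f = g) :
    (c3 a b c g).2 = c3 a.2 b.2 c.2 g.2 := by
  have h' : D3 a b c := D3.of_map (f := Prod.snd) h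
  by_cases h1 : g = a
  · rw [h1, c3_fst h', c3_fst h]
  by_cases h2 : g = b
  · rw [h2, Crest.Agent.R189.c3_snd h', Crest.Agent.R189.c3_snd h]
  by_cases h3 : g = c
  · rw [h3, c3_thd h', c3_thd h]
  rw [c3_other h1 h2 h3, c3_other (fun e => h1 (hg a (by simp) e.symm).symm)
    (fun e => h2 (hg b (by simp) e.symm).symm) (fun e => h3 (hg c (by simp) e.symm).symm)]

namespace Phi
variable (P : Phi X ι Γ)

theorem u_zero : P.u 0 = 1 := by
  have := P.u_add 0 0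
  rw [add_zero] at this
  exact mul_eq_left.1 this.symm

theorem Φ_empty (s : AA ι) : P.Φ ∅ s = 1 := by
  have := P.add Loc.empty Loc.empty disjoint_bot_left s
  rw [Set.union_self] at this
  exact mul_eq_left.1 this.symm

theorem cov' {U : Set X} (hU : Loc U) (l l' : Lam ι) (z : V) {i j k : ι} (hi : l'.1 i = l.1 i + z)
    (hj : l'.1 j = l.1 j + z) (hk : l'.1 k = l.1 k + z) :
    P.u l * P.Φ U (AA.x i j k) * (P.u l)⁻¹ = P.u l' * P.Φ (sh z U) (AA.x i j k) * (P.u l')⁻¹ := by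
  have e : P.u l' = P.u l * P.u (-l + l') := by rw [← P.u_add, add_neg_cancel_left]
  rw [P.cov hU (-l + l') z i j k (by simp [hi]) (by simp [hj]) (by simp [hk]), e]
  group

/-- commuting elements of `AA` have commuting images over any two local sets -/
theorem Φ_comm {U U' : Set X} (hU : Loc U) (hU' : Loc U') {s t : AA ι} (h : Commute s t) :
    Commute (P.Φ U s) (P.Φ U' t) := by
  have e1 : P.Φ U s = P.Φ (U ∩ U') s * P.Φ (U \ U') s := by
    rw [← P.add (hU.inter hU') (hU.diff hU') Set.disjoint_sdiff_inter.symm, Set.inter_union_diff]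
  have e2 : P.Φ U' t = P.Φ (U ∩ U') t * P.Φ (U' \ U) t := by
    rw [Set.inter_comm,
      ← P.add (hU'.inter hU) (hU'.diff hU) Set.disjoint_sdiff_inter.symm, Set.inter_union_diff]
  rw [e1, e2]
  refine Commute.mul_left (Commute.mul_right (h.map _) ?_) (Commute.mul_right ?_ ?_)
  · exact P.orth (hU.inter hU') (hU'.diff hU)
      (Set.disjoint_left.2 fun x hx hx' => hx'.2 hx.1) _ _
  · exact P.orth (hU.diff hU') (hU.inter hU')
      (Set.disjoint_left.2 fun x hx hx' => hx.2 hx'.2) _ _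
  · exact P.orth (hU.diff hU') (hU'.diff hU)
      (Set.disjoint_left.2 fun x hx hx' => hx.2 hx'.1) _ _

open Classical in
/-- the lift of a rainbow three-cycle -/
noncomputable def r (U : Set X) (a b c : Pt ι) : Γ :=
  if h : ∃ l : Lam ι, l.1 a.2 = a.1 ∧ l.1 b.2 = b.1 ∧ l.1 c.2 = c.1 then
    P.u h.choose * P.Φ U (AA.x a.2 b.2 c.2) * (P.u h.choose)⁻¹ else 1

theorem r_eq {U : Set X} (hU : Loc U) {a b c : Pt ι} (l : Lam ι) (ha : l.1 a.2 = a.1)
    (hb : l.1 b.2 = b.1) (hc : l.1 c.2 = c.1) :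
    P.r U a b c = P.u l * P.Φ U (AA.x a.2 b.2 c.2) * (P.u l)⁻¹ := by
  have h : ∃ l : Lam ι, l.1 a.2 = a.1 ∧ l.1 b.2 = b.1 ∧ l.1 c.2 = c.1 := ⟨l, ha, hb, hc⟩
  obtain ⟨h1, h2, h3⟩ := h.choose_spec
  rw [r, dif_pos h, P.cov' hU h.choose l 0 (by rw [h1, ha, add_zero]) (by rw [h2, hb, add_zero])
    (by rw [h3, hc, add_zero]), sh_zero]

theorem r_zero {U : Set X} (hU : Loc U) (i j k : ι) :
    P.r U (0, i) (0, j) (0, k) = P.Φ U (AA.x i j k) := by
  rw [P.r_eq hU 0 rfl rfl rfl, P.u_zero, one_mul, inv_one, mul_one]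

variable (hι : 40 ≤ Fintype.card ι)
include hι

theorem π_r {U : Set X} (hU : Loc U) {a b c : Pt ι} (h : Rb a b c) :
    P.π (P.r U a b c) = cyc ⟨U, a, b, c⟩ := by
  obtain ⟨l, ha, hb, hc⟩ := h.exists_lam hι
  have h0 : Rb ((0 : V), a.2) ((0 : V), b.2) ((0 : V), c.2) := h
  have e : P.π (P.Φ U (AA.x a.2 b.2 c.2)) = cyc ⟨U, (0, a.2), (0, b.2), (0, c.2)⟩ := by
    refine cyc_ext (h0.ok U) (fun x hx => ?_) ?_
    · have hx' : x ∈ U := hx
      simp only [star_zero, P.π_Φ hU, if_pos hx', AA.perm_x, c3_fst h, c3_snd h, c3_thd h, and_self]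
    · rintro ⟨x, i⟩ hω
      rw [P.π_Φ hU]
      split_ifs with hx
      · rw [AA.perm_x, c3_other]
        · rintro rfl
          exact hω ⟨x, hx, _, Tri.a_mem _, (star_zero _ _).symm⟩
        · rintro rfl
          exact hω ⟨x, hx, _, Tri.b_mem _, (star_zero _ _).symm⟩
        · rintro rfl
          exact hω ⟨x, hx, _, Tri.c_mem _, (star_zero _ _).symm⟩
      · rfl
  rw [P.r_eq hU l ha hb hc, map_mul, map_mul, map_inv, e, P.π_u]
  refine cyc_conj (h0.ok U) (h.ok U) fun x _ => ?_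
  simp only [star_zero, trl_apply, ha, hb, hc]
  exact ⟨rfl, rfl, rfl⟩

theorem r_add {U U' : Set X} (hU : Loc U) (hU' : Loc U') (hd : Disjoint U U') {a b c : Pt ι}
    (h : Rb a b c) : P.r (U ∪ U') a b c = P.r U a b c * P.r U' a b c := by
  obtain ⟨l, ha, hb, hc⟩ := h.exists_lam hι
  rw [P.r_eq (hU.union hU') l ha hb hc, P.r_eq hU l ha hb hc, P.r_eq hU' l ha hb hc,
    P.add hU hU' hd]
  group

theorem r_reb {U : Set X} (hU : Loc U) {a b c : Pt ι} (h : Rb a b c) (z : V) :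
    P.r (sh z U) (a.add z) (b.add z) (c.add z) = P.r U a b c := by
  obtain ⟨l, ha, hb, hc⟩ := h.exists_lam hι
  obtain ⟨l', ha', hb', hc'⟩ := (h.add z).exists_lam hι
  rw [P.r_eq (hU.sh z) l' ha' hb' hc', P.r_eq hU l ha hb hc]
  exact (P.cov' hU l l' z (i := a.2) (j := b.2) (k := c.2) (by rw [ha]; exact ha')
    (by rw [hb]; exact hb') (by rw [hc]; exact hc')).symm

theorem r_inv {U : Set X} (hU : Loc U) {a b c : Pt ι} (h : Rb a b c) :
    P.r U a c b = (P.r U a b c)⁻¹ := by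
  obtain ⟨l, ha, hb, hc⟩ := h.exists_lam hι
  rw [P.r_eq hU l ha hc hb, P.r_eq hU l ha hb hc, ← AA.x_inv, map_inv]
  group

theorem r_rot {U : Set X} (hU : Loc U) {a b c : Pt ι} (h : Rb a b c) :
    P.r U a b c = P.r U b c a := by
  obtain ⟨l, ha, hb, hc⟩ := h.exists_lam hι
  rw [P.r_eq hU l ha hb hc, P.r_eq hU l hb hc ha, AA.isSys.rot]

/-- conjugation inside a jointly rainbow family -/
theorem r_conj {U U' : Set X} (hU : Loc U) (hU' : Loc U') (hUU : U ⊆ U') {a b c a' b' c' : Pt ι}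
    (h : Rb a b c) (h' : Rb a' b' c')
    (hj : ∀ f ∈ [a, b, c], ∀ g ∈ [a', b', c'], f.2 = g.2 → f = g) :
    P.r U' a b c * P.r U a' b' c' * (P.r U' a b c)⁻¹ =
      P.r U (c3 a b c a') (c3 a b c b') (c3 a b c c') := by
  obtain ⟨l, hl, hl'⟩ := h.exists_lam₂ hι h' hj
  have hs : ∀ g ∈ [a', b', c'], (c3 a b c g).2 = c3 a.2 b.2 c.2 g.2 := fun g hg =>
    h.c3_snd fun f hf => hj f hf g hg
  have hv : ∀ g ∈ [a', b', c'], l.1 (c3 a b c g).2 = (c3 a b c g).1 := by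
    intro g hg
    have : c3 a b c g ∈ ({f | l.1 f.2 = f.1} : Set (Pt ι)) :=
      (c3_mem (S := {f : Pt ι | l.1 f.2 = f.1}) (hl a (by simp)) (hl b (by simp))
        (hl c (by simp))).2 (hl' g hg)
    exact this
  rw [P.r_eq hU' l (hl a (by simp)) (hl b (by simp)) (hl c (by simp)),
    P.r_eq hU l (hl' a' (by simp)) (hl' b' (by simp)) (hl' c' (by simp)),
    P.r_eq hU l (hv a' (by simp)) (hv b' (by simp)) (hv c' (by simp)),
    hs a' (by simp), hs b' (by simp), hs c' (by simp), ← AA.isSys.conj, map_mul, map_mul, map_inv,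
    ← Set.union_diff_cancel hUU, P.add hU (hU'.diff hU) Set.disjoint_sdiff_right]
  have hc := (P.orth hU (hU'.diff hU) Set.disjoint_sdiff_right (AA.x a'.2 b'.2 c'.2)
    (AA.x a.2 b.2 c.2)).eq
  generalize P.Φ U (AA.x a'.2 b'.2 c'.2) = T at *
  generalize P.Φ (U' \ U) (AA.x a.2 b.2 c.2) = S' at *
  generalize P.Φ U (AA.x a.2 b.2 c.2) = S
  calc P.u l * (S * S') * (P.u l)⁻¹ * (P.u l * T * (P.u l)⁻¹) * (P.u l * (S * S') * (P.u l)⁻¹)⁻¹
      = P.u l * (S * (S' * T) * S'⁻¹ * S⁻¹) * (P.u l)⁻¹ := by group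
    _ = _ := by rw [← hc]; group

theorem r_empty {a b c : Pt ι} (h : Rb a b c) : P.r ∅ a b c = 1 := by
  obtain ⟨l, ha, hb, hc⟩ := h.exists_lam hι
  rw [P.r_eq Loc.empty l ha hb hc, P.Φ_empty, mul_one, mul_inv_cancel]

theorem r_swap_in {U : Set X} (hU : Loc U) {p q g m n : Pt ι} (h : Rb p q m) (h' : Rb m g n)
    (hp : p.2 ≠ g.2 ∧ p.2 ≠ n.2) (hq : q.2 ≠ g.2 ∧ q.2 ≠ n.2) :
    P.r U m g n * P.r U p q m * (P.r U m g n)⁻¹ = P.r U p q g := by
  have h1 : D3 m g n := D3.of_map (f := Prod.snd) h'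
  rw [P.r_conj hι hU hU le_rfl h' h, c3_fst h1,
    c3_other (ne_of_apply_ne Prod.snd h.2.1) (ne_of_apply_ne Prod.snd hp.1)
      (ne_of_apply_ne Prod.snd hp.2),
    c3_other (ne_of_apply_ne Prod.snd h.2.2) (ne_of_apply_ne Prod.snd hq.1)
      (ne_of_apply_ne Prod.snd hq.2)]
  intro f hf k hk e
  obtain ⟨a1, a2, a3⟩ := h
  obtain ⟨b1, b2, b3⟩ := h'
  obtain ⟨p1, p2⟩ := hp
  obtain ⟨q1, q2⟩ := hq
  simp only [List.mem_cons, List.not_mem_nil, or_false] at hf hk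
  rcases hf with rfl | rfl | rfl <;> rcases hk with rfl | rfl | rfl <;>
    first | rfl | exact absurd e (by assumption) | exact absurd e.symm (by assumption)

/-- commutation when the first label is shared -/
theorem r_comm_aux {U U' : Set X} (hU : Loc U) (hU' : Loc U') {a b c g m n : Pt ι}
    (h : Rb a b c) (h' : Rb g m n)
    (hm : m.2 ≠ a.2 ∧ m.2 ≠ b.2 ∧ m.2 ≠ c.2) (hn : n.2 ≠ a.2 ∧ n.2 ≠ b.2 ∧ n.2 ≠ c.2)
    (hg : g.2 = a.2) (hd : ∀ x ∈ U', ∀ y ∈ U, x ⋆ g ≠ y ⋆ a) :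
    Commute (P.r U a b c) (P.r U' g m n) := by
  have e : g.add (a.1 - g.1) = a := Prod.ext (by simp) hg
  have h2 := h'.add (a.1 - g.1)
  rw [← P.r_reb hι hU' h' (a.1 - g.1)]
  have hdis : Disjoint U (sh (a.1 - g.1) U') := Set.disjoint_left.2 fun y hy hy' =>
    hd _ hy' y hy (by rw [← star_add, e])
  obtain ⟨l, hl, hl'⟩ := h.exists_lam₂ hι h2 (by
    intro f hf k hk e'
    obtain ⟨a1, a2, a3⟩ := h
    obtain ⟨m1, m2, m3⟩ := hm
    obtain ⟨n1, n2, n3⟩ := hn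
    rw [e] at hk
    simp only [List.mem_cons, List.not_mem_nil, or_false] at hf hk
    rcases hf with rfl | rfl | rfl <;> rcases hk with rfl | rfl | rfl <;>
      first | rfl | exact absurd e' (by assumption) | exact absurd e'.symm (by assumption))
  rw [P.r_eq hU l (hl _ (by simp)) (hl _ (by simp)) (hl _ (by simp)),
    P.r_eq (hU'.sh _) l (hl' _ (by simp)) (hl' _ (by simp)) (hl' _ (by simp))]
  exact (P.orth hU (hU'.sh _) hdis _ _).conj _

/-- commutation when at most one label is shared -/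
theorem r_comm_one {U U' : Set X} (hU : Loc U) (hU' : Loc U') {a b c g m n : Pt ι}
    (h : Rb a b c) (h' : Rb g m n)
    (hm : m.2 ≠ a.2 ∧ m.2 ≠ b.2 ∧ m.2 ≠ c.2) (hn : n.2 ≠ a.2 ∧ n.2 ≠ b.2 ∧ n.2 ≠ c.2)
    (hd : ∀ x ∈ U', x ⋆ g ∉ (⟨U, a, b, c⟩ : Tri X ι).supp) :
    Commute (P.r U a b c) (P.r U' g m n) := by
  by_cases h1 : g.2 = a.2
  · exact P.r_comm_aux hι hU hU' h h' hm hn h1 fun x hx y hy e =>
      hd x hx ⟨y, hy, _, Tri.a_mem _, e⟩
  by_cases h2 : g.2 = b.2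
  · rw [P.r_rot hι hU h]
    exact P.r_comm_aux hι hU hU' (D3.rot h) h' ⟨hm.2.1, hm.2.2, hm.1⟩ ⟨hn.2.1, hn.2.2, hn.1⟩ h2
      fun x hx y hy e => hd x hx ⟨y, hy, _, Tri.b_mem _, e⟩
  by_cases h3 : g.2 = c.2
  · rw [P.r_rot hι hU h, P.r_rot hι hU (D3.rot h)]
    exact P.r_comm_aux hι hU hU' (D3.rot (D3.rot h)) h' ⟨hm.2.2, hm.1, hm.2.1⟩
      ⟨hn.2.2, hn.1, hn.2.1⟩ h3 fun x hx y hy e => hd x hx ⟨y, hy, _, Tri.c_mem _, e⟩
  obtain ⟨l, hl, hl'⟩ := h.exists_lam₂ hι h' (by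
    intro f hf k hk e'
    obtain ⟨m1, m2, m3⟩ := hm
    obtain ⟨n1, n2, n3⟩ := hn
    simp only [List.mem_cons, List.not_mem_nil, or_false] at hf hk
    rcases hf with rfl | rfl | rfl <;> rcases hk with rfl | rfl | rfl <;>
      exact absurd e'.symm (by assumption))
  rw [P.r_eq hU l (hl _ (by simp)) (hl _ (by simp)) (hl _ (by simp)),
    P.r_eq hU' l (hl' _ (by simp)) (hl' _ (by simp)) (hl' _ (by simp))]
  exact (P.Φ_comm hU hU' (AA.isSys.commute ⟨h1, h2, h3⟩ hm hn)).conj _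

theorem r_conj_one_aux [Good X] {U U' : Set X} (hU : Loc U) (hU' : Loc U') (hne : U.Nonempty)
    {a b c m f f' n : Pt ι} (h : Rb a b c) (h' : Rb m f n)
    (hm : m.2 ≠ a.2 ∧ m.2 ≠ b.2 ∧ m.2 ≠ c.2) (hn : n.2 ≠ a.2 ∧ n.2 ≠ b.2 ∧ n.2 ≠ c.2)
    (hf : ∀ x ∈ U, ∃ y ∈ U', x ⋆ f = y ⋆ a ∧ x ⋆ f' = y ⋆ b) :
    P.r U' a b c * P.r U m f n * (P.r U' a b c)⁻¹ = P.r U m f' n := by
  obtain ⟨x₀, hx₀⟩ := hne
  obtain ⟨y₀, -, h0, h0'⟩ := hf x₀ hx₀
  have e : a.add (f.1 - a.1) = f := Prod.ext (by simp) (star_eq_snd h0).symm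
  have hy : ∀ {x y : X}, x ⋆ f = y ⋆ a → y = (f.1 - a.1) +ᵥ x := by
    intro x y hxy
    rw [← e, star_add] at hxy
    exact (AddAction.injective a.1 (star_eq_fst hxy)).symm
  have e' : f' = b.add (f.1 - a.1) := star_inj (x := x₀) (by rw [h0', star_add, ← hy h0])
  have hsub : U ⊆ sh (f.1 - a.1) U' := fun x hx => by
    obtain ⟨y, hyU, h1, -⟩ := hf x hx
    rw [mem_sh, ← hy h1]; exact hyU
  have h2 := h.add (f.1 - a.1)
  have h3 : D3 (a.add (f.1 - a.1)) (b.add (f.1 - a.1)) (c.add (f.1 - a.1)) :=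
    D3.of_map (f := Prod.snd) h2
  have fx : ∀ p : Pt ι, p.2 ≠ a.2 ∧ p.2 ≠ b.2 ∧ p.2 ≠ c.2 →
      c3 (a.add (f.1 - a.1)) (b.add (f.1 - a.1)) (c.add (f.1 - a.1)) p = p := fun p hp =>
    c3_other (ne_of_apply_ne Prod.snd hp.1) (ne_of_apply_ne Prod.snd hp.2.1)
      (ne_of_apply_ne Prod.snd hp.2.2)
  rw [← P.r_reb hι hU' h (f.1 - a.1), P.r_conj hι hU (hU'.sh _) hsub h2 h', fx m hm, fx n hn, e']
  · congr 1
    have := c3_fst h3
    rwa [e] at this ⊢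
  · intro p hp k hk e''
    obtain ⟨a1, a2, a3⟩ := h
    obtain ⟨m1, m2, m3⟩ := hm
    obtain ⟨n1, n2, n3⟩ := hn
    rw [← e] at hk
    simp only [List.mem_cons, List.not_mem_nil, or_false] at hp hk
    rcases hp with rfl | rfl | rfl <;> rcases hk with rfl | rfl | rfl <;>
      first | rfl | exact absurd e'' (by assumption) | exact absurd e''.symm (by assumption)

/-- rainbow lifts with disjoint supports commute -/
theorem r_comm {U U' : Set X} (hU : Loc U) (hU' : Loc U') {a b c a' b' c' : Pt ι}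
    (h : Rb a b c) (h' : Rb a' b' c')
    (hd : Disjoint (Tri.supp ⟨U, a, b, c⟩) (Tri.supp ⟨U', a', b', c'⟩)) :
    Commute (P.r U a b c) (P.r U' a' b' c') := by
  obtain ⟨m, hm⟩ := fresh hι [a.2, b.2, c.2, a'.2, b'.2, c'.2] (by simp)
  obtain ⟨k, hk⟩ := fresh hι [a.2, b.2, c.2, a'.2, b'.2, c'.2, m] (by simp)
  obtain ⟨n, hn⟩ := fresh hι [a.2, b.2, c.2, a'.2, b'.2, c'.2, m, k] (by simp)
  simp only [List.mem_cons, List.not_mem_nil, or_false, not_or] at hm hk hn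
  obtain ⟨m1, m2, m3, m4, m5, m6⟩ := hm
  obtain ⟨k1, k2, k3, k4, k5, k6, k7⟩ := hk
  obtain ⟨n1, n2, n3, n4, n5, n6, n7, n8⟩ := hn
  have hd' : ∀ g ∈ (⟨U', a', b', c'⟩ : Tri X ι).pts, ∀ x ∈ U',
      x ⋆ g ∉ (⟨U, a, b, c⟩ : Tri X ι).supp := fun g hg x hx hω =>
    Set.disjoint_left.1 hd hω (star_mem_sup hx hg)
  have r1 : Rb a' ((0 : V), m) ((0 : V), k) := ⟨Ne.symm m4, Ne.symm k4, Ne.symm k7⟩
  have r2 : Rb ((0 : V), k) c' ((0 : V), n) := ⟨k6, Ne.symm n8, Ne.symm n6⟩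
  have r3 : Rb ((0 : V), m) b' ((0 : V), n) := ⟨m5, Ne.symm n7, Ne.symm n5⟩
  have r4 : Rb c' a' ((0 : V), m) := ⟨h'.2.1.symm, Ne.symm m6, Ne.symm m4⟩
  have c1 := P.r_comm_one hι hU hU' h r1 ⟨m1, m2, m3⟩ ⟨k1, k2, k3⟩ (hd' _ (Tri.a_mem _))
  have c2 := P.r_comm_one hι hU hU' h (D3.rot r2) ⟨n1, n2, n3⟩ ⟨k1, k2, k3⟩ (hd' _ (Tri.c_mem _))
  have c3 := P.r_comm_one hι hU hU' h (D3.rot r3) ⟨n1, n2, n3⟩ ⟨m1, m2, m3⟩ (hd' _ (Tri.b_mem _))
  rw [← P.r_rot hι hU' r2] at c2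
  rw [← P.r_rot hι hU' r3] at c3
  have e1 := P.r_swap_in hι hU' r1 r2 ⟨h'.2.1, Ne.symm n4⟩ ⟨m6, Ne.symm n7⟩
  have e2 := P.r_swap_in hι hU' r4 r3 ⟨h'.2.2.symm, Ne.symm n6⟩ ⟨h'.1, Ne.symm n4⟩
  rw [← P.r_rot hι hU' (D3.rot (D3.rot h')), ← e2, P.r_rot hι hU' r4, ← e1]
  exact (c3.mul_right ((c2.mul_right c1).mul_right c2.inv_right)).mul_right c3.inv_right

/-- conjugation of a lift sharing at most one label -/
theorem r_conj_one [Good X] {U U' : Set X} (hU : Loc U) (hU' : Loc U') {a b c m f f' n : Pt ι}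
    (h : Rb a b c) (h' : Rb m f n) (h'' : Rb m f' n)
    (hm : m.2 ≠ a.2 ∧ m.2 ≠ b.2 ∧ m.2 ≠ c.2) (hn : n.2 ≠ a.2 ∧ n.2 ≠ b.2 ∧ n.2 ≠ c.2)
    (hf : ∀ x ∈ U, cyc ⟨U', a, b, c⟩ (x ⋆ f) = x ⋆ f') :
    P.r U' a b c * P.r U m f n * (P.r U' a b c)⁻¹ = P.r U m f' n := by
  rcases U.eq_empty_or_nonempty with rfl | hne
  · rw [P.r_empty hι h', P.r_empty hι h'', mul_one, mul_inv_cancel]
  by_cases hff : f' = f
  · subst hff
    have := P.r_comm_one hι hU' hU h (D3.rot h') hn hm fun x hx hω => by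
      obtain ⟨y, hy, g, hg, e⟩ := hω
      have h1 := hf x hx
      rw [e] at h1
      rcases Tri.mem_pts.1 hg with rfl | rfl | rfl
      · rw [cyc_a (h.ok U') hy] at h1
        exact h.1 (star_eq_snd h1).symm
      · rw [cyc_b (h.ok U') hy] at h1
        exact h.2.2 (star_eq_snd h1).symm
      · rw [cyc_c (h.ok U') hy] at h1
        exact h.2.1 (star_eq_snd h1)
    rw [← P.r_rot hι hU h'] at this
    rw [this.eq, mul_inv_cancel_right]
  · have key : ∀ x ∈ U, ∃ y ∈ U', (x ⋆ f = y ⋆ a ∧ x ⋆ f' = y ⋆ b) ∨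
        (x ⋆ f = y ⋆ b ∧ x ⋆ f' = y ⋆ c) ∨ (x ⋆ f = y ⋆ c ∧ x ⋆ f' = y ⋆ a) := by
      intro x hx
      have h1 := hf x hx
      by_cases hω : x ⋆ f ∈ (⟨U', a, b, c⟩ : Tri X ι).supp
      · obtain ⟨y, hy, g, hg, e⟩ := hω
        refine ⟨y, hy, ?_⟩
        rw [e] at h1
        rcases Tri.mem_pts.1 hg with rfl | rfl | rfl
        · rw [cyc_a (h.ok U') hy] at h1
          exact Or.inl ⟨e, h1.symm⟩
        · rw [cyc_b (h.ok U') hy] at h1
          exact Or.inr (Or.inl ⟨e, h1.symm⟩)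
        · rw [cyc_c (h.ok U') hy] at h1
          exact Or.inr (Or.inr ⟨e, h1.symm⟩)
      · rw [cyc_fix _ hω] at h1
        exact absurd (star_inj h1).symm hff
    obtain ⟨x₀, hx₀⟩ := id hne
    obtain ⟨y₀, -, h0 | h0 | h0⟩ := key x₀ hx₀
    · have e0 := star_eq_snd h0.1
      refine P.r_conj_one_aux hι hU hU' hne h h' hm hn fun x hx => ?_
      obtain ⟨y, hy, h1 | h1 | h1⟩ := key x hx
      · exact ⟨y, hy, h1⟩
      · exact absurd (e0.symm.trans (star_eq_snd h1.1)) h.1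
      · exact absurd (e0.symm.trans (star_eq_snd h1.1)) h.2.1
    · have e0 := star_eq_snd h0.1
      rw [P.r_rot hι hU' h]
      refine P.r_conj_one_aux hι hU hU' hne (D3.rot h) h' ⟨hm.2.1, hm.2.2, hm.1⟩
        ⟨hn.2.1, hn.2.2, hn.1⟩ fun x hx => ?_
      obtain ⟨y, hy, h1 | h1 | h1⟩ := key x hx
      · exact absurd (e0.symm.trans (star_eq_snd h1.1)) h.1.symm
      · exact ⟨y, hy, h1⟩
      · exact absurd (e0.symm.trans (star_eq_snd h1.1)) h.2.2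
    · have e0 := star_eq_snd h0.1
      rw [P.r_rot hι hU' h, P.r_rot hι hU' (D3.rot h)]
      refine P.r_conj_one_aux hι hU hU' hne (D3.rot (D3.rot h)) h' ⟨hm.2.2, hm.1, hm.2.1⟩
        ⟨hn.2.2, hn.1, hn.2.1⟩ fun x hx => ?_
      obtain ⟨y, hy, h1 | h1 | h1⟩ := key x hx
      · exact absurd (e0.symm.trans (star_eq_snd h1.1)) h.2.1.symm
      · exact absurd (e0.symm.trans (star_eq_snd h1.1)) h.2.2.symm
      · exact ⟨y, hy, h1⟩

theorem r_gen : Subgroup.closure {g | ∃ (U : Set X) (a b c : Pt ι), Loc U ∧ Rb a b c ∧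
    g = P.r U a b c} = ⊤ := by
  rw [eq_top_iff, ← P.gen]
  refine Subgroup.closure_mono ?_
  rintro _ ⟨l, U, i, j, k, hU, hd, rfl⟩
  exact ⟨U, (l.1 i, i), (l.1 j, j), (l.1 k, k), hU, hd, 
    (P.r_eq hU (a := (l.1 i, i)) (b := (l.1 j, j)) (c := (l.1 k, k)) l rfl rfl rfl).symm⟩

end Phi

end Crest.Agent.R189
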