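import Crest.Agent.R189.Cell
import Crest.Agent.R189.OneD

/-! # Row 189: the hierarchy is forced; all tile observables commute -/

set_option autoImplicit false
set_option linter.unusedSectionVars false
set_option linter.constructorNameAsVariable false
set_option linter.unusedVariables false

namespace Crest.Agent.R189
open QL

variable {Q : Type} [QL Q] {o : V → Obs Q Tile} {n : ℕ} {κ : Q}

theorem QL.Cover.prod {I J : Type} {a : I → Q} {b : J → Q} (ha : Cover ⊤ a) (hb : Cover ⊤ b)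
    (h : ∀ i j, C (a i) (b j)) : Cover ⊤ (fun p : I × J => meet (a p.1) (b p.2)) where
  fin := by have := ha.fin; have := hb.fin; infer_instance
  le _ := le_top
  comm p q := C_meet (h _ _) (C_meet_right (h _ _) (ha.comm _ _) (h _ _))
    (C_meet_right (h _ _) (C_symm (h _ _)) (hb.comm _ _))
  lub g hg := ha.lub g (fun i => hb.le_of le_top (h i) (fun j => hg (i, j)))

theorem meet_ev_congr {α β : Type} {a : Obs Q α} {b : Obs Q β} {p : α → Prop} {q : β → Prop}
    (h1 : C κ (a.ev p)) (h2 : C κ (b.ev q)) (h : ∀ z, z ≤ κ → (Frc z a p ↔ Frc z b q)) :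
    meet κ (a.ev p) = meet κ (b.ev q) :=
  le_antisymm (le_meet h2 (meet_le_left h1) (Frc.iff_le_ev.1
      ((h _ (meet_le_left h1)).1 (Frc.iff_le_ev.2 (meet_le_right h1)))))
    (le_meet h1 (meet_le_left h2) (Frc.iff_le_ev.1
      ((h _ (meet_le_left h2)).2 (Frc.iff_le_ev.2 (meet_le_right h2)))))

theorem Obs.ev_and {α : Type} (a : Obs Q α) (p q : α → Prop) :
    a.ev (fun x => p x ∧ q x) = meet (a.ev p) (a.ev q) :=
  le_antisymm (le_meet (a.C_ev_ev p q) (a.ev_le (fun _ h => a.le_ev h.1))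
      (a.ev_le (fun _ h => a.le_ev h.2)))
    (Frc.iff_le_ev.1 ((Frc.iff_le_ev.2 (meet_le_left (a.C_ev_ev p q))).and
      (Frc.iff_le_ev.2 (meet_le_right (a.C_ev_ev p q)))))

theorem Obs.C_ev_and {α : Type} (a : Obs Q α) {p q : α → Prop} (h1 : C κ (a.ev p))
    (h2 : C κ (a.ev q)) : C κ (a.ev (fun x => p x ∧ q x)) := by
  rw [a.ev_and]; exact C_meet_right (a.C_ev_ev p q) h1 h2

theorem exists_site (n : ℕ) (a : ℤ) : ∃ x p : ℤ, 0 ≤ p ∧ p ≤ n + 1 ∧ a = site n x p := by
  refine ⟨a / (n + 2), a % (n + 2), Int.emod_nonneg _ (by omega), ?_, ?_⟩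
  · have := Int.emod_lt_of_pos a (show (0 : ℤ) < n + 2 by omega); omega
  · unfold site; rw [Int.mul_ediv_add_emod]

theorem exists_site' (n : ℕ) (g a : ℤ) : ∃ x p : ℤ, 0 ≤ p ∧ p ≤ n + 2 ∧ a = g + site (n + 1) x p := by
  obtain ⟨x, p, h1, h2, h3⟩ := exists_site (n + 1) (a - g)
  exact ⟨x, p, h1, by push_cast at h2; omega, by omega⟩

theorem Hc.tr (h : Hc κ o n) : Hc κ (trO o) n := by
  intro x y i P hi
  obtain ⟨h1, h2⟩ := h y x i (fun c => P c.tr) hi
  unfold trO
  rw [Obs.ev_map, Obs.ev_map]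
  exact ⟨h2, h1⟩

/-- the class of the column `x` as an observable below `κ` -/
noncomputable def hObs (hc : Hc κ o n) (x : ℤ) : Obs (Below κ) Cl :=
  ((o (site n x 1, site n 0 1)).map (fun t => t.E.a.par.H)).res κ
    (fun a => (hc x 0 1 (fun c => c.a.par.H = a) (Or.inr rfl)).1)

/-- the class of the row `y` as an observable below `κ` -/
noncomputable def vObs (hc : Hc κ o n) (y : ℤ) : Obs (Below κ) Cl :=
  ((o (site n 0 1, site n y 1)).map (fun t => t.E.a.par.V)).res κ
    (fun a => (hc 0 y 1 (fun c => c.a.par.V = a) (Or.inr rfl)).1)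

theorem frc_hObs (hc : Hc κ o n) {x : ℤ} {z : Below κ} {P : Cl → Prop} :
    Frc z (hObs hc x) P ↔ FH o n z.1 x P := by
  rw [hObs, Obs.frc_res, Obs.frc_map]; rfl

theorem frc_vObs (hc : Hc κ o n) {y : ℤ} {z : Below κ} {P : Cl → Prop} :
    Frc z (vObs hc y) P ↔ FV o n z.1 y P := by
  rw [vObs, Obs.frc_res, Obs.frc_map]; rfl

theorem C_hv (hT : TObs o) (hn : 3 ≤ n) (hL : Lev κ o n) (hc : Hc κ o n) (x y : ℤ) (a b : Cl) :
    C ((hObs hc x).e a) ((vObs hc y).e b) := by
  have h1 := (hc x y 1 (fun c => c.a.par.H = a) (Or.inr rfl)).1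
  have h2 := (hc x y 1 (fun c => c.a.par.V = b) (Or.inr rfl)).1
  have e1 : ((hObs hc x).e a).1 = meet κ ((o (site n x 1, site n y 1)).ev (fun t => t.E.a.par.H = a)) :=
    meet_ev_congr (hc x 0 1 (fun c => c.a.par.H = a) (Or.inr rfl)).1 h1
      (fun z hz => (fh_iff hT hn (hL.of_le hz) (P := (· = a))).symm)
  have e2 : ((vObs hc y).e b).1 = meet κ ((o (site n x 1, site n y 1)).ev (fun t => t.E.a.par.V = b)) :=
    meet_ev_congr (hc 0 y 1 (fun c => c.a.par.V = b) (Or.inr rfl)).1 h2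
      (fun z hz => (fv_iff hT hn (hL.of_le hz) (P := (· = b))).symm)
  rw [Below.C_def, e1, e2]
  exact C_meet h1 (C_of_ge (meet_le_left h2)) (C_meet_right h2 (C_symm h1) (Obs.C_ev_ev _ _ _))

theorem oneDHyp_of (hT : TObs o) (hn : 3 ≤ n) (hL : Lev κ o n) {h v : ℤ → Obs (Below κ) Cl}
    (h0 : ∀ x y a b, C ((h x).e a) ((v y).e b))
    (h1 : ∀ x (z : Below κ) P, Frc z (h x) P ↔ FH o n z.1 x P)
    (h2 : ∀ x (z : Below κ) P, Frc z (v x) P ↔ FV o n z.1 x P) : OneDHyp n h v where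
  hv := h0
  fwd x z P a := (h1 _ _ _).2 (fh_fwd hT hn (hL.of_le z.2) ((h1 _ _ _).1 a))
  bwd x z P a := (h1 _ _ _).2 (fh_bwd hT hn (hL.of_le z.2) ((h1 _ _ _).1 a))
  key z x y i a b c d e := (h1 _ _ _).2 (cell_key hT hn (hL.of_le z.2) (y := y) a b ((h1 _ _ _).1 c)
    (fun s f g => (h1 _ _ _).1 (d s f g))
    (e.imp (h2 _ _ _).1 (fun e s f g => (h2 _ _ _).1 (e s f g))))
  ovf z x y a b := Below.le_def.2 <| cell_over hT hn (hL.of_le z.2) (x := x) (y := y)
    (fun s f g => (h1 _ _ _).1 (a s f g))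
    (b.imp (h2 _ _ _).1 (fun e s f g => (h2 _ _ _).1 (e s f g)))

theorem oneD_orth {Q : Type} [QL Q] {h : ℤ → Obs Q Cl}
    (H : ∀ g X i : ℤ, 0 ≤ i → i ≤ n + 2 →
      Frc ((h g).e .z) (h (g + site (n + 1) X i)) (· = cls (n + 1) i))
    {g g' : Fin (n + 3)} (hg : g ≠ g') : (h (g : ℕ)).e .z ≤ neg ((h (g' : ℕ)).e .z) := by
  obtain ⟨X, i, h1, h2, h3⟩ := exists_site' n (g : ℕ) (g' : ℕ)
  rw [h3]
  refine H _ X i h1 h2 _ (fun e => hg ?_)
  have e1 : i = 0 := cls_eq_z.1 e.symm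
  have a := g.2
  have b := g'.2
  rw [e1, site] at h3
  push_cast at h3
  have : X = 0 := by
    rcases lt_trichotomy X 0 with c | c | c
    · nlinarith
    · exact c
    · nlinarith
  rw [this] at h3
  exact Fin.ext (by omega)

theorem oneD_back {Q : Type} [QL Q] {h v : ℤ → Obs Q Cl} (H0 : OneDHyp n h v)
    (H : ∀ g X i : ℤ, 0 ≤ i → i ≤ n + 2 →
      Frc ((h g).e .z) (h (g + site (n + 1) X i)) (· = cls (n + 1) i))
    {z : Q} {g X i : ℤ} (hi : i = 0 ∨ i = 1)
    (hz : Frc z (h (g + site (n + 1) X i)) (· = cls (n + 1) i)) : z ≤ (h g).e .z := by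
  have a : Frc z (h (g + site (n + 1) X 0)) (· = .z) := by
    rcases hi with rfl | rfl
    · exact hz
    · rw [show g + site (n + 1) X 1 = g + site (n + 1) X 0 + 1 by unfold site; ring] at hz
      refine (H0.bwd _ _ _ hz).mono ?_
      rintro c ⟨_, rfl, e⟩
      rw [cls_eq_f.2 rfl] at e
      revert e; cases c <;> decide
  have b := H (g + site (n + 1) X 0) (-X) 0 le_rfl (by omega)
  rw [show g + site (n + 1) X 0 + site (n + 1) (-X) 0 = g by unfold site; ring] at b
  exact Frc.iff_le_e.1 (b.of_le (Frc.iff_le_e.1 a))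

theorem step (hT : TObs o) (hn : 3 ≤ n) (hL : Lev κ o n) (hc : Hc κ o n) :
    ∃ k : Fin (n + 3) × Fin (n + 3) → Q, Cover κ k ∧ (∀ g g', g ≠ g' → k g ≤ neg (k g')) ∧
      ∀ g, Forced o n (k g) ((g.1 : ℕ), (g.2 : ℕ)) ∧
        ∀ (z : Q) (X Y i : ℤ), i = 0 ∨ i = 1 → z ≤ κ →
          FP o n z ((g.1 : ℕ) + site (n + 1) X i) ((g.2 : ℕ) + site (n + 1) Y i)
            (fun r => r.H = cls (n + 1) i ∧ r.V = cls (n + 1) i) → z ≤ k g := by
  have hv := C_hv hT hn hL hc
  have H1 : OneDHyp n (hObs hc) (vObs hc) :=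
    oneDHyp_of hT hn hL hv (fun _ _ _ => frc_hObs hc) (fun _ _ _ => frc_vObs hc)
  have H2 : OneDHyp n (vObs hc) (hObs hc) :=
    oneDHyp_of hT.tr hn hL.tr (fun x y a b => C_symm (hv y x b a))
      (fun _ z _ => (frc_vObs hc).trans (fh_tr hT hn (hL.of_le z.2)).symm)
      (fun _ z _ => (frc_hObs hc).trans (fv_tr hT hn (hL.of_le z.2)).symm)
  obtain ⟨A1, c1⟩ := oneD hn H1 H2
  obtain ⟨A2, c2⟩ := oneD hn H2 H1
  refine ⟨fun g => (meet ((hObs hc (g.1 : ℕ)).e .z) ((vObs hc (g.2 : ℕ)).e .z)).1,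
    Below.cover_val (c1.prod c2 (fun i j => hv _ _ _ _)), fun g g' hg => ?_, fun g => ⟨⟨?_, ?_⟩, ?_⟩⟩
  · refine Below.le_neg_iff.1 ?_
    by_cases e : g.1 = g'.1
    · exact (meet_le_right (hv _ _ _ _)).trans ((oneD_orth A2 (fun e' => hg (Prod.ext e e'))).trans
        (neg_anti (meet_le_right (hv _ _ _ _))))
    · exact (meet_le_left (hv _ _ _ _)).trans ((oneD_orth A1 e).trans
        (neg_anti (meet_le_left (hv _ _ _ _))))
  · exact fun X i a b => (frc_hObs hc).1 ((A1 _ X i a b).of_le (meet_le_left (hv _ _ _ _)))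
  · exact fun X i a b => (frc_vObs hc).1 ((A2 _ X i a b).of_le (meet_le_right (hv _ _ _ _)))
  · intro z X Y i hi hz h
    exact le_meet (Q := Below κ) (c := ⟨z, hz⟩) (hv _ _ _ _)
      (oneD_back H1 A1 hi ((frc_hObs hc).2 ((fh_iff hT hn (hL.of_le hz)).1 (h.mono (fun _ a => a.1)))))
      (oneD_back H2 A2 hi ((frc_vObs hc).2 ((fv_iff hT hn (hL.of_le hz)).1 (h.mono (fun _ a => a.2)))))

theorem forced_E {z : Q} {g : V} (hT : TObs o) (hn : 3 ≤ n) (hL : Lev z o n) (h : Forced o n z g)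
    (a y q : ℤ) (hq : 1 ≤ q) (hq' : q ≤ n + 1) :
    ∃ c, Frc z (o (a, site n y q)) (fun t => t.E = c) := by
  obtain ⟨x, p, h1, h2, rfl⟩ := exists_site n a
  obtain ⟨X, i, h3, h4, rfl⟩ := exists_site' n g.1 x
  obtain ⟨Y, j, h5, h6, rfl⟩ := exists_site' n g.2 y
  exact ⟨_, col_model hT hn hL h X Y i j p q h3 h4 h5 h6 h1 h2 hq hq'⟩

theorem central_E (hT : TObs o) (hn : 3 ≤ n) (hL : Lev κ o n) (hc : Hc κ o n) (a b : ℤ) (c : Col) :
    C κ ((o (a, b)).ev (fun t => t.E = c)) := by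
  obtain ⟨y, q, h1, h2, rfl⟩ := exists_site n b
  rcases eq_or_lt_of_le h1 with rfl | h1
  · obtain ⟨x, p, h3, h4, rfl⟩ := exists_site n a
    exact Obs.C_transport (hc x y 0 (· = c) (Or.inl rfl)).1
      (fun z hz => (pass_row hT (hL.of_le hz) h3 h4 (P := (· = c))).2)
      (fun z hz => (pass_row hT (hL.of_le hz) h3 h4 (P := fun k => ¬ k = c)).2)
  · obtain ⟨k, h3, -, h4⟩ := step hT hn hL hc
    refine (h3.C_of_decide (fun g => ?_)).1
    obtain ⟨c', h5⟩ := forced_E hT hn (hL.of_le (h3.le g)) (h4 g).1 a y q h1 h2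
    by_cases e : c' = c
    · exact Or.inl (Frc.iff_le_ev.1 (e ▸ h5))
    · exact Or.inr (Frc.not_iff_le.1 (h5.mono (fun t a b => e (a.symm.trans b))))

theorem tile_ev (a : Obs Q Tile) (t : Tile) :
    a.e t = a.ev (fun s => (s.W = t.W ∧ s.E = t.E) ∧ (s.S = t.S ∧ s.N = t.N)) := by
  rw [← a.ev_eq]
  congr 1
  funext s
  exact propext ⟨fun h => by simp [h], fun h => Tile.ext h.1.1 h.1.2 h.2.1 h.2.2⟩

theorem central (hT : TObs o) (hn : 3 ≤ n) (hL : Lev κ o n) (hc : Hc κ o n) (u : V) (t : Tile) :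
    C κ ((o u).e t) := by
  have hE := central_E hT hn hL hc
  have hN : ∀ a b c, C κ ((o (a, b)).ev (fun t => t.N = c)) := by
    intro a b c
    have := central_E hT.tr hn hL.tr hc.tr b a c.tr
    unfold trO at this
    rw [Obs.ev_map] at this
    have e : (fun t : Tile => t.N = c) = (fun t => t.tr.E = c.tr) :=
      funext (fun _ => propext ⟨fun h => congrArg Col.tr h, fun h => Col.tr_inj h⟩)
    rw [e]; exact this
  obtain ⟨a, b⟩ := u
  rw [tile_ev]
  refine Obs.C_ev_and _ (Obs.C_ev_and _ ?_ (hE a b _)) (Obs.C_ev_and _ ?_ (hN a b _))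
  · have := hE (a - 1) b t.W
    rwa [Obs.ev_congr (o' := o (a - 1 + 1, b)) (p' := fun s => s.W = t.W)
      (fun z => ⟨hT.right (P := (· = t.W)), hT.left (P := (· = t.W))⟩), sub_add_cancel] at this
  · have := hN a (b - 1) t.S
    rwa [Obs.ev_congr (o' := o (a, b - 1 + 1)) (p' := fun s => s.S = t.S)
      (fun z => ⟨hT.up (P := (· = t.S)), hT.down (P := (· = t.S))⟩), sub_add_cancel] at this

theorem det_E {z : Q} {g : V} (hT : TObs o) (hn : 3 ≤ n) (hL : Lev z o n) (h : Forced o n z g)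
    {a b x y : ℤ} (h1 : site n (x - 1) 0 ≤ a) (h2 : a < site n (x + 1) 0)
    (h3 : site n (y - 1) 0 < b) (h4 : b < site n (y + 1) 0) {t : Tile}
    (ht : Frc z (o (site n x 0, site n y 0)) (· = t)) :
    ∃ c, Frc z (o (a, b)) (fun t => t.E = c) := by
  rcases lt_trichotomy b (site n y 0) with e | rfl | e
  · have := forced_E hT hn hL h a (y - 1) (b - site n (y - 1) 0) (by omega)
      (by unfold site at *; nlinarith)
    rwa [show site n (y - 1) (b - site n (y - 1) 0) = b by unfold site; ring] at this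
  · rcases lt_or_ge a (site n x 0) with e | e
    · refine ⟨t.W, ?_⟩
      have := (pass_row hT hL (x := x - 1) (y := y) (p := a - site n (x - 1) 0) (by omega)
        (by unfold site at *; nlinarith) (P := (· = t.W))).2
        ((pass_row_next hT hL (P := (· = t.W))).1
          (by rw [sub_add_cancel]; exact ht.mono (fun _ a => by rw [a])))
      rwa [show site n (x - 1) (a - site n (x - 1) 0) = a by unfold site; ring] at this
    · refine ⟨t.E, ?_⟩
      have := (pass_row hT hL (x := x) (y := y) (p := a - site n x 0) (by omega)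
        (by unfold site at *; nlinarith) (P := (· = t.E))).2 (ht.mono (fun _ a => by rw [a]))
      rwa [show site n x (a - site n x 0) = a by unfold site; ring] at this
  · have := forced_E hT hn hL h a y (b - site n y 0) (by omega) (by unfold site at *; nlinarith)
    rwa [show site n y (b - site n y 0) = b by unfold site; ring] at this

theorem det_tile {z : Q} {g : V} (hT : TObs o) (hn : 3 ≤ n) (hL : Lev z o n) (h : Forced o n z g)
    {a b x y : ℤ} (h1 : site n (x - 1) 0 < a) (h2 : a < site n (x + 1) 0)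
    (h3 : site n (y - 1) 0 < b) (h4 : b < site n (y + 1) 0) {t : Tile}
    (ht : Frc z (o (site n x 0, site n y 0)) (· = t)) : ∃ s, Frc z (o (a, b)) (· = s) := by
  have ht' : Frc z (trO o (site n y 0, site n x 0)) (· = t.tr) :=
    frc_trO.2 (ht.mono (fun _ a => by rw [a]))
  obtain ⟨cE, hE⟩ := det_E hT hn hL h h1.le h2 h3 h4 ht
  obtain ⟨cW, hW⟩ := det_E hT hn hL h (a := a - 1) (by omega) (by omega) h3 h4 ht
  obtain ⟨cN, hN⟩ := det_E hT.tr hn hL.tr (h.tr hT hn hL) h3.le h4 h1 h2 ht'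
  obtain ⟨cS, hS⟩ := det_E hT.tr hn hL.tr (h.tr hT hn hL) (a := b - 1) (by omega) (by omega) h1 h2 ht'
  have hW' := hT.right (P := (· = cW)) hW
  have hS' := hT.up (P := fun c => c.tr = cS) (frc_trO.1 hS)
  rw [sub_add_cancel] at hW' hS'
  refine ⟨⟨cW, cE, cS.tr, cN.tr⟩, ((hW'.and hE).and (hS'.and (frc_trO.1 hN))).mono ?_⟩
  rintro s ⟨⟨a1, a2⟩, a3, a4⟩
  exact Tile.ext a1 a2 (by rw [← a3, Col.tr_tr]) (by rw [← a4]; exact (Col.tr_tr _).symm)

theorem hc_der (hT : TObs o) (hn : 3 ≤ n) (hL : Lev ⊤ o n) {k : Q} {g : V} (h : Forced o n k g)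
    (h' : ∀ (z : Q) (X Y i : ℤ), i = 0 ∨ i = 1 → z ≤ ⊤ →
      FP o n z (g.1 + site (n + 1) X i) (g.2 + site (n + 1) Y i)
        (fun r => r.H = cls (n + 1) i ∧ r.V = cls (n + 1) i) → z ≤ k) :
    Hc k (der n g o) (n + 1) := by
  intro X Y i P hi
  set x := g.1 + site (n + 1) X i
  set y := g.2 + site (n + 1) Y i
  have e : k = (o (site n x 1, site n y 1)).ev
      (fun t => t.E.a.par.H = cls (n + 1) i ∧ t.E.a.par.V = cls (n + 1) i) := by
    refine le_antisymm (Frc.iff_le_ev.1 ?_) (h' _ X Y i hi le_top (Frc.iff_le_ev.2 le_rfl))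
    exact (h.HV hT hn (hL.of_le le_top) X Y i i (by omega) (by omega) (by omega) (by omega)).mono
      (fun _ a => a.2)
  have hJ := fun z : Q => (hL.J x y 1 1 le_rfl (by omega) le_rfl (by omega)).top (z := z)
  have s1 : ∀ w : ℤ, site n w 1 = site n w 0 + 1 := fun w => by unfold site; ring
  constructor
  · have e1 : k = (o (site n x 1, site n y 0)).ev
        (fun t => t.N.b.par.H = cls (n + 1) i ∧ t.N.b.par.V = cls (n + 1) i) := by
      rw [e]
      refine Obs.ev_congr (fun z => ⟨fun a => ?_, fun a => ?_⟩)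
      · refine hT.down (P := fun c => c.b.par.H = cls (n + 1) i ∧ c.b.par.V = cls (n + 1) i) ?_
        rw [← s1]
        exact a.mono₂ (hJ z) (fun t a b => by rw [b.1.2.2.1]; exact a)
      · have := hT.up (P := fun c => c.b.par.H = cls (n + 1) i ∧ c.b.par.V = cls (n + 1) i) a
        rw [← s1] at this
        exact this.mono₂ (hJ z) (fun t a b => by rw [b.1.2.2.1] at a; exact a)
    have e2 : (der n g o (site (n + 1) X i, site (n + 1) Y i)).ev (fun t => P t.E) =
        (o (site n x 1, site n y 0)).ev (fun t => P t.E) :=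
      Obs.ev_congr (fun z => (pass_row hT (hL.of_le le_top) (by omega) (by omega)).symm)
    rw [e2, e1]; exact Obs.C_ev_ev _ _ _
  · have e1 : k = (o (site n x 0, site n y 1)).ev
        (fun t => t.E.b.par.H = cls (n + 1) i ∧ t.E.b.par.V = cls (n + 1) i) := by
      rw [e]
      refine Obs.ev_congr (fun z => ⟨fun a => ?_, fun a => ?_⟩)
      · refine hT.left (P := fun c => c.b.par.H = cls (n + 1) i ∧ c.b.par.V = cls (n + 1) i) ?_
        rw [← s1]
        exact a.mono₂ (hJ z) (fun t a b => by rw [b.1.1]; exact a)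
      · have := hT.right (P := fun c => c.b.par.H = cls (n + 1) i ∧ c.b.par.V = cls (n + 1) i) a
        rw [← s1] at this
        exact this.mono₂ (hJ z) (fun t a b => by rw [b.1.1] at a; exact a)
    have e2 : (der n g o (site (n + 1) X i, site (n + 1) Y i)).ev (fun t => P t.N) =
        (o (site n x 0, site n y 1)).ev (fun t => P t.N) :=
      Obs.ev_congr (fun z => (pass_col hT (hL.of_le le_top) (by omega) (by omega)).symm)
    rw [e2, e1]; exact Obs.C_ev_ev _ _ _

theorem TObs.res (hT : TObs o) (h : ∀ u t, C κ ((o u).e t)) :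
    TObs (fun u => (o u).res κ (h u)) :=
  TObs.of_frc (fun u => (Obs.frc_res _ _).2 (hT.ok u).top)
    (fun _ _ _ c a => (Obs.frc_res _ _).2 (hT.right (P := (· = c)) ((Obs.frc_res _ _).1 a)))
    (fun _ _ _ c a => (Obs.frc_res _ _).2 (hT.up (P := (· = c)) ((Obs.frc_res _ _).1 a)))

theorem Lev.res (hL : Lev κ o n) (h : ∀ u t, C κ ((o u).e t)) :
    Lev ⊤ (fun u => (o u).res κ (h u)) n :=
  ⟨fun x y p q a b c d => (Obs.frc_res _ _).2 (hL.J x y p q a b c d),
    fun x y p a b => (Obs.frc_res _ _).2 (hL.G x y p a b),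
    fun x y p a b => (Obs.frc_res _ _).2 (hL.L x y p a b)⟩

theorem exists_anchors (n : ℕ) (a a' : ℤ) : ∃ x x' : ℤ, site n (x - 1) 0 < a ∧ a < site n (x + 1) 0 ∧
    site n (x' - 1) 0 < a' ∧ a' < site n (x' + 1) 0 ∧ 2 * (x - x').natAbs ≤ (a - a').natAbs := by
  wlog h : a ≤ a' generalizing a a'
  · obtain ⟨x, x', h1, h2, h3, h4, h5⟩ := this a' a (by omega)
    exact ⟨x', x, h3, h4, h1, h2, by omega⟩
  obtain ⟨x, p, h1, h2, rfl⟩ := exists_site n a
  obtain ⟨x', p', h3, h4, rfl⟩ := exists_site n a'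
  have hx : x ≤ x' := by
    by_contra hc
    unfold site at h
    nlinarith
  have key : ∀ w : ℤ, 0 ≤ w → 2 * w ≤ (n + 2) * w := fun w hw => by nlinarith
  by_cases e : x = x' ∨ p = 0
  · refine ⟨x, x', by unfold site; nlinarith, by unfold site; nlinarith, by unfold site; nlinarith,
      by unfold site; nlinarith, ?_⟩
    rcases e with rfl | rfl
    · simp
    · have := key (x' - x) (by omega)
      have e2 : site n x' p' - site n x 0 = (n + 2) * (x' - x) + p' := by unfold site; ring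
      omega
  · refine ⟨x + 1, x', by unfold site; rw [add_sub_cancel_right]; omega, by unfold site; nlinarith,
      by unfold site; nlinarith, by unfold site; nlinarith, ?_⟩
    have := key (x' - (x + 1)) (by omega)
    have e2 : site n x' p' - site n x p = (n + 2) * (x' - (x + 1)) + p' + (n + 2 - p) := by
      unfold site; ring
    omega

theorem quantum_aux (d : ℕ) : ∀ (Q : Type) [QL Q] (o : V → Obs Q Tile) (n : ℕ), TObs o → 3 ≤ n →
    Lev ⊤ o n → ∀ u v : V, (u.1 - v.1).natAbs + (u.2 - v.2).natAbs ≤ d → ∀ t s,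
      C ((o u).e t) ((o v).e s) := by
  induction d with
  | zero =>
    intro Q _ o n _ _ _ u v h t s
    have : u = v := Prod.ext (by omega) (by omega)
    subst this
    exact (o u).comm t s
  | succ d ih =>
    intro Q _ o n hT hn hL ⟨a, b⟩ ⟨a', b'⟩ h t s
    obtain ⟨k, h1, h2, h3⟩ := step hT hn hL (fun _ _ _ _ _ => ⟨C_top_left _, C_top_left _⟩)
    obtain ⟨x, x', x1, x2, x3, x4, x5⟩ := exists_anchors n a a'
    obtain ⟨y, y', y1, y2, y3, y4, y5⟩ := exists_anchors n b b'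
    have main : ∀ g, (C (k g) ((o (a, b)).e t) ∧ C (k g) ((o (a', b')).e s)) ∧
        C (meet (k g) ((o (a, b)).e t)) (meet (k g) ((o (a', b')).e s)) := by
      intro g
      set G : V := ((g.1 : ℕ), (g.2 : ℕ))
      have hT' := der_tobs hT hL G
      have hL' := der_lev hT hn (hL.of_le le_top) (h3 g).1
      have hc := central hT' (by omega) hL' (hc_der hT hn hL (h3 g).1 (h3 g).2)
      have hI := ih _ _ _ (hT'.res hc) (by omega) (hL'.res hc) (x - G.1, y - G.2) (x' - G.1, y' - G.2)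
        (by simp only at h ⊢; omega)
      have dec : ∀ {a b x y : ℤ}, site n (x - 1) 0 < a → a < site n (x + 1) 0 →
          site n (y - 1) 0 < b → b < site n (y + 1) 0 → ∀ t, C (k g) ((o (a, b)).e t) ∧
          ∀ w, (∀ t', C w (meet (k g) ((der n G o (x - G.1, y - G.2)).e t'))) →
            C w (meet (k g) ((o (a, b)).e t)) := by
        intro a b x y x1 x2 y1 y2 t
        refine ((der n G o (x - G.1, y - G.2)).cover.restrict le_top (hc _)).C_of_decide (fun t' => ?_)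
        have hle := meet_le_left (hc (x - G.1, y - G.2) t')
        obtain ⟨s, hs⟩ := det_tile hT hn (hL.of_le le_top)
          (⟨fun X i a b => Frc.of_le ((h3 g).1.hH X i a b) hle,
            fun X i a b => Frc.of_le ((h3 g).1.hV X i a b) hle⟩ : Forced o n _ G) x1 x2 y1 y2 (t := t')
          (by
            have := Frc.iff_le_e.2 (meet_le_right (hc (x - G.1, y - G.2) t'))
            simpa only [der, add_sub_cancel] using this)
        exact hs.decide t
      have d1 := dec x1 x2 y1 y2 t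
      have d2 := dec x3 x4 y3 y4 s
      exact ⟨⟨d1.1, d2.1⟩, d2.2 _ (fun t'' => C_symm (d1.2 _ (fun t' => C_symm (hI t' t''))))⟩
    let K : Obs Q (Fin (n + 3) × Fin (n + 3)) := ⟨k, h1.fin, fun {a b} => h2 a b, h1.lub⟩
    exact K.C_glue (fun g => (main g).1.1) (fun g => (main g).1.2) (fun g => (main g).2)

theorem quantum_tiles (hT : TObs o) (hn : 3 ≤ n) (hL : Lev ⊤ o n) (u v : V) (t s : Tile) :
    C ((o u).e t) ((o v).e s) := quantum_aux _ Q o n hT hn hL u v le_rfl t s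

theorem Tiling.tobs {ω : V → Tile} (hT : Tiling ω) : TObs (fun u => Obs.const (ω u)) where
  ok u := (frc_const _).2 (fun _ => hT.ok u)
  mH x y t t' e (a : ω _ = t) (b : ω _ = t') := e (by rw [← a, ← b, hT.mH])
  mV x y t t' e (a : ω _ = t) (b : ω _ = t') := e (by rw [← a, ← b, hT.mV])

theorem CLev.lev {ω : V → Tile} (hL : CLev ω n) (z : Prop) : Lev z (fun u => Obs.const (ω u)) n :=
  ⟨fun x y p q a b c d => (frc_const _).2 (fun _ => hL.J x y p q a b c d),
    fun x y p a b => (frc_const _).2 (fun _ => hL.G x y p a b),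
    fun x y p a b => (frc_const _).2 (fun _ => hL.L x y p a b)⟩

theorem Tiling.der {ω : V → Tile} (hT : Tiling ω) (hL : CLev ω n) (g : V) : Tiling (der n g ω) := by
  have := der_tobs hT.tobs (hL.lev ⊤) g
  refine ⟨fun u => hT.ok _, fun x y => ?_, fun x y => ?_⟩
  · by_contra e
    exact this.mH x y _ _ e rfl rfl
  · by_contra e
    exact this.mV x y _ _ e rfl rfl

/-- the classical step -/
theorem cstep {ω : V → Tile} (hT : Tiling ω) (hn : 3 ≤ n) (hL : CLev ω n) :
    ∃ g : V, CLev (der n g ω) (n + 1) ∧ ∀ X Y i j p q : ℤ, 0 ≤ i → i ≤ n + 2 → 0 ≤ j → j ≤ n + 2 →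
      0 ≤ p → p ≤ n + 1 → 1 ≤ q → q ≤ n + 1 →
      (ω (site n (g.1 + site (n + 1) X i) p, site n (g.2 + site (n + 1) Y j) q)).E =
        mcolH n p q i j := by
  obtain ⟨k, h1, -, h3⟩ := step hT.tobs hn (hL.lev ⊤) (fun _ _ _ _ _ => ⟨trivial, trivial⟩)
  obtain ⟨g, hg⟩ : ∃ g, k g := h1.lub (∃ g, k g) (fun g a => ⟨g, a⟩) trivial
  have h4 := der_lev hT.tobs hn (hL.lev _) (h3 g).1
  refine ⟨((g.1 : ℕ), (g.2 : ℕ)), ⟨fun x y p q a b c d => ?_, fun x y p a b => ?_,
    fun x y p a b => ?_⟩, fun X Y i j p q a b c d e f e' f' => ?_⟩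
  · have := (frc_const _).1 (h4.J x y p q a b c d) hg
    exact this
  · exact (frc_const _).1 (h4.G x y p a b) hg
  · exact (frc_const _).1 (h4.L x y p a b) hg
  · have := (frc_const _).1
      (col_model hT.tobs hn (hL.lev _) (h3 g).1 X Y i j p q a b c d e f e' f') hg
    exact this

end Crest.Agent.R189
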