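import Crest.Agent.R189.C3

/-! # Row 189: facts on alternating groups -/

set_option autoImplicit false
set_option linter.unusedSectionVars false

namespace Crest.Agent.R189
open Equiv
open scoped commutatorElement

section
variable {α : Type} [DecidableEq α]

theorem altOn_mono {S T : Set α} (h : S ⊆ T) : AltOn S ≤ AltOn T :=
  Subgroup.closure_mono (fun _ ⟨a, ha, b, hb, c, hc, e⟩ => ⟨a, h ha, b, h hb, c, h hc, e⟩)

theorem pairGrp_mono {Γ : Type} [Group Γ] (y : α → α → α → Γ) {S T : Set α} (h : S ⊆ T) :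
    PairGrp y S ≤ PairGrp y T :=
  Subgroup.closure_mono (fun _ ⟨a, ha, b, hb, c, hc, e⟩ => ⟨a, h ha, b, h hb, c, h hc, e⟩)

theorem mem_pairGrp {Γ : Type} [Group Γ] (y : α → α → α → Γ) {S : Set α} {a b c : α}
    (ha : a ∈ S) (hb : b ∈ S) (hc : c ∈ S) (h : D3 a b c) : (y a b c, c3 a b c) ∈ PairGrp y S :=
  Subgroup.subset_closure ⟨a, ha, b, hb, c, hc, h, rfl⟩

theorem SysA_altOn_eq_map (S : Finset α) :
    AltOn (S : Set α) = (alternatingGroup {x // x ∈ S}).map Perm.ofSubtype := by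
  apply le_antisymm
  · rw [AltOn, Subgroup.closure_le]
    rintro _ ⟨a, ha, b, hb, c, hc, rfl⟩
    by_cases h : D3 a b c
    · refine ⟨swap ⟨a, ha⟩ ⟨c, hc⟩ * swap ⟨a, ha⟩ ⟨b, hb⟩, ?_, ?_⟩
      · have h1 : (⟨a, ha⟩ : {x // x ∈ S}) ≠ ⟨c, hc⟩ := fun e => h.2.1 (congrArg Subtype.val e)
        have h2 : (⟨a, ha⟩ : {x // x ∈ S}) ≠ ⟨b, hb⟩ := fun e => h.1 (congrArg Subtype.val e)
        simp [Perm.mem_alternatingGroup, Perm.sign_swap h1, Perm.sign_swap h2]
      · rw [map_mul, Perm.ofSubtype_swap_eq, Perm.ofSubtype_swap_eq, c3, if_pos h]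
    · rw [c3_junk h]
      exact one_mem _
  · rw [← Perm.closure_three_cycles_eq_alternating, MonoidHom.map_closure, Subgroup.closure_le]
    rintro _ ⟨g, hg, rfl⟩
    have hg' : g.IsThreeCycle := hg
    obtain ⟨a, ha⟩ := hg'.isCycle.nonempty_support
    have h1 := hg'.nodup_iff_mem_support.2 ha
    have h2 : D3 (g a).1 (g (g a)).1 a.1 := by
      refine D3.map Subtype.val_injective (D3.rot ?_)
      simp only [List.nodup_cons, List.mem_cons, List.not_mem_nil, or_false, not_or] at h1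
      exact ⟨h1.1.1, h1.1.2, h1.2.1⟩
    have h3 : Perm.ofSubtype g = c3 (g a).1 (g (g a)).1 a.1 := by
      conv_lhs => rw [hg'.eq_swap_mul_swap_iff_mem_support.2 ha]
      rw [map_mul, Perm.ofSubtype_swap_eq, Perm.ofSubtype_swap_eq, c3, if_pos h2, swap_comm]
    rw [h3]
    exact c3_mem_altOn (g a).2 (g (g a)).2 a.2

theorem SysA_exists_ofSubtype {S : Finset α} {σ : Perm α} (h : σ ∈ SuppOn (S : Set α)) :
    ∃ τ : Perm {x // x ∈ S}, Perm.ofSubtype τ = σ :=
  ⟨σ.subtypePerm (fun x => SuppOn.mem_iff h x), Perm.ofSubtype_subtypePerm _ fun x hx => by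
    by_contra hS
    exact hx (h x hS)⟩

/-- the sign of permutations supported on a finite set -/
theorem exists_sgn (S : Finset α) : ∃ sg : Perm α → ℤˣ,
    (∀ σ ∈ SuppOn (S : Set α), ∀ τ ∈ SuppOn (S : Set α), sg (σ * τ) = sg σ * sg τ) ∧
    (∀ p ∈ S, ∀ q ∈ S, p ≠ q → sg (swap p q) = -1) ∧
    (∀ σ ∈ SuppOn (S : Set α), σ ∈ AltOn (S : Set α) ↔ sg σ = 1) := by
  have hinj : Function.Injective (Perm.ofSubtype : Perm {x // x ∈ S} → Perm α) :=
    Perm.ofSubtype_injective
  let sg : Perm α → ℤˣ := fun σ =>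
    Perm.sign (Function.invFun (Perm.ofSubtype : Perm {x // x ∈ S} → Perm α) σ)
  have hsg : ∀ τ : Perm {x // x ∈ S}, sg (Perm.ofSubtype τ) = Perm.sign τ := fun τ => by
    simp only [sg]
    rw [Function.leftInverse_invFun hinj τ]
  refine ⟨sg, fun σ hσ τ hτ => ?_, fun p hp q hq hpq => ?_, fun σ hσ => ?_⟩
  · obtain ⟨σ, rfl⟩ := SysA_exists_ofSubtype hσ
    obtain ⟨τ, rfl⟩ := SysA_exists_ofSubtype hτ
    rw [← map_mul, hsg, hsg, hsg, map_mul]
  · have := Perm.ofSubtype_swap_eq (p := fun x => x ∈ S) ⟨p, hp⟩ ⟨q, hq⟩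
    rw [← this, hsg]
    exact Perm.sign_swap fun e => hpq (congrArg Subtype.val e)
  · obtain ⟨σ, rfl⟩ := SysA_exists_ofSubtype hσ
    rw [hsg, SysA_altOn_eq_map, Subgroup.mem_map_iff_mem hinj, Perm.mem_alternatingGroup]

theorem altOn_or {S : Finset α} {σ : Perm α} (h : σ ∈ SuppOn (S : Set α)) {p q : α} (hp : p ∈ S)
    (hq : q ∈ S) (hpq : p ≠ q) : σ ∈ AltOn (S : Set α) ∨ σ * swap p q ∈ AltOn (S : Set α) := by
  obtain ⟨sg, h1, h2, h3⟩ := exists_sgn S
  have hs : swap p q ∈ SuppOn (S : Set α) := swap_mem_suppOn hp hq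
  rw [h3 _ h, h3 _ (mul_mem h hs), h1 _ h _ hs, h2 p hp q hq hpq]
  rcases Int.units_eq_one_or (sg σ) with e | e <;> simp [e]

theorem altOn_simple (S : Finset α) (hS : 5 ≤ S.card) (M : Subgroup (Perm α))
    (hn : ∀ g ∈ AltOn (S : Set α), ∀ m ∈ M, g * m * g⁻¹ ∈ M) {σ : Perm α}
    (h1 : σ ∈ AltOn (S : Set α)) (h2 : σ ∈ M) (h3 : σ ≠ 1) : AltOn (S : Set α) ≤ M := by
  have hs : IsSimpleGroup (alternatingGroup {x // x ∈ S}) :=
    alternatingGroup.isSimpleGroup (by simpa using hS)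
  rw [SysA_altOn_eq_map] at hn h1 ⊢
  let φ : alternatingGroup {x // x ∈ S} →* Perm α :=
    Perm.ofSubtype.comp (alternatingGroup {x // x ∈ S}).subtype
  have hN : (M.comap φ).Normal := ⟨fun m hm g => by
    rw [Subgroup.mem_comap, map_mul, map_mul, map_inv]
    exact hn _ ⟨g.1, g.2, rfl⟩ _ hm⟩
  obtain ⟨τ, hτ, rfl⟩ := h1
  rcases hN.eq_bot_or_eq_top with h | h
  · have : (⟨τ, hτ⟩ : alternatingGroup {x // x ∈ S}) ∈ M.comap φ := h2
    rw [h, Subgroup.mem_bot] at this
    exact absurd (by rw [show τ = 1 from congrArg Subtype.val this, map_one]) h3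
  · rintro _ ⟨g, hg, rfl⟩
    have : (⟨g, hg⟩ : alternatingGroup {x // x ∈ S}) ∈ M.comap φ := by rw [h]; trivial
    exact this

theorem pairGrp_surj {Γ : Type} [Group Γ] (y : α → α → α → Γ) {S : Set α} {σ : Perm α}
    (h : σ ∈ AltOn S) : ∃ g, (g, σ) ∈ PairGrp y S := by
  refine Subgroup.closure_induction (p := fun σ _ => ∃ g, (g, σ) ∈ PairGrp y S) ?_ ?_ ?_ ?_ h
  · rintro _ ⟨a, ha, b, hb, c, hc, rfl⟩
    by_cases hd : D3 a b c
    · exact ⟨_, mem_pairGrp y ha hb hc hd⟩
    · rw [c3_junk hd]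
      exact ⟨1, one_mem _⟩
  · exact ⟨1, one_mem _⟩
  · rintro σ τ _ _ ⟨g, hg⟩ ⟨g', hg'⟩
    exact ⟨g * g', mul_mem hg hg'⟩
  · rintro σ _ ⟨g, hg⟩
    exact ⟨g⁻¹, inv_mem hg⟩

theorem pairGrp_snd {Γ : Type} [Group Γ] {y : α → α → α → Γ} {S : Set α} {g : Γ} {σ : Perm α}
    (h : (g, σ) ∈ PairGrp y S) : σ ∈ AltOn S := by
  have : PairGrp y S ≤ (AltOn S).comap (MonoidHom.snd Γ (Perm α)) := by
    rw [PairGrp, Subgroup.closure_le]
    rintro _ ⟨a, ha, b, hb, c, hc, _, rfl⟩
    exact c3_mem_altOn ha hb hc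
  exact this h

theorem SysA_altOn_erase {T : Finset α} {σ : Perm α} (h : σ ∈ AltOn (T : Set α)) {a : α}
    (ha : σ a = a) : σ ∈ AltOn (T.erase a : Set α) := by
  have h1 : σ ∈ SuppOn (T.erase a : Set α) := fun x hx => by
    by_cases hxa : x = a
    · rw [hxa, ha]
    · exact altOn_le_suppOn _ h x fun hT => hx (by simp [hxa, Finset.mem_coe.1 hT])
  by_cases h2 : ∃ p ∈ T.erase a, ∃ q ∈ T.erase a, p ≠ q
  · obtain ⟨p, hp, q, hq, hpq⟩ := h2
    refine (altOn_or h1 hp hq hpq).resolve_right fun h3 => ?_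
    have h4 : σ * swap p q ∈ AltOn (T : Set α) :=
      altOn_mono (Finset.coe_subset.2 (Finset.erase_subset a T)) h3
    have h5 : swap p q ∈ AltOn (T : Set α) := by
      simpa using mul_mem (inv_mem h) h4
    obtain ⟨sg, -, h6, h7⟩ := exists_sgn T
    have h8 := (h7 _ (altOn_le_suppOn _ h5)).1 h5
    rw [h6 p (Finset.mem_of_mem_erase hp) q (Finset.mem_of_mem_erase hq) hpq] at h8
    exact absurd h8 (by decide)
  · have : σ = 1 := by
      ext x
      by_cases hx : x ∈ T.erase a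
      · by_contra h3
        exact h2 ⟨σ x, (SuppOn.mem_iff h1 x).2 hx, x, hx, h3⟩
      · exact h1 x hx
    rw [this]
    exact one_mem _

/-- relations between three-cycles follow from relations on at most seven points -/
theorem stability {Γ : Type} [Group Γ] (y : α → α → α → Γ) (Z : Subgroup Γ) [Z.Normal]
    (S : Finset α)
    (h : ∀ T : Finset α, T ⊆ S → T.card ≤ 7 → ∀ g, (g, 1) ∈ PairGrp y (T : Set α) → g ∈ Z) :
    ∀ g, (g, 1) ∈ PairGrp y (S : Set α) → g ∈ Z := by
  induction S using Finset.induction_on with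
  | empty => exact h _ (Finset.Subset.refl _) (by simp)
  | @insert a S haS ih =>
    by_cases hc : (insert a S).card ≤ 7
    · exact h _ (Finset.Subset.refl _) hc
    have ih' := ih fun T hT => h T (hT.trans (Finset.subset_insert a S))
    have hex : ∀ b : α, ∃ c ∈ S, c ≠ b := fun b => by
      rw [Finset.card_insert_of_notMem haS] at hc
      exact Finset.exists_mem_ne (by omega) b
    choose c hcS hcb using hex
    let r : α → Γ × Perm α := fun b => if b = a then 1 else (y a b (c b), c3 a b (c b))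
    have hD : ∀ b, b ≠ a → D3 a b (c b) := fun b hb =>
      ⟨hb.symm, fun e => haS (e ▸ hcS b), (hcb b).symm⟩
    have hra : ∀ b, (r b).2 a = b := fun b => by
      by_cases hb : b = a
      · simp [r, hb]
      · simp only [r, if_neg hb]
        exact c3_fst (hD b hb)
    have hrT : ∀ (T : Finset α) (b : α), a ∈ T → b ∈ T → c b ∈ T →
        r b ∈ PairGrp y (T : Set α) := fun T b h1 h2 h3 => by
      by_cases hb : b = a
      · simp only [r, if_pos hb]
        exact one_mem _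
      · simp only [r, if_neg hb]
        exact mem_pairGrp y h1 h2 h3 (hD b hb)
    let H : Subgroup (Γ × Perm α) := PairGrp y (S : Set α) ⊔ Z.prod ⊥
    have key : ∀ (i j k : α) (t : Γ × Perm α), i ∈ insert a S → j ∈ insert a S → k ∈ insert a S →
        t ∈ PairGrp y (({i, j, k} : Finset α) : Set α) → ∀ b ∈ insert a S,
          (r (t.2 b))⁻¹ * t * r b ∈ H := by
      intro i j k t hi hj hk ht b hb
      let T : Finset α := {a, b, c b, c (t.2 b), i, j, k}
      have hTS : T ⊆ insert a S := by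
        simp only [T, Finset.insert_subset_iff, Finset.singleton_subset_iff]
        exact ⟨Finset.mem_insert_self _ _, hb, Finset.mem_insert_of_mem (hcS _),
          Finset.mem_insert_of_mem (hcS _), hi, hj, hk⟩
      have hTc : T.card ≤ 7 := by
        refine (Finset.card_insert_le _ _).trans (Nat.succ_le_succ ?_)
        refine (Finset.card_insert_le _ _).trans (Nat.succ_le_succ ?_)
        refine (Finset.card_insert_le _ _).trans (Nat.succ_le_succ ?_)
        refine (Finset.card_insert_le _ _).trans (Nat.succ_le_succ ?_)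
        exact Finset.card_le_three
      have htT : t ∈ PairGrp y (T : Set α) :=
        pairGrp_mono y (Finset.coe_subset.2 (by
          simp only [T, Finset.insert_subset_iff, Finset.singleton_subset_iff]
          simp)) ht
      have htb : t.2 b ∈ T :=
        (SuppOn.mem_iff (altOn_le_suppOn _ (pairGrp_snd (g := t.1) htT)) b).2 (by simp [T])
      have hu : (r (t.2 b))⁻¹ * t * r b ∈ PairGrp y (T : Set α) :=
        mul_mem (mul_mem (inv_mem (hrT T _ (by simp [T]) htb (by simp [T]))) htT)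
          (hrT T _ (by simp [T]) (by simp [T]) (by simp [T]))
      have hua : ((r (t.2 b))⁻¹ * t * r b).2 a = a := by
        simp only [Prod.snd_mul, Prod.snd_inv, Perm.mul_apply, hra]
        rw [Perm.inv_eq_iff_eq, hra]
      generalize (r (t.2 b))⁻¹ * t * r b = u at hu hua
      obtain ⟨g', hg'⟩ := pairGrp_surj y (SysA_altOn_erase (pairGrp_snd (g := u.1) hu) hua)
      have h1 : (g', u.2) ∈ PairGrp y (T : Set α) :=
        pairGrp_mono y (Finset.coe_subset.2 (Finset.erase_subset a T)) hg'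
      have h2 : (g', u.2) ∈ PairGrp y (S : Set α) :=
        pairGrp_mono y (Finset.coe_subset.2 fun x hx =>
          (Finset.mem_insert.1 (hTS (Finset.mem_of_mem_erase hx))).resolve_left
            (Finset.ne_of_mem_erase hx)) hg'
      have h3 : (g', u.2)⁻¹ * u = (g'⁻¹ * u.1, 1) := Prod.ext rfl (by simp)
      have h4 : g'⁻¹ * u.1 ∈ Z := h T hTS hTc _ (h3 ▸ mul_mem (inv_mem h1) hu)
      have h5 : u = (g', u.2) * (g'⁻¹ * u.1, 1) := Prod.ext (by simp) (by simp)
      rw [h5]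
      exact mul_mem (Subgroup.mem_sup_left h2) (Subgroup.mem_sup_right ⟨h4, rfl⟩)
    have main : ∀ p ∈ PairGrp y ((insert a S : Finset α) : Set α), (r (p.2 a))⁻¹ * p ∈ H := by
      intro p hp
      have step : ∀ (i j k : α) (t : Γ × Perm α), i ∈ insert a S → j ∈ insert a S →
          k ∈ insert a S → t ∈ PairGrp y (({i, j, k} : Finset α) : Set α) →
          ∀ q ∈ PairGrp y ((insert a S : Finset α) : Set α), (r (q.2 a))⁻¹ * q ∈ H →
            (r ((t * q).2 a))⁻¹ * (t * q) ∈ H := by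
        intro i j k t hi hj hk ht q hq hqH
        have hb : q.2 a ∈ insert a S :=
          (SuppOn.mem_iff (altOn_le_suppOn _ (pairGrp_snd (g := q.1) hq)) a).2
            (Finset.mem_insert_self _ _)
        have := mul_mem (key i j k t hi hj hk ht _ hb) hqH
        simpa [mul_assoc] using this
      refine Subgroup.closure_induction_left (p := fun p _ => (r (p.2 a))⁻¹ * p ∈ H) ?_ ?_ ?_ hp
      · simp [r]
      · rintro _ ⟨i, hi, j, hj, k, hk, hd, rfl⟩ q hq hqH
        exact step i j k _ hi hj hk (mem_pairGrp y (by simp) (by simp) (by simp) hd) q hq hqH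
      · rintro _ ⟨i, hi, j, hj, k, hk, hd, rfl⟩ q hq hqH
        exact step i j k _ hi hj hk (inv_mem (mem_pairGrp y (by simp) (by simp) (by simp) hd))
          q hq hqH
    intro g hg
    have h1 : (g, (1 : Perm α)) ∈ H := by simpa [r] using main _ hg
    obtain ⟨q, hq, z, hz, e⟩ := Subgroup.mem_sup_of_normal_right.1 h1
    have hz2 : z.2 = 1 := hz.2
    have hq2 : q.2 = 1 := by simpa [hz2] using congrArg Prod.snd e
    have hq1 : q.1 ∈ Z := ih' _ (by rw [← hq2]; exact hq)
    have e1 : g = q.1 * z.1 := (congrArg Prod.fst e).symm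
    rw [e1]
    exact mul_mem hq1 hz.1

end

end Crest.Agent.R189
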