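import Crest.Agent.R189.Defs
import Crest.Agent.R189.Idem

/-! # Row 189: the shift action on the idempotents of a model -/

set_option autoImplicit false
set_option linter.unusedSectionVars false

namespace Crest.Agent.R189
open Equiv QL

variable {X ι Γ : Type} [Shift X] [DecidableEq ι] [Fintype ι] [Group Γ]
  {ok : Bool → Shift.A X → Shift.A X → Prop}

theorem theta_commute_closure {A B : Set Γ} (h : ∀ g ∈ A, ∀ g' ∈ B, Commute g g') {g g' : Γ}
    (hg : g ∈ Subgroup.closure A) (hg' : g' ∈ Subgroup.closure B) : Commute g g' := by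
  induction hg using Subgroup.closure_induction with
  | mem x hx =>
    induction hg' using Subgroup.closure_induction with
    | mem y hy => exact h x hx y hy
    | one => exact Commute.one_right _
    | mul a b _ _ ha hb => exact ha.mul_right hb
    | inv a _ ha => exact ha.inv_right
  | one => exact Commute.one_left _
  | mul a b _ _ ha hb => exact ha.mul_left hb
  | inv a _ ha => exact ha.inv_left

theorem theta_exists_hom {K : Type} [CommGroup K] (f : ι → Bool → K) :
    ∃ U : (ι → V) → K, (∀ a b, U (a + b) = U a * U b) ∧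
      ∀ i d, U (Pi.single i (vec d 1 0)) = f i d := by
  refine ⟨fun a => ∏ i, f i true ^ (a i).1 * f i false ^ (a i).2, fun a b => ?_, fun i d => ?_⟩
  · rw [← Finset.prod_mul_distrib]
    refine Finset.prod_congr rfl fun i _ => ?_
    rw [Pi.add_apply, Prod.fst_add, Prod.snd_add, zpow_add, zpow_add, mul_mul_mul_comm]
  · simp only
    rw [Finset.prod_eq_single i]
    · cases d <;> simp
    · intro j _ hj
      simp [Pi.single_eq_of_ne hj]
    · simp

/-- the generators of `Lam` -/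
def thetaGen (i j : ι) (d : Bool) : Lam ι :=
  ⟨Pi.single i (vec d 1 0) - Pi.single j (vec d 1 0), by
    change ∑ l, _ = 0
    simp [Finset.sum_sub_distrib]⟩

theorem thetaGen_val (i j : ι) (d : Bool) :
    (thetaGen i j d).1 = Pi.single i (vec d 1 0) - Pi.single j (vec d 1 0) := rfl

theorem theta_mem_closure {S : Finset ι} {a : Lam ι} (ha : ∀ i, i ∉ S → a.1 i = 0) :
    a ∈ AddSubgroup.closure {b : Lam ι | ∃ i ∈ S, ∃ j ∈ S, ∃ d, b = thetaGen i j d} := by
  rcases S.eq_empty_or_nonempty with rfl | ⟨s, hs⟩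
  · have : a = 0 := Subtype.ext (funext fun i => ha i (by simp))
    rw [this]
    exact zero_mem _
  · have hsum : ∑ i ∈ S, a.1 i = 0 := by
      have h0 : ∑ i, a.1 i = 0 := a.2
      rw [← h0]
      exact Finset.sum_subset (Finset.subset_univ _) fun i _ hi => ha i hi
    have e : a = ∑ i ∈ S, ((a.1 i).1 • thetaGen i s true + (a.1 i).2 • thetaGen i s false) := by
      refine Subtype.ext ?_
      have e1 : ∀ i, ((a.1 i).1 • thetaGen i s true + (a.1 i).2 • thetaGen i s false : Lam ι).1 =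
          Pi.single i (a.1 i) - Pi.single s (a.1 i) := by
        intro i
        have e2 : ∀ j : ι, (Pi.single j (a.1 i) : ι → V) =
            (a.1 i).1 • Pi.single j (vec true 1 0) + (a.1 i).2 • Pi.single j (vec false 1 0) := by
          intro j
          rw [← Pi.single_smul, ← Pi.single_smul, ← Pi.single_add]
          simp
        rw [e2 i, e2 s, AddSubgroup.coe_add, AddSubgroup.coe_zsmul, AddSubgroup.coe_zsmul,
          thetaGen_val, thetaGen_val, smul_sub, smul_sub]
        abel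
      rw [AddSubgroup.val_finsetSum, Finset.sum_congr rfl fun i _ => e1 i, Finset.sum_sub_distrib]
      funext l
      rw [Pi.sub_apply, Finset.sum_apply, Finset.sum_apply]
      have e3 : ∑ i ∈ S, (Pi.single s (a.1 i) : ι → V) l = 0 := by
        by_cases hl : l = s
        · subst hl
          simpa using hsum
        · simp [Pi.single_eq_of_ne hl]
      rw [e3, sub_zero, Finset.sum_pi_single]
      split_ifs with hl
      · rfl
      · exact ha l hl
    rw [e]
    refine sum_mem fun i hi => add_mem (zsmul_mem ?_ _) (zsmul_mem ?_ _)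
    · exact AddSubgroup.subset_closure ⟨i, hi, s, hs, true, rfl⟩
    · exact AddSubgroup.subset_closure ⟨i, hi, s, hs, false, rfl⟩

theorem theta_u_zero {u : Lam ι → Γ} (h1 : ∀ a b, u (a + b) = u a * u b) : u 0 = 1 := by
  have := h1 0 0
  rw [add_zero] at this
  exact (left_eq_mul.1 this)

theorem theta_u_neg {u : Lam ι → Γ} (h1 : ∀ a b, u (a + b) = u a * u b) (a : Lam ι) :
    u (-a) = (u a)⁻¹ :=
  eq_inv_of_mul_eq_one_left (by rw [← h1, neg_add_cancel, theta_u_zero h1])

theorem theta_u_zsmul {u : Lam ι → Γ} (h1 : ∀ a b, u (a + b) = u a * u b) (n : ℤ) (a : Lam ι) :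
    u (n • a) = u a ^ n :=
  map_zpow (MonoidHom.mk' (fun a : Multiplicative (Lam ι) => u a.toAdd) fun _ _ => h1 _ _)
    (Multiplicative.ofAdd a) n

/-- a subgroup containing the lifts of the generators contains all lifts -/
theorem theta_u_mem {u : Lam ι → Γ} (h1 : ∀ a b, u (a + b) = u a * u b) {S : Finset ι}
    (K : Subgroup Γ) (hK : ∀ i ∈ S, ∀ j ∈ S, ∀ d, u (thetaGen i j d) ∈ K) {a : Lam ι}
    (ha : ∀ i, i ∉ S → a.1 i = 0) : u a ∈ K := by
  refine AddSubgroup.closure_induction (p := fun a _ => u a ∈ K) ?_ ?_ ?_ ?_ (theta_mem_closure ha)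
  · rintro _ ⟨i, hi, j, hj, d, rfl⟩
    exact hK i hi j hj d
  · rw [theta_u_zero h1]
    exact one_mem _
  · intro x y _ _ hx hy
    rw [h1]
    exact mul_mem hx hy
  · intro x _ hx
    rw [theta_u_neg h1]
    exact inv_mem hx

theorem theta_exists_const (S : Finset ι) {l : ι} (hl : l ∈ S) (w : V) :
    ∃ a : Lam ι, (∀ i ∈ S, i ≠ l → a.1 i = w) ∧ ∀ i, i ∉ S → a.1 i = 0 := by
  refine ⟨⟨(fun i => if i ∈ S then w else 0) - Pi.single l (S.card • w), ?_⟩,
    fun i hi hil => ?_, fun i hi => ?_⟩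
  · change ∑ i, _ = 0
    simp [Finset.sum_sub_distrib]
  · simp [hi, Pi.single_eq_of_ne hil]
  · have : i ≠ l := fun h => hi (h ▸ hl)
    simp [hi, Pi.single_eq_of_ne this]

theorem theta_exists_list (hι : 40 ≤ Fintype.card ι) (T : List ι) (hT : T.length < 40) (w : V) :
    ∃ a : Lam ι, ∀ i ∈ T, a.1 i = w := by
  obtain ⟨l, hl⟩ := fresh hι T hT
  obtain ⟨a, ha, -⟩ := theta_exists_const Finset.univ (Finset.mem_univ l) w
  exact ⟨a, fun i hi => ha i (Finset.mem_univ i) fun h => hl (h ▸ hi)⟩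

namespace Model
variable (M : Model X ι Γ ok)

/-- the local subgroups -/
def H (S : Finset ι) : Subgroup Γ := Subgroup.closure
  ({g | ∃ i ∈ S, ∃ j ∈ S, ∃ d, g = M.v i j d} ∪ {g | ∃ t, ∃ i ∈ S, ∃ j ∈ S, ∃ k ∈ S, g = M.φ t i j k})

theorem theta_v_mem {S : Finset ι} {i j : ι} (hi : i ∈ S) (hj : j ∈ S) (d : Bool) :
    M.v i j d ∈ M.H S := Subgroup.subset_closure (Or.inl ⟨i, hi, j, hj, d, rfl⟩)

theorem theta_one_mem {S : Finset ι} {i j k : ι} (hi : i ∈ S) (hj : j ∈ S) (hk : k ∈ S) :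
    M.one i j k ∈ M.H S := by
  rw [M.one_eq]
  refine Subgroup.list_prod_mem _ fun g hg => ?_
  obtain ⟨t, -, rfl⟩ := List.mem_map.1 hg
  exact Subgroup.subset_closure (Or.inr ⟨t, i, hi, j, hj, k, hk, rfl⟩)

theorem theta_comm {S T : Finset ι} {g h : Γ} (hd : Disjoint S T) (hg : g ∈ M.H S)
    (hh : h ∈ M.H T) : Commute g h := by
  have hne : ∀ {i j}, i ∈ S → j ∈ T → i ≠ j := fun hi hj e =>
    Finset.disjoint_left.1 hd hi (e ▸ hj)
  refine theta_commute_closure ?_ hg hh
  rintro _ (⟨i, hi, j, hj, d, rfl⟩ | ⟨t, i, hi, j, hj, k, hk, rfl⟩) _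
    (⟨a, ha, b, hb, d', rfl⟩ | ⟨t', a, ha, b, hb, c, hc, rfl⟩)
  · exact M.v_comm _ _ _ _ _ _
  · exact (M.φ_v _ _ _ _ _ _ _ ⟨hne hi ha, hne hi hb, hne hi hc⟩
      ⟨hne hj ha, hne hj hb, hne hj hc⟩).symm
  · exact M.φ_v _ _ _ _ _ _ _ ⟨(hne hi ha).symm, (hne hj ha).symm, (hne hk ha).symm⟩
      ⟨(hne hi hb).symm, (hne hj hb).symm, (hne hk hb).symm⟩
  · by_cases ht : t = t'
    · subst ht
      exact (M.sys t).commute ⟨(hne hi ha).symm, (hne hj ha).symm, (hne hk ha).symm⟩
        ⟨(hne hi hb).symm, (hne hj hb).symm, (hne hk hb).symm⟩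
        ⟨(hne hi hc).symm, (hne hj hc).symm, (hne hk hc).symm⟩
    · exact M.orth t t' ht _ _ _ _ _ _

def env (hι : 40 ≤ Fintype.card ι) : Env ι Γ where
  one := AA.lift M.sys_one
  H := M.H
  card := hι
  comm := M.theta_comm
  one_mem hi hj hk _ := by
    rw [AA.lift_x]
    exact M.theta_one_mem hi hj hk

/-- the lift of the translations -/
theorem exists_u (hι : 40 ≤ Fintype.card ι) : ∃ u : Lam ι → Γ, (∀ a b, u (a + b) = u a * u b) ∧
    (∀ a, M.π (u a) = trl a.1) ∧
    (∀ (a : Lam ι) i j d, a.1 = Pi.single i (vec d 1 0) - Pi.single j (vec d 1 0) →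
      u a = M.v i j d) ∧
    (∀ (a : Lam ι) (S : Finset ι), (∀ i, i ∉ S → a.1 i = 0) → u a ∈ M.H S) ∧
    (∀ (a : Lam ι) (w : V) i j k, a.1 i = w → a.1 j = w → a.1 k = w →
      Commute (M.one i j k) (u a)) := by
  obtain ⟨u, h1, h3⟩ : ∃ u : Lam ι → Γ, (∀ a b, u (a + b) = u a * u b) ∧
      ∀ i j d, u (thetaGen i j d) = M.v i j d := by
    obtain ⟨i0, -⟩ := fresh hι [] (by simp)
    have hc := Subgroup.isMulCommutative_closure (k := {g | ∃ i j d, g = M.v i j d}) (by
      rintro _ ⟨i, j, d, rfl⟩ _ ⟨k, l, d', rfl⟩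
      exact (M.v_comm _ _ _ _ _ _).eq)
    obtain ⟨U, hU, hU'⟩ := open scoped IsMulCommutative in
      theta_exists_hom (K := Subgroup.closure {g | ∃ i j d, g = M.v i j d})
        (fun i d => ⟨M.v i i0 d, Subgroup.subset_closure ⟨i, i0, d, rfl⟩⟩)
    refine ⟨fun a => U a.1, fun a b => congrArg Subtype.val (hU a.1 b.1), fun i j d => ?_⟩
    have e : (U ((thetaGen i j d).1 + Pi.single j (vec d 1 0)) : Γ) =
        U (thetaGen i j d).1 * U (Pi.single j (vec d 1 0)) := congrArg Subtype.val (hU _ _)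
    rw [thetaGen_val, sub_add_cancel, ← thetaGen_val, hU', hU'] at e
    simp only at e
    rw [← M.v_mul i j i0 d] at e
    exact (mul_right_cancel e).symm
  have h4 : ∀ (a : Lam ι) (S : Finset ι), (∀ i, i ∉ S → a.1 i = 0) → u a ∈ M.H S := by
    intro a S ha
    refine theta_u_mem h1 (M.H S) (fun i hi j hj d => ?_) ha
    rw [h3]
    exact M.theta_v_mem hi hj d
  refine ⟨u, h1, fun a => ?_, fun a i j d ha => ?_, h4, fun a w i j k hi hj hk => ?_⟩
  · have ha := theta_mem_closure (S := Finset.univ) (a := a) (by simp)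
    induction ha using AddSubgroup.closure_induction with
    | mem x hx =>
      obtain ⟨i, -, j, -, d, rfl⟩ := hx
      rw [h3, M.π_v]
      rfl
    | zero =>
      rw [theta_u_zero h1, map_one]
      exact trl_zero.symm
    | add x y _ _ hx hy =>
      rw [h1, map_mul, hx, hy]
      exact (trl_add _ _).symm
    | neg x _ hx =>
      rw [theta_u_neg h1, map_inv, hx]
      exact (trl_neg _).symm
  · rw [← h3]
    exact congrArg u (Subtype.ext ha)
  · by_cases hd : D3 i j k
    swap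
    · rw [M.sys_one.junk hd]
      exact Commute.one_left _
    obtain ⟨l, hl⟩ := fresh hι [i, j, k] (by simp)
    simp only [List.mem_cons, List.not_mem_nil, or_false, not_or] at hl
    let b : Bool → Lam ι := fun d => thetaGen i l d + thetaGen j l d + thetaGen k l d
    have hb : ∀ d, Commute (M.one i j k) (u (b d)) := by
      intro d
      rw [h1, h1, h3, h3, h3]
      exact M.one_v i j k l d hd hl
    have hb' : ∀ d m, m = i ∨ m = j ∨ m = k → (b d).1 m = vec d 1 0 := by
      obtain ⟨h1, h2, h3⟩ := hd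
      obtain ⟨h4, h5, h6⟩ := hl
      rintro d m (rfl | rfl | rfl) <;>
        simp [b, thetaGen_val, h1, h2, h3, h1.symm, h2.symm, h3.symm, Ne.symm h4,
          Ne.symm h5, Ne.symm h6]
    have e : a = w.1 • b true + w.2 • b false + (a - w.1 • b true - w.2 • b false) := by abel
    have h5 : Commute (M.one i j k) (u (a - w.1 • b true - w.2 • b false)) := by
      refine M.theta_comm (S := {i, j, k}) (T := {i, j, k}ᶜ) disjoint_compl_right
        (M.theta_one_mem (by simp) (by simp) (by simp)) (h4 _ _ fun m hm => ?_)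
      rw [Finset.mem_compl, not_not] at hm
      have hm' : m = i ∨ m = j ∨ m = k := by simpa using hm
      have hm'' : a.1 m = w := by rcases hm' with rfl | rfl | rfl <;> assumption
      simp [hb' _ m hm', hm'', Prod.ext_iff]
    rw [e, h1, h1, theta_u_zsmul h1, theta_u_zsmul h1]
    exact (((hb true).zpow_right _).mul_right ((hb false).zpow_right _)).mul_right h5

theorem theta_exists_th (hι : 40 ≤ Fintype.card ι) (u : Lam ι → Γ)
    (h1 : ∀ a b, u (a + b) = u a * u b)
    (h2 : ∀ (a : Lam ι) (S : Finset ι), (∀ i, i ∉ S → a.1 i = 0) → u a ∈ M.H S)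
    (w : V) (p : Idem (M.env hι)) : ∃ f : AA ι →* Γ, ∀ (a : Lam ι) i j k, a.1 i = w → a.1 j = w →
      a.1 k = w → f (AA.x i j k) = u a * p.φ (AA.x i j k) * (u a)⁻¹ := by
  have F1 : ∀ (a : Lam ι) i j k, a.1 i = 0 → a.1 j = 0 → a.1 k = 0 →
      Commute (p.φ (AA.x i j k)) (u a) := by
    intro a i j k hi hj hk
    have := theta_u_mem h1 (S := {i, j, k}ᶜ) (Subgroup.centralizer {p.φ (AA.x i j k)})
      (fun l hl m hm d => ?_) (a := a) (fun m hm => ?_)
    · exact Subgroup.mem_centralizer_iff.1 this _ rfl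
    · simp only [Finset.mem_compl, Finset.mem_insert, Finset.mem_singleton, not_or] at hl hm
      rw [Subgroup.mem_centralizer_singleton_iff]
      refine (M.theta_comm (S := {l, m}) (T := {l, m}ᶜ) disjoint_compl_right
        (h2 _ _ fun n hn => ?_) (p.loc ?_ ?_ ?_ ?_)).eq
      · simp only [Finset.mem_insert, Finset.mem_singleton, not_or] at hn
        simp [thetaGen_val, Pi.single_eq_of_ne hn.1, Pi.single_eq_of_ne hn.2]
      · simp [Ne.symm hl.1, Ne.symm hm.1]
      · simp [Ne.symm hl.2.1, Ne.symm hm.2.1]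
      · simp [Ne.symm hl.2.2, Ne.symm hm.2.2]
      · rw [Finset.card_compl]
        have := Finset.card_le_two (a := l) (b := m)
        omega
    · rw [Finset.mem_compl, not_not] at hm
      have hm' : m = i ∨ m = j ∨ m = k := by simpa using hm
      rcases hm' with rfl | rfl | rfl <;> assumption
  choose A hA using fun i j k : ι => theta_exists_list hι [i, j, k] (by simp) w
  let y : ι → ι → ι → Γ := fun i j k => u (A i j k) * p.φ (AA.x i j k) * (u (A i j k))⁻¹
  have hy : ∀ (a : Lam ι) i j k, a.1 i = w → a.1 j = w → a.1 k = w →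
      y i j k = u a * p.φ (AA.x i j k) * (u a)⁻¹ := by
    intro a i j k hi hj hk
    have e : u (A i j k) = u a * u (A i j k - a) := by rw [← h1, add_sub_cancel]
    have hc := F1 (A i j k - a) i j k (by simp [hA i j k i (by simp), hi])
      (by simp [hA i j k j (by simp), hj]) (by simp [hA i j k k (by simp), hk])
    simp only [y]
    rw [e, mul_assoc (u a), ← hc.eq]
    group
  have hz : ∀ a : Lam ι, IsSys fun i j k => u a * p.φ (AA.x i j k) * (u a)⁻¹ := fun a =>
    AA.isSys.map ((MulAut.conj (u a)).toMonoidHom.comp p.φ)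
  have hsys : IsSys y := by
    refine ⟨fun {i j k} h => (hz _).junk h, fun i j k => ?_, fun i j k => ?_,
      fun {a b d e} h ha hb hd => ?_, fun a b c i j k => ?_⟩
    · obtain ⟨B, hB⟩ := theta_exists_list hι [i, j, k] (by simp) w
      simp only [List.mem_cons, List.not_mem_nil, or_false, forall_eq_or_imp, forall_eq] at hB
      obtain ⟨b1, b2, b3⟩ := hB
      rw [hy B _ _ _ b1 b2 b3, hy B _ _ _ b2 b3 b1]
      exact (hz B).rot i j k
    · obtain ⟨B, hB⟩ := theta_exists_list hι [i, j, k] (by simp) w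
      simp only [List.mem_cons, List.not_mem_nil, or_false, forall_eq_or_imp, forall_eq] at hB
      obtain ⟨b1, b2, b3⟩ := hB
      rw [hy B _ _ _ b1 b2 b3, hy B _ _ _ b1 b3 b2]
      exact (hz B).inv i j k
    · obtain ⟨B, hB⟩ := theta_exists_list hι [a, b, d, e] (by simp) w
      simp only [List.mem_cons, List.not_mem_nil, or_false, forall_eq_or_imp, forall_eq] at hB
      obtain ⟨b1, b2, b3, b4⟩ := hB
      rw [hy B _ _ _ b1 b2 b3, hy B _ _ _ b1 b3 b4, hy B _ _ _ b2 b3 b4]
      exact (hz B).mul h ha hb hd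
    · obtain ⟨B, hB⟩ := theta_exists_list hι [a, b, c, i, j, k] (by simp) w
      simp only [List.mem_cons, List.not_mem_nil, or_false, forall_eq_or_imp, forall_eq] at hB
      obtain ⟨b1, b2, b3, b4, b5, b6⟩ := hB
      have hc : ∀ m, B.1 m = w → B.1 (c3 a b c m) = w := fun m hm =>
        (c3_mem (S := {m | B.1 m = w}) b1 b2 b3).2 hm
      rw [hy B _ _ _ b1 b2 b3, hy B _ _ _ b4 b5 b6, hy B _ _ _ (hc _ b4) (hc _ b5) (hc _ b6)]
      exact (hz B).conj a b c i j k
  exact ⟨AA.lift hsys, fun a i j k hi hj hk => by rw [AA.lift_x, hy a i j k hi hj hk]⟩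

/-- the shift of idempotents -/
theorem exists_theta (hι : 40 ≤ Fintype.card ι) (u : Lam ι → Γ)
    (h1 : ∀ a b, u (a + b) = u a * u b)
    (h2 : ∀ (a : Lam ι) (S : Finset ι), (∀ i, i ∉ S → a.1 i = 0) → u a ∈ M.H S)
    (h3 : ∀ (a : Lam ι) (w : V) i j k, a.1 i = w → a.1 j = w → a.1 k = w →
      Commute (M.one i j k) (u a)) :
    ∃ θ : V → Idem (M.env hι) → Idem (M.env hι),
      (∀ (w : V) (p : Idem (M.env hι)) (a : Lam ι) i j k, a.1 i = w → a.1 j = w → a.1 k = w →
        (θ w p).φ (AA.x i j k) = u a * p.φ (AA.x i j k) * (u a)⁻¹) ∧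
      (∀ w w' p, θ w (θ w' p) = θ (w + w') p) ∧ (∀ p, θ 0 p = p) ∧
      (∀ w p q, p ≤ q → θ w p ≤ θ w q) ∧ (∀ w p, θ w (neg p) = neg (θ w p)) ∧
      (∀ w, θ w ⊤ = ⊤) ∧ (∀ w p q, C p q → C (θ w p) (θ w q)) ∧
      (∀ w p q, C p q → θ w (meet p q) = meet (θ w p) (θ w q)) := by
  choose th hth using M.theta_exists_th hι u h1 h2
  have ex3 : ∀ (w : V) (i j k : ι), ∃ a : Lam ι, a.1 i = w ∧ a.1 j = w ∧ a.1 k = w := by
    intro w i j k
    obtain ⟨B, hB⟩ := theta_exists_list hι [i, j, k] (by simp) w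
    exact ⟨B, hB i (by simp), hB j (by simp), hB k (by simp)⟩
  have L1 : ∀ w (p q : Idem (M.env hι)), (∀ s t, Commute (p.φ s) (q.φ t)) →
      ∀ s t, Commute (th w p s) (th w q t) := by
    intro w p q h
    refine AA.commute_of_gen fun i j k _ a b c _ => ?_
    obtain ⟨B, hB⟩ := theta_exists_list hι [a, b, c, i, j, k] (by simp) w
    simp only [List.mem_cons, List.not_mem_nil, or_false, forall_eq_or_imp, forall_eq] at hB
    obtain ⟨b1, b2, b3, b4, b5, b6⟩ := hB
    rw [hth w p B _ _ _ b4 b5 b6, hth w q B _ _ _ b1 b2 b3]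
    exact (h _ _).map (MulAut.conj (u B))
  have L2 : ∀ w (r p q : Idem (M.env hι)), (∀ s t, Commute (p.φ s) (q.φ t)) →
      (∀ s, r.φ s = p.φ s * q.φ s) → ∀ s, th w r s = th w p s * th w q s := by
    intro w r p q h h' s
    induction s using AA.induction with
    | h1 => simp
    | hx i j k _ =>
      obtain ⟨B, b1, b2, b3⟩ := ex3 w i j k
      rw [hth w p B _ _ _ b1 b2 b3, hth w q B _ _ _ b1 b2 b3, hth w r B _ _ _ b1 b2 b3, h']
      group
    | hm s t hs ht =>
      rw [map_mul, map_mul, map_mul, hs, ht]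
      exact ((L1 w p q h t s).mul_mul_mul_comm _ _).symm
  have L3 : ∀ w, th w ⊤ = (M.env hι).one := by
    intro w
    refine AA.hom_ext fun i j k => ?_
    obtain ⟨B, b1, b2, b3⟩ := ex3 w i j k
    have e : (M.env hι).one (AA.x i j k) = M.one i j k := AA.lift_x M.sys_one _ _ _
    rw [hth w ⊤ B _ _ _ b1 b2 b3, Idem.top_φ, e, ← (h3 B w i j k b1 b2 b3).eq,
      mul_inv_cancel_right]
  have L4 : ∀ w (p : Idem (M.env hι)) s,
      th w (neg p) s = (th w p s)⁻¹ * (M.env hι).one s := by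
    intro w p s
    rw [← L3 w, L2 w ⊤ p (neg p) p.comm (fun s => by
      rw [Idem.top_φ, Idem.neg_φ, mul_inv_cancel_left]) s, inv_mul_cancel_left]
  have Lle : ∀ w (p q : Idem (M.env hι)), p ≤ q →
      ∀ s t, Commute (th w p s) ((th w q t)⁻¹ * (M.env hι).one t) := by
    intro w p q h s t
    rw [← L4]
    exact L1 w p (neg q) h s t
  have Lloc : ∀ w (p : Idem (M.env hι)) {S : Finset ι} {i j k : ι}, i ∈ S → j ∈ S → k ∈ S →
      5 ≤ S.card → th w p (AA.x i j k) ∈ (M.env hι).H S := by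
    intro w p S i j k hi hj hk hS
    obtain ⟨l, hl, hl'⟩ : ∃ l ∈ S, l ∉ ({i, j, k} : Finset ι) := by
      refine Finset.exists_mem_notMem_of_card_lt_card ?_
      have := Finset.card_le_three (a := i) (b := j) (c := k)
      omega
    simp only [Finset.mem_insert, Finset.mem_singleton, not_or] at hl'
    obtain ⟨B, hB, hB'⟩ := theta_exists_const S hl w
    rw [hth w p B _ _ _ (hB i hi (Ne.symm hl'.1)) (hB j hj (Ne.symm hl'.2.1))
      (hB k hk (Ne.symm hl'.2.2))]
    exact mul_mem (mul_mem (h2 B S hB') (p.loc hi hj hk hS)) (inv_mem (h2 B S hB'))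
  let θ : V → Idem (M.env hι) → Idem (M.env hι) := fun w p =>
    ⟨th w p, Lle w p p le_rfl, Lloc w p⟩
  have hθ : ∀ w p, (θ w p).φ = th w p := fun _ _ => rfl
  have T1 : ∀ w w' p, θ w (θ w' p) = θ (w + w') p := by
    intro w w' p
    refine Idem.ext (AA.hom_ext fun i j k => ?_)
    obtain ⟨B, b1, b2, b3⟩ := ex3 w i j k
    obtain ⟨B', b1', b2', b3'⟩ := ex3 w' i j k
    rw [hθ, hθ, hth w _ B _ _ _ b1 b2 b3, hθ, hth w' _ B' _ _ _ b1' b2' b3',
      hth (w + w') _ (B + B') i j k (by simp [b1, b1']) (by simp [b2, b2']) (by simp [b3, b3']),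
      h1]
    group
  have T2 : ∀ p, θ 0 p = p := by
    intro p
    refine Idem.ext (AA.hom_ext fun i j k => ?_)
    rw [hθ, hth 0 p 0 i j k rfl rfl rfl, theta_u_zero h1]
    group
  have T3 : ∀ w p q, p ≤ q → θ w p ≤ θ w q := fun w p q h => Lle w p q h
  have T4 : ∀ w p, θ w (neg p) = neg (θ w p) := fun w p =>
    Idem.ext (MonoidHom.ext fun s => L4 w p s)
  have T5 : ∀ w p q, C p q → C (θ w p) (θ w q) := by
    intro w p q h
    obtain ⟨m, n, hm, hn, h'⟩ := Idem.C_iff.1 h
    refine Idem.C_iff.2 ⟨θ w m, θ w n, T3 w _ _ hm, T4 w q ▸ T3 w _ _ hn, ?_⟩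
    exact L2 w p m n (Idem.orth hm hn) h'
  refine ⟨θ, fun w p => hth w p, T1, T2, T3, T4, fun w => Idem.ext (L3 w), T5, fun w p q h => ?_⟩
  refine le_antisymm (le_meet (T5 w p q h) (T3 w _ _ (meet_le_left h)) (T3 w _ _ (meet_le_right h)))
    ?_
  have e : meet (θ w p) (θ w q) = θ w (θ (-w) (meet (θ w p) (θ w q))) := by
    rw [T1, add_neg_cancel, T2]
  rw [e]
  refine T3 w _ _ (le_meet h ?_ ?_)
  · have := T3 (-w) _ _ (meet_le_left (T5 w p q h))
    rwa [T1, neg_add_cancel, T2] at this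
  · have := T3 (-w) _ _ (meet_le_right (T5 w p q h))
    rwa [T1, neg_add_cancel, T2] at this

end Model

end Crest.Agent.R189
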