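import Crest.Agent.R189.Base

/-! # Row 189: the hierarchical Wang tiles (definitions)

Every site is a junction (`IsJ`), a hole of a row (`IsG`, the column has higher level) or a hole
of a column (`IsL`).  A cell of size `n + 2` has coordinates `0, …, n + 1`; the lines `0` belong
to higher levels.  A junction knows its own role in its cell, the role of the cell in the next
cell (of size `n + 3`) and two bits of a unary counter. -/

set_option autoImplicit false
set_option linter.unusedSectionVars false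

namespace Crest.Agent.R189

inductive Cl | z | f | m | l | b
  deriving DecidableEq, Fintype
inductive Ty | T | D | R | N
  deriving DecidableEq, Fintype
inductive Side | full | fst | snd
  deriving DecidableEq, Fintype

@[ext] structure Role where
  H : Cl
  V : Cl
  ty : Ty
  deriving DecidableEq, Fintype

@[ext] structure Lab where
  own : Role
  par : Role
  β : Bool
  β' : Bool
  deriving DecidableEq

@[ext] structure Col where
  a : Lab
  b : Lab
  s : Side
  deriving DecidableEq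

@[ext] structure Tile where
  W : Col
  E : Col
  S : Col
  N : Col
  deriving DecidableEq

instance : Finite Lab := Finite.of_injective (fun x : Lab => (x.own, x.par, x.β, x.β'))
  (fun _ _ h => by simp only [Prod.mk.injEq] at h; exact Lab.ext h.1 h.2.1 h.2.2.1 h.2.2.2)
instance : Finite Col := Finite.of_injective (fun x : Col => (x.a, x.b, x.s))
  (fun _ _ h => by simp only [Prod.mk.injEq] at h; exact Col.ext h.1 h.2.1 h.2.2)
instance : Finite Tile := Finite.of_injective (fun x : Tile => (x.W, x.E, x.S, x.N))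
  (fun _ _ h => by simp only [Prod.mk.injEq] at h; exact Tile.ext h.1 h.2.1 h.2.2.1 h.2.2.2)

/-- active classes carry the counter -/
def Cl.act (c : Cl) : Prop := c = .f ∨ c = .m ∨ c = .l
/-- allowed successors: `z f m … m l b z` -/
def Cl.succ (c c' : Cl) : Prop := (c = .z ∧ c' = .f) ∨ (c = .f ∧ c' = .m) ∨ (c = .m ∧ c' = .m) ∨
  (c = .m ∧ c' = .l) ∨ (c = .l ∧ c' = .b) ∨ (c = .b ∧ c' = .z)
instance (c : Cl) : Decidable c.act := by unfold Cl.act; infer_instance
instance (c c' : Cl) : Decidable (c.succ c') := by unfold Cl.succ; infer_instance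

def Ty.tr : Ty → Ty | .T => .R | .D => .D | .R => .T | .N => .N
def Role.tr (r : Role) : Role := ⟨r.V, r.H, r.ty.tr⟩
def Lab.tr (x : Lab) : Lab := ⟨x.own.tr, x.par.tr, x.β, x.β'⟩
def Col.tr (c : Col) : Col := ⟨c.a.tr, c.b.tr, c.s⟩
def Tile.tr (t : Tile) : Tile := ⟨t.S.tr, t.N.tr, t.W.tr, t.E.tr⟩

@[simp] theorem Ty.tr_tr (x : Ty) : x.tr.tr = x := by cases x <;> rfl
@[simp] theorem Role.tr_tr (x : Role) : x.tr.tr = x := by simp [Role.tr]
@[simp] theorem Lab.tr_tr (x : Lab) : x.tr.tr = x := by simp [Lab.tr]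
@[simp] theorem Col.tr_tr (x : Col) : x.tr.tr = x := by simp [Col.tr]
@[simp] theorem Tile.tr_tr (x : Tile) : x.tr.tr = x := by simp [Tile.tr]
theorem Role.tr_inj {x y : Role} (h : x.tr = y.tr) : x = y := by rw [← x.tr_tr, h, y.tr_tr]
theorem Lab.tr_inj {x y : Lab} (h : x.tr = y.tr) : x = y := by rw [← x.tr_tr, h, y.tr_tr]
theorem Col.tr_inj {x y : Col} (h : x.tr = y.tr) : x = y := by rw [← x.tr_tr, h, y.tr_tr]
theorem Tile.tr_inj {x y : Tile} (h : x.tr = y.tr) : x = y := by rw [← x.tr_tr, h, y.tr_tr]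
@[simp] theorem Ty.tr_eq_T {x : Ty} : x.tr = .T ↔ x = .R := by cases x <;> decide
@[simp] theorem Ty.tr_eq_R {x : Ty} : x.tr = .R ↔ x = .T := by cases x <;> decide
@[simp] theorem Ty.tr_eq_D {x : Ty} : x.tr = .D ↔ x = .D := by cases x <;> decide
@[simp] theorem Ty.tr_eq_N {x : Ty} : x.tr = .N ↔ x = .N := by cases x <;> decide

def Role.ok (r : Role) : Prop :=
  (r.ty = .N ↔ ¬ (r.H.act ∧ r.V.act)) ∧ (r.H = .f → r.ty ≠ .R) ∧ (r.V = .f → r.ty ≠ .T) ∧
  (r.H = .l → r.ty ≠ .T) ∧ (r.V = .l → r.ty ≠ .R) ∧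
  (r.ty = .D → (r.H = .f ↔ r.V = .f) ∧ (r.H = .l ↔ r.V = .l))

/-- rules for a single label -/
structure Lab.ok (x : Lab) : Prop where
  role : x.par.ok
  none : x.par.ty = .N → x.β = false ∧ x.β' = false
  diag : x.par.ty = .D → x.β' = false
  first : x.par.H = .f ∨ x.par.V = .f → x.β = false
  startT : x.par.ty = .T → x.own.V = .f → x.β' = true
  startR : x.par.ty = .R → x.own.H = .f → x.β' = true
  lastT : x.own.V = .l → x.own.H ≠ .b → x.par.ty = .T ∨ x.par.ty = .D → (x.β = true ↔ x.par.H = .l)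
  lastR : x.own.H = .l → x.own.V ≠ .b → x.par.ty = .R ∨ x.par.ty = .D → (x.β = true ↔ x.par.V = .l)
  blank : x.par.ty = .D → x.own.H = .b ∨ x.own.V = .b → x.β = false

/-- rules for two horizontally adjacent junctions -/
structure LegalH (x y : Lab) : Prop where
  okl : x.ok
  okr : y.ok
  par : x.own.H ≠ .b → y.par = x.par
  keepT : x.own.H ≠ .b → x.par.ty = .T → y.β = x.β
  keepD : x.own.H ≠ .b → x.par.ty = .D → x.own.ty = .T → y.β = x.β
  moveR : x.own.H ≠ .b → x.par.ty = .R → y.β' = x.β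
  nextV : x.own.H = .b → y.par.V = x.par.V
  nextH : x.own.H = .b → x.par.H.succ y.par.H
  nextT : x.own.H = .b → x.par.ty = .T → (y.par.ty = .T ∨ y.par.ty = .D) ∧ y.β = x.β'
  nextR : x.own.H = .b → x.par.ty = .D ∨ x.par.ty = .R → y.par.ty = .R ∨ y.par.ty = .N

def Col.okH (c : Col) : Prop := LegalH c.a c.b ∧ (c.s = .full ↔ c.a.own.H ≠ .b)

def Tile.IsJ (t : Tile) : Prop := t.W.b = t.E.a ∧ t.N.a = t.E.a ∧ t.S.b = t.E.a ∧
  t.E.s ≠ .snd ∧ t.W.s ≠ .fst ∧ t.N.s ≠ .snd ∧ t.S.s ≠ .fst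

def Tile.IsG (t : Tile) : Prop := t.W.a = t.E.a ∧ t.W.b = t.E.b ∧ t.W.s = .fst ∧ t.E.s = .snd ∧
  t.S = t.N ∧ (t.E.b.par.H ≠ .z →
    (t.E.b.par.V ≠ .z → t.N.s ≠ .snd ∧ t.N.a.own = t.E.b.par) ∧
    (t.E.b.par.V = .z → t.N.s = .snd))

def Tile.IsL (t : Tile) : Prop := t.tr.IsG

def Tile.ok (t : Tile) : Prop := t.W.okH ∧ t.E.okH ∧ t.S.tr.okH ∧ t.N.tr.okH ∧
  (t.IsJ ∨ t.IsG ∨ t.IsL)

theorem Role.ok.tr {r : Role} (h : r.ok) : r.tr.ok := by
  obtain ⟨H, V, ty⟩ := r
  revert h; unfold Role.ok Role.tr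
  cases ty <;> simp [Ty.tr] <;> tauto

theorem Lab.ok.tr {x : Lab} (h : x.ok) : x.tr.ok where
  role := h.role.tr
  none := by simpa [Lab.tr, Role.tr] using h.none
  diag := by simpa [Lab.tr, Role.tr] using h.diag
  first := fun h1 => h.first h1.symm
  startT := by simpa [Lab.tr, Role.tr] using h.startR
  startR := by simpa [Lab.tr, Role.tr] using h.startT
  lastT := by simpa [Lab.tr, Role.tr] using h.lastR
  lastR := by simpa [Lab.tr, Role.tr] using h.lastT
  blank := fun h1 h2 => h.blank (by simpa [Lab.tr, Role.tr] using h1) h2.symm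

theorem Tile.IsJ.tr {t : Tile} (h : t.IsJ) : t.tr.IsJ := by
  obtain ⟨h1, h2, h3, h4, h5, h6, h7⟩ := h
  refine ⟨?_, ?_, ?_, h6, h7, h4, h5⟩ <;> simp only [Tile.tr, Col.tr] <;> congr 1
  · rw [h3, h2]
  · rw [h2]
  · rw [h1, h2]

theorem Tile.IsG.tr {t : Tile} (h : t.IsG) : t.tr.IsL := by unfold Tile.IsL; rwa [Tile.tr_tr]
theorem Tile.IsL.tr {t : Tile} (h : t.IsL) : t.tr.IsG := h

theorem Tile.ok.tr {t : Tile} (h : t.ok) : t.tr.ok := by
  obtain ⟨h1, h2, h3, h4, h5⟩ := h
  refine ⟨h3, h4, by simpa [Tile.tr] using h1, by simpa [Tile.tr] using h2, ?_⟩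
  rcases h5 with h | h | h
  exacts [Or.inl h.tr, Or.inr (Or.inr h.tr), Or.inr (Or.inl h.tr)]

/-! ## The model -/

/-- class of the coordinate `i ∈ [0, n + 1]` -/
def cls (n : ℕ) (i : ℤ) : Cl :=
  if i = 0 then .z else if i = 1 then .f else if i = n then .l else if i = n + 1 then .b else .m

def role (n : ℕ) (i j : ℤ) : Role :=
  ⟨cls n i, cls n j, if i = 0 ∨ j = 0 ∨ i = n + 1 ∨ j = n + 1 then .N else
    if i < j then .T else if i = j then .D else .R⟩

/-- label of the junction `(p, q)` of the cell with index `(i, j)` -/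
def mlab (n : ℕ) (p q i j : ℤ) : Lab :=
  ⟨role n p q, role (n + 1) i j,
    match (role (n + 1) i j).ty with
      | .T => decide (q < i) | .R => decide (p < j) | .D => decide (max p q < i) | .N => false,
    match (role (n + 1) i j).ty with
      | .T => decide (q ≤ i) | .R => decide (p ≤ j) | .D => false | .N => false⟩

/-- east colour of the site `(p, q)`, `q ≠ 0`, of the cell with index `(i, j)` -/
def mcolH (n : ℕ) (p q i j : ℤ) : Col :=
  if p = 0 then ⟨mlab n (n + 1) q (if i = 0 then n + 2 else i - 1) j, mlab n 1 q i j, .snd⟩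
  else if p = n + 1 then ⟨mlab n (n + 1) q i j, mlab n 1 q (if i = n + 2 then 0 else i + 1) j, .fst⟩
  else ⟨mlab n p q i j, mlab n (p + 1) q i j, .full⟩

/-- north colour of the site `(p, q)`, `p ≠ 0`, of the cell with index `(i, j)` -/
def mcolV (n : ℕ) (p q i j : ℤ) : Col := (mcolH n q p j i).tr

theorem role_tr (n : ℕ) (i j : ℤ) : (role n i j).tr = role n j i := by
  simp only [role, Role.tr]
  congr 1
  split_ifs <;> first | rfl | omega

theorem mlab_tr (n : ℕ) (p q i j : ℤ) : (mlab n p q i j).tr = mlab n q p j i := by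
  have h : (role (n + 1) j i).ty = (role (n + 1) i j).ty.tr := by rw [← role_tr (n + 1) i j]; rfl
  have h2 : (role (n + 1) i j).ty = .D → i = j := by
    simp only [role]; split_ifs <;> simp_all
  refine Lab.ext (role_tr _ _ _) (role_tr _ _ _) ?_ ?_
  · simp only [mlab, Lab.tr, h]
    revert h2
    cases (role (n + 1) i j).ty <;> simp [Ty.tr, max_comm]
    rintro rfl; rfl
  · simp only [mlab, Lab.tr, h]
    cases (role (n + 1) i j).ty <;> simp [Ty.tr]

/-- coordinate of the site `p` of the cell `x` -/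
def site (n : ℕ) (x p : ℤ) : ℤ := (n + 2) * x + p

/-! ## Tilings, quantum and classical -/

section
variable {Q : Type} [QL Q]

/-- tile observables with matching edges -/
structure TObs (o : V → Obs Q Tile) : Prop where
  ok : ∀ u, Frc ⊤ (o u) Tile.ok
  mH : ∀ x y t t', t.E ≠ t'.W → (o (x, y)).e t ≤ QL.neg ((o (x + 1, y)).e t')
  mV : ∀ x y t t', t.N ≠ t'.S → (o (x, y)).e t ≤ QL.neg ((o (x, y + 1)).e t')

/-- below `κ` the sites are organised in cells of size `n + 2` with base point `0` -/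
structure Lev (κ : Q) (o : V → Obs Q Tile) (n : ℕ) : Prop where
  J : ∀ x y p q : ℤ, 1 ≤ p → p ≤ n + 1 → 1 ≤ q → q ≤ n + 1 →
    Frc κ (o (site n x p, site n y q)) (fun t => t.IsJ ∧ t.E.a.own = role n p q)
  G : ∀ x y q : ℤ, 1 ≤ q → q ≤ n + 1 → Frc κ (o (site n x 0, site n y q)) Tile.IsG
  L : ∀ x y p : ℤ, 1 ≤ p → p ≤ n + 1 → Frc κ (o (site n x p, site n y 0)) Tile.IsL

/-- `κ` is compatible with the colours at the sites `(0, 0)` and `(1, 1)` of each cell -/
def Hc (κ : Q) (o : V → Obs Q Tile) (n : ℕ) : Prop :=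
  ∀ (x y i : ℤ) (P : Col → Prop), i = 0 ∨ i = 1 →
    QL.C κ ((o (site n x i, site n y i)).ev (fun t => P t.E)) ∧
    QL.C κ ((o (site n x i, site n y i)).ev (fun t => P t.N))

/-- the derived family on the base points of the cells, recentred at the cell `g` -/
def der {β : Type} (n : ℕ) (g : V) (o : V → β) : V → β :=
  fun c => o (site n (g.1 + c.1) 0, site n (g.2 + c.2) 0)

/-- the transposed family -/
noncomputable def trO (o : V → Obs Q Tile) : V → Obs Q Tile := fun u => (o u.swap).map Tile.tr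

end

/-- a valid tiling -/
structure Tiling (ω : V → Tile) : Prop where
  ok : ∀ u, (ω u).ok
  mH : ∀ x y, (ω (x, y)).E = (ω (x + 1, y)).W
  mV : ∀ x y, (ω (x, y)).N = (ω (x, y + 1)).S

/-- the sites are organised in cells of size `n + 2` with base point `0` -/
structure CLev (ω : V → Tile) (n : ℕ) : Prop where
  J : ∀ x y p q : ℤ, 1 ≤ p → p ≤ n + 1 → 1 ≤ q → q ≤ n + 1 →
    (ω (site n x p, site n y q)).IsJ ∧ (ω (site n x p, site n y q)).E.a.own = role n p q
  G : ∀ x y q : ℤ, 1 ≤ q → q ≤ n + 1 → (ω (site n x 0, site n y q)).IsG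
  L : ∀ x y p : ℤ, 1 ≤ p → p ≤ n + 1 → (ω (site n x p, site n y 0)).IsL

/-- the transposed tiling -/
def trT (ω : V → Tile) : V → Tile := fun u => (ω u.swap).tr
/-- the shifted tiling -/
def shT {β : Type} (z : V) (ω : V → β) : V → β := fun u => ω (u + z)

end Crest.Agent.R189
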