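import Crest.Agent.R189.Step

/-! # Row 189: the hierarchy of a classical tiling -/

set_option autoImplicit false
set_option linter.unusedSectionVars false

namespace Crest.Agent.R189

/-- size of the cells after `k` steps -/
def LL : ℕ → ℕ → ℕ
  | _, 0 => 1
  | n, k + 1 => (n + 2) * LL (n + 1) k

/-- the origin is a base point of the first `k` levels -/
def Chain : ℕ → ℕ → (V → Tile) → Prop
  | _, 0, _ => True
  | n, k + 1, ω => CLev ω n ∧ Chain (n + 1) k (der n 0 ω)

/-- the `k`-fold derived tiling -/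
def derk (n k : ℕ) (ω : V → Tile) : V → Tile := fun c => ω (LL n k * c.1, LL n k * c.2)

theorem LL_pos (n k : ℕ) : 0 < LL n k := by
  induction k generalizing n with
  | zero => simp [LL]
  | succ k ih => simp [LL, ih]
theorem LL_add (n k j : ℕ) : LL n (k + j) = LL n k * LL (n + k) j := by
  induction k generalizing n with
  | zero => simp [LL]
  | succ k ih =>
    rw [show k + 1 + j = (k + j) + 1 by ring, LL, LL, ih, show n + 1 + k = n + (k + 1) by ring]
    ring
theorem LL_succ (n k : ℕ) : LL n (k + 1) = LL n k * (n + k + 2) := by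
  rw [LL_add]; simp [LL]
theorem lt_LL (n k : ℕ) : k < LL n k := by
  induction k with
  | zero => simp [LL]
  | succ k ih => rw [LL_succ]; nlinarith
theorem LL_dvd (n : ℕ) {k j : ℕ} (h : k ≤ j) : LL n k ∣ LL n j := by
  obtain ⟨i, rfl⟩ := Nat.exists_eq_add_of_le h
  rw [LL_add]; exact Dvd.intro _ rfl

variable {n k : ℕ} {ω ω' : V → Tile}

theorem shT_shT {β : Type} (z w : V) (ω : V → β) : shT z (shT w ω) = shT (z + w) ω := by
  funext u; simp [shT, add_assoc]
@[simp] theorem shT_zero {β : Type} (ω : V → β) : shT 0 ω = ω := by funext u; simp [shT]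
theorem trT_shT (z : V) (ω : V → Tile) : trT (shT z ω) = shT z.swap (trT ω) := rfl
@[simp] theorem trT_trT (ω : V → Tile) : trT (trT ω) = ω := by funext u; simp [trT]

theorem xc_LL_succ_cast (n k : ℕ) : (LL n (k + 1) : ℤ) = ((n : ℤ) + 2) * LL (n + 1) k := by
  simp [LL]

theorem xc_LL_zero_cast (n : ℕ) : (LL n 0 : ℤ) = 1 := by simp [LL]

theorem xc_site_surj (n : ℕ) (u : ℤ) : ∃ x p : ℤ, 0 ≤ p ∧ p ≤ n + 1 ∧ u = site n x p := by
  have hpos : (0 : ℤ) < n + 2 := by positivity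
  refine ⟨u / (n + 2), u % (n + 2), Int.emod_nonneg _ hpos.ne', ?_, ?_⟩
  · have := Int.emod_lt_of_pos u hpos
    omega
  · unfold site
    exact (Int.mul_ediv_add_emod u (n + 2)).symm

theorem xc_der_eq_shT {β : Type} (n : ℕ) (g : V) (o : V → β) : der n g o = shT g (der n 0 o) := by
  funext c
  simp [der, shT, add_comm]

theorem xc_der_shT {β : Type} (n : ℕ) (g : V) (o : V → β) :
    der n 0 (shT (((n : ℤ) + 2) * g.1, ((n : ℤ) + 2) * g.2) o) = shT g (der n 0 o) := by
  funext c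
  simp only [der, shT, site, Prod.fst_zero, Prod.snd_zero, zero_add, add_zero, Prod.fst_add,
    Prod.snd_add, Prod.mk_add_mk, mul_add]

theorem xc_derk_zero (n : ℕ) (ω : V → Tile) : derk n 0 ω = ω := by
  funext c; simp [derk, LL]

theorem xc_derk_succ (n k : ℕ) (ω : V → Tile) :
    derk n (k + 1) ω = derk (n + 1) k (der n 0 ω) := by
  funext c
  simp only [derk, der, site, xc_LL_succ_cast, Prod.fst_zero, Prod.snd_zero, zero_add, add_zero,
    mul_assoc]

theorem xc_der_trT (n : ℕ) (ω : V → Tile) : der n 0 (trT ω) = trT (der n 0 ω) := rfl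

theorem CLev.xc_shift (h : CLev ω n) (g : V) :
    CLev (shT (((n : ℤ) + 2) * g.1, ((n : ℤ) + 2) * g.2) ω) n := by
  have e : ∀ x p a : ℤ, site n x p + ((n : ℤ) + 2) * a = site n (x + a) p := by
    intro x p a; unfold site; ring
  refine ⟨fun x y p q h1 h2 h3 h4 => ?_, fun x y q h1 h2 => ?_, fun x y p h1 h2 => ?_⟩
  · simp only [shT, Prod.mk_add_mk, e]; exact h.J _ _ _ _ h1 h2 h3 h4
  · simp only [shT, Prod.mk_add_mk, e]; exact h.G _ _ _ h1 h2
  · simp only [shT, Prod.mk_add_mk, e]; exact h.L _ _ _ h1 h2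

theorem Tiling.shT (h : Tiling ω) (z : V) : Tiling (shT z ω) := by
  refine ⟨fun u => h.ok _, fun x y => ?_, fun x y => ?_⟩
  · have := h.mH (x + z.1) (y + z.2)
    rw [add_right_comm] at this
    exact this
  · have := h.mV (x + z.1) (y + z.2)
    rw [add_right_comm] at this
    exact this
theorem Tiling.trT (h : Tiling ω) : Tiling (trT ω) := by
  refine ⟨fun u => (h.ok _).tr, fun x y => ?_, fun x y => ?_⟩
  · exact congrArg Col.tr (h.mV y x)
  · exact congrArg Col.tr (h.mH y x)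
theorem CLev.trT (h : CLev ω n) : CLev (trT ω) n := by
  refine ⟨fun x y p q h1 h2 h3 h4 => ?_, fun x y q h1 h2 => ?_, fun x y p h1 h2 => ?_⟩
  · obtain ⟨hJ, hr⟩ := h.J y x q p h3 h4 h1 h2
    refine ⟨hJ.tr, ?_⟩
    show (ω (site n y q, site n x p)).N.a.own.tr = _
    rw [hJ.2.1, hr, role_tr]
  · exact (h.L y x q h1 h2).tr
  · exact (h.G y x p h1 h2).tr
theorem Chain.trT (h : Chain n k ω) : Chain n k (trT ω) := by
  induction k generalizing n ω with
  | zero => trivial
  | succ k ih => exact ⟨h.1.trT, ih h.2⟩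
theorem chain_add {j : ℕ} : Chain n (k + j) ω ↔ Chain n k ω ∧ Chain (n + k) j (derk n k ω) := by
  induction k generalizing n ω with
  | zero => simp [Chain, xc_derk_zero]
  | succ k ih =>
    rw [show k + 1 + j = (k + j) + 1 by ring, xc_derk_succ, show n + (k + 1) = n + 1 + k by ring]
    simp only [Chain, ih, and_assoc]
theorem Chain.mono {j : ℕ} (h : Chain n k ω) (hj : j ≤ k) : Chain n j ω := by
  obtain ⟨i, rfl⟩ := Nat.exists_eq_add_of_le hj
  exact (chain_add.1 h).1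
theorem Chain.tiling (h : Chain n k ω) (hT : Tiling ω) : Tiling (derk n k ω) := by
  induction k generalizing n ω with
  | zero => rwa [xc_derk_zero]
  | succ k ih => rw [xc_derk_succ]; exact ih h.2 (hT.der h.1 0)
theorem Chain.shift (h : Chain n k ω) {z : V} (h1 : (LL n k : ℤ) ∣ z.1) (h2 : (LL n k : ℤ) ∣ z.2) :
    Chain n k (shT z ω) := by
  induction k generalizing n ω z with
  | zero => trivial
  | succ k ih =>
    obtain ⟨a, ha⟩ := h1
    obtain ⟨b, hb⟩ := h2
    rw [xc_LL_succ_cast, mul_assoc] at ha hb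
    have hz : z = (((n : ℤ) + 2) * ((LL (n + 1) k * a, LL (n + 1) k * b) : V).1,
        ((n : ℤ) + 2) * ((LL (n + 1) k * a, LL (n + 1) k * b) : V).2) := Prod.ext ha hb
    rw [hz]
    refine ⟨h.1.xc_shift _, ?_⟩
    rw [xc_der_shT]
    exact ih h.2 (Dvd.intro _ rfl) (Dvd.intro _ rfl)
theorem xc_clash1 (hn : 3 ≤ n) {z : V} (h : CLev ω n) (h' : CLev (shT z ω') n)
    (he : ∀ u, Bd 2 u → ω u = ω' u) : ((n : ℤ) + 2) ∣ z.1 := by
  by_contra hz
  obtain ⟨a, p, hp0, hp1, hp⟩ := xc_site_surj n (-z.1)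
  have hp2 : 1 ≤ p := by
    rcases hp0.eq_or_lt with h0 | h0
    · exfalso
      apply hz
      refine ⟨-a, ?_⟩
      rw [← h0] at hp
      unfold site at hp
      linear_combination -hp
    · exact h0
  have hq : ∃ q b q' : ℤ, 1 ≤ q ∧ q ≤ 2 ∧ 1 ≤ q' ∧ q' ≤ n + 1 ∧ q - z.2 = site n b q' := by
    obtain ⟨b, q', h0, h1, h2⟩ := xc_site_surj n (1 - z.2)
    rcases h0.eq_or_lt with h3 | h3
    · refine ⟨2, b, 1, by norm_num, le_rfl, le_rfl, by omega, ?_⟩
      rw [← h3] at h2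
      unfold site at h2 ⊢
      linear_combination h2
    · exact ⟨1, b, q', le_rfl, by norm_num, h3, h1, h2⟩
  obtain ⟨q, b, q', hq1, hq2, hq3, hq4, hq⟩ := hq
  have hG := h.G 0 0 q hq1 (by omega)
  have hJ := (h'.J a b p q' hp2 hp1 hq3 hq4).1
  have e1 : (site n 0 0, site n 0 q) = ((0, q) : V) := by simp [site]
  have e2 : ((site n a p, site n b q') : V) + z = ((0, q) : V) := by
    rw [← hp, ← hq]
    ext <;> simp
  rw [e1, he _ (by unfold Bd; simp only; omega)] at hG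
  simp only [shT, e2] at hJ
  exact hJ.2.2.2.1 hG.2.2.2.1

theorem xc_clash (hn : 3 ≤ n) {z : V} (h : CLev ω n) (h' : CLev (shT z ω') n)
    (he : ∀ u, Bd 2 u → ω u = ω' u) : ((n : ℤ) + 2) ∣ z.1 ∧ ((n : ℤ) + 2) ∣ z.2 := by
  refine ⟨xc_clash1 hn h h' he, ?_⟩
  have h2 := h'.trT
  rw [trT_shT] at h2
  refine xc_clash1 (z := z.swap) hn h.trT h2 fun u hu => ?_
  unfold trT
  rw [he _ (by unfold Bd at hu ⊢; simp only [Prod.fst_swap, Prod.snd_swap]; omega)]

theorem xc_step (hn : 3 ≤ n) (hT : Tiling ω) (h : CLev ω n) (j : ℕ) :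
    ∃ g : V, Chain n (j + 1) (shT (((n : ℤ) + 2) * g.1, ((n : ℤ) + 2) * g.2) ω) := by
  induction j generalizing n ω with
  | zero => exact ⟨0, h.xc_shift 0, trivial⟩
  | succ j ih =>
    obtain ⟨g, hg, -⟩ := cstep hT hn h
    obtain ⟨g', hg'⟩ := ih (n := n + 1) (by omega) (hT.der h g) hg
    rw [xc_der_eq_shT, shT_shT] at hg'
    rw [← xc_der_shT] at hg'
    exact ⟨_, h.xc_shift _, hg'⟩

theorem Chain.unique (hn : 3 ≤ n) (h : Chain n k ω) {z : V} (h' : Chain n k (shT z ω)) :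
    (LL n k : ℤ) ∣ z.1 ∧ (LL n k : ℤ) ∣ z.2 := by
  induction k generalizing n ω z with
  | zero => simp [LL]
  | succ k ih =>
    obtain ⟨⟨a, ha⟩, ⟨b, hb⟩⟩ := xc_clash hn h.1 h'.1 fun _ _ => rfl
    have hz : z = (((n : ℤ) + 2) * ((a, b) : V).1, ((n : ℤ) + 2) * ((a, b) : V).2) :=
      Prod.ext ha hb
    have h2 := h'.2
    rw [hz, xc_der_shT] at h2
    obtain ⟨h3, h4⟩ := ih (n := n + 1) (by omega) h.2 h2
    rw [xc_LL_succ_cast, ha, hb]
    exact ⟨mul_dvd_mul_left _ h3, mul_dvd_mul_left _ h4⟩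
/-- a chain can be prolonged after a shift by a multiple of the cell size -/
theorem Chain.extend (hn : 3 ≤ n) (hT : Tiling ω) (h : Chain n (k + 1) ω) (j : ℕ) :
    ∃ z : V, (LL n (k + 1) : ℤ) ∣ z.1 ∧ (LL n (k + 1) : ℤ) ∣ z.2 ∧
      Chain n (k + 1 + j) (shT z ω) := by
  induction k generalizing n ω with
  | zero =>
    obtain ⟨g, hg⟩ := xc_step hn hT h.1 j
    refine ⟨_, ?_, ?_, by rw [show 0 + 1 + j = j + 1 by ring]; exact hg⟩ <;> simp [LL]
  | succ k ih =>
    obtain ⟨g, h1, h2, h3⟩ := ih (n := n + 1) (by omega) (hT.der h.1 0) h.2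
    refine ⟨(((n : ℤ) + 2) * g.1, ((n : ℤ) + 2) * g.2), ?_, ?_, ?_⟩
    · rw [xc_LL_succ_cast]; exact mul_dvd_mul_left _ h1
    · rw [xc_LL_succ_cast]; exact mul_dvd_mul_left _ h2
    · rw [show k + 1 + 1 + j = (k + 1 + j) + 1 by ring]
      refine ⟨h.1.xc_shift _, ?_⟩
      rw [xc_der_shT]
      exact h3
theorem chain_exists (hn : 3 ≤ n) (hT : Tiling ω) (h : ∃ z, CLev (shT z ω) n) (k : ℕ) :
    ∃ z, Chain n k (shT z ω) := by
  obtain ⟨z, hz⟩ := h
  obtain ⟨g, hg⟩ := xc_step hn (hT.shT z) hz k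
  rw [shT_shT] at hg
  exact ⟨_, hg.mono (Nat.le_succ k)⟩
theorem chain_local (hn : 3 ≤ n) (k : ℕ) : ∃ R : ℕ, ∀ ω ω' : V → Tile, Tiling ω → Tiling ω' →
    (∃ z, CLev (shT z ω') n) → (∀ u, Bd R u → ω u = ω' u) → Chain n k ω → Chain n k ω' := by
  induction k generalizing n with
  | zero => exact ⟨0, fun _ _ _ _ _ _ _ => trivial⟩
  | succ k ih =>
    obtain ⟨R, hR⟩ := ih (n := n + 1) (by omega)
    refine ⟨2 + (n + 2) * R, fun ω ω' hT hT' ⟨z, hz⟩ he h => ?_⟩
    have hR0 : (0 : ℤ) ≤ ((n : ℤ) + 2) * R := by positivity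
    obtain ⟨⟨a, ha⟩, ⟨b, hb⟩⟩ := xc_clash hn h.1 hz fun u hu => he u (hu.mono (by
      push_cast; linarith))
    have hL : CLev ω' n := by
      have := hz.xc_shift (-a, -b)
      rw [shT_shT] at this
      have e : ((((n : ℤ) + 2) * ((-a, -b) : V).1, ((n : ℤ) + 2) * ((-a, -b) : V).2) : V) + z
          = 0 := by
        ext <;> simp [ha, hb]
      rwa [e, shT_zero] at this
    refine ⟨hL, hR _ _ (hT.der h.1 0) (hT'.der hL 0) ?_ (fun u hu => ?_) h.2⟩
    · obtain ⟨g, hg, -⟩ := cstep hT' hn hL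
      rw [xc_der_eq_shT] at hg
      exact ⟨g, hg⟩
    · apply he
      have hn2 : (0 : ℤ) ≤ (n : ℤ) + 2 := by positivity
      obtain ⟨h1, h2, h3, h4⟩ := hu
      have a1 := mul_le_mul_of_nonneg_left h1 hn2
      have a2 := mul_le_mul_of_nonneg_left h2 hn2
      have a3 := mul_le_mul_of_nonneg_left h3 hn2
      have a4 := mul_le_mul_of_nonneg_left h4 hn2
      unfold Bd site
      simp only [Prod.fst_zero, Prod.snd_zero, zero_add, add_zero]
      push_cast
      refine ⟨?_, ?_, ?_, ?_⟩ <;> linarith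

theorem xc_pass1 (hT : Tiling ω) (h : CLev ω n) (x y p : ℤ) (h0 : 0 ≤ p) (h1 : p ≤ n + 1) :
    (ω (site n x p, site n y 0)).E = (ω (site n x 0, site n y 0)).E := by
  induction p, h0 using Int.leInduction with
  | base => rfl
  | succ p hp ih =>
    have hL := h.L x y (p + 1) (by omega) h1
    have hWE : (ω (site n x (p + 1), site n y 0)).W = (ω (site n x (p + 1), site n y 0)).E :=
      Col.tr_inj hL.2.2.2.2.1
    rw [← hWE, ← ih (by omega), hT.mH]
    simp only [site, add_assoc]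

/-- colours on the lines of level `≥ k` are constant between the base points -/
theorem Chain.pass_E (hT : Tiling ω) (h : Chain n k ω) (a r y : ℤ) (hy : (LL n k : ℤ) ∣ y)
    (h0 : 0 ≤ r) (h1 : r < LL n k) : (ω (LL n k * a + r, y)).E = (ω (LL n k * a, y)).E := by
  induction k generalizing n ω a r y with
  | zero =>
    rw [xc_LL_zero_cast] at h1
    rw [show r = 0 by omega, add_zero]
  | succ k ih =>
    obtain ⟨c, rfl⟩ := hy
    obtain ⟨r', p, hp0, hp1, rfl⟩ := xc_site_surj n r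
    rw [xc_LL_succ_cast] at h1 ⊢
    have hn2 : (0 : ℤ) < (n : ℤ) + 2 := by positivity
    have hr0 : 0 ≤ r' := by
      by_contra hc
      have : r' ≤ -1 := by omega
      have := mul_le_mul_of_nonneg_left this hn2.le
      unfold site at h0
      linarith
    have hr1 : r' < LL (n + 1) k := by
      unfold site at h1
      exact lt_of_mul_lt_mul_left (by linarith) hn2.le
    have e1 : ((n : ℤ) + 2) * LL (n + 1) k * a + site n r' p
        = site n (LL (n + 1) k * a + r') p := by unfold site; ring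
    have e2 : ((n : ℤ) + 2) * LL (n + 1) k * c = site n (LL (n + 1) k * c) 0 := by
      unfold site; ring
    have e3 : ((n : ℤ) + 2) * LL (n + 1) k * a = site n (LL (n + 1) k * a) 0 := by
      unfold site; ring
    rw [e1, e2, e3, xc_pass1 hT h.1 _ _ _ hp0 hp1]
    have := ih (hT.der h.1 0) h.2 a r' (LL (n + 1) k * c) (Dvd.intro _ rfl) hr0 hr1
    simpa only [der, Prod.fst_zero, Prod.snd_zero, zero_add] using this
theorem Chain.pass_N (hT : Tiling ω) (h : Chain n k ω) (x a r : ℤ) (hx : (LL n k : ℤ) ∣ x)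
    (h0 : 0 ≤ r) (h1 : r < LL n k) : (ω (x, LL n k * a + r)).N = (ω (x, LL n k * a)).N := by
  exact Col.tr_inj (Chain.pass_E hT.trT h.trT a r x hx h0 h1)

/-- explicit colours on the lines of level exactly `k` -/
theorem Chain.expl_E (hn : 3 ≤ n) (hT : Tiling ω) (h : Chain n (k + 2) ω) (X Y i j p q r : ℤ)
    (hi : 0 ≤ i) (hi' : i ≤ n + k + 2) (hj : 0 ≤ j) (hj' : j ≤ n + k + 2) (hp : 0 ≤ p)
    (hp' : p ≤ n + k + 1) (hq : 1 ≤ q) (hq' : q ≤ n + k + 1) (h0 : 0 ≤ r) (h1 : r < LL n k) :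
    (ω (LL n k * site (n + k) (site (n + k + 1) X i) p + r,
      LL n k * site (n + k) (site (n + k + 1) Y j) q)).E = mcolH (n + k) p q i j := by
  obtain ⟨hk, h2⟩ := chain_add.1 h
  have hT1 := hk.tiling hT
  obtain ⟨g, hg, hcol⟩ := cstep hT1 (by omega) h2.1
  rw [xc_der_eq_shT] at hg
  obtain ⟨⟨a, ha⟩, ⟨b, hb⟩⟩ := xc_clash (by omega) h2.2.1 hg fun _ _ => rfl
  have := hcol (X - a) (Y - b) i j p q hi (by push_cast; exact hi') hj (by push_cast; exact hj') hp
    (by push_cast; exact hp') hq (by push_cast; exact hq')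
  have e1 : g.1 + site (n + k + 1) (X - a) i = site (n + k + 1) X i := by
    rw [ha]; unfold site; ring
  have e2 : g.2 + site (n + k + 1) (Y - b) j = site (n + k + 1) Y j := by
    rw [hb]; unfold site; ring
  rw [e1, e2] at this
  rw [hk.pass_E hT _ _ _ (Dvd.intro _ rfl) h0 h1]
  exact this
theorem Chain.expl_N (hn : 3 ≤ n) (hT : Tiling ω) (h : Chain n (k + 2) ω) (X Y i j p q r : ℤ)
    (hi : 0 ≤ i) (hi' : i ≤ n + k + 2) (hj : 0 ≤ j) (hj' : j ≤ n + k + 2) (hp : 1 ≤ p)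
    (hp' : p ≤ n + k + 1) (hq : 0 ≤ q) (hq' : q ≤ n + k + 1) (h0 : 0 ≤ r) (h1 : r < LL n k) :
    (ω (LL n k * site (n + k) (site (n + k + 1) X i) p,
      LL n k * site (n + k) (site (n + k + 1) Y j) q + r)).N = mcolV (n + k) p q i j := by
  have := Chain.expl_E hn hT.trT h.trT Y X j i q p r hj hj' hi hi' hq hq' hp hp' h0 h1
  apply Col.tr_inj
  unfold mcolV
  rw [Col.tr_tr]
  exact this

/-- colours on the lines of level `< k` are determined by the position modulo `LL n (k + 1)` -/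
theorem Chain.det_E (hn : 3 ≤ n) (hT : Tiling ω) (hT' : Tiling ω') (h : Chain n (k + 1) ω)
    (h' : Chain n (k + 1) ω') (x y : ℤ) (hy : ¬ (LL n k : ℤ) ∣ y) :
    (ω (x, y)).E = (ω' (x, y)).E := by
  induction k generalizing n ω ω' x y with
  | zero => exact absurd (by simp [LL]) hy
  | succ k ih =>
    obtain ⟨x1, p, hp0, hp1, rfl⟩ := xc_site_surj n x
    obtain ⟨y1, q, hq0, hq1, rfl⟩ := xc_site_surj n y
    rcases hq0.eq_or_lt with h0 | h0
    · subst h0
      rw [xc_pass1 hT h.1 _ _ _ hp0 hp1, xc_pass1 hT' h'.1 _ _ _ hp0 hp1]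
      have := ih (n := n + 1) (by omega) (hT.der h.1 0) (hT'.der h'.1 0) h.2 h'.2 x1 y1 (by
        intro hd
        apply hy
        rw [xc_LL_succ_cast]
        unfold site
        rw [add_zero]
        exact mul_dvd_mul_left _ hd)
      simpa only [der, Prod.fst_zero, Prod.snd_zero, zero_add] using this
    · obtain ⟨X, i, hi0, hi1, rfl⟩ := xc_site_surj (n + 1) x1
      obtain ⟨Y, j, hj0, hj1, rfl⟩ := xc_site_surj (n + 1) y1
      push_cast at hi1 hj1
      have key : ∀ {ω : V → Tile}, Tiling ω → Chain n (k + 1 + 1) ω →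
          (ω (site n (site (n + 1) X i) p, site n (site (n + 1) Y j) q)).E = mcolH n p q i j := by
        intro ω hT h
        have := Chain.expl_E (k := 0) hn hT (h.mono (by omega)) X Y i j p q 0 hi0
          (by push_cast; linarith) hj0 (by push_cast; linarith) hp0 (by push_cast; linarith) h0
          (by push_cast; linarith) le_rfl (by simp [LL])
        simpa only [xc_LL_zero_cast, one_mul, add_zero] using this
      rw [key hT h, key hT' h']
theorem Chain.det_N (hn : 3 ≤ n) (hT : Tiling ω) (hT' : Tiling ω') (h : Chain n (k + 1) ω)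
    (h' : Chain n (k + 1) ω') (x y : ℤ) (hx : ¬ (LL n k : ℤ) ∣ x) :
    (ω (x, y)).N = (ω' (x, y)).N := by
  exact Col.tr_inj (Chain.det_E hn hT.trT hT'.trT h.trT h'.trT y x hx)

/-- a tile is determined by four `E`/`N` colours -/
theorem tile_ext (hT : Tiling ω) (hT' : Tiling ω') {x y x' y' : ℤ}
    (h1 : (ω (x, y)).E = (ω' (x', y')).E) (h2 : (ω (x - 1, y)).E = (ω' (x' - 1, y')).E)
    (h3 : (ω (x, y)).N = (ω' (x', y')).N) (h4 : (ω (x, y - 1)).N = (ω' (x', y' - 1)).N) :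
    ω (x, y) = ω' (x', y') := by
  rw [hT.mH, hT'.mH, sub_add_cancel, sub_add_cancel] at h2
  rw [hT.mV, hT'.mV, sub_add_cancel, sub_add_cancel] at h4
  exact Tile.ext h2 h1 h4 h3

end Crest.Agent.R189
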