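import Crest.Agent.R189.XChain

/-! # Row 189: the shift `XX n` -/

set_option autoImplicit false
set_option linter.unusedSectionVars false

namespace Crest.Agent.R189

/-- tiles which are forced to occur in the hierarchy starting with size `n + 2` -/
def Tau (n : ℕ) (t : Tile) : Prop :=
  ∃ (k : ℕ) (u : V), ∀ ω : V → Tile, Tiling ω → Chain n k ω → ω u = t

/-- tiles which are forced to occur at infinitely many levels -/
def TauInf (t : Tile) : Prop := ∀ K, ∃ n, K ≤ n ∧ Tau n t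

def XX (n : ℕ) : Type :=
  {ω : V → Tile // Tiling ω ∧ (∃ z, CLev (shT z ω) n) ∧ ∀ u, TauInf (ω u)}

namespace XX
variable {n : ℕ}

instance : AddAction V (XX n) where
  vadd z x := ⟨shT z x.1, x.2.1.shT z, by
    obtain ⟨w, hw⟩ := x.2.2.1
    exact ⟨w - z, by rw [shT_shT, sub_add_cancel]; exact hw⟩, fun u => x.2.2.2 _⟩
  zero_vadd x := Subtype.ext (shT_zero _)
  add_vadd z w x := Subtype.ext (shT_shT z w x.1).symm

theorem vadd_val (z : V) (x : XX n) : (z +ᵥ x).1 = shT z x.1 := rfl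
theorem tiling (x : XX n) : Tiling x.1 := x.2.1

/-- position of the origin in its cell -/
noncomputable def pos (x : XX n) : ZMod (n + 2) × ZMod (n + 2) :=
  (((-x.2.2.1.choose.1 : ℤ) : ZMod (n + 2)), ((-x.2.2.1.choose.2 : ℤ) : ZMod (n + 2)))

noncomputable instance : Shift (XX n) where
  A := Tile × (ZMod (n + 2) × ZMod (n + 2))
  finA := inferInstance
  obs x := (x.1 0, pos x)

/-- two base points of the same chain differ by a multiple of the cell size -/
theorem chain_dvd (hn : 3 ≤ n) {k : ℕ} {ω : V → Tile} {z w : V} (hz : Chain n k (shT z ω))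
    (hw : Chain n k (shT w ω)) : (LL n k : ℤ) ∣ w.1 - z.1 ∧ (LL n k : ℤ) ∣ w.2 - z.2 := by
  have h2 : Chain n k (shT (w - z) (shT z ω)) := by
    rw [shT_shT, sub_add_cancel]; exact hw
  exact Chain.unique hn hz h2

theorem chain_move {k : ℕ} {ω : V → Tile} {z w : V} (hz : Chain n k (shT z ω))
    (h1 : (LL n k : ℤ) ∣ w.1 - z.1) (h2 : (LL n k : ℤ) ∣ w.2 - z.2) : Chain n k (shT w ω) := by
  have := Chain.shift hz (z := w - z) h1 h2
  rwa [shT_shT, sub_add_cancel] at this

theorem clev_dvd (hn : 3 ≤ n) {ω : V → Tile} {z w : V} (hz : CLev (shT z ω) n)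
    (hw : CLev (shT w ω) n) :
    ((n + 2 : ℕ) : ℤ) ∣ w.1 - z.1 ∧ ((n + 2 : ℕ) : ℤ) ∣ w.2 - z.2 := by
  have h := chain_dvd hn (k := 1) (ω := ω) (z := z) (w := w) ⟨hz, trivial⟩ ⟨hw, trivial⟩
  simpa [LL] using h

theorem pos_eq (hn : 3 ≤ n) {x : XX n} {z : V} (h : CLev (shT z x.1) n) :
    pos x = (((-z.1 : ℤ) : ZMod (n + 2)), ((-z.2 : ℤ) : ZMod (n + 2))) := by
  obtain ⟨h1, h2⟩ := clev_dvd hn h x.2.2.1.choose_spec
  unfold pos
  refine Prod.ext ?_ ?_
  · exact (ZMod.intCast_eq_intCast_iff_dvd_sub _ _ _).2 (by simpa [sub_eq_add_neg, add_comm] using h1)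
  · exact (ZMod.intCast_eq_intCast_iff_dvd_sub _ _ _).2 (by simpa [sub_eq_add_neg, add_comm] using h2)

theorem obs_vadd (hn : 3 ≤ n) (u : V) (x : XX n) :
    obs (u +ᵥ x) = (x.1 u, pos x + ((u.1 : ZMod (n + 2)), (u.2 : ZMod (n + 2)))) := by
  obtain ⟨z, hz⟩ := x.2.2.1
  have h2 : CLev (shT (z - u) (u +ᵥ x).1) n := by
    rw [vadd_val, shT_shT, sub_add_cancel]; exact hz
  change ((u +ᵥ x).1 0, pos (u +ᵥ x)) = _
  rw [pos_eq hn h2, pos_eq hn hz, vadd_val]
  refine Prod.ext (by simp [shT]) (Prod.ext ?_ ?_)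
  · simp only [Prod.fst_sub, Prod.fst_add]; push_cast; ring
  · simp only [Prod.snd_sub, Prod.snd_add]; push_cast; ring

/-- comparison of observations in two configurations with known base points -/
theorem obs_eq (hn : 3 ≤ n) {x y : XX n} {z w u v : V} (hx : CLev (shT z x.1) n)
    (hy : CLev (shT w y.1) n) (h1 : ((n + 2 : ℕ) : ℤ) ∣ (u - z).1 - (v - w).1)
    (h2 : ((n + 2 : ℕ) : ℤ) ∣ (u - z).2 - (v - w).2) (h : x.1 u = y.1 v) :
    obs (u +ᵥ x) = obs (v +ᵥ y) := by
  rw [obs_vadd hn, obs_vadd hn, pos_eq hn hx, pos_eq hn hy, h]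
  have e1 := (ZMod.intCast_eq_intCast_iff_dvd_sub _ _ _).2 h1
  have e2 := (ZMod.intCast_eq_intCast_iff_dvd_sub _ _ _).2 h2
  simp only [Prod.fst_sub, Prod.snd_sub] at e1 e2
  push_cast at e1 e2
  refine Prod.ext rfl (Prod.ext ?_ ?_)
  · simp only [Prod.fst_add]; push_cast; linear_combination -e1
  · simp only [Prod.snd_add]; push_cast; linear_combination -e2

theorem agree_val (hn : 3 ≤ n) {r : ℕ} {x y : XX n} (h : Agree r x y) {u : V} (hu : Bd r u) :
    x.1 u = y.1 u := by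
  have := congrArg Prod.fst (h u hu)
  rwa [obs_vadd hn, obs_vadd hn] at this

theorem chain_agree (hn : 3 ≤ n) (k : ℕ) : ∃ r : ℕ, ∀ (x y : XX n) (z : V), Agree r x y →
    Chain n k (shT z x.1) → Chain n k (shT z y.1) := by
  obtain ⟨R, hR⟩ := chain_local hn k
  refine ⟨R + LL n k, fun x y z hxy hz => ?_⟩
  have hL : (0 : ℤ) < LL n k := by exact_mod_cast LL_pos n k
  let w : V := (z.1 % LL n k, z.2 % LL n k)
  have d1 : (LL n k : ℤ) ∣ w.1 - z.1 := ⟨-(z.1 / LL n k), by
    have := Int.emod_add_mul_ediv z.1 (LL n k); simp only [w]; linear_combination this⟩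
  have d2 : (LL n k : ℤ) ∣ w.2 - z.2 := ⟨-(z.2 / LL n k), by
    have := Int.emod_add_mul_ediv z.2 (LL n k); simp only [w]; linear_combination this⟩
  have hw : Chain n k (shT w x.1) := chain_move hz d1 d2
  have hb : Bd (LL n k) w := by
    have a1 := Int.emod_nonneg z.1 hL.ne'
    have a2 := Int.emod_lt_of_pos z.1 hL
    have a3 := Int.emod_nonneg z.2 hL.ne'
    have a4 := Int.emod_lt_of_pos z.2 hL
    unfold Bd; simp only [w]; omega
  have hy : Chain n k (shT w y.1) := by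
    refine hR _ _ (x.tiling.shT w) (y.tiling.shT w) (w +ᵥ y).2.2.1 (fun u hu => ?_) hw
    exact agree_val hn hxy (by push_cast; exact hu.add hb)
  exact chain_move hy (by simpa using d1.neg_right) (by simpa using d2.neg_right)

/-- the coordinate modulo `LL n k` -/
def crd (hn : 3 ≤ n) (k : ℕ) (d : Bool) : Crd (XX n) d (LL n k) where
  rep x s := ∃ z : V, pr d z = -s ∧ Chain n k (shT z x.1)
  pos := LL_pos n k
  ex := fun x => by
    obtain ⟨z, hz⟩ := chain_exists hn x.tiling x.2.2.1 k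
    exact ⟨-pr d z, z, by simp, hz⟩
  iff := by
    rintro x s ⟨z, h1, hz⟩ s'
    constructor
    · rintro ⟨w, h2, hw⟩
      obtain ⟨a1, a2⟩ := chain_dvd hn hw hz
      cases d
      · simp only [pr_false] at h1 h2; rw [h1, h2] at a2
        simpa [sub_eq_add_neg, add_comm] using a2
      · simp only [pr_true] at h1 h2; rw [h1, h2] at a1
        simpa [sub_eq_add_neg, add_comm] using a1
    · intro hs
      refine ⟨vec d (-s') (pr (!d) z), by simp, chain_move hz ?_ ?_⟩
      · cases d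
        · simp
        · simp only [pr_true] at h1
          simp only [vec_true, h1]
          simpa [sub_eq_add_neg, add_comm] using hs.neg_right
      · cases d
        · simp only [pr_false] at h1
          simp only [vec_false, h1]
          simpa [sub_eq_add_neg, add_comm] using hs.neg_right
        · simp
  shift := by
    rintro x s u ⟨z, h1, hz⟩
    refine ⟨z - u, by rw [pr_sub, h1]; ring, ?_⟩
    rw [vadd_val, shT_shT, sub_add_cancel]; exact hz
  loc := by
    obtain ⟨r, hr⟩ := chain_agree hn k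
    exact ⟨r, fun x y s hxy ⟨z, h1, hz⟩ => ⟨z, h1, hr x y z hxy hz⟩⟩

theorem chain_of_rep (hn : 3 ≤ n) {k : ℕ} {d : Bool} {x : XX n} {s t : ℤ}
    (h1 : (crd hn k d).rep x s) (h2 : (crd hn k (!d)).rep x t) :
    Chain n k (shT (vec d (-s) (-t)) x.1) := by
  obtain ⟨z, a1, hz⟩ := h1
  obtain ⟨w, a2, hw⟩ := h2
  obtain ⟨b1, b2⟩ := chain_dvd hn hz hw
  refine chain_move hz ?_ ?_
  · cases d
    · simp only [Bool.not_false, pr_true] at a2
      simpa [← a2] using b1
    · simp only [pr_true] at a1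
      simp [← a1]
  · cases d
    · simp only [pr_false] at a1
      simp [← a1]
    · simp only [Bool.not_true, pr_false] at a2
      simpa [← a2] using b2

theorem rep_mono (hn : 3 ≤ n) {k j : ℕ} (hj : j ≤ k) {d : Bool} {x : XX n} {s : ℤ}
    (h : (crd hn k d).rep x s) : (crd hn j d).rep x s :=
  let ⟨z, h1, h2⟩ := h; ⟨z, h1, h2.mono hj⟩

theorem loc_chain (hn : 3 ≤ n) (k : ℕ) : Loc {x : XX n | Chain n k x.1} := by
  obtain ⟨r, hr⟩ := chain_agree hn k
  refine ⟨r, fun x y hxy hx => ?_⟩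
  have := hr x y 0 hxy (by rw [shT_zero]; exact hx)
  rwa [shT_zero] at this

theorem hasCrd (hn : 3 ≤ n) : HasCrd (XX n) :=
  fun d L0 => ⟨LL n L0, (lt_LL n L0).le, ⟨crd hn L0 d⟩⟩

end XX

end Crest.Agent.R189
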