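import Crest.Agent.R189.XChain

/-! # Row 189: the model is legal; a tiling all of whose lines have finite level -/

set_option autoImplicit false
set_option linter.unusedSectionVars false

namespace Crest.Agent.R189

namespace XGen

theorem cls_z {n : ℕ} {i : ℤ} : cls n i = .z ↔ i = 0 := by
  unfold cls; split_ifs <;> simp only [false_iff, true_iff] <;> assumption
theorem cls_f {n : ℕ} {i : ℤ} : cls n i = .f ↔ i = 1 := by
  unfold cls; split_ifs <;> simp only [false_iff, true_iff] <;> omega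
theorem cls_l {n : ℕ} (hn : 2 ≤ n) {i : ℤ} : cls n i = .l ↔ i = n := by
  unfold cls; split_ifs <;> simp [*] <;> omega
theorem cls_b {n : ℕ} (hn : 2 ≤ n) {i : ℤ} : cls n i = .b ↔ i = n + 1 := by
  unfold cls; split_ifs <;> simp [*] <;> omega
theorem cls_m {n : ℕ} {i : ℤ} : cls n i = .m ↔ i ≠ 0 ∧ i ≠ 1 ∧ i ≠ n ∧ i ≠ n + 1 := by
  unfold cls; split_ifs <;> simp [*]
theorem cls_act {n : ℕ} (hn : 2 ≤ n) {i : ℤ} : (cls n i).act ↔ i ≠ 0 ∧ i ≠ n + 1 := by
  unfold Cl.act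
  rw [cls_f, cls_m, cls_l hn]
  omega
theorem cls_succ {n : ℕ} (hn : 3 ≤ n) {i : ℤ} (hi : 0 ≤ i) (hi' : i ≤ n + 1) :
    (cls n i).succ (cls n (if i = n + 1 then 0 else i + 1)) := by
  unfold Cl.succ
  simp only [cls_z, cls_f, cls_m, cls_l (by omega : 2 ≤ n), cls_b (by omega : 2 ≤ n)]
  split_ifs <;> omega

@[simp] theorem role_H (n : ℕ) (i j : ℤ) : (role n i j).H = cls n i := rfl
@[simp] theorem role_V (n : ℕ) (i j : ℤ) : (role n i j).V = cls n j := rfl
theorem ty_N {n : ℕ} {i j : ℤ} :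
    (role n i j).ty = .N ↔ (i = 0 ∨ j = 0 ∨ i = n + 1 ∨ j = n + 1) := by
  simp only [role]; split_ifs <;> simp only [false_iff, true_iff] <;> omega
theorem ty_T {n : ℕ} {i j : ℤ} :
    (role n i j).ty = .T ↔ ¬ (i = 0 ∨ j = 0 ∨ i = n + 1 ∨ j = n + 1) ∧ i < j := by
  simp only [role]; split_ifs <;> simp only [false_iff, true_iff] <;> omega
theorem ty_D {n : ℕ} {i j : ℤ} :
    (role n i j).ty = .D ↔ ¬ (i = 0 ∨ j = 0 ∨ i = n + 1 ∨ j = n + 1) ∧ i = j := by
  simp only [role]; split_ifs <;> simp [*] <;> omega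
theorem ty_R {n : ℕ} {i j : ℤ} :
    (role n i j).ty = .R ↔ ¬ (i = 0 ∨ j = 0 ∨ i = n + 1 ∨ j = n + 1) ∧ j < i := by
  simp only [role]; split_ifs <;> simp [*] <;> omega

@[simp] theorem mlab_own (n : ℕ) (p q i j : ℤ) : (mlab n p q i j).own = role n p q := rfl
@[simp] theorem mlab_par (n : ℕ) (p q i j : ℤ) : (mlab n p q i j).par = role (n + 1) i j := rfl

theorem beta_iff {n : ℕ} {p q i j : ℤ} : (mlab n p q i j).β = true ↔
    ¬ (i = 0 ∨ j = 0 ∨ i = n + 2 ∨ j = n + 2) ∧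
      ((i < j ∧ q < i) ∨ (j < i ∧ p < j) ∨ (i = j ∧ p < i ∧ q < i)) := by
  have hN := ty_N (n := n + 1) (i := i) (j := j)
  have hT := ty_T (n := n + 1) (i := i) (j := j)
  have hD := ty_D (n := n + 1) (i := i) (j := j)
  have hR := ty_R (n := n + 1) (i := i) (j := j)
  simp only [mlab]
  push_cast at hN hT hD hR
  rcases h : (role (n + 1) i j).ty with _ | _ | _ | _ <;> simp only [h, true_iff] at hN hT hD hR <;>
    simp only [decide_eq_true_eq, Bool.false_eq_true, false_iff, max_lt_iff] <;> omega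

theorem beta'_iff {n : ℕ} {p q i j : ℤ} : (mlab n p q i j).β' = true ↔
    ¬ (i = 0 ∨ j = 0 ∨ i = n + 2 ∨ j = n + 2) ∧ ((i < j ∧ q ≤ i) ∨ (j < i ∧ p ≤ j)) := by
  have hN := ty_N (n := n + 1) (i := i) (j := j)
  have hT := ty_T (n := n + 1) (i := i) (j := j)
  have hD := ty_D (n := n + 1) (i := i) (j := j)
  have hR := ty_R (n := n + 1) (i := i) (j := j)
  simp only [mlab]
  push_cast at hN hT hD hR
  rcases h : (role (n + 1) i j).ty with _ | _ | _ | _ <;> simp only [h, true_iff] at hN hT hD hR <;>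
    simp only [decide_eq_true_eq, Bool.false_eq_true, false_iff] <;> omega

theorem role_ok {n : ℕ} (hn : 3 ≤ n) {i j : ℤ} (hi : 0 ≤ i) (hi' : i ≤ n + 1) (hj : 0 ≤ j)
    (hj' : j ≤ n + 1) : (role n i j).ok := by
  have h2 : 2 ≤ n := by omega
  unfold Role.ok
  simp only [role_H, role_V, ne_eq, ty_N, ty_T, ty_D, ty_R, cls_act h2, cls_f, cls_l h2]
  omega

theorem mlab_ok {n : ℕ} (hn : 3 ≤ n) {p q i j : ℤ} (hp : 1 ≤ p) (hp' : p ≤ n + 1) (hq : 1 ≤ q)
    (hq' : q ≤ n + 1) (hi : 0 ≤ i) (hi' : i ≤ n + 2) (hj : 0 ≤ j) (hj' : j ≤ n + 2) :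
    (mlab n p q i j).ok := by
  have h2 : 2 ≤ n := by omega
  have h3 : 2 ≤ n + 1 := by omega
  refine ⟨role_ok (by omega) hi (by push_cast; omega) hj (by push_cast; omega), ?_, ?_, ?_, ?_, ?_,
    ?_, ?_, ?_⟩ <;>
  simp only [mlab_own, mlab_par, role_H, role_V, ne_eq, ty_N, ty_T, ty_D, ty_R, cls_f, cls_l h2,
    cls_l h3, cls_b h2, ← Bool.not_eq_true, beta_iff, beta'_iff] <;> push_cast <;> omega

theorem legal_full {n : ℕ} (hn : 3 ≤ n) {p q i j : ℤ} (hp : 1 ≤ p) (hp' : p ≤ n) (hq : 1 ≤ q)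
    (hq' : q ≤ n + 1) (hi : 0 ≤ i) (hi' : i ≤ n + 2) (hj : 0 ≤ j) (hj' : j ≤ n + 2) :
    LegalH (mlab n p q i j) (mlab n (p + 1) q i j) := by
  have h2 : 2 ≤ n := by omega
  have hb : ¬ (mlab n p q i j).own.H = .b := by
    simp only [mlab_own, role_H, cls_b h2]; omega
  refine ⟨mlab_ok hn hp (by omega) hq hq' hi hi' hj hj',
    mlab_ok hn (by omega) (by omega) hq hq' hi hi' hj hj', fun _ => rfl, ?_, ?_, ?_,
    fun h => absurd h hb, fun h => absurd h hb, fun h => absurd h hb, fun h => absurd h hb⟩ <;>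
  rw [Bool.eq_iff_iff] <;>
  simp only [mlab_own, mlab_par, role_H, ne_eq, ty_T, ty_D, ty_R, cls_b h2,
    beta_iff, beta'_iff] <;> push_cast <;> omega

theorem legal_cross {n : ℕ} (hn : 3 ≤ n) {q i j : ℤ} (hq : 1 ≤ q)
    (hq' : q ≤ n + 1) (hi : 0 ≤ i) (hi' : i ≤ n + 2) (hj : 0 ≤ j) (hj' : j ≤ n + 2) :
    LegalH (mlab n (n + 1) q i j) (mlab n 1 q (if i = n + 2 then 0 else i + 1) j) := by
  have h2 : 2 ≤ n := by omega
  have hb : (mlab n (n + 1) q i j).own.H = .b := by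
    simp only [mlab_own, role_H, cls_b h2]
  refine ⟨mlab_ok hn (by omega) (by omega) hq hq' hi hi' hj hj',
    mlab_ok hn (by omega) (by omega) hq hq' (by split_ifs <;> omega) (by split_ifs <;> omega) hj hj',
    fun h => absurd hb h, fun h => absurd hb h, fun h => absurd hb h, fun h => absurd hb h,
    fun _ => rfl, fun _ => ?_, ?_, ?_⟩
  · have := cls_succ (n := n + 1) (by omega) hi (by push_cast; omega)
    simp only [mlab_par, role_H]
    convert this using 4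
    push_cast
    ring
  · rw [Bool.eq_iff_iff]
    simp only [mlab_own, mlab_par, role_H, ty_T, ty_D, cls_b h2, beta_iff, beta'_iff]
    push_cast
    split_ifs <;> omega
  · simp only [mlab_own, mlab_par, role_H, ty_N, ty_D, ty_R, cls_b h2]
    push_cast
    split_ifs <;> omega

end XGen

theorem mcolH_ok {n : ℕ} (hn : 3 ≤ n) {p q i j : ℤ} (hp : 0 ≤ p) (hp' : p ≤ n + 1) (hq : 1 ≤ q)
    (hq' : q ≤ n + 1) (hi : 0 ≤ i) (hi' : i ≤ n + 2) (hj : 0 ≤ j) (hj' : j ≤ n + 2) :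
    (mcolH n p q i j).okH := by
  have h2 : 2 ≤ n := by omega
  unfold mcolH
  by_cases h0 : p = 0
  · rw [if_pos h0]
    refine ⟨?_, by simp [XGen.cls_b h2]⟩
    have := XGen.legal_cross hn hq hq' (i := if i = 0 then n + 2 else i - 1) (j := j)
      (by split_ifs <;> omega) (by split_ifs <;> omega) hj hj'
    convert this using 2
    split_ifs <;> omega
  · rw [if_neg h0]
    by_cases h1 : p = n + 1
    · rw [if_pos h1]
      exact ⟨XGen.legal_cross hn hq hq' hi hi' hj hj', by simp [XGen.cls_b h2]⟩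
    · rw [if_neg h1]
      exact ⟨XGen.legal_full hn (by omega) (by omega) hq hq' hi hi' hj hj',
        by simp [XGen.cls_b h2, h1]⟩

namespace XGen

/-- digit at level `n` -/
def dg (n : ℕ) (x : ℤ) : ℤ := (x - 1) % (n + 2)
/-- index of the cell at level `n` -/
def qt (n : ℕ) (x : ℤ) : ℤ := (x - 1) / (n + 2)

theorem dg_nonneg (n : ℕ) (x : ℤ) : 0 ≤ dg n x := Int.emod_nonneg _ (by omega)
theorem dg_le (n : ℕ) (x : ℤ) : dg n x ≤ n + 1 := by
  have := Int.emod_lt_of_pos (x - 1) (b := n + 2) (by omega)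
  unfold dg; omega
theorem dg_le' (n : ℕ) (x : ℤ) : dg (n + 1) x ≤ n + 2 := by
  have := dg_le (n + 1) x
  push_cast at this; omega
theorem eq_site (n : ℕ) (x : ℤ) : x = site n (qt n x) (dg n x) + 1 := by
  have := Int.mul_ediv_add_emod (x - 1) (n + 2)
  unfold site qt dg; omega
theorem dg_qt_site {n : ℕ} (X : ℤ) {p : ℤ} (hp : 0 ≤ p) (hp' : p ≤ n + 1) :
    dg n (site n X p + 1) = p ∧ qt n (site n X p + 1) = X := by
  have := (Int.ediv_emod_unique (a := site n X p + 1 - 1) (b := n + 2) (r := p) (q := X)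
    (by omega)).2 ⟨by unfold site; ring, hp, by omega⟩
  exact ⟨this.2, this.1⟩
theorem dg_pred_pos {n : ℕ} {x : ℤ} (h : dg n x ≠ 0) :
    dg n (x - 1) = dg n x - 1 ∧ qt n (x - 1) = qt n x := by
  have h1 := dg_nonneg n x
  have h2 := dg_le n x
  have h3 : x - 1 = site n (qt n x) (dg n x - 1) + 1 := by
    have := eq_site n x
    unfold site at this ⊢; omega
  rw [h3]
  exact dg_qt_site _ (by omega) (by omega)
theorem dg_pred_zero {n : ℕ} {x : ℤ} (h : dg n x = 0) :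
    dg n (x - 1) = n + 1 ∧ qt n (x - 1) = qt n x - 1 := by
  have h3 : x - 1 = site n (qt n x - 1) (n + 1) + 1 := by
    have := eq_site n x
    unfold site at this ⊢
    rw [h] at this
    linarith
  rw [h3]
  exact dg_qt_site _ (by omega) (by omega)
theorem qt_lt {n : ℕ} (hn : 1 ≤ n) {x : ℤ} (h : dg n x = 0) : (qt n x).natAbs < x.natAbs := by
  have h1 := eq_site n x
  rw [h] at h1
  unfold site at h1
  obtain ⟨m, rfl⟩ := Nat.exists_eq_add_of_le' hn
  have h3 : x = m * qt (m + 1) x + 3 * qt (m + 1) x + 1 := by push_cast at h1; linarith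
  rcases le_or_gt 0 (qt (m + 1) x) with h2 | h2
  · have : 0 ≤ (m : ℤ) * qt (m + 1) x := by positivity
    omega
  · have : (m : ℤ) * qt (m + 1) x ≤ 0 := mul_nonpos_of_nonneg_of_nonpos (by positivity) h2.le
    omega

/-- east colours -/
def A (n : ℕ) (x y : ℤ) : Col :=
  if _h : dg n y = 0 ∧ 1 ≤ n then A (n + 1) (qt n x) (qt n y)
  else mcolH n (dg n x) (dg n y) (dg (n + 1) (qt n x)) (dg (n + 1) (qt n y))
termination_by y.natAbs
decreasing_by exact qt_lt _h.2 _h.1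

theorem A_zero {n : ℕ} (hn : 3 ≤ n) (x : ℤ) {y : ℤ} (h : dg n y = 0) :
    A n x y = A (n + 1) (qt n x) (qt n y) := by
  rw [A, dif_pos ⟨h, by omega⟩]

theorem A_pos {n : ℕ} (x : ℤ) {y : ℤ} (h : dg n y ≠ 0) :
    A n x y = mcolH n (dg n x) (dg n y) (dg (n + 1) (qt n x)) (dg (n + 1) (qt n y)) := by
  rw [A, dif_neg fun h' => h h'.1]

theorem A_ok (y : ℤ) : ∀ {n : ℕ}, 3 ≤ n → ∀ x, (A n x y).okH := by
  induction h : y.natAbs using Nat.strong_induction_on generalizing y with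
  | _ m ih =>
    intro n hn x
    by_cases h0 : dg n y = 0
    · rw [A_zero hn x h0]
      exact ih _ (h ▸ qt_lt (by omega) h0) _ rfl (by omega) _
    · rw [A_pos x h0]
      have := dg_nonneg n y
      exact mcolH_ok hn (dg_nonneg _ _) (dg_le _ _) (by omega) (dg_le _ _) (dg_nonneg _ _)
        (dg_le' _ _) (dg_nonneg _ _) (dg_le' _ _)

/-- the generic tiling -/
def om (n : ℕ) (u : V) : Tile :=
  ⟨A n (u.1 - 1) u.2, A n u.1 u.2, (A n (u.2 - 1) u.1).tr, (A n u.2 u.1).tr⟩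

theorem om_tr (n : ℕ) (x y : ℤ) : (om n (x, y)).tr = om n (y, x) := by
  simp [om, Tile.tr]

theorem om_zero {n : ℕ} (hn : 3 ≤ n) {x y : ℤ} (hx : dg n x = 0) (hy : dg n y = 0) :
    om n (x, y) = om (n + 1) (qt n x, qt n y) := by
  simp only [om, A_zero hn _ hx, A_zero hn _ hy, (dg_pred_zero hx).2, (dg_pred_zero hy).2]

theorem mcolH_a {n : ℕ} {p : ℤ} (hp : p ≠ 0) (q i j : ℤ) :
    (mcolH n p q i j).a = mlab n p q i j ∧ (mcolH n p q i j).s ≠ .snd := by
  unfold mcolH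
  rw [if_neg hp]
  split_ifs with h <;> simp [*]

theorem mcolH_b {n : ℕ} {p : ℤ} (hp : p ≤ n + 1) (q i j : ℤ) :
    (mcolH n (p - 1) q i j).b = mlab n p q i j ∧ (mcolH n (p - 1) q i j).s ≠ .fst := by
  unfold mcolH
  by_cases h : p - 1 = 0
  · rw [if_pos h, show p = 1 by omega]
    simp
  · rw [if_neg h, if_neg (by omega)]
    simp

theorem om_J {n : ℕ} {x y : ℤ} (hx : dg n x ≠ 0) (hy : dg n y ≠ 0) :
    (om n (x, y)).IsJ ∧ (om n (x, y)).E.a.own = role n (dg n x) (dg n y) := by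
  simp only [Tile.IsJ, om, A_pos _ hx, A_pos _ hy, (dg_pred_pos hx).1, (dg_pred_pos hx).2,
    (dg_pred_pos hy).1, (dg_pred_pos hy).2, Col.tr, (mcolH_a hx _ _ _).1, (mcolH_a hy _ _ _).1,
    (mcolH_b (dg_le n x) _ _ _).1, (mcolH_b (dg_le n y) _ _ _).1, mlab_tr, mlab_own, true_and,
    and_true]
  exact ⟨(mcolH_a hx _ _ _).2, (mcolH_b (dg_le n x) _ _ _).2, (mcolH_a hy _ _ _).2,
    (mcolH_b (dg_le n y) _ _ _).2⟩

theorem om_G {n : ℕ} (hn : 3 ≤ n) {x y : ℤ} (hx : dg n x = 0) (hy : dg n y ≠ 0) :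
    (om n (x, y)).IsG := by
  have hi := dg_nonneg (n + 1) (qt n x)
  have hi' := dg_le' n (qt n x)
  have hd : dg (n + 1) (qt n x - 1) =
      if dg (n + 1) (qt n x) = 0 then (n : ℤ) + 2 else dg (n + 1) (qt n x) - 1 := by
    split_ifs with h
    · rw [(dg_pred_zero h).1]; push_cast; ring
    · exact (dg_pred_pos h).1
  have hE : (om n (x, y)).E = ⟨mlab n (n + 1) (dg n y) (dg (n + 1) (qt n x - 1))
      (dg (n + 1) (qt n y)), mlab n 1 (dg n y) (dg (n + 1) (qt n x)) (dg (n + 1) (qt n y)),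
      .snd⟩ := by
    simp only [om, A_pos _ hy, hx, mcolH, if_true, hd]
  have hW : (om n (x, y)).W = ⟨mlab n (n + 1) (dg n y) (dg (n + 1) (qt n x - 1))
      (dg (n + 1) (qt n y)), mlab n 1 (dg n y) (dg (n + 1) (qt n x)) (dg (n + 1) (qt n y)),
      .fst⟩ := by
    have h1 : (if dg (n + 1) (qt n x - 1) = n + 2 then 0 else dg (n + 1) (qt n x - 1) + 1) =
        dg (n + 1) (qt n x) := by
      rw [hd]; split_ifs <;> omega
    simp only [om, A_pos _ hy, (dg_pred_zero hx).1, (dg_pred_zero hx).2, mcolH,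
      if_neg (show (n : ℤ) + 1 ≠ 0 by omega), if_true, h1]
  have hN : (om n (x, y)).N = (A (n + 1) (qt n y) (qt n x)).tr := by
    simp only [om, A_zero hn _ hx]
  have hS : (om n (x, y)).S = (A (n + 1) (qt n y) (qt n x)).tr := by
    simp only [om, A_zero hn _ hx, (dg_pred_pos hy).2]
  unfold Tile.IsG
  rw [hE, hW, hN, hS]
  refine ⟨rfl, rfl, rfl, rfl, rfl, fun h1 => ?_⟩
  simp only [mlab_par, role_H, role_V, ne_eq, cls_z] at h1 ⊢
  rw [A_pos _ h1]
  refine ⟨fun h2 => ⟨(mcolH_a h2 _ _ _).2, ?_⟩, fun h2 => ?_⟩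
  · simp only [Col.tr, (mcolH_a h2 _ _ _).1, mlab_tr, mlab_own]
  · simp only [Col.tr, mcolH, if_pos h2]

theorem om_L {n : ℕ} (hn : 3 ≤ n) {x y : ℤ} (hx : dg n x ≠ 0) (hy : dg n y = 0) :
    (om n (x, y)).IsL := by
  unfold Tile.IsL
  rw [om_tr]
  exact om_G hn hy hx

theorem om_kind (y : ℤ) : ∀ {n : ℕ}, 3 ≤ n → ∀ x,
    (om n (x, y)).IsJ ∨ (om n (x, y)).IsG ∨ (om n (x, y)).IsL := by
  induction h : y.natAbs using Nat.strong_induction_on generalizing y with
  | _ m ih =>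
    intro n hn x
    by_cases hx : dg n x = 0 <;> by_cases hy : dg n y = 0
    · rw [om_zero hn hx hy]
      exact ih _ (h ▸ qt_lt (by omega) hy) _ rfl (by omega) _
    · exact Or.inr (Or.inl (om_G hn hx hy))
    · exact Or.inr (Or.inr (om_L hn hx hy))
    · exact Or.inl (om_J hx hy).1

theorem om_tiling {n : ℕ} (hn : 3 ≤ n) : Tiling (om n) where
  ok := fun ⟨x, y⟩ => ⟨A_ok _ hn _, A_ok _ hn _, by simpa [om] using A_ok _ hn _,
    by simpa [om] using A_ok _ hn _, om_kind y hn x⟩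
  mH x y := by simp [om]
  mV x y := by simp [om]

theorem shT_site (n : ℕ) (c X Y p q : ℤ) :
    shT (1 + (n + 2) * c, 1 + (n + 2) * c) (om n) (site n X p, site n Y q) =
      om n (site n (X + c) p + 1, site n (Y + c) q + 1) := by
  simp only [shT, Prod.mk_add_mk, site]
  congr 2 <;> ring

theorem om_clev {n : ℕ} (hn : 3 ≤ n) (c : ℤ) :
    CLev (shT (1 + (n + 2) * c, 1 + (n + 2) * c) (om n)) n := by
  refine ⟨fun X Y p q hp hp' hq hq' => ?_, fun X Y q hq hq' => ?_, fun X Y p hp hp' => ?_⟩ <;>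
    rw [shT_site]
  · have h1 := (dg_qt_site (X + c) (by omega : 0 ≤ p) hp').1
    have h2 := (dg_qt_site (Y + c) (by omega : 0 ≤ q) hq').1
    have := om_J (n := n) (x := site n (X + c) p + 1) (y := site n (Y + c) q + 1)
      (by omega) (by omega)
    rwa [h1, h2] at this
  · have h2 := (dg_qt_site (Y + c) (by omega : 0 ≤ q) hq').1
    exact om_G hn (dg_qt_site (X + c) le_rfl (by omega)).1 (by omega)
  · have h1 := (dg_qt_site (X + c) (by omega : 0 ≤ p) hp').1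
    exact om_L hn (by omega) (dg_qt_site (Y + c) le_rfl (by omega)).1

theorem om_der {n : ℕ} (hn : 3 ≤ n) (c : ℤ) :
    der n 0 (shT (1 + (n + 2) * c, 1 + (n + 2) * c) (om n)) = shT (c, c) (om (n + 1)) := by
  funext ⟨X, Y⟩
  have h1 := dg_qt_site (n := n) (X + c) le_rfl (by omega)
  have h2 := dg_qt_site (n := n) (Y + c) le_rfl (by omega)
  simp only [der, Prod.fst_zero, Prod.snd_zero, zero_add]
  rw [shT_site, om_zero hn h1.1 h2.1, h1.2, h2.2]
  rfl

/-- offsets of the base points -/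
def off : ℕ → ℕ → ℤ
  | _, 0 => 0
  | n, k + 1 => 1 + (n + 2) * off (n + 1) k

theorem om_chain (k : ℕ) : ∀ {n : ℕ}, 3 ≤ n → Chain n k (shT (off n k, off n k) (om n)) := by
  induction k with
  | zero => exact fun _ => trivial
  | succ k ih =>
    intro n hn
    refine ⟨om_clev hn _, ?_⟩
    rw [off, om_der hn]
    exact ih (by omega)

theorem not_dvd (x : ℤ) : ∀ {n : ℕ}, 3 ≤ n →
    ∃ K : ℕ, ∀ k, K ≤ k → ¬ (LL n k : ℤ) ∣ x - off n (k + 1) := by
  induction h : x.natAbs using Nat.strong_induction_on generalizing x with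
  | _ m ih =>
    intro n hn
    have hx := eq_site n x
    unfold site at hx
    by_cases h0 : dg n x = 0
    · obtain ⟨K, hK⟩ := ih _ (h ▸ qt_lt (by omega) h0) _ rfl (by omega : 3 ≤ n + 1)
      refine ⟨K + 1, fun k hk hd => ?_⟩
      obtain ⟨k, rfl⟩ := Nat.exists_eq_add_of_le' (by omega : 1 ≤ k)
      refine hK k (by omega) ?_
      have h1 : x - off n (k + 1 + 1) = (n + 2) * (qt n x - off (n + 1) (k + 1)) := by
        rw [off]; linarith
      rw [h1, LL] at hd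
      push_cast at hd
      exact Int.dvd_of_mul_dvd_mul_left (by omega) hd
    · refine ⟨1, fun k hk hd => ?_⟩
      obtain ⟨k, rfl⟩ := Nat.exists_eq_add_of_le' hk
      have h1 : x - off n (k + 1 + 1) =
          (n + 2) * (qt n x - off (n + 1) (k + 1)) + dg n x := by
        rw [off]; linarith
      rw [h1, LL] at hd
      push_cast at hd
      have h2 : ((n : ℤ) + 2) ∣ dg n x :=
        (dvd_add_right (Dvd.intro _ rfl)).1 ((Dvd.intro _ rfl).trans hd)
      have h3 := dg_nonneg n x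
      have h4 := dg_le n x
      have := Int.le_of_dvd (by omega) h2
      omega

end XGen

theorem exists_generic {n : ℕ} (hn : 3 ≤ n) : ∃ ω : V → Tile, Tiling ω ∧ CLev ω n ∧
    ∀ u : V, ∃ (k : ℕ) (z : V), Chain n (k + 1) (shT z ω) ∧ ¬ (LL n k : ℤ) ∣ (u - z).1 ∧
      ¬ (LL n k : ℤ) ∣ (u - z).2 := by
  refine ⟨shT (1, 1) (XGen.om n), (XGen.om_tiling hn).shT _, by simpa using XGen.om_clev hn 0,
    fun u => ?_⟩
  obtain ⟨K₁, h1⟩ := XGen.not_dvd (u.1 + 1) hn
  obtain ⟨K₂, h2⟩ := XGen.not_dvd (u.2 + 1) hn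
  refine ⟨K₁ + K₂, (XGen.off n (K₁ + K₂ + 1) - 1, XGen.off n (K₁ + K₂ + 1) - 1), ?_, ?_, ?_⟩
  · rw [shT_shT]
    simpa using XGen.om_chain (K₁ + K₂ + 1) hn
  · convert h1 (K₁ + K₂) (by omega) using 2
    simp only [Prod.fst_sub]
    ring
  · convert h2 (K₁ + K₂) (by omega) using 2
    simp only [Prod.snd_sub]
    ring

end Crest.Agent.R189
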