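import Crest.Agent.R189.XDef
import Crest.Agent.R189.XGen

/-! # Row 189: minimality and nonemptiness -/

set_option autoImplicit false
set_option linter.unusedSectionVars false

namespace Crest.Agent.R189

theorem xmin_n0 : ∃ n, 3 ≤ n ∧ ∀ t, Tau n t → TauInf t := by
  have h : ∀ t : Tile, ∀ᶠ n in Filter.atTop, Tau n t → TauInf t := by
    intro t
    by_cases ht : TauInf t
    · exact Filter.Eventually.of_forall fun _ _ => ht
    · unfold TauInf at ht
      push Not at ht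
      obtain ⟨K, hK⟩ := ht
      exact (Filter.eventually_ge_atTop K).mono fun n hn h => absurd h (hK n hn)
  exact ((Filter.eventually_ge_atTop 3).and (Filter.eventually_all.2 h)).exists

theorem xmin_rowE {n K : ℕ} {ω : V → Tile} (hT : Tiling ω) (h : Chain n K ω) (i : ℤ) :
    (0 ≤ i → i < LL n K → (ω (i, 0)).E = (ω (0, 0)).E) ∧
      (-(LL n K : ℤ) ≤ i → i < 0 → (ω (i, 0)).E = (ω (0, 0)).W) := by
  refine ⟨fun h0 h1 => ?_, fun h0 h1 => ?_⟩
  · simpa using h.pass_E hT 0 i 0 (dvd_zero _) h0 h1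
  · have h2 := h.pass_E hT (-1) (i + LL n K) 0 (dvd_zero _) (by omega) (by omega)
    have h3 := h.pass_E hT (-1) (-1 + LL n K) 0 (dvd_zero _) (by omega) (by omega)
    rw [show (LL n K : ℤ) * -1 + (i + LL n K) = i by ring] at h2
    rw [show (LL n K : ℤ) * -1 + (-1 + LL n K) = -1 by ring] at h3
    rw [h2, ← h3, hT.mH]
    rfl

theorem xmin_colN {n K : ℕ} {ω : V → Tile} (hT : Tiling ω) (h : Chain n K ω) (i : ℤ) :
    (0 ≤ i → i < LL n K → (ω (0, i)).N = (ω (0, 0)).N) ∧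
      (-(LL n K : ℤ) ≤ i → i < 0 → (ω (0, i)).N = (ω (0, 0)).S) := by
  refine ⟨fun h0 h1 => ?_, fun h0 h1 => ?_⟩
  · simpa using h.pass_N hT 0 0 i (dvd_zero _) h0 h1
  · have h2 := h.pass_N hT 0 (-1) (i + LL n K) (dvd_zero _) (by omega) (by omega)
    have h3 := h.pass_N hT 0 (-1) (-1 + LL n K) (dvd_zero _) (by omega) (by omega)
    rw [show (LL n K : ℤ) * -1 + (i + LL n K) = i by ring] at h2
    rw [show (LL n K : ℤ) * -1 + (-1 + LL n K) = -1 by ring] at h3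
    rw [h2, ← h3, hT.mV]
    rfl

theorem xmin_stepE {n k : ℕ} {ω : V → Tile} (hT : Tiling ω) (h : Chain n k ω) {i j : ℤ}
    (hi : ¬ (LL n k : ℤ) ∣ i) (hj : (LL n k : ℤ) ∣ j) : (ω (i - 1, j)).E = (ω (i, j)).E := by
  have hL : (0 : ℤ) < LL n k := by exact_mod_cast LL_pos n k
  have h0 := Int.emod_nonneg i hL.ne'
  have h1 := Int.emod_lt_of_pos i hL
  have h2 : i % LL n k ≠ 0 := fun h => hi (Int.dvd_of_emod_eq_zero h)
  have h3 := h.pass_E hT (i / LL n k) (i % LL n k) j hj h0 h1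
  have h4 := h.pass_E hT (i / LL n k) (i % LL n k - 1) j hj (by omega) (by omega)
  rw [← add_sub_assoc, Int.mul_ediv_add_emod] at h4
  rw [Int.mul_ediv_add_emod] at h3
  rw [h3, h4]

theorem xmin_stepN {n k : ℕ} {ω : V → Tile} (hT : Tiling ω) (h : Chain n k ω) {i j : ℤ}
    (hi : ¬ (LL n k : ℤ) ∣ i) (hj : (LL n k : ℤ) ∣ j) : (ω (j, i - 1)).N = (ω (j, i)).N := by
  have hL : (0 : ℤ) < LL n k := by exact_mod_cast LL_pos n k
  have h0 := Int.emod_nonneg i hL.ne'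
  have h1 := Int.emod_lt_of_pos i hL
  have h2 : i % LL n k ≠ 0 := fun h => hi (Int.dvd_of_emod_eq_zero h)
  have h3 := h.pass_N hT j (i / LL n k) (i % LL n k) hj h0 h1
  have h4 := h.pass_N hT j (i / LL n k) (i % LL n k - 1) hj (by omega) (by omega)
  rw [← add_sub_assoc, Int.mul_ediv_add_emod] at h4
  rw [Int.mul_ediv_add_emod] at h3
  rw [h3, h4]

theorem xmin_const {β : Type} (f : ℤ → β) {r c : ℤ}
    (h : ∀ i, -r ≤ i → i ≤ r → i ≠ c → f (i - 1) = f i) (hc : -r ≤ c) (hc' : c ≤ r) (i : ℤ) :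
    (c ≤ i → i ≤ r → f i = f c) ∧ (-r - 1 ≤ i → i < c → f i = f (c - 1)) := by
  refine ⟨fun h0 => ?_, fun h0 h1 => ?_⟩
  · induction i, h0 using Int.leInduction with
    | base => exact fun _ => rfl
    | succ i hi ih =>
      intro h1
      rw [← h (i + 1) (by omega) h1 (by omega), add_sub_cancel_right]
      exact ih (by omega)
  · have h2 : i ≤ c - 1 := by omega
    induction i, h2 using Int.leInductionDown with
    | base => rfl
    | pred i hi ih => rw [h i (by omega) (by omega) (by omega)]; exact ih (by omega) (by omega)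

/-- comparison of the colours on a line of infinite level -/
theorem xmin_line {β : Type} (f g : ℤ → β) {r c z L : ℤ}
    (h : ∀ i, -r ≤ i → i ≤ r → i ≠ c → f (i - 1) = f i) (hc : -r ≤ c) (hc' : c ≤ r)
    (hz : z = c ∨ f (c - 1) = f c) (hg : ∀ i, 0 ≤ i → i < L → g i = f c)
    (hg' : ∀ i, -L ≤ i → i < 0 → g i = f (c - 1)) (h1 : -L ≤ -r - 1 - z) (h2 : r - z < L)
    (i : ℤ) (hi : -r - 1 ≤ i) (hi' : i ≤ r) : f i = g (i - z) := by
  have h3 := xmin_const f h hc hc' i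
  rcases hz with rfl | hz
  · by_cases h4 : z ≤ i
    · rw [h3.1 h4 hi', hg _ (by omega) (by omega)]
    · rw [h3.2 hi (by omega), hg' _ (by omega) (by omega)]
  · have h5 : f i = f c := by
      by_cases h4 : c ≤ i
      · exact h3.1 h4 hi'
      · rw [h3.2 hi (by omega), hz]
    by_cases h4 : z ≤ i
    · rw [h5, hg _ (by omega) (by omega)]
    · rw [h5, hg' _ (by omega) (by omega), hz]

/-- lines of infinite level -/
def XminInf (n : ℕ) (ω : V → Tile) (d : Bool) (a : ℤ) : Prop :=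
  ∀ k z, Chain n k (shT z ω) → (LL n k : ℤ) ∣ a - pr d z

theorem xmin_fin {n : ℕ} (hn : 3 ≤ n) {ω : V → Tile} (d : Bool) (a : ℤ) :
    ∀ᶠ k in Filter.atTop, ¬ XminInf n ω d a → ∀ z, Chain n k (shT z ω) →
      ¬ (LL n k : ℤ) ∣ a - pr d z := by
  by_cases h : XminInf n ω d a
  · exact Filter.Eventually.of_forall fun _ h' => absurd h h'
  unfold XminInf at h
  push Not at h
  obtain ⟨k0, z0, h1, h2⟩ := h
  refine (Filter.eventually_ge_atTop k0).mono fun k hk _ z hz h3 => h2 ?_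
  have h4 : Chain n k0 (shT (z - z0) (shT z0 ω)) := by
    rw [shT_shT, sub_add_cancel]
    exact hz.mono hk
  have h5 := h1.unique hn h4
  have h6 : (LL n k0 : ℤ) ∣ pr d (z - z0) := by
    cases d
    · exact h5.2
    · exact h5.1
  have h7 : (LL n k0 : ℤ) ∣ a - pr d z := (Int.natCast_dvd_natCast.2 (LL_dvd n hk)).trans h3
  rw [pr_sub] at h6
  have := h7.add h6
  rwa [sub_add_sub_cancel] at this

theorem xmin_centre {n : ℕ} (hn : 3 ≤ n) (x : XX n) (d : Bool) (r : ℕ) :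
    ∃ c : ℤ, -(r : ℤ) ≤ c ∧ c ≤ r ∧ ∀ a, -(r : ℤ) ≤ a → a ≤ r → a ≠ c → ¬ XminInf n x.1 d a := by
  by_cases h : ∃ c : ℤ, -(r : ℤ) ≤ c ∧ c ≤ r ∧ XminInf n x.1 d c
  · obtain ⟨c, h1, h2, h3⟩ := h
    refine ⟨c, h1, h2, fun a h4 h5 h6 h7 => h6 ?_⟩
    obtain ⟨z, hz⟩ := chain_exists hn x.2.1 x.2.2.1 (2 * r)
    have h8 := (h7 _ z hz).sub (h3 _ z hz)
    rw [sub_sub_sub_cancel_right] at h8
    have h9 : ((2 * r : ℕ) : ℤ) < LL n (2 * r) := by exact_mod_cast lt_LL n (2 * r)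
    have := Int.eq_zero_of_abs_lt_dvd h8 (abs_lt.2 ⟨by omega, by omega⟩)
    omega
  · exact ⟨0, by omega, by omega, fun a h1 h2 _ h3 => h ⟨a, h1, h2, h3⟩⟩

theorem xmin_key {n : ℕ} (hn : 3 ≤ n) (x : XX n) (r : ℕ) :
    ∃ (J : ℕ) (u0 : V), ∀ y : XX n, Chain n J y.1 → Agree r x (u0 +ᵥ y) := by
  have hT := x.2.1
  obtain ⟨k, hk, hfin⟩ : ∃ k, 2 * r ≤ k ∧ ∀ d, ∀ a ∈ Finset.Icc (-(r : ℤ)) r,
      ¬ XminInf n x.1 d a → ∀ z, Chain n k (shT z x.1) → ¬ (LL n k : ℤ) ∣ a - pr d z :=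
    ((Filter.eventually_ge_atTop (2 * r)).and (Filter.eventually_all.2 fun d =>
      (Filter.eventually_all_finset _).2 fun a _ => xmin_fin hn d a)).exists
  obtain ⟨c1, hc1, hc1', hc1f⟩ := xmin_centre hn x true r
  obtain ⟨c2, hc2, hc2', hc2f⟩ := xmin_centre hn x false r
  obtain ⟨z0, hz0⟩ := chain_exists hn hT x.2.2.1 (k + 1)
  have hL : (0 : ℤ) < LL n (k + 1) := by exact_mod_cast LL_pos n (k + 1)
  have hLk : ((k + 1 : ℕ) : ℤ) < LL n (k + 1) := by exact_mod_cast lt_LL n (k + 1)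
  obtain ⟨z1, z2, hz, hz1, hz1', hz2, hz2', hi1, hi2⟩ : ∃ z1 z2 : ℤ,
      Chain n (k + 1) (shT (z1, z2) x.1) ∧ z1 ≤ c1 ∧ c1 - z1 < LL n (k + 1) ∧ z2 ≤ c2 ∧
        c2 - z2 < LL n (k + 1) ∧ (XminInf n x.1 true c1 → z1 = c1) ∧
        (XminInf n x.1 false c2 → z2 = c2) := by
    have e1 := Int.emod_nonneg (c1 - z0.1) hL.ne'
    have e2 := Int.emod_lt_of_pos (c1 - z0.1) hL
    have e3 := Int.emod_nonneg (c2 - z0.2) hL.ne'
    have e4 := Int.emod_lt_of_pos (c2 - z0.2) hL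
    refine ⟨c1 - (c1 - z0.1) % LL n (k + 1), c2 - (c2 - z0.2) % LL n (k + 1), ?_, by omega,
      by omega, by omega, by omega, fun h => ?_, fun h => ?_⟩
    · have := hz0.shift (z := ((c1 - z0.1) - (c1 - z0.1) % LL n (k + 1),
        (c2 - z0.2) - (c2 - z0.2) % LL n (k + 1))) (Int.dvd_self_sub_emod) (Int.dvd_self_sub_emod)
      rw [shT_shT] at this
      convert this using 2
      refine Prod.ext ?_ ?_ <;> simp only [Prod.fst_add, Prod.snd_add] <;> ring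
    · rw [Int.emod_eq_zero_of_dvd (show _ ∣ c1 - z0.1 from h _ z0 hz0), sub_zero]
    · rw [Int.emod_eq_zero_of_dvd (show _ ∣ c2 - z0.2 from h _ z0 hz0), sub_zero]
  obtain ⟨m, hm, k', u, hu⟩ := x.2.2.2 (c1, c2) (n + (k + 2))
  obtain ⟨K, rfl⟩ : ∃ K, m = n + K := ⟨m - n, by omega⟩
  have hK : k + 2 ≤ K := by omega
  have hLK : 2 * (LL n (k + 1) : ℤ) ≤ LL n K := by
    have h1 : LL n (k + 2) ≤ LL n K := Nat.le_of_dvd (LL_pos n K) (LL_dvd n hK)
    have h2 : 2 * LL n (k + 1) ≤ LL n (k + 2) := by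
      rw [LL_succ n (k + 1), mul_comm]
      exact Nat.mul_le_mul_left _ (by omega)
    exact_mod_cast h2.trans h1
  refine ⟨K + k', ((LL n K : ℤ) * u.1, (LL n K : ℤ) * u.2) - (z1, z2), fun y hy => ?_⟩
  set p : V := ((LL n K : ℤ) * u.1, (LL n K : ℤ) * u.2) with hp
  obtain ⟨hy1, hy2⟩ := chain_add.1 hy
  have ht : shT p y.1 (0, 0) = x.1 (c1, c2) := by
    rw [← hu _ (hy1.tiling y.2.1) hy2]
    simp [shT, derk, hp]
  have hyK : Chain n K (shT p y.1) := hy1.shift (dvd_mul_right _ _) (dvd_mul_right _ _)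
  have hyk : Chain n (k + 1) (shT p y.1) := hyK.mono (by omega)
  have hT1 : Tiling (shT (z1, z2) x.1) := hT.shT _
  have hT2 : Tiling (shT p y.1) := y.2.1.shT _
  have hsh : ∀ i j : ℤ, shT (z1, z2) x.1 (i - z1, j - z2) = x.1 (i, j) := fun i j => by simp [shT]
  have hzk := hz.mono (Nat.le_succ k)
  have hE : ∀ i j : ℤ, -(r : ℤ) - 1 ≤ i → i ≤ r → -(r : ℤ) ≤ j → j ≤ r →
      (x.1 (i, j)).E = (shT p y.1 (i - z1, j - z2)).E := by
    intro i j h1 h2 h3 h4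
    by_cases hj : XminInf n x.1 false j
    · have e : j = c2 := by
        by_contra e
        exact hc2f j h3 h4 e hj
      subst e
      have e2 := hi2 hj
      subst e2
      have hstep : ∀ a : ℤ, -(r : ℤ) ≤ a → a ≤ r → ¬ XminInf n x.1 true a →
          (x.1 (a - 1, z2)).E = (x.1 (a, z2)).E := by
        intro a h5 h6 h7
        have h8 := xmin_stepE hT1 hzk (hfin true a (Finset.mem_Icc.2 ⟨h5, h6⟩) h7 _ hzk)
          (j := z2 - z2) (by simp)
        rwa [pr_true, show a - z1 - 1 = a - 1 - z1 by ring, hsh, hsh] at h8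
      rw [sub_self]
      refine xmin_line (fun a => (x.1 (a, z2)).E) (fun a => (shT p y.1 (a, 0)).E) (L := LL n K)
        (fun a h5 h6 h7 => hstep a h5 h6 (hc1f a h5 h6 h7)) hc1 hc1' ?_ (fun a h5 h6 => ?_)
        (fun a h5 h6 => ?_) (by omega) (by omega) i h1 h2
      · by_cases h5 : XminInf n x.1 true c1
        · exact Or.inl (hi1 h5)
        · exact Or.inr (hstep c1 hc1 hc1' h5)
      · rw [(xmin_rowE hT2 hyK a).1 h5 h6, ht]
      · rw [(xmin_rowE hT2 hyK a).2 h5 h6, ht, hT.mH, sub_add_cancel]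
    · rw [← hsh]
      exact hz.det_E hn hT1 hT2 hyk _ _ (hfin false j (Finset.mem_Icc.2 ⟨h3, h4⟩) hj _ hzk)
  have hN : ∀ i j : ℤ, -(r : ℤ) - 1 ≤ i → i ≤ r → -(r : ℤ) ≤ j → j ≤ r →
      (x.1 (j, i)).N = (shT p y.1 (j - z1, i - z2)).N := by
    intro i j h1 h2 h3 h4
    by_cases hj : XminInf n x.1 true j
    · have e : j = c1 := by
        by_contra e
        exact hc1f j h3 h4 e hj
      subst e
      have e2 := hi1 hj
      subst e2
      have hstep : ∀ a : ℤ, -(r : ℤ) ≤ a → a ≤ r → ¬ XminInf n x.1 false a →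
          (x.1 (z1, a - 1)).N = (x.1 (z1, a)).N := by
        intro a h5 h6 h7
        have h8 := xmin_stepN hT1 hzk (hfin false a (Finset.mem_Icc.2 ⟨h5, h6⟩) h7 _ hzk)
          (j := z1 - z1) (by simp)
        rwa [pr_false, show a - z2 - 1 = a - 1 - z2 by ring, hsh, hsh] at h8
      rw [sub_self]
      refine xmin_line (fun a => (x.1 (z1, a)).N) (fun a => (shT p y.1 (0, a)).N) (L := LL n K)
        (fun a h5 h6 h7 => hstep a h5 h6 (hc2f a h5 h6 h7)) hc2 hc2' ?_ (fun a h5 h6 => ?_)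
        (fun a h5 h6 => ?_) (by omega) (by omega) i h1 h2
      · by_cases h5 : XminInf n x.1 false c2
        · exact Or.inl (hi2 h5)
        · exact Or.inr (hstep c2 hc2 hc2' h5)
      · rw [(xmin_colN hT2 hyK a).1 h5 h6, ht]
      · rw [(xmin_colN hT2 hyK a).2 h5 h6, ht, hT.mV, sub_add_cancel]
    · rw [← hsh]
      exact hz.det_N hn hT1 hT2 hyk _ _ (hfin true j (Finset.mem_Icc.2 ⟨h3, h4⟩) hj _ hzk)
  rintro ⟨i, j⟩ ⟨h1, h2, h3, h4⟩
  dsimp only at h1 h2 h3 h4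
  rw [← add_vadd]
  refine XX.obs_eq hn hz.1 hyk.1 ?_ ?_ ?_
  · exact ⟨0, by simp only [Prod.fst_add, Prod.fst_sub]; ring⟩
  · exact ⟨0, by simp only [Prod.snd_add, Prod.snd_sub]; ring⟩
  · have h5 : x.1 (i, j) = shT p y.1 (i - z1, j - z2) := by
      refine tile_ext hT hT2 (hE i j (by omega) h2 h3 h4) ?_ (hN j i (by omega) h4 h1 h2) ?_
      · rw [hE (i - 1) j (by omega) (by omega) h3 h4, sub_right_comm]
      · rw [hN (j - 1) i (by omega) (by omega) h1 h2, sub_right_comm]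
    rw [h5, shT]
    refine congrArg y.1 ?_
    refine Prod.ext ?_ ?_ <;> simp only [Prod.fst_add, Prod.snd_add, Prod.fst_sub, Prod.snd_sub] <;>
      ring

theorem exists_n0 : ∃ n, 3 ≤ n ∧ Nonempty (XX n) := by
  obtain ⟨n, hn, h⟩ := xmin_n0
  obtain ⟨ω, hT, hL, hω⟩ := exists_generic hn
  refine ⟨n, hn, ⟨⟨ω, hT, ⟨0, by rwa [shT_zero]⟩, fun u => h _ ?_⟩⟩⟩
  obtain ⟨k, z, h1, h2, h3⟩ := hω u
  refine ⟨k + 1, u - z, fun ω' hT' h' => ?_⟩
  have h4 : shT z ω (u - z) = ω u := by simp [shT]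
  rw [← h4]
  exact tile_ext hT' (hT.shT z) (h'.det_E hn hT' (hT.shT z) h1 _ _ h3)
    (h'.det_E hn hT' (hT.shT z) h1 _ _ h3) (h'.det_N hn hT' (hT.shT z) h1 _ _ h2)
    (h'.det_N hn hT' (hT.shT z) h1 _ _ h2)

theorem XX.minimal {n : ℕ} (hn : 3 ≤ n) : Minimal (XX n) := by
  classical
  intro x r
  obtain ⟨J, u0, h⟩ := xmin_key hn x r
  refine ⟨(box (LL n J)).image fun w => u0 + w, fun y => ?_⟩
  obtain ⟨z, hz⟩ := chain_exists hn y.2.1 y.2.2.1 J
  have hL : (0 : ℤ) < LL n J := by exact_mod_cast LL_pos n J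
  have e1 := Int.emod_nonneg z.1 hL.ne'
  have e2 := Int.emod_lt_of_pos z.1 hL
  have e3 := Int.emod_nonneg z.2 hL.ne'
  have e4 := Int.emod_lt_of_pos z.2 hL
  refine ⟨u0 + (z.1 % LL n J, z.2 % LL n J), Finset.mem_image_of_mem _ (mem_box.2
    ⟨by dsimp only; omega, by dsimp only; omega, by dsimp only; omega, by dsimp only; omega⟩), ?_⟩
  rw [add_vadd]
  refine h _ ?_
  have := hz.shift (z := (z.1 % LL n J - z.1, z.2 % LL n J - z.2))
    (dvd_sub_comm.1 Int.dvd_self_sub_emod) (dvd_sub_comm.1 Int.dvd_self_sub_emod)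
  rw [shT_shT] at this
  rw [XX.vadd_val]
  convert this using 2
  refine Prod.ext ?_ ?_ <;> simp

end Crest.Agent.R189
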